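import Crest.Agent.R285.Heat

/-!
The interpolation between a tied and a free copy of the seeds: derivative formula.

Put `ζ_t = t ζ + (1-t) η' + s(t) η''`, `s = √(2t(1-t))`. In the `t`-derivative
`E[F · ∂_aΛ(ζ_t) (ζ_a - η'_a + s' η''_a)]` apply `stein` in `ζ_a, η'_a, η''_a`: the terms with
`∂_a²Λ` have total coefficient `t - (1-t) + s s' = 0`, and the derivatives of `F` through its first
argument cancel because `ζ` and `η'` have the same visible coefficient.
-/

set_option autoImplicit false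

open MeasureTheory ProbabilityTheory Matrix Filter
open scoped ENNReal

noncomputable section

namespace Crest.Agent.R285

variable {d : ℕ} {V U S : Type} [Fintype V] [DecidableEq V] [Fintype U] [DecidableEq U]

/-- the interpolation functional -/
def Psi [Fintype S] [DecidableEq S] (α : V → ℝ) (αU : U → ℝ) (F : E d → Om d V → Ten d S)
    (Λ : Om d (V ⊕ U) → Ten d S) (t : ℝ) : ℝ :=
  ∫ x, F (lin (Sum.elim α (extA α αU)) x) (ren Sum.inl x) ⬝ᵥ Λ (sub (rotM V U t) x)
    ∂gam ((V ⊕ Ext V U) × Fin d)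

/-- its derivatives -/
def PsiD (α : V → ℝ) (αU : U → ℝ) : ℕ → ∀ (S : Type) [Fintype S] [DecidableEq S],
    (E d → Om d V → Ten d S) → (Om d (V ⊕ U) → Ten d S) → ℝ → ℝ
  | 0, _, _, _, F, Λ, t => Psi α αU F Λ t
  | k + 1, S, _, _, F, Λ, t =>
      ∑ v, PsiD α αU k (Option S) (fun y => dT v (F y)) (dT (Sum.inl v) Λ) t

namespace InterpA

open TenB

section General
variable {R W : Type} [Fintype R] [DecidableEq R] [Fintype W] [DecidableEq W]

theorem stein_sum {ι κ : Type} [Fintype ι] [DecidableEq ι] [Fintype κ] (c : κ → ι)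
    {H : κ → (ι → ℝ) → ℝ} (hH : ∀ k, (H k).HasTemperateGrowth) :
    ∫ x, ∑ k, x (c k) * H k x ∂gam ι = ∫ x, ∑ k, pd (c k) (H k) x ∂gam ι := by
  rw [integral_finsetSum _ fun k _ => temp_integrable
      (temp_mul (temp_coord Function.HasTemperateGrowth.id' (c k)) (hH k)),
    integral_finsetSum _ fun k _ => temp_integrable (temp_pd (hH k) _)]
  exact Finset.sum_congr rfl fun k _ => stein (hH k) _

theorem diff {X Y : Type} [NormedAddCommGroup X] [NormedSpace ℝ X] [NormedAddCommGroup Y]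
    [NormedSpace ℝ Y] {f : X → Y} (hf : f.HasTemperateGrowth) (x : X) : DifferentiableAt ℝ f x :=
  hf.1.differentiable (by simp) x

theorem tcomp {X Y Z : Type} [NormedAddCommGroup X] [NormedSpace ℝ X] [NormedAddCommGroup Y]
    [NormedSpace ℝ Y] [NormedAddCommGroup Z] [NormedSpace ℝ Z] {g : Y → Z} {f : X → Y}
    (hg : g.HasTemperateGrowth) (hf : f.HasTemperateGrowth) :
    (fun x => g (f x)).HasTemperateGrowth := hg.comp hf

theorem pd_comp_sub {l : Om d R → ℝ} (hl : l.HasTemperateGrowth) (A : Matrix R W ℝ) (w : W)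
    (k : Fin d) (x : Om d W) :
    pd (w, k) (fun x => l (sub A x)) x = ∑ r, A r w * pd (r, k) l (sub A x) := by
  rw [pd_comp (diff hl _) (diff_sub A x), Fintype.sum_prod_type]
  refine Finset.sum_congr rfl fun v _ => ?_
  simp only [pd_sub, mul_ite, mul_zero, Finset.sum_ite_eq', Finset.mem_univ, if_true]
  rw [mul_comm]

theorem pd_comp_ren {l : Om d R → ℝ} (hl : l.HasTemperateGrowth) {e : R → W} {w : W}
    (h : ∀ r, e r ≠ w) (k : Fin d) (x : Om d W) : pd (w, k) (fun x => l (ren e x)) x = 0 := by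
  rw [show (fun x => l (ren e x)) = fun x => l (sub _ x) from
    funext fun x => congrArg l (ren_eq_sub e x), pd_comp_sub hl]
  exact Finset.sum_eq_zero fun r _ => by rw [Matrix.of_apply, if_neg (h r), zero_mul]

theorem pd_slice {ι X : Type} [Fintype ι] [DecidableEq ι] [NormedAddCommGroup X] [NormedSpace ℝ X]
    {Φ : X × (ι → ℝ) → ℝ} (h : Φ.HasTemperateGrowth) (a : X) (y : ι → ℝ) (q : ι) :
    pd q (fun y => Φ (a, y)) y = fderiv ℝ Φ (a, y) (0, Pi.single q 1) :=
  DFunLike.congr_fun ((diff h (a, y)).hasFDerivAt.comp y (hasFDerivAt_prodMk_right a y)).fderiv _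

omit [DecidableEq R] in
/-- derivative of a function of `lin β x` and `ren e x` -/
theorem pd_pair {Φ : E d × Om d R → ℝ} (h : Φ.HasTemperateGrowth) (β : W → ℝ) (e : R → W)
    (x : Om d W) (q : W × Fin d) : pd q (fun x => Φ (lin β x, ren e x)) x =
      fderiv ℝ Φ (lin β x, ren e x) (lin β (Pi.single q 1), ren e (Pi.single q 1)) := by
  let L : Om d W →ₗ[ℝ] E d × Om d R :=
    { toFun := fun x => (lin β x, ren e x)
      map_add' := fun x y => Prod.ext (funext fun i =>
        (Finset.sum_congr rfl fun _ _ => mul_add _ _ _).trans Finset.sum_add_distrib) rfl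
      map_smul' := fun c x => Prod.ext (funext fun i =>
        (Finset.sum_congr rfl fun _ _ => mul_left_comm _ _ _).trans (Finset.mul_sum _ _ _).symm) rfl }
  exact DFunLike.congr_fun ((diff h _).hasFDerivAt.comp x
    (LinearMap.toContinuousLinearMap L).hasFDerivAt).fderiv _

omit [Fintype R] [DecidableEq R] in
theorem lin_single_one (β : W → ℝ) (w : W) (k : Fin d) :
    lin β (Pi.single (w, k) 1 : Om d W) = β w • (Pi.single k 1 : E d) := by
  funext i
  simp [lin, Pi.single_apply, ite_and]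

omit [Fintype R] [Fintype W] in
theorem ren_single {e : R → W} (he : Function.Injective e) (r : R) (k : Fin d) :
    ren e (Pi.single (e r, k) 1 : Om d W) = Pi.single (r, k) 1 := by
  funext ⟨r', i⟩
  show (Pi.single (e r, k) 1 : Om d W) (e r', i) = _
  simp [Pi.single_apply, he.eq_iff]

omit [Fintype R] [Fintype W] [DecidableEq R] in
theorem ren_single_ne {e : R → W} {w : W} (h : ∀ r, e r ≠ w) (k : Fin d) :
    ren e (Pi.single (w, k) 1 : Om d W) = 0 := by
  funext ⟨r', i⟩
  show (Pi.single (w, k) 1 : Om d W) (e r', i) = 0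
  simp [h r']

variable [Fintype S] [DecidableEq S] {G : Om d W → Ten d S} {Λ : Om d R → Ten d S}

omit [DecidableEq R] [DecidableEq W] in
theorem temp_joint (hG : G.HasTemperateGrowth) (hΛ : Λ.HasTemperateGrowth) :
    (fun z : (R → W → ℝ) × Om d W => G z.2 ⬝ᵥ Λ (sub z.1 z.2)).HasTemperateGrowth := by
  have h1 := (ContinuousLinearMap.fst ℝ (R → W → ℝ) (Om d W)).hasTemperateGrowth
  have h2 := (ContinuousLinearMap.snd ℝ (R → W → ℝ) (Om d W)).hasTemperateGrowth
  refine temp_dot (hG.comp h2) (hΛ.comp (temp_pi.2 fun q => temp_sum _ fun w _ => temp_mul ?_ ?_))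
  · exact temp_linear _ (fun _ _ => rfl) fun _ _ => rfl
  · exact temp_linear _ (fun _ _ => rfl) fun _ _ => rfl

theorem deriv_general (hG : G.HasTemperateGrowth) (hΛ : Λ.HasTemperateGrowth)
    {A : ℝ → R → W → ℝ} {A' : R → W → ℝ} {t : ℝ} (hA : HasDerivAt A A' t)
    (h0 : ∀ r r', ∑ w, A' r w * A t r' w = 0) :
    HasDerivAt (fun s => ∫ x, G x ⬝ᵥ Λ (sub (A s) x) ∂gam (W × Fin d))
      (∫ x, ∑ r, ∑ k, ∑ i, (∑ w, A' r w * pd (w, k) (fun x => G x i) x) *
        pd (r, k) (fun y => Λ y i) (sub (A t) x) ∂gam (W × Fin d)) t := by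
  refine (hasDerivAt_integral_path (temp_joint hG hΛ) hA).congr_deriv ?_
  have hl := fun i q => tcomp (temp_pd (temp_coord hΛ i) q) (temp_sub (d := d) (A t))
  have k := stein_sum (κ := R × Fin d × (S → Fin d) × W) (fun z => (z.2.2.2, z.2.1))
    (H := fun z x => A' z.1 z.2.2.2 * (G x z.2.2.1 * pd (z.1, z.2.1) (fun y => Λ y z.2.2.1)
      (sub (A t) x))) fun z => temp_mul (.const _) (temp_mul (temp_coord hG _) (hl _ _))
  refine (integral_congr_ae (Eventually.of_forall fun x => ?_)).trans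
    (k.trans (integral_congr_ae (Eventually.of_forall fun x => ?_)))
  · have h1 := (diff (temp_joint hG hΛ) (A t, x)).hasFDerivAt.comp_hasDerivAt t
      (hA.prodMk (hasDerivAt_const t x))
    have h2 : HasDerivAt (fun s => sub (A s) x) (sub A' x) t := hasDerivAt_pi.2 fun q =>
      HasDerivAt.fun_sum fun w _ => (hasDerivAt_pi.1 (hasDerivAt_pi.1 hA q.1) w).mul_const _
    have h3 := HasDerivAt.fun_sum (u := Finset.univ) fun i _ =>
      ((diff_coord hΛ i _).hasFDerivAt.comp_hasDerivAt t h2).const_mul (G x i)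
    refine (h1.unique h3).trans ?_
    simp only [fderiv_apply_eq_sum, Fintype.sum_prod_type, Finset.mul_sum, sub]
    rw [Finset.sum_comm]
    refine Finset.sum_congr rfl fun r _ => ?_
    rw [Finset.sum_comm]
    exact Finset.sum_congr rfl fun k _ => Finset.sum_congr rfl fun i _ =>
      Finset.sum_congr rfl fun w _ => by ring
  · simp only [Fintype.sum_prod_type]
    refine Finset.sum_congr rfl fun r _ => Finset.sum_congr rfl fun k _ =>
      Finset.sum_congr rfl fun i _ => ?_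
    have e : ∀ w, pd (w, k) (fun x => A' r w * (G x i * pd (r, k) (fun y => Λ y i) (sub (A t) x))) x =
        A' r w * pd (w, k) (fun x => G x i) x * pd (r, k) (fun y => Λ y i) (sub (A t) x) +
        ∑ r', A' r w * A t r' w *
          (G x i * pd (r', k) (pd (r, k) fun y => Λ y i) (sub (A t) x)) := fun w => by
      rw [pd_const_mul (diff (temp_mul (temp_coord hG i) (hl i (r, k))) x),
        pd_mul (diff_coord hG i x) (diff (hl i (r, k)) x),
        pd_comp_sub (temp_pd (temp_coord hΛ i) (r, k)) (A t) w k x, mul_add, Finset.mul_sum,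
        Finset.mul_sum, ← mul_assoc]
      exact congrArg _ (Finset.sum_congr rfl fun r' _ => by ring)
    rw [Finset.sum_congr rfl fun w _ => e w, Finset.sum_add_distrib, ← Finset.sum_mul,
      Finset.sum_comm]
    exact add_eq_left.2 (Finset.sum_eq_zero fun r' _ => by rw [← Finset.sum_mul, h0, zero_mul])

omit [DecidableEq R] in
theorem int_out {f : E d → ℝ} (hf : f.HasTemperateGrowth) {ρ : ℝ} (hρ : 0 ≤ ρ) (γ : R → ℝ)
    (y c : E d) : ∫ ψ, grad (heat ρ f) (y + lin γ ψ) ⬝ᵥ c ∂gam (R × Fin d) =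
      grad (heat (ρ + γ ⬝ᵥ γ) f) y ⬝ᵥ c := by
  have hi : ∀ i, Integrable (fun ψ : Om d R => pd i (heat ρ f) (y + lin γ ψ) * c i)
      (gam (R × Fin d)) := fun i => (temp_integrable ((temp_pd (temp_heat hf ρ) i).comp
        ((Function.HasTemperateGrowth.const y).add (temp_lin γ)))).mul_const _
  refine (integral_finsetSum _ fun i _ => hi i).trans (Finset.sum_congr rfl fun i _ => ?_)
  show _ = pd i (heat (ρ + γ ⬝ᵥ γ) f) y * c i
  rw [integral_mul_const, pd_heat hf, pd_heat hf, heat_lin (PG.of_temp (temp_pd hf i)) hρ]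

theorem dot_unit (h : E d → ℝ) (y : E d) (T : Ten d Unit) :
    (jet h y : Ten d Unit) ⬝ᵥ T = grad h y ⬝ᵥ vec T := by
  rw [← vec_jet]
  exact sum_unit _

end General

/-- the pattern of `rotM` -/
def rt (V U : Type) [DecidableEq V] [DecidableEq U] (a b c e : ℝ) :
    V ⊕ U → V ⊕ Ext V U → ℝ
  | Sum.inl v, Sum.inl v' => if v = v' then a else 0
  | Sum.inl v, Sum.inr (Sum.inr (Sum.inl v')) => if v = v' then b else 0
  | Sum.inl v, Sum.inr (Sum.inr (Sum.inr (Sum.inl v'))) => if v = v' then c else 0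
  | Sum.inr u, Sum.inr (Sum.inl u') => if u = u' then e else 0
  | _, _ => 0

omit [Fintype V] [Fintype U] in
theorem rotM_eq (t : ℝ) : rotM V U t = rt V U t (1 - t) √(2 * t * (1 - t)) 1 := by
  funext r w
  rcases r with v | u <;> rcases w with v' | u' | v' | v' | z <;> rfl

theorem sum_rt_inl (a b c e : ℝ) (v : V) (g : V ⊕ Ext V U → ℝ) :
    ∑ w, rt V U a b c e (.inl v) w * g w =
      a * g (.inl v) + b * g (.inr (.inr (.inl v))) + c * g (.inr (.inr (.inr (.inl v)))) := by
  simp [Fintype.sum_sum_type, rt, add_assoc]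

theorem sum_rt_inr (a b c e : ℝ) (u : U) (g : V ⊕ Ext V U → ℝ) :
    ∑ w, rt V U a b c e (.inr u) w * g w = e * g (.inr (.inl u)) := by
  simp [Fintype.sum_sum_type, rt]

theorem rt_mul (a b c e a' b' c' e' : ℝ) (r r' : V ⊕ U) :
    ∑ w, rt V U a b c e r w * rt V U a' b' c' e' r' w =
      if r = r' then Sum.elim (fun _ => a * a' + b * b' + c * c') (fun _ => e * e') r else 0 := by
  rcases r with v | u <;> rcases r' with v' | u'
  · rw [sum_rt_inl]
    by_cases h : v = v'
    · subst h; simp [rt]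
    · simp [rt, h, Ne.symm h]
  · simp [rt]
  · simp [rt]
  · rw [sum_rt_inr]
    by_cases h : u = u'
    · subst h; simp [rt]
    · simp [rt, h, Ne.symm h]

omit [Fintype V] [Fintype U] in
theorem continuous_rotM : Continuous fun t : ℝ => rt V U t (1 - t) √(2 * t * (1 - t)) 1 := by
  refine continuous_pi fun r => continuous_pi fun w => ?_
  rcases r with v | u <;> rcases w with v' | u' | v' | v' | z <;> simp only [rt] <;>
    first | fun_prop | (split_ifs <;> fun_prop)

theorem hasDerivAt_rt {a b c : ℝ → ℝ} {a' b' c' t : ℝ} (ha : HasDerivAt a a' t)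
    (hb : HasDerivAt b b' t) (hc : HasDerivAt c c' t) :
    HasDerivAt (fun s => rt V U (a s) (b s) (c s) 1) (rt V U a' b' c' 0) t := by
  refine hasDerivAt_pi.2 fun r => hasDerivAt_pi.2 fun w => ?_
  rcases r with v | u <;> rcases w with v' | u' | v' | v' | z <;> simp only [rt] <;>
    first
      | exact hasDerivAt_const _ _
      | (split_ifs <;> first | assumption | exact hasDerivAt_const _ _)

omit [DecidableEq V] [DecidableEq U] in
theorem temp_pair (β : V ⊕ Ext V U → ℝ) :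
    (fun x : Om d (V ⊕ Ext V U) => (lin β x, ren Sum.inl x)).HasTemperateGrowth :=
  temp_prodMk (temp_lin β) (temp_ren _)

end InterpA

open InterpA TenB

theorem rotM_mul_transpose {t : ℝ} (ht : t ∈ Set.Icc (0 : ℝ) 1) :
    rotM V U t * (rotM V U t)ᵀ = 1 := by
  ext r r'
  rw [rotM_eq, Matrix.one_apply]
  refine (rt_mul _ _ _ _ _ _ _ _ r r').trans (if_congr Iff.rfl ?_ rfl)
  rcases r with v | u
  · have := Real.mul_self_sqrt (mul_nonneg (mul_nonneg zero_le_two ht.1) (sub_nonneg.2 ht.2))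
    show _ + _ + _ = (1 : ℝ)
    linarith
  · exact one_mul _

theorem extA_dot (α : V → ℝ) (αU : U → ℝ) : extA α αU ⬝ᵥ extA α αU = α ⬝ᵥ α + αU ⬝ᵥ αU + 1 := by
  show Sum.elim αU (Sum.elim α (Sum.elim (fun _ => 0) fun _ => 1)) ⬝ᵥ
    Sum.elim αU (Sum.elim α (Sum.elim (fun _ => 0) fun _ => 1)) = _
  simp only [dotProduct, Fintype.sum_sum_type, Sum.elim_inl, Sum.elim_inr]
  simp
  ring

variable [Fintype S] [DecidableEq S] {α : V → ℝ} {αU : U → ℝ} {F : E d → Om d V → Ten d S}
  {Λ : Om d (V ⊕ U) → Ten d S}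

theorem temp_dT_param (hF : (fun z : E d × Om d V => F z.1 z.2).HasTemperateGrowth) (v : V) :
    (fun z : E d × Om d V => dT v (F z.1) z.2).HasTemperateGrowth := by
  refine temp_pi.2 fun i => ?_
  have h := temp_coord hF fun s => i (some s)
  rw [show (fun z : E d × Om d V => dT v (F z.1) z.2 i) = fun z => fderiv ℝ
    (fun z : E d × Om d V => F z.1 z.2 fun s => i (some s)) z (0, Pi.single (v, i none) 1) from
    funext fun z => pd_slice h z.1 z.2 _]
  exact (ContinuousLinearMap.apply ℝ ℝ _).hasTemperateGrowth.comp (temp_fderiv h)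

theorem continuous_Psi (hF : (fun z : E d × Om d V => F z.1 z.2).HasTemperateGrowth)
    (hΛ : Λ.HasTemperateGrowth) : Continuous (Psi α αU F Λ) := by
  have h := (temp_integral (temp_joint (hF.comp (temp_pair (Sum.elim α (extA α αU)))) hΛ)).1.continuous
  exact (h.comp continuous_rotM).congr fun t => by rw [Function.comp_apply, ← rotM_eq]; rfl

theorem hasDerivAt_Psi (hF : (fun z : E d × Om d V => F z.1 z.2).HasTemperateGrowth)
    (hΛ : Λ.HasTemperateGrowth) {t : ℝ} (ht : t ∈ Set.Ioo (0 : ℝ) 1) :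
    HasDerivAt (Psi α αU F Λ) (∑ v, Psi α αU (fun y => dT v (F y)) (dT (Sum.inl v) Λ) t) t := by
  have h0 : 0 < 2 * t * (1 - t) := mul_pos (mul_pos two_pos ht.1) (sub_pos.2 ht.2)
  have h1 := ((hasDerivAt_id' t).const_sub 1)
  have h2 := (((hasDerivAt_id' t).const_mul 2).fun_mul h1).sqrt h0.ne'
  have hr := hasDerivAt_rt (V := V) (U := U) (hasDerivAt_id' t) h1 h2
  rw [← funext (rotM_eq (V := V) (U := U))] at hr
  have k := deriv_general (hF.comp (temp_pair (Sum.elim α (extA α αU)))) hΛ hr fun r r' => by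
      rw [rotM_eq, rt_mul]
      split_ifs
      · rcases r with v | u
        · have := (Real.sqrt_pos.2 h0).ne'
          show _ + _ + _ = (0 : ℝ)
          rw [div_mul_eq_mul_div, mul_div_mul_right _ _ this]
          ring
        · exact zero_mul _
      · rfl
  refine k.congr_deriv ?_
  refine Eq.trans ?_ (integral_finsetSum _ fun v _ => temp_integrable (temp_dot
    ((temp_dT_param hF v).comp (temp_pair (Sum.elim α (extA α αU))))
    ((temp_dT hΛ (Sum.inl v)).comp (temp_sub (rotM V U t)))))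
  refine integral_congr_ae (Eventually.of_forall fun x => ?_)
  generalize rotM V U t = A
  simp only [Fintype.sum_sum_type (α₁ := V) (α₂ := U), sum_rt_inl, sum_rt_inr, zero_mul,
    Finset.sum_const_zero, add_zero]
  refine Finset.sum_congr rfl fun v _ => Eq.trans ?_ (sum_option _).symm
  refine Finset.sum_congr rfl fun k _ => Finset.sum_congr rfl fun i _ => congrArg₂ _ ?_ rfl
  have e := pd_pair (temp_coord hF i) (Sum.elim α (extA α αU)) Sum.inl x
  refine Eq.trans ?_ (pd_slice (temp_coord hF i) _ _ (v, k)).symm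
  refine (congrArg₂ _ (congrArg₂ _ (congrArg _ (e _)) (congrArg _ (e _))) (congrArg _ (e _))).trans ?_
  rw [lin_single_one, lin_single_one, lin_single_one, ren_single Sum.inl_injective,
    ren_single_ne fun _ => Sum.inl_ne_inr, ren_single_ne fun _ => Sum.inl_ne_inr,
    ← smul_eq_mul, ← smul_eq_mul (-1 : ℝ), ← smul_eq_mul (_ / _), ← map_smul, ← map_smul,
    ← map_smul, ← map_add, ← map_add]
  refine congrArg _ (Prod.ext ?_ (by simp))
  show (1 : ℝ) • α v • _ + (-1 : ℝ) • α v • _ + _ • (0 : ℝ) • _ = 0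
  simp

theorem continuous_PsiD (k : ℕ) (hF : (fun z : E d × Om d V => F z.1 z.2).HasTemperateGrowth)
    (hΛ : Λ.HasTemperateGrowth) : Continuous (PsiD α αU k S F Λ) := by
  induction k generalizing S with
  | zero => exact continuous_Psi hF hΛ
  | succ k ih =>
    exact continuous_finsetSum _ fun v _ => ih (temp_dT_param hF v) (temp_dT hΛ (Sum.inl v))

theorem hasDerivAt_PsiD (k : ℕ) (hF : (fun z : E d × Om d V => F z.1 z.2).HasTemperateGrowth)
    (hΛ : Λ.HasTemperateGrowth) {t : ℝ} (ht : t ∈ Set.Ioo (0 : ℝ) 1) :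
    HasDerivAt (PsiD α αU k S F Λ) (PsiD α αU (k + 1) S F Λ t) t := by
  induction k generalizing S with
  | zero => exact hasDerivAt_Psi hF hΛ ht
  | succ k ih =>
    exact HasDerivAt.fun_sum fun v _ => ih (temp_dT_param hF v) (temp_dT hΛ (Sum.inl v))

section Ends
variable {f : E d → ℝ} {ρ : ℝ} {Θ : Om d V → Ten d Unit} {Λ : Om d (V ⊕ U) → Ten d Unit}

/-- the first factor of the interpolation -/
def F0 (h : E d → ℝ) (Θ : Om d V → Ten d Unit) : E d → Om d V → Ten d Unit :=
  fun y ζ => jet h (y + vec (Θ ζ))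

theorem temp_F0 {h : E d → ℝ} (hh : h.HasTemperateGrowth) (hΘ : Θ.HasTemperateGrowth) :
    (fun z : E d × Om d V => F0 h Θ z.1 z.2).HasTemperateGrowth :=
  (temp_jet hh).comp ((ContinuousLinearMap.fst ℝ (E d) (Om d V)).hasTemperateGrowth.add
    (temp_vec (hΘ.comp (ContinuousLinearMap.snd ℝ (E d) (Om d V)).hasTemperateGrowth)))

theorem InterpA.Psi_F0 {h : E d → ℝ} (hh : h.HasTemperateGrowth) (hΘ : Θ.HasTemperateGrowth)
    (hΛ : Λ.HasTemperateGrowth) (t : ℝ) : Psi α αU (F0 h Θ) Λ t =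
      ∫ ζ, ∫ χ, grad h (lin α ζ + vec (Θ ζ) + lin (extA α αU) χ) ⬝ᵥ
        vec (Λ (sub (rotM V U t) (join ζ χ))) ∂gam (Ext V U × Fin d) ∂gam (V × Fin d) := by
  refine (integral_join (PG.of_temp (temp_dot ((temp_F0 hh hΘ).comp (temp_pair _))
    (hΛ.comp (temp_sub _))))).trans ?_
  refine integral_congr_ae (Eventually.of_forall fun ζ =>
    integral_congr_ae (Eventually.of_forall fun χ => (dot_unit _ _ _).trans ?_))
  show grad h (lin _ (join ζ χ) + vec (Θ (ren Sum.inl (join ζ χ)))) ⬝ᵥ _ = _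
  rw [lin_join, ren_inl_join, add_right_comm]
  rfl

theorem InterpA.temp_inner {h : E d → ℝ} (hh : h.HasTemperateGrowth) (hΛ : Λ.HasTemperateGrowth)
    (t : ℝ) (y : E d) (ζ : Om d V) : (fun χ : Om d (Ext V U) => grad h (y + lin (extA α αU) χ) ⬝ᵥ
      vec (Λ (sub (rotM V U t) (join ζ χ)))).HasTemperateGrowth :=
  temp_dot ((temp_grad hh).comp ((Function.HasTemperateGrowth.const y).add (temp_lin _)))
    (temp_vec (hΛ.comp ((temp_sub _).comp (temp_join_right ζ))))

theorem Psi_one (hf : f.HasTemperateGrowth) (hΘ : Θ.HasTemperateGrowth)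
    (hΛ : Λ.HasTemperateGrowth) (hρ : α ⬝ᵥ α + αU ⬝ᵥ αU + 1 ≤ ρ) :
    Psi α αU (F0 (heat (ρ - (α ⬝ᵥ α + αU ⬝ᵥ αU + 1)) f) Θ) Λ 1 = tied ρ f α Θ αU Λ := by
  rw [Psi_F0 (temp_heat hf _) hΘ hΛ]
  refine integral_congr_ae (Eventually.of_forall fun ζ =>
    (integral_join (PG.of_temp (temp_inner (temp_heat hf _) hΛ 1 _ ζ))).trans
      (integral_congr_ae (Eventually.of_forall fun φ => ?_)))
  have e1 : ∀ ψ : Om d (V ⊕ (V ⊕ Unit)), sub (rotM V U 1) (join ζ (join φ ψ)) = join ζ φ := fun ψ => by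
    funext ⟨r, i⟩
    rw [rotM_eq]
    rcases r with v | u
    · refine (sum_rt_inl _ _ _ _ v _).trans ?_
      rw [sub_self, mul_zero, Real.sqrt_zero, zero_mul, zero_mul, add_zero, add_zero, one_mul]
      rfl
    · exact (sum_rt_inr _ _ _ _ u _).trans (one_mul _)
  have e2 := int_out hf (sub_nonneg.2 hρ) (Sum.elim α (Sum.elim (fun _ : V => (0 : ℝ)) fun _ : Unit => 1))
    (lin α ζ + vec (Θ ζ) + lin αU φ) (vec (Λ (join ζ φ)))
  have e3 : ρ - (α ⬝ᵥ α + αU ⬝ᵥ αU + 1) +
      Sum.elim α (Sum.elim (fun _ : V => (0 : ℝ)) fun _ : Unit => 1) ⬝ᵥ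
        Sum.elim α (Sum.elim (fun _ : V => (0 : ℝ)) fun _ : Unit => 1) = ρ - αU ⬝ᵥ αU := by
    simp only [dotProduct, Fintype.sum_sum_type, Sum.elim_inl, Sum.elim_inr]
    simp
    ring
  rw [e3] at e2
  refine (integral_congr_ae (Eventually.of_forall fun ψ => ?_)).trans e2
  exact congrArg₂ (fun a b => grad _ a ⬝ᵥ vec (Λ b))
    ((congrArg _ (lin_join αU _ φ ψ)).trans (add_assoc _ _ _).symm) (e1 ψ)

theorem Psi_zero (hf : f.HasTemperateGrowth) (hΘ : Θ.HasTemperateGrowth)
    (hΛ : Λ.HasTemperateGrowth) (hρ : α ⬝ᵥ α + αU ⬝ᵥ αU + 1 ≤ ρ) :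
    Psi α αU (F0 (heat (ρ - (α ⬝ᵥ α + αU ⬝ᵥ αU + 1)) f) Θ) Λ 0 = freed ρ f α Θ αU Λ := by
  rw [Psi_F0 (temp_heat hf _) hΘ hΛ]
  let e : Ext V U → (V ⊕ U) ⊕ (V ⊕ Unit) :=
    Sum.elim (fun u => .inl (.inr u)) (Sum.elim (fun v => .inl (.inl v)) .inr)
  have he : Function.Injective e := by
    rintro (a | a | a) (b | b | b) h <;> simp_all [e]
  refine integral_congr_ae (Eventually.of_forall fun ζ => ?_)
  have ht := temp_inner (α := α) (αU := αU) (temp_heat hf (ρ - (α ⬝ᵥ α + αU ⬝ᵥ αU + 1))) hΛ 0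
    (lin α ζ + vec (Θ ζ)) ζ
  have e0 := integral_map (μ := gam (((V ⊕ U) ⊕ (V ⊕ Unit)) × Fin d))
    (mp_ren (d := d) e he).measurable.aemeasurable ht.1.continuous.aestronglyMeasurable
  rw [(mp_ren e he).map_eq] at e0
  refine e0.trans ((integral_join (PG.of_temp (ht.comp (temp_ren e)))).trans
    (integral_congr_ae (Eventually.of_forall fun ξ => ?_)))
  have e1 : ∀ ψ : Om d (V ⊕ Unit), sub (rotM V U 0) (join ζ (ren e (join ξ ψ))) = ξ := fun ψ => by
    funext ⟨r, i⟩
    rw [rotM_eq]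
    rcases r with v | u
    · refine (sum_rt_inl _ _ _ _ v _).trans ?_
      rw [sub_zero, mul_zero, zero_mul, zero_mul, Real.sqrt_zero, zero_mul, add_zero, zero_add,
        one_mul]
      rfl
    · exact (sum_rt_inr _ _ _ _ u _).trans (one_mul _)
  have e2 := int_out hf (sub_nonneg.2 hρ) (Sum.elim (fun _ : V => (0 : ℝ)) fun _ : Unit => 1)
    (lin α ζ + vec (Θ ζ) + lin (Sum.elim α αU) ξ) (vec (Λ ξ))
  have e3 : ρ - (α ⬝ᵥ α + αU ⬝ᵥ αU + 1) +
      Sum.elim (fun _ : V => (0 : ℝ)) (fun _ : Unit => 1) ⬝ᵥ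
        Sum.elim (fun _ : V => (0 : ℝ)) (fun _ : Unit => 1) =
      ρ - Sum.elim α αU ⬝ᵥ Sum.elim α αU := by
    simp only [dotProduct, Fintype.sum_sum_type, Sum.elim_inl, Sum.elim_inr]
    simp
    ring
  have e4 : ∀ ψ : Om d (V ⊕ Unit), lin (extA α αU) (ren e (join ξ ψ)) = lin (Sum.elim α αU) ξ +
      lin (Sum.elim (fun _ : V => (0 : ℝ)) fun _ : Unit => 1) ψ := fun ψ => funext fun i =>
    (Fintype.sum_sum_type _).trans ((congrArg _ (Fintype.sum_sum_type _)).trans
      ((add_left_comm _ _ _).trans ((add_assoc _ _ _).symm.trans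
        (congrArg₂ _ (Fintype.sum_sum_type
          fun r => Sum.elim α αU r * ξ (r, i)).symm rfl))))
  have e5 : ∀ r y, grad (heat r fun y => f (lin α ζ + vec (Θ ζ) + y)) y =
      grad (heat r f) (lin α ζ + vec (Θ ζ) + y) := fun r y => funext fun i => by
    rw [add_comm _ y]
    exact (congrArg (pd i · y) (funext fun z =>
      (heat_shift r f _ z).trans (congrArg _ (add_comm _ _)))).trans (pd_shift _ _ _ _)
  rw [e3, ← e5] at e2
  refine (integral_congr_ae (Eventually.of_forall fun ψ => ?_)).trans e2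
  exact congrArg₂ (fun a b => grad _ a ⬝ᵥ vec (Λ b))
    ((congrArg _ (e4 ψ)).trans (add_assoc _ _ _).symm) (e1 ψ)

theorem temp_Gam (hΘ : Θ.HasTemperateGrowth) (hΛ : Λ.HasTemperateGrowth) (t : ℝ) :
    (Gam t Θ Λ).HasTemperateGrowth :=
  temp_pi.2 fun _ => temp_sum _ fun v _ => temp_sum _ fun _ _ => temp_sum _ fun _ _ =>
    temp_mul (temp_mul (temp_coord ((temp_dT hΛ (Sum.inl v)).comp (temp_sub _)) _)
      (temp_coord ((temp_dT hΘ v).comp (temp_ren _)) _))
      (temp_coord Function.HasTemperateGrowth.id' _)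

/-- `stein` in the variable `Z` -/
theorem PsiD_one (hf : f.HasTemperateGrowth) (hΘ : Θ.HasTemperateGrowth)
    (hΛ : Λ.HasTemperateGrowth) (t : ℝ) :
    PsiD α αU 1 Unit (F0 (heat (ρ - (α ⬝ᵥ α + αU ⬝ᵥ αU + 1)) f) Θ) Λ t =
      tied ρ f α Θ (extA α αU) (Gam t Θ Λ) := by
  show _ = ∫ ζ, ∫ φ, grad (heat (ρ - extA α αU ⬝ᵥ extA α αU) f)
    (lin α ζ + vec (Θ ζ) + lin (extA α αU) φ) ⬝ᵥ vec (Gam t Θ Λ (join ζ φ))
    ∂gam (Ext V U × Fin d) ∂gam (V × Fin d)
  rw [extA_dot]
  have hh := temp_heat hf (ρ - (α ⬝ᵥ α + αU ⬝ᵥ αU + 1))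
  generalize heat (ρ - (α ⬝ᵥ α + αU ⬝ᵥ αU + 1)) f = h at hh
  have hY : (fun x : Om d (V ⊕ Ext V U) =>
      lin (Sum.elim α (extA α αU)) x + vec (Θ (ren Sum.inl x))).HasTemperateGrowth :=
    (temp_lin _).add (temp_vec (hΘ.comp (temp_ren _)))
  have e1 := integral_join (PG.of_temp (temp_dot ((temp_grad hh).comp hY)
    (temp_vec (temp_Gam hΘ hΛ t))))
  have t1 := fun i => tcomp (temp_pd hh i) hY
  have t2 := fun v i => temp_coord (temp_dT hΛ (Sum.inl v)) i
  have t3 := fun v i => temp_coord (temp_dT hΘ v) i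
  have e2 := stein_sum (κ := V × Fin d × Fin d × Fin d)
    (fun z => (Sum.inr (Sum.inr (Sum.inr (Sum.inr ()))), z.2.2.2))
    (H := fun z (x : Om d (V ⊕ Ext V U)) =>
      pd z.2.2.1 h (lin (Sum.elim α (extA α αU)) x + vec (Θ (ren Sum.inl x))) *
      (dT (Sum.inl z.1) Λ (sub (rotM V U t) x) (oc z.2.1 fun _ => z.2.2.1) *
        dT z.1 Θ (ren Sum.inl x) (oc z.2.1 fun _ => z.2.2.2)))
    fun z => temp_mul (t1 _) (temp_mul ((t2 _ _).comp (temp_sub _)) ((t3 _ _).comp (temp_ren _)))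
  refine (integral_finsetSum _ fun v _ => temp_integrable (temp_dot
    ((temp_dT_param (temp_F0 hh hΘ) v).comp (temp_pair (Sum.elim α (extA α αU))))
    ((temp_dT hΛ (Sum.inl v)).comp (temp_sub (rotM V U t))))).symm.trans
    ((integral_congr_ae (Eventually.of_forall fun x => ?_)).trans (e2.symm.trans
      ((integral_congr_ae (Eventually.of_forall fun x => ?_)).trans (e1.trans
        (integral_congr_ae (Eventually.of_forall fun ζ =>
          integral_congr_ae (Eventually.of_forall fun φ => ?_)))))))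
  · have a3 : ∀ r, rotM V U t r (Sum.inr (Sum.inr (Sum.inr (Sum.inr ())))) = 0 := by
      rintro (v | u) <;> rfl
    generalize rotM V U t = A at a3 ⊢
    simp only [Fintype.sum_prod_type]
    refine Finset.sum_congr rfl fun v _ => (sum_option _).trans
      (Finset.sum_congr rfl fun k _ => (sum_unit _).trans (Finset.sum_congr rfl fun i _ => ?_))
    have a1 : ∀ (y : E d) (ζ : Om d V), dT v (F0 h Θ y) ζ (oc k fun _ => i) =
        ∑ j, pd j (pd i h) (y + vec (Θ ζ)) * dT v Θ ζ (oc k fun _ => j) := fun y ζ => by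
      refine (congrArg (pd (v, k) · ζ) (funext fun ζ => jet_unique _ _)).trans
        ((pd_comp (g := fun ζ => y + vec (Θ ζ)) (diff (temp_pd hh i) _)
          (diff ((Function.HasTemperateGrowth.const y).add (temp_vec hΘ)) ζ) _).trans
          (Finset.sum_congr rfl fun j _ => congrArg _ ?_))
      exact (pd_add (differentiableAt_const (y j)) (diff_coord hΘ (fun _ => j) ζ) _).trans
        (by rw [pd_const, zero_add]; rfl)
    refine (congrArg₂ _ (a1 _ _) rfl).trans ((Finset.sum_mul _ _ _).trans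
      (Finset.sum_congr rfl fun j _ => Eq.symm ?_))
    have a2 : ∀ m, pd (Sum.inr (Sum.inr (Sum.inr (Sum.inr ()))), j) (fun x : Om d (V ⊕ Ext V U) =>
        (lin (Sum.elim α (extA α αU)) x + vec (Θ (ren Sum.inl x))) m) x =
        if m = j then 1 else 0 := fun m =>
      (pd_add (diff_lin _ m x) (diff ((temp_coord hΘ fun _ => m).comp (temp_ren _)) x) _).trans (by
        rw [pd_lin]
        exact (congrArg _ (pd_comp_ren (temp_coord hΘ fun _ => m) (fun _ => Sum.inl_ne_inr) j x)).trans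
          (add_zero _))
    rw [pd_mul (diff (t1 i) x)
      (diff (temp_mul (tcomp (t2 _ _) (temp_sub _)) (tcomp (t3 _ _) (temp_ren _))) x),
      pd_mul (diff (tcomp (t2 _ _) (temp_sub _)) x) (diff (tcomp (t3 _ _) (temp_ren _)) x),
      pd_comp_sub (t2 _ _), pd_comp_ren (t3 _ _) fun _ => Sum.inl_ne_inr,
      pd_comp (diff (temp_pd hh i) _) (diff hY x)]
    simp only [a2, a3, zero_mul, Finset.sum_const_zero, add_zero, mul_ite, mul_one,
      mul_zero, Finset.sum_ite_eq', Finset.mem_univ, if_true]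
    show _ = _ * _ * dT (Sum.inl v) Λ (sub A x) (oc k fun _ => i)
    ring
  · show _ = ∑ i, pd i h _ * ∑ v, ∑ k, ∑ j, _
    generalize rotM V U t = A
    simp only [Fintype.sum_prod_type, Finset.mul_sum]
    rw [Finset.sum_comm (s := Finset.univ) (t := Finset.univ (α := V))]
    refine Finset.sum_congr rfl fun v _ => ?_
    rw [Finset.sum_comm]
    exact Finset.sum_congr rfl fun i _ => Finset.sum_congr rfl fun k _ =>
      Finset.sum_congr rfl fun j _ => by ring
  · show grad h (lin _ (join ζ φ) + vec (Θ (ren Sum.inl (join ζ φ)))) ⬝ᵥ _ = _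
    rw [lin_join, ren_inl_join, add_right_comm]

end Ends

end Crest.Agent.R285

end
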