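import Crest.Agent.R285.Norm
import Crest.Agent.R285.InterpA

/-!
Blocks: closure properties.
-/

set_option autoImplicit false

open MeasureTheory ProbabilityTheory Matrix Filter
open scoped ENNReal

noncomputable section

namespace Crest.Agent.R285

variable {P : Par} {β δ G : ℝ} {V0 V V' : Type} [Fintype V0] [Fintype V] [Fintype V'] {n : ℕ}
  {a : ℝ} {F0 : Submodule ℝ (V0 → ℝ)}

theorem Blk.temp_N (Y : Blk P β δ G V0 V n a F0) (W : Pot P.d δ G) (p : E P.d) (x : Om P.d V0)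
    (t : ℝ) : (Y.N W p x t).HasTemperateGrowth := by
  exact Function.HasTemperateGrowth.sum (s := Finset.univ)
    (f := fun i ζ => Y.φ i t • vec (Y.Θ i W p (join x ζ))) fun i _ =>
      (Function.HasTemperateGrowth.const (Y.φ i t)).smul
        (temp_vec (((Y.mem i).temp W p).comp (temp_join_right x)))

theorem Blk.temp_Y (Y : Blk P β δ G V0 V n a F0) (W : Pot P.d δ G) (p : E P.d) (x : Om P.d V0)
    (t : ℝ) : (Y.Y W p x t).HasTemperateGrowth := by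
  exact (temp_lin Y.α).add (Y.temp_N W p x t)

theorem Blk.temp_Y' (Y : Blk P β δ G V0 V n a F0) (W : Pot P.d δ G) (p : E P.d) (x : Om P.d V0)
    (t : ℝ) : (Y.Y' W p x t).HasTemperateGrowth := by
  exact Function.HasTemperateGrowth.sum (s := Finset.univ)
    (f := fun i ζ => Y.φ' i t • vec (Y.Θ i W p (join x ζ))) fun i _ =>
      (Function.HasTemperateGrowth.const (Y.φ' i t)).smul
        (temp_vec (((Y.mem i).temp W p).comp (temp_join_right x)))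

theorem Blk.abs_φ_le (Y : Blk P β δ G V0 V n a F0) (i : Y.ι) {t : ℝ} (ht : t ∈ Set.Icc (0 : ℝ) 1) :
    |Y.φ i t| ≤ 1 := by
  have h := (convex_Icc (0 : ℝ) 1).norm_image_sub_le_of_norm_hasDerivWithin_le (C := 1)
    (fun s _ => (Y.hd i s).hasDerivWithinAt) (Y.bd i) (Set.left_mem_Icc.2 zero_le_one) ht
  rw [Y.φ0, sub_zero, sub_zero, one_mul, Real.norm_eq_abs, Real.norm_of_nonneg ht.1] at h
  exact h.trans ht.2

theorem Blk.N_zero (Y : Blk P β δ G V0 V n a F0) (W : Pot P.d δ G) (p : E P.d) (x : Om P.d V0)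
    (ζ : Om P.d V) : Y.N W p x 0 ζ = 0 := by
  simp [Blk.N, Y.φ0]

theorem Blk.exists_mono (hP : P.Base) (Y : Blk P β δ G V0 V n a F0) {n' : ℕ} {a' : ℝ} (hn : n ≤ n')
    (ha : a ≤ a') (ha' : a' ≤ β) :
    ∃ Y' : Blk P β δ G V0 V n' a' F0, Y'.α = Y.α ∧ Y'.N = Y.N ∧ Y'.Y = Y.Y ∧ Y'.Y' = Y.Y' := by
  have h := pow_le_pow_right₀ hP.one_le_K hn
  exact ⟨{ Y with
    hι := Y.hι.trans h
    mem := fun i => ((Y.mem i).mono_n hP.one_le_K hn).mono_amp (zero_le_one.trans hP.one_le_D) ha ha'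
    hα := Y.hα.trans h
    hV := Y.hV.trans h }, rfl, rfl, rfl, rfl⟩

theorem Blk.exists_empty (hP : P.Base) : ∃ Y : Blk P β δ G V0 Empty n a F0,
    ∀ W p x t ζ, Y.Y W p x t ζ = 0 ∧ Y.Y' W p x t ζ = 0 := by
  have h : 0 ≤ P.K ^ n := pow_nonneg (zero_le_one.trans hP.one_le_K) n
  refine ⟨⟨Empty, inferInstance, by simpa using h, nofun, nofun, nofun, nofun, nofun, nofun, nofun,
    nofun, 0, by simpa using h, by simpa using h⟩, fun W p x t ζ => ⟨?_, by simp [Blk.Y']⟩⟩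
  funext i
  simp [Blk.Y, Blk.N, lin]

/-- independent sum of two blocks -/
theorem Blk.exists_sum (hP : P.Base) (Y₁ : Blk P β δ G V0 V n a F0) (Y₂ : Blk P β δ G V0 V' n a F0) :
    ∃ Y : Blk P β δ G V0 (V ⊕ V') (n + 1) a F0, Y.α = Sum.elim Y₁.α Y₂.α ∧ ∀ W p x t ζ,
      Y.Y W p x t ζ = Y₁.Y W p x t (ren Sum.inl ζ) + Y₂.Y W p x t (ren Sum.inr ζ) ∧
      Y.Y' W p x t ζ = Y₁.Y' W p x t (ren Sum.inl ζ) + Y₂.Y' W p x t (ren Sum.inr ζ) := by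
  have h : ∀ {b c : ℝ}, b ≤ P.K ^ n → c ≤ P.K ^ n → b + c ≤ P.K ^ (n + 1) := fun hb hc => by
    have := mul_le_mul_of_nonneg_left hP.two_le (pow_nonneg (zero_le_one.trans hP.one_le_K) n)
    rw [pow_succ]
    linarith
  have e₁ : ∀ (x : Om P.d V0) (ζ : Om P.d (V ⊕ V')),
      ren (Sum.map id Sum.inl) (join x ζ) = join x (ren Sum.inl ζ) := fun x ζ => by
    funext ⟨v, i⟩; cases v <;> rfl
  have e₂ : ∀ (x : Om P.d V0) (ζ : Om P.d (V ⊕ V')),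
      ren (Sum.map id Sum.inr) (join x ζ) = join x (ren Sum.inr ζ) := fun x ζ => by
    funext ⟨v, i⟩; cases v <;> rfl
  refine ⟨⟨Y₁.ι ⊕ Y₂.ι, inferInstance, by simpa using h Y₁.hι Y₂.hι,
    Sum.elim (fun i W p x => Y₁.Θ i W p (ren (Sum.map id Sum.inl) x))
      (fun i W p x => Y₂.Θ i W p (ren (Sum.map id Sum.inr) x)),
    Sum.forall.2 ⟨fun i => ((Y₁.mem i).ren _ (Function.injective_id.sumMap Sum.inl_injective)
        (F' := inlF (V ⊕ V') F0) fun z hz => ⟨hz.1, fun _ => hz.2 _⟩).mono_n hP.one_le_K n.le_succ,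
      fun i => ((Y₂.mem i).ren _ (Function.injective_id.sumMap Sum.inr_injective)
        (F' := inlF (V ⊕ V') F0) fun z hz => ⟨hz.1, fun _ => hz.2 _⟩).mono_n hP.one_le_K n.le_succ⟩,
    Sum.elim Y₁.φ Y₂.φ, Sum.elim Y₁.φ' Y₂.φ', Sum.forall.2 ⟨Y₁.hd, Y₂.hd⟩,
    Sum.forall.2 ⟨Y₁.cont, Y₂.cont⟩, Sum.forall.2 ⟨Y₁.φ0, Y₂.φ0⟩, Sum.forall.2 ⟨Y₁.bd, Y₂.bd⟩,
    Sum.elim Y₁.α Y₂.α, by simpa [dotProduct] using h Y₁.hα Y₂.hα,
    by simpa using h Y₁.hV Y₂.hV⟩, rfl, fun W p x t ζ => ⟨?_, ?_⟩⟩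
  · have : lin (Sum.elim Y₁.α Y₂.α) ζ = lin Y₁.α (ren Sum.inl ζ) + lin Y₂.α (ren Sum.inr ζ) := by
      funext i
      simp [lin, ren]
    simp only [Blk.Y, Blk.N, this, Fintype.sum_sum_type, Sum.elim_inl, Sum.elim_inr, e₁, e₂]
    abel
  · simp only [Blk.Y', Fintype.sum_sum_type, Sum.elim_inl, Sum.elim_inr, e₁, e₂]

/-- a block with prescribed velocity -/
theorem Blk.exists_of_smem (hP : P.Base) {κ : Type} [Fintype κ] {m : ℕ}
    (hκ : (Fintype.card κ : ℝ) ≤ P.K ^ m) (T : κ → Fam P δ G (V0 ⊕ V) Unit)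
    (hT : ∀ k, SMem P β δ G (V0 ⊕ V) n Unit a (inlF V F0) (T k)) (ψ : κ → ℝ → ℝ)
    (hψ : ∀ k, Continuous (ψ k)) (hb : ∀ k, ∀ t ∈ Set.Icc (0 : ℝ) 1, |ψ k t| ≤ 1) (α : V → ℝ)
    (hα : α ⬝ᵥ α ≤ P.K ^ (n + m)) (hV : (Fintype.card V : ℝ) ≤ P.K ^ (n + m)) :
    ∃ Y : Blk P β δ G V0 V (n + m) a F0, Y.α = α ∧ ∀ W p x t ζ,
      Y.Y' W p x t ζ = ∑ k, ψ k t • vec (T k W p (join x ζ)) ∧
      Y.N W p x t ζ = ∑ k, (∫ s in (0 : ℝ)..t, ψ k s) • vec (T k W p (join x ζ)) := by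
  choose κ' iκ U hκ' hU e using hT
  refine ⟨⟨Σ k, κ' k, inferInstance, ?_, fun q => U q.1 q.2,
    fun q => (hU q.1 q.2).mono_n hP.one_le_K (Nat.le_add_right _ _),
    fun q t => ∫ s in (0 : ℝ)..t, ψ q.1 s, fun q => ψ q.1,
    fun q t => ((hψ q.1).integral_hasStrictDerivAt 0 t).hasDerivAt, fun q => hψ q.1,
    fun q => intervalIntegral.integral_same, fun q => hb q.1, α, hα, hV⟩, rfl,
    fun W p x t ζ => ⟨?_, ?_⟩⟩
  · rw [Fintype.card_sigma, Nat.cast_sum]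
    calc ∑ k, (Fintype.card (κ' k) : ℝ) ≤ ∑ _k : κ, P.K ^ n := Finset.sum_le_sum fun k _ => hκ' k
      _ = Fintype.card κ * P.K ^ n := by simp
      _ ≤ P.K ^ m * P.K ^ n :=
          mul_le_mul_of_nonneg_right hκ (pow_nonneg (zero_le_one.trans hP.one_le_K) n)
      _ = P.K ^ (n + m) := by ring
  · simp only [Blk.Y', e, vec_sum, Finset.smul_sum, Fintype.sum_sigma]
  · simp only [Blk.N, e, vec_sum, Finset.smul_sum, Fintype.sum_sigma]

theorem Blk.exists_smem (hP : P.Base) (Y : Blk P β δ G V0 V n a F0) (ha : 0 < a) (ha' : a ≤ β)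
    {t : ℝ} (ht : t ∈ Set.Icc (0 : ℝ) 1) :
    ∃ T : Fam P δ G (V0 ⊕ V) Unit, SMem P β δ G (V0 ⊕ V) (n + 1) Unit a (inlF V F0) T ∧
      ∀ W p x ζ, vec (T W p (join x ζ)) = Y.N W p x t ζ := by
  refine ⟨fun W p x => ∑ i, Y.φ i t • reix (Equiv.refl Unit) (Y.Θ i W p x),
    ⟨Y.ι, inferInstance, fun i W p x => Y.φ i t • reix (Equiv.refl Unit) (Y.Θ i W p x),
      Y.hι.trans (pow_le_pow_right₀ hP.one_le_K n.le_succ),
      fun i => Mem.sc n Unit Unit _ a a _ _ _ _ (Y.mem i)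
        (mul_le_of_le_one_left ha.le (Y.abs_φ_le i ht)) ha ha' le_rfl, fun _ _ _ => rfl⟩,
    fun W p x ζ => ?_⟩
  rw [vec_sum]
  rfl

/-- the velocity is small (`ev_mem_nrm`, `lintegral_join`) -/
theorem ev_blk_nrm (J Ms n : ℕ) : ∃ C : ℕ, ∀ᶠ P in LL J Ms, ∀ β δ G : ℝ, Cl P β δ G →
    ∀ (V0 V : Type) [Fintype V0] [Fintype V] (a : ℝ) (F0 : Submodule ℝ (V0 → ℝ))
      (Y : Blk P β δ G V0 V n a F0), 0 ≤ a → ∀ W p, ∃ r : Om P.d V0 → ℝ≥0∞, Measurable r ∧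
        ∫⁻ x, r x ∂gam (V0 × Fin P.d) ≤ ENNReal.ofReal (P.K ^ C * a * P.D) ∧
        ∀ x, ∀ t ∈ Set.Icc (0 : ℝ) 1,
          ∫⁻ ζ, ENNReal.ofReal (nrm (Y.Y' W p x t ζ)) ∂gam (V × Fin P.d) ≤ r x := by
  obtain ⟨C, hC⟩ := ev_mem_nrm J Ms n
  refine ⟨n + C, ?_⟩
  filter_upwards [ev_base, hC 1] with P hP h β δ G hc V0 V _ _ a F0 Y ha W p
  have hm : ∀ i, Measurable fun z => ENNReal.ofReal (nrm (Y.Θ i W p z)) := fun i =>
    (measurable_nrm.comp ((Y.mem i).temp W p).1.continuous.measurable).ennreal_ofReal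
  have hm' : ∀ i, Measurable fun x : Om P.d V0 =>
      ∫⁻ ζ, ENNReal.ofReal (nrm (Y.Θ i W p (join x ζ))) ∂gam (V × Fin P.d) := fun i =>
    ((hm i).comp mp_join.measurable).lintegral_prod_right'
  refine ⟨fun x => ∑ i, ∫⁻ ζ, ENNReal.ofReal (nrm (Y.Θ i W p (join x ζ))) ∂gam (V × Fin P.d),
    Finset.measurable_fun_sum _ fun i _ => hm' i, ?_, fun x t ht => ?_⟩
  · have h0 : 0 ≤ P.K ^ C * a * P.D := by
      have := hP.one_le_K
      have := hP.one_le_D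
      positivity
    rw [lintegral_finsetSum _ fun i _ => hm' i]
    refine (Finset.sum_le_card_nsmul _ _ (ENNReal.ofReal (P.K ^ C * a * P.D)) fun i _ => ?_).trans ?_
    · rw [← lintegral_join (hm i)]
      exact (h β δ G hc _ _ a _ _ (Y.mem i) W p).one
    · rw [← ENNReal.ofReal_nsmul, nsmul_eq_mul, Finset.card_univ]
      exact ENNReal.ofReal_le_ofReal ((mul_le_mul_of_nonneg_right Y.hι h0).trans_eq (by ring))
  · refine (lintegral_mono fun ζ => ?_).trans_eq (lintegral_finsetSum _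
      (f := fun i ζ => ENNReal.ofReal (nrm (Y.Θ i W p (join x ζ)))) fun i _ =>
        (hm i).comp (temp_join_right x).1.continuous.measurable)
    rw [← ENNReal.ofReal_sum_of_nonneg fun i _ => nrm_nonneg _]
    refine ENNReal.ofReal_le_ofReal ((nrm_sum_le _ _).trans (Finset.sum_le_sum fun i _ => ?_))
    rw [nrm_smul, nrm_vec]
    exact mul_le_of_le_one_left (nrm_nonneg _) (Y.bd i t ht)

/-- the carré du champ of two members: `smem_dT`, `SMem.sub` with the block matrix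
`fromBlocks 1 0 0 (rotM t)`, `SMem.ren`, `SMem.con`, `SMem.leaf` (direction `Z`), `SMem.sum` over `v` -/
theorem smem_Gam (n : ℕ) : ∃ n' : ℕ, ∀ P : Par, P.Base → ∀ β δ G : ℝ, 0 < β →
    ∀ (V0 V U : Type) [Fintype V0] [Fintype V] [DecidableEq V] [Fintype U] [DecidableEq U]
      (F0 : Submodule ℝ (V0 → ℝ)) (a a' : ℝ) (Θ : Fam P δ G (V0 ⊕ V) Unit)
      (Λ : Fam P δ G (V0 ⊕ (V ⊕ U)) Unit), (Fintype.card V : ℝ) ≤ P.K ^ n →
      Mem P β δ G (V0 ⊕ V) n Unit a (inlF V F0) Θ →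
      Mem P β δ G (V0 ⊕ (V ⊕ U)) n Unit a' (inlF (V ⊕ U) F0) Λ → ∀ t ∈ Set.Icc (0 : ℝ) 1,
      ∃ Γ : Fam P δ G (V0 ⊕ (V ⊕ Ext V U)) Unit,
        SMem P β δ G (V0 ⊕ (V ⊕ Ext V U)) n' Unit (a' * a / β) (inlF (V ⊕ Ext V U) F0) Γ ∧
        ∀ W p x y, Γ W p (join x y) =
          Gam t (fun ζ => Θ W p (join x ζ)) (fun ξ => Λ W p (join x ξ)) y := by
  obtain ⟨m, hm⟩ := mem_dT n
  refine ⟨2 * m + 1 + 1 + 1 + n,
    fun P hP β δ G hβ V0 V U _ _ _ _ _ F0 a a' Θ Λ hV hΘ hΛ t ht => ?_⟩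
  classical
  have ha := hΘ.amp hβ
  have ha' := hΛ.amp hβ
  have hb : 0 < a' * a / β := div_pos (mul_pos ha'.1 ha.1) hβ
  have hb' : a' * a / β ≤ β := (div_le_iff₀ hβ).2 (mul_le_mul ha'.2 ha.2 ha.1.le hβ.le)
  set M : Matrix (V0 ⊕ (V ⊕ U)) (V0 ⊕ (V ⊕ Ext V U)) ℝ := fromBlocks 1 0 0 (rotM V U t) with hM
  have hMM : M * Mᵀ = 1 := by
    simp [hM, fromBlocks_transpose, fromBlocks_multiply, rotM_mul_transpose ht]
  set e : V0 ⊕ V → V0 ⊕ (V ⊕ Ext V U) := Sum.map id Sum.inl with he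
  set Z : V0 ⊕ (V ⊕ Ext V U) := .inr (.inr (.inr (.inr (.inr ())))) with hZ
  set F' := (inlF (V ⊕ U) F0).comap M.mulVecLin ⊓ (inlF V F0).comap (LinearMap.funLeft ℝ ℝ e)
  have hF : inlF (V ⊕ Ext V U) F0 ≤ F' := fun z hz => by
    refine ⟨⟨?_, fun w => ?_⟩, hz.1, fun _ => hz.2 _⟩
    · simpa [hM, fromBlocks_mulVec] using hz.1
    · simp [hM, mulVec, dotProduct, hz.2]
  have hz : Pi.single Z 1 ∈ F' := by
    refine ⟨⟨?_, fun w => ?_⟩, ?_, fun v => by simp [he, hZ]⟩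
    · convert F0.zero_mem
      simp [hM, hZ]
    · rcases w with w | w <;> simp [hM, hZ, rotM]
    · convert F0.zero_mem
      simp [he, hZ]
  refine ⟨_, SMem.sum hP hβ hV fun v => SMem.leaf hP (SMem.sc hP (sumU Unit) (c := 1)
    (SMem.con hP hβ (((hm P hP β δ G hβ _ _ _ _ _ hΛ (.inr (.inl v))).sub M hMM).mono hP hβ le_rfl
      le_rfl ha'.2 le_rfl inf_le_left)
      ((hm P hP β δ G hβ _ _ _ _ _ hΘ (.inr v)).ren e
        (Function.injective_id.sumMap Sum.inl_injective) fun z hz => hz.2) le_rfl hb')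
    (by simp) hb hb') hz (by simp) hF fun y hy => by simpa using hy.2 _, fun W p x y => ?_⟩
  have e₁ : sub M (join x y) = join x (sub (rotM V U t) y) := by
    funext ⟨v, i⟩
    cases v <;> simp [hM, sub, join, one_apply]
  have e₂ : ren e (join x y) = join x (ren Sum.inl y) := by
    funext ⟨v, i⟩; cases v <;> rfl
  funext i
  simp only [Gam, dT_join (hΘ.temp W p), dT_join (hΛ.temp W p), e₁, e₂, one_smul, lin_single,
    Finset.sum_apply, leaf, reix, con1, Finset.sum_mul]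
  exact Finset.sum_congr rfl fun v _ => Finset.sum_comm

end Crest.Agent.R285

end
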