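import Crest.Agent.R285.Expand

/-!
Cancellation of all terms but the free first-order term.

`cancel`: prove by induction on `k` (for all `n`) the statement under the extra hypothesis
`a th^k ≤ th^B`. For `k = 0` take the empty block (`ev_blk_nrm`). Step: `expand` gives `Y₁` of amplitude
`a²/β ≤ a th`; the induction hypothesis applied to `Y₁` gives `Y₂`; take the sum of `Y₁` and `Y₂`. Use
`expand` with `f` averaged over `Y₁ + Y₂` and the induction hypothesis with `f` averaged over `Y`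
(`TF.avg`, `grad_heat_avg`, Fubini); the two occurrences of the symbol of `Y₁` cancel.
-/

set_option autoImplicit false

open MeasureTheory ProbabilityTheory Matrix Filter
open scoped ENNReal

noncomputable section

namespace Crest.Agent.R285

section Aux
variable {d : ℕ} {ι ι' : Type} [Fintype ι] [Fintype ι']

private theorem temp_fst {Y : (ι → ℝ) → E d} (hY : Y.HasTemperateGrowth) :
    (fun q : (ι → ℝ) × (ι' → ℝ) => Y q.1).HasTemperateGrowth :=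
  hY.comp (ContinuousLinearMap.fst ℝ (ι → ℝ) (ι' → ℝ)).hasTemperateGrowth

private theorem temp_snd {Y : (ι' → ℝ) → E d} (hY : Y.HasTemperateGrowth) :
    (fun q : (ι → ℝ) × (ι' → ℝ) => Y q.2).HasTemperateGrowth :=
  hY.comp (ContinuousLinearMap.snd ℝ (ι → ℝ) (ι' → ℝ)).hasTemperateGrowth

private theorem temp_slice' {Ψ : (ι → ℝ) × (ι' → ℝ) → ℝ} (h : Ψ.HasTemperateGrowth) (x : ι → ℝ) :
    (fun y => Ψ (x, y)).HasTemperateGrowth :=
  h.comp (temp_prodMk (Function.HasTemperateGrowth.const x) Function.HasTemperateGrowth.id)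

private theorem swap_temp {Ψ : (ι → ℝ) × (ι' → ℝ) → ℝ} (h : Ψ.HasTemperateGrowth) :
    ∫ x, ∫ y, Ψ (x, y) ∂gam ι' ∂gam ι = ∫ y, ∫ x, Ψ (x, y) ∂gam ι ∂gam ι' :=
  integral_integral_swap (f := fun x y => Ψ (x, y)) (PG.of_temp h).integrable_prod

private theorem integral_dot {u : (ι → ℝ) → E d} (hu : u.HasTemperateGrowth) (v : E d) :
    ∫ ζ, u ζ ⬝ᵥ v ∂gam ι = (∫ ζ, u ζ ∂gam ι) ⬝ᵥ v := by
  have h : ∀ i, Integrable (fun ζ => u ζ i) (gam ι) := fun i => temp_integrable (temp_pi.1 hu i)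
  simp only [dotProduct]
  rw [integral_finsetSum _ fun i _ => (h i).mul_const _]
  exact Finset.sum_congr rfl fun i _ => by rw [integral_mul_const, eval_integral h]

/-- averaging the test function over an independent block -/
private theorem avg_dot {f : E d → ℝ} (hf : f.HasTemperateGrowth) {Z : (ι → ℝ) → E d}
    (hZ : Z.HasTemperateGrowth) (ρ : ℝ) (y v : E d) :
    ∫ ζ, grad (heat ρ f) (Z ζ + y) ⬝ᵥ v ∂gam ι =
      grad (heat ρ fun y => ∫ ζ, f (Z ζ + y) ∂gam ι) y ⬝ᵥ v := by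
  rw [grad_heat_avg hf hZ, integral_dot (temp_add_const (temp_grad (temp_heat hf ρ)) hZ y)]

private theorem split_two {f : E d → ℝ} (hf : f.HasTemperateGrowth) {Y Y' : (ι → ℝ) → E d}
    {Z Z' : (ι' → ℝ) → E d} (hY : Y.HasTemperateGrowth) (hY' : Y'.HasTemperateGrowth)
    (hZ : Z.HasTemperateGrowth) (hZ' : Z'.HasTemperateGrowth) (ρ : ℝ) :
    ∫ ζ, ∫ ζ', grad (heat ρ f) (Y ζ + Z ζ') ⬝ᵥ (Y' ζ + Z' ζ') ∂gam ι' ∂gam ι =
      ∫ ζ, grad (heat ρ fun y => ∫ ζ', f (Z ζ' + y) ∂gam ι') (Y ζ) ⬝ᵥ Y' ζ ∂gam ι +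
      ∫ ζ', grad (heat ρ fun y => ∫ ζ, f (Y ζ + y) ∂gam ι) (Z ζ') ⬝ᵥ Z' ζ' ∂gam ι' := by
  have hg : (fun q : (ι → ℝ) × (ι' → ℝ) => grad (heat ρ f) (Y q.1 + Z q.2)).HasTemperateGrowth :=
    (temp_grad (temp_heat hf ρ)).comp ((temp_fst hY).add (temp_snd hZ))
  have h1 := temp_dot hg (temp_fst hY')
  have h2 := temp_dot hg (temp_snd hZ')
  have e1 : ∀ ζ, ∫ ζ', grad (heat ρ f) (Y ζ + Z ζ') ⬝ᵥ (Y' ζ + Z' ζ') ∂gam ι' =
      ∫ ζ', grad (heat ρ f) (Y ζ + Z ζ') ⬝ᵥ Y' ζ ∂gam ι' +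
        ∫ ζ', grad (heat ρ f) (Y ζ + Z ζ') ⬝ᵥ Z' ζ' ∂gam ι' := fun ζ => by
    simp only [dotProduct_add]
    exact integral_add (temp_integrable (temp_slice' h1 ζ)) (temp_integrable (temp_slice' h2 ζ))
  simp only [e1]
  rw [integral_add (temp_integrable (temp_integral h1)) (temp_integrable (temp_integral h2)),
    swap_temp h2]
  congr 1
  · refine integral_congr_ae (ae_of_all _ fun ζ => ?_)
    simp only [← avg_dot hf hZ, add_comm (Y ζ)]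
  · exact integral_congr_ae (ae_of_all _ fun ζ' => avg_dot hf hY ρ (Z ζ') (Z' ζ'))

private theorem avg_swap {f : E d → ℝ} (hf : f.HasTemperateGrowth) {Y : (ι → ℝ) → E d}
    {Z : (ι' → ℝ) → E d} (hY : Y.HasTemperateGrowth) (hZ : Z.HasTemperateGrowth) (y : E d) :
    ∫ ζ, ∫ ζ', f (Y ζ + Z ζ' + y) ∂gam ι' ∂gam ι =
      ∫ ζ', ∫ ζ, f (Y ζ + (Z ζ' + y)) ∂gam ι ∂gam ι' := by
  have h : (fun q : (ι → ℝ) × (ι' → ℝ) => f (Y q.1 + Z q.2 + y)).HasTemperateGrowth :=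
    hf.comp (((temp_fst hY).add (temp_snd hZ)).add (Function.HasTemperateGrowth.const y))
  simpa only [add_assoc] using swap_temp h

private theorem abs_tied_le {f : E d → ℝ} (hf : TF f) (ρ : ℝ) (Y Y' : (ι → ℝ) → E d) :
    ENNReal.ofReal |∫ ζ, grad (heat ρ f) (Y ζ) ⬝ᵥ Y' ζ ∂gam ι| ≤
      ∫⁻ ζ, ENNReal.ofReal (nrm (Y' ζ)) ∂gam ι := by
  rw [← Real.enorm_eq_ofReal_abs]
  refine (enorm_integral_le_lintegral_enorm _).trans (lintegral_mono fun ζ => ?_)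
  rw [Real.enorm_eq_ofReal_abs]
  exact ENNReal.ofReal_le_ofReal ((abs_dot_le _ _).trans
    (mul_le_of_le_one_left (nrm_nonneg _) ((hf.heat ρ).lip _)))

private theorem ofReal_abs_add {u v : ℝ} {r s : ℝ≥0∞} (hu : ENNReal.ofReal |u| ≤ r)
    (hv : ENNReal.ofReal |v| ≤ s) : ENNReal.ofReal |u + v| ≤ r + s :=
  (ENNReal.ofReal_le_ofReal (abs_add_le u v)).trans
    (ENNReal.ofReal_add_le.trans (add_le_add hu hv))

private theorem sum_err {P : Par} (hP : P.Base) {C₁ C₂ : ℕ} {u : ℝ} (hu : 0 ≤ u) :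
    ENNReal.ofReal (P.K ^ C₁ * u * P.D) + ENNReal.ofReal (P.K ^ C₂ * u * P.D) ≤
      ENNReal.ofReal (P.K ^ (max C₁ C₂ + 1) * u * P.D) := by
  have hK := hP.one_le_K
  have hD := hP.one_le_D
  have h1 := pow_le_pow_right₀ hK (le_max_left C₁ C₂)
  have h2 := pow_le_pow_right₀ hK (le_max_right C₁ C₂)
  have h3 : 2 * P.K ^ max C₁ C₂ ≤ P.K ^ (max C₁ C₂ + 1) := by
    rw [pow_succ']
    exact mul_le_mul_of_nonneg_right hP.two_le (by positivity)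
  rw [← ENNReal.ofReal_add (by positivity) (by positivity), ← add_mul, ← add_mul]
  refine ENNReal.ofReal_le_ofReal ?_
  gcongr
  linarith

end Aux

theorem cancel_aux (J Ms B k n : ℕ) : ∃ n' C : ℕ, ∀ᶠ P in LL J Ms, ∀ β δ G : ℝ, Cl P β δ G →
    ∀ (V0 V : Type) [Fintype V0] [Fintype V] (a : ℝ) (F0 : Submodule ℝ (V0 → ℝ))
      (Y : Blk P β δ G V0 V n a F0), 0 < a → a ≤ β * P.th → a * P.th ^ k ≤ P.th ^ B →
      ∃ (V' : Type) (_ : Fintype V') (Y' : Blk P β δ G V0 V' n' (a ^ 2 / β) F0), ∀ W p,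
        ∃ r : Om P.d V0 → ℝ≥0∞, Measurable r ∧
          ∫⁻ x, r x ∂gam (V0 × Fin P.d) ≤ ENNReal.ofReal (P.K ^ C * P.th ^ B * P.D) ∧
          ∀ x, ∀ t ∈ Set.Icc (0 : ℝ) 1, ∀ ρ, P.K ^ n' ≤ ρ → ∀ f, TF f →
            ENNReal.ofReal
              |∫ ζ, ∫ ζ', grad (heat ρ f) (Y.Y W p x t ζ + Y'.Y W p x t ζ') ⬝ᵥ
                  (Y.Y' W p x t ζ + Y'.Y' W p x t ζ') ∂gam (V' × Fin P.d) ∂gam (V × Fin P.d) -
                sym ρ (fun y => ∫ ζ, ∫ ζ', f (Y.Y W p x t ζ + Y'.Y W p x t ζ' + y)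
                  ∂gam (V' × Fin P.d) ∂gam (V × Fin P.d)) Y.α (Y.Y' W p x t)| ≤ r x := by
  induction k generalizing n with
  | zero =>
    obtain ⟨C, h⟩ := ev_blk_nrm J Ms n
    refine ⟨0, max C C + 1, ?_⟩
    filter_upwards [ev_base, h] with P hP h β δ G hc V0 V _ _ a F0 Y ha ha' hk
    obtain ⟨Y', hY'⟩ := Blk.exists_empty (β := β) (δ := δ) (G := G) (n := 0) (a := a ^ 2 / β)
      (F0 := F0) hP
    refine ⟨Empty, inferInstance, Y', fun W p => ?_⟩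
    obtain ⟨r, h1, h2, h3⟩ := h β δ G hc V0 V a F0 Y ha.le W p
    have h4 : ENNReal.ofReal (P.K ^ C * a * P.D) ≤ ENNReal.ofReal (P.K ^ C * P.th ^ B * P.D) := by
      have hK := hP.one_le_K
      have hD := hP.one_le_D
      rw [pow_zero, mul_one] at hk
      refine ENNReal.ofReal_le_ofReal ?_
      gcongr
    refine ⟨fun x => r x + r x, h1.add h1, ?_, fun x t ht ρ _ f hf => ?_⟩
    · rw [lintegral_add_left h1]
      exact (add_le_add (h2.trans h4) (h2.trans h4)).trans (sum_err hP (pow_pos hP.th_pos B).le)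
    · simp only [(hY' W p x t _).1, (hY' W p x t _).2, add_zero, integral_const, probReal_univ,
        one_smul]
      rw [sub_eq_add_neg]
      refine ofReal_abs_add ((abs_tied_le hf ρ _ _).trans (h3 x t ht)) ?_
      rw [abs_neg]
      exact (abs_sym_le (hf.avg (Y.temp_Y W p x t)) ρ _ _).trans (h3 x t ht)
  | succ k ih =>
    obtain ⟨n₁, C₁, h₁⟩ := expand J Ms n B
    obtain ⟨n₂, C₂, h₂⟩ := ih n₁
    refine ⟨max n₁ n₂ + 1, max C₁ C₂ + 1, ?_⟩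
    filter_upwards [ev_base, h₁, h₂] with P hP h₁ h₂ β δ G hc V0 V _ _ a F0 Y ha ha' hk
    have hβ := hc.β_pos
    have hth := hP.th_pos
    have hth' := hP.th_le
    have hK := hP.one_le_K
    have a1 : a ^ 2 / β ≤ a * P.th := by
      rw [div_le_iff₀ hβ]
      nlinarith
    have a0 : 0 < a ^ 2 / β := by positivity
    have a2 : a ^ 2 / β ≤ β * P.th := by nlinarith [mul_pos hβ hth]
    have a3 : a ^ 2 / β ≤ β := by nlinarith [mul_pos hβ hth]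
    have a4 : a ^ 2 / β * P.th ^ k ≤ P.th ^ B := by
      refine le_trans ?_ hk
      rw [pow_succ' P.th, ← mul_assoc]
      gcongr
    have a5 : (a ^ 2 / β) ^ 2 / β ≤ a ^ 2 / β := by
      rw [div_le_iff₀ hβ, sq]
      gcongr
    obtain ⟨V₁, _, Y₁, h₁⟩ := h₁ β δ G hc V0 V a F0 Y ha ha'
    obtain ⟨V₂, _, Y₂, h₂⟩ := h₂ β δ G hc V0 V₁ _ F0 Y₁ a0 a2 a4
    obtain ⟨Z₁, -, -, e₁, e₁'⟩ := Y₁.exists_mono hP (le_max_left n₁ n₂) le_rfl a3
    obtain ⟨Z₂, -, -, e₂, e₂'⟩ := Y₂.exists_mono hP (le_max_right n₁ n₂) a5 a3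
    obtain ⟨Z, -, hZ⟩ := Z₁.exists_sum hP Z₂
    rw [e₁, e₂, e₁', e₂'] at hZ
    refine ⟨V₁ ⊕ V₂, inferInstance, Z, fun W p => ?_⟩
    obtain ⟨r₁, m₁, i₁, h₁⟩ := h₁ W p
    obtain ⟨r₂, m₂, i₂, h₂⟩ := h₂ W p
    refine ⟨fun x => r₁ x + r₂ x, m₁.add m₂, ?_, fun x t ht ρ hρ f hf => ?_⟩
    · rw [lintegral_add_left m₁]
      exact (add_le_add i₁ i₂).trans (sum_err hP (pow_pos hP.th_pos B).le)
    have hρ₁ : P.K ^ n₁ ≤ ρ := (pow_le_pow_right₀ hK (by omega)).trans hρ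
    have hρ₂ : P.K ^ n₂ ≤ ρ := (pow_le_pow_right₀ hK (by omega)).trans hρ
    have tY := Y.temp_Y W p x t
    have tZ := Z.temp_Y W p x t
    have tZ' := Z.temp_Y' W p x t
    have hfY := hf.avg tY
    have b₁ := h₁ x t ht ρ hρ₁ _ (hf.avg tZ)
    have b₂ := h₂ x t ht ρ hρ₂ _ hfY
    have e1 : (fun y => ∫ ζ, ∫ ζ', f (Z.Y W p x t ζ' + (Y.Y W p x t ζ + y))
        ∂gam ((V₁ ⊕ V₂) × Fin P.d) ∂gam (V × Fin P.d)) = fun y => ∫ ζ, ∫ ζ',
          f (Y.Y W p x t ζ + Z.Y W p x t ζ' + y) ∂gam ((V₁ ⊕ V₂) × Fin P.d) ∂gam (V × Fin P.d) := by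
      funext y
      simp only [add_left_comm (Z.Y W p x t _), add_assoc]
    have e2 : (fun y => ∫ ζ₁, ∫ ζ₂, ∫ ζ, f (Y.Y W p x t ζ + (Y₁.Y W p x t ζ₁ + Y₂.Y W p x t ζ₂ + y))
        ∂gam (V × Fin P.d) ∂gam (V₂ × Fin P.d) ∂gam (V₁ × Fin P.d)) = fun y => ∫ ζ, ∫ ζ',
          f (Y.Y W p x t ζ + Z.Y W p x t ζ' + y) ∂gam ((V₁ ⊕ V₂) × Fin P.d) ∂gam (V × Fin P.d) := by
      funext y
      rw [avg_swap hf.temp tY tZ, integral_join (PG.of_temp (temp_add_const hfY.temp tZ y))]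
      simp only [(hZ W p x t _).1, ren_inl_join, ren_inr_join]
    have e3 : ∫ ζ₁, ∫ ζ₂, grad (heat ρ fun y => ∫ ζ, f (Y.Y W p x t ζ + y) ∂gam (V × Fin P.d))
        (Y₁.Y W p x t ζ₁ + Y₂.Y W p x t ζ₂) ⬝ᵥ (Y₁.Y' W p x t ζ₁ + Y₂.Y' W p x t ζ₂)
          ∂gam (V₂ × Fin P.d) ∂gam (V₁ × Fin P.d) =
        ∫ ζ', grad (heat ρ fun y => ∫ ζ, f (Y.Y W p x t ζ + y) ∂gam (V × Fin P.d))
          (Z.Y W p x t ζ') ⬝ᵥ Z.Y' W p x t ζ' ∂gam ((V₁ ⊕ V₂) × Fin P.d) := by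
      rw [integral_join (PG.of_temp (temp_dot (f := fun ζ' => grad (heat ρ fun y =>
        ∫ ζ, f (Y.Y W p x t ζ + y) ∂gam (V × Fin P.d)) (Z.Y W p x t ζ'))
        ((temp_grad (temp_heat hfY.temp ρ)).comp tZ) tZ'))]
      simp only [(hZ W p x t _).1, (hZ W p x t _).2, ren_inl_join, ren_inr_join]
    rw [e1] at b₁
    rw [e2, e3] at b₂
    rw [split_two hf.temp tY (Y.temp_Y' W p x t) tZ tZ']
    refine le_trans (le_of_eq ?_) (ofReal_abs_add b₁ b₂)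
    congr 2
    ring

theorem cancel (J Ms n B : ℕ) : ∃ n' C : ℕ, ∀ᶠ P in LL J Ms, ∀ β δ G : ℝ, Cl P β δ G →
    ∀ (V0 V : Type) [Fintype V0] [Fintype V] (a : ℝ) (F0 : Submodule ℝ (V0 → ℝ))
      (Y : Blk P β δ G V0 V n a F0), 0 < a → a ≤ β * P.th →
      ∃ (V' : Type) (_ : Fintype V') (Y' : Blk P β δ G V0 V' n' (a ^ 2 / β) F0), ∀ W p,
        ∃ r : Om P.d V0 → ℝ≥0∞, Measurable r ∧
          ∫⁻ x, r x ∂gam (V0 × Fin P.d) ≤ ENNReal.ofReal (P.K ^ C * P.th ^ B * P.D) ∧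
          ∀ x, ∀ t ∈ Set.Icc (0 : ℝ) 1, ∀ ρ, P.K ^ n' ≤ ρ → ∀ f, TF f →
            ENNReal.ofReal
              |∫ ζ, ∫ ζ', grad (heat ρ f) (Y.Y W p x t ζ + Y'.Y W p x t ζ') ⬝ᵥ
                  (Y.Y' W p x t ζ + Y'.Y' W p x t ζ') ∂gam (V' × Fin P.d) ∂gam (V × Fin P.d) -
                sym ρ (fun y => ∫ ζ, ∫ ζ', f (Y.Y W p x t ζ + Y'.Y W p x t ζ' + y)
                  ∂gam (V' × Fin P.d) ∂gam (V × Fin P.d)) Y.α (Y.Y' W p x t)| ≤ r x := by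
  obtain ⟨n', C, h⟩ := cancel_aux J Ms B B n
  refine ⟨n', C, ?_⟩
  filter_upwards [ev_base, h] with P hP h β δ G hc V0 V _ _ a F0 Y ha ha'
  refine h β δ G hc V0 V a F0 Y ha ha' (mul_le_of_le_one_left (pow_pos hP.th_pos B).le ?_)
  nlinarith [hc.β_pos, hc.β_le, hP.th_pos, hP.th_le]

end Crest.Agent.R285

end
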