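import Mathlib

/-!
# Row 285 (S0430): definitions

Sampling from a log-concave density with `d^ε` gradient queries.  See `ideas` (row 285) and the
module docstrings of the other files in this folder for the proof.
-/

set_option autoImplicit false

open MeasureTheory ProbabilityTheory Matrix Filter
open scoped ENNReal

noncomputable section

namespace Crest.Agent.R285

/-! ### Gaussian spaces -/

/-- vectors -/
abbrev E (d : ℕ) := Fin d → ℝ

/-- a family of vectors indexed by the "variables" `V` -/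
abbrev Om (d : ℕ) (V : Type) := V × Fin d → ℝ

/-- the standard Gaussian measure on `ι → ℝ` -/
def gam (ι : Type) [Fintype ι] : Measure (ι → ℝ) := Measure.pi fun _ => gaussianReal 0 1

instance (ι : Type) [Fintype ι] : IsProbabilityMeasure (gam ι) := by
  unfold gam; infer_instance

/-- Euclidean (Frobenius) norm -/
def nrm {ι : Type} [Fintype ι] (v : ι → ℝ) : ℝ := √(∑ i, v i ^ 2)

section Vars
variable {d : ℕ} {V V' : Type}

/-- the linear combination `∑ v, a v • x v` of the variables -/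
def lin [Fintype V] (a : V → ℝ) (x : Om d V) : E d := fun i => ∑ v, a v * x (v, i)

/-- juxtaposition of two families of variables -/
def join (x : Om d V) (y : Om d V') : Om d (V ⊕ V') :=
  fun q => Sum.elim (fun v => x (v, q.2)) (fun v => y (v, q.2)) q.1

/-- linear substitution of variables -/
def sub [Fintype V'] (A : Matrix V V' ℝ) (x : Om d V') : Om d V :=
  fun q => ∑ v', A q.1 v' * x (v', q.2)

/-- renaming of variables -/
def ren (e : V → V') (x : Om d V') : Om d V := fun q => x (e q.1, q.2)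

/-- the shift `a ⊗ h` -/
def dir (a : V → ℝ) (h : E d) : Om d V := fun q => a q.1 * h q.2

/-- the directions `(a, 0)` with `a ∈ F` -/
def inlF (V' : Type) (F : Submodule ℝ (V → ℝ)) : Submodule ℝ (V ⊕ V' → ℝ) where
  carrier := {a | (fun v => a (Sum.inl v)) ∈ F ∧ ∀ v', a (Sum.inr v') = 0}
  add_mem' := fun {a b} ha hb => ⟨F.add_mem ha.1 hb.1, fun v' => by simp [ha.2 v', hb.2 v']⟩
  zero_mem' := ⟨F.zero_mem, fun _ => rfl⟩
  smul_mem' := fun c a ha => ⟨F.smul_mem c ha.1, fun v' => by simp [ha.2 v']⟩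

end Vars

/-! ### Partial derivatives -/

/-- partial derivative -/
def pd {ι : Type} [Fintype ι] [DecidableEq ι] (i : ι) (f : (ι → ℝ) → ℝ) (x : ι → ℝ) : ℝ :=
  fderiv ℝ f x (Pi.single i 1)

/-- iterated partial derivative along a list -/
def pdl {ι : Type} [Fintype ι] [DecidableEq ι] (l : List ι) (f : (ι → ℝ) → ℝ) : (ι → ℝ) → ℝ :=
  l.foldr pd f

/-- gradient -/
def grad {ι : Type} [Fintype ι] [DecidableEq ι] (f : (ι → ℝ) → ℝ) (y : ι → ℝ) : ι → ℝ :=
  fun i => pd i f y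

/-- Laplacian -/
def lap {ι : Type} [Fintype ι] [DecidableEq ι] (f : (ι → ℝ) → ℝ) (y : ι → ℝ) : ℝ :=
  ∑ i, pd i (pd i f) y

/-! ### Tensors -/

/-- tensors with slots `S` -/
abbrev Ten (d : ℕ) (S : Type) := (S → Fin d) → ℝ

section Tensors
variable {d : ℕ} {S S' S₁ S₂ J : Type}

/-- add an index for the slot `none` -/
def oc (k : Fin d) (i : S → Fin d) : Option S → Fin d := fun o => o.elim k i

/-- relabel the slots -/
def reix (e : S ≃ S') (T : Ten d S) : Ten d S' := fun i => T (fun s => i (e s))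

/-- contraction over the slots `J` -/
def con [Fintype J] [DecidableEq J] (T₁ : Ten d (S₁ ⊕ J)) (T₂ : Ten d (J ⊕ S₂)) :
    Ten d (S₁ ⊕ S₂) :=
  fun i => ∑ j : J → Fin d,
    T₁ (Sum.elim (fun s => i (Sum.inl s)) j) * T₂ (Sum.elim j (fun s => i (Sum.inr s)))

/-- contraction of the two slots `none` -/
def con1 (T₁ : Ten d (Option S₁)) (T₂ : Ten d (Option S₂)) : Ten d (S₁ ⊕ S₂) :=
  fun i => ∑ k, T₁ (oc k fun s => i (Sum.inl s)) * T₂ (oc k fun s => i (Sum.inr s))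

/-- contraction of the slot `none` with a vector -/
def leaf (T : Ten d (Option S)) (v : E d) : Ten d S := fun i => ∑ k, T (oc k i) * v k

/-- fill all slots but `none` with vectors -/
def app [Fintype S] [DecidableEq S] (T : Ten d (Option S)) (v : S → E d) : E d :=
  fun k => ∑ i : S → Fin d, T (oc k i) * ∏ s, v s (i s)

/-- a one-slot tensor as a vector -/
def vec (T : Ten d Unit) : E d := fun i => T (fun _ => i)

/-- a two-slot tensor as a matrix (rows = slot `none`) -/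
def mat (T : Ten d (Option Unit)) : Matrix (Fin d) (Fin d) ℝ := fun k j => T (oc k fun _ => j)

/-- the tensor of partial derivatives of order `card S` -/
def jet [Fintype S] (f : E d → ℝ) (y : E d) : Ten d S :=
  fun i => pdl ((Finset.univ : Finset S).toList.map i) f y

/-- all nontrivial flattenings of `T` have operator norm at most `a` -/
def OpLe (T : Ten d S) (a : ℝ) : Prop :=
  ∀ (A B : Type) [Fintype A] [DecidableEq A] [Fintype B] [DecidableEq B] [Nonempty A]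
    [Nonempty B] (e : S ≃ A ⊕ B) (u : Ten d A) (w : Ten d B),
    |∑ i : A → Fin d, ∑ j : B → Fin d, T (fun s => Sum.elim i j (e s)) * u i * w j|
      ≤ a * nrm u * nrm w

/-- the largest operator norm of a nontrivial flattening (zero if there is at most one slot) -/
def opN (T : Ten d S) : ℝ := sInf {a | 0 ≤ a ∧ OpLe T a}

end Tensors

/-- `‖h‖_{L^p(μ)} ≤ a` -/
def LpLe {Ω : Type} [MeasurableSpace Ω] (μ : Measure Ω) (p : ℕ) (h : Ω → ℝ) (a : ℝ) : Prop :=
  ∫⁻ x, ENNReal.ofReal (h x) ^ p ∂μ ≤ ENNReal.ofReal a ^ p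

/-- derivative of a tensor field in the variable `v`; the new slot is `none` -/
def dT {d : ℕ} {V S : Type} [Fintype V] [DecidableEq V] (v : V) (T : Om d V → Ten d S) :
    Om d V → Ten d (Option S) :=
  fun x i => pd (v, i none) (fun y => T y fun s => i (some s)) x

/-- `L^p` bounds for all flattenings of all derivatives of order at most `m` -/
def NB {d : ℕ} {V : Type} [Fintype V] [DecidableEq V] (p : ℕ) :
    ℕ → ∀ (S : Type), (Om d V → Ten d S) → ℝ → Prop
  | 0, _, T, a => LpLe (gam (V × Fin d)) p (fun x => opN (T x)) a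
  | m + 1, S, T, a => LpLe (gam (V × Fin d)) p (fun x => opN (T x)) a ∧
      ∀ v, NB p m (Option S) (dT v T) a

/-- the sum of the `p`-th moments of the flattening norms of all derivatives of order `≤ m` -/
def NBs {d : ℕ} {V : Type} [Fintype V] [DecidableEq V] (p : ℕ) :
    ℕ → ∀ (S : Type), (Om d V → Ten d S) → ℝ≥0∞
  | 0, _, T => ∫⁻ x, ENNReal.ofReal (opN (T x)) ^ p ∂gam (V × Fin d)
  | m + 1, S, T => ∫⁻ x, ENNReal.ofReal (opN (T x)) ^ p ∂gam (V × Fin d) +
      ∑ v, NBs p m (Option S) (dT v T)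

/-- strongly measurable functions of polynomial growth -/
structure PG {X F : Type} [NormedAddCommGroup X] [MeasurableSpace X] [NormedAddCommGroup F]
    (f : X → F) : Prop where
  meas : StronglyMeasurable f
  bd : ∃ (C : ℝ) (k : ℕ), ∀ x, ‖f x‖ ≤ C * (1 + ‖x‖) ^ k

/-! ### Heat semigroup, test functions, the `W₁` distance -/

/-- the heat semigroup -/
def heat {d : ℕ} {F : Type} [NormedAddCommGroup F] [NormedSpace ℝ F] (ρ : ℝ) (f : E d → F)
    (y : E d) : F :=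
  ∫ g, f (y + √ρ • g) ∂gam (Fin d)

/-- smooth `1`-Lipschitz test functions -/
structure TF {d : ℕ} (f : E d → ℝ) : Prop where
  temp : f.HasTemperateGrowth
  lip : ∀ y, nrm (grad f y) ≤ 1

/-- bounded `1`-Lipschitz test functions -/
structure BL {d : ℕ} (f : E d → ℝ) : Prop where
  bdd : ∃ C, ∀ y, |f y| ≤ C
  lip : ∀ y y', |f y - f y'| ≤ nrm (y - y')

/-- two laws (given as functionals on test functions) are `W₁`-close -/
def Near {d : ℕ} (Λ₁ Λ₂ : (E d → ℝ) → ℝ) (ε : ℝ≥0∞) : Prop :=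
  ∀ f, BL f → ENNReal.ofReal |Λ₁ f - Λ₂ f| ≤ ε

/-- two conditional laws are `W₁`-close on average -/
def CNear {d : ℕ} {V : Type} [Fintype V] (Λ₁ Λ₂ : Om d V → (E d → ℝ) → ℝ) (ε : ℝ) : Prop :=
  ∃ r : Om d V → ℝ≥0∞, Measurable r ∧ ∫⁻ x, r x ∂gam (V × Fin d) ≤ ENNReal.ofReal ε ∧
    ∀ x, Near (Λ₁ x) (Λ₂ x) (r x)

/-! ### Potentials, the Cole-Hopf tower, ladder steps -/

/-- smooth potentials with all derivatives bounded, gradient `≤ G`, Hessian `≤ δ` -/
structure Adm {d : ℕ} (δ G : ℝ) (W : E d → ℝ) : Prop where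
  smooth : ContDiff ℝ (⊤ : ℕ∞) W
  bdd : ∀ m : ℕ, ∃ C, ∀ y, ‖iteratedFDeriv ℝ m W y‖ ≤ C
  grad_le : ∀ y, nrm (grad W y) ≤ G
  hess_le : ∀ y u w, |∑ i, ∑ j, pd i (pd j W) y * u i * w j| ≤ δ * nrm u * nrm w

section Tower
variable {d : ℕ}

/-- `u_η = P_η e^{-W}` -/
def uu (W : E d → ℝ) (η : ℝ) : E d → ℝ := heat η fun x => Real.exp (-W x)

/-- `Φ_η = - log u_η` -/
def Phi (W : E d → ℝ) (η : ℝ) : E d → ℝ := fun y => -Real.log (uu W η y)

/-- the derivative tensors of `Φ_η` -/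
def tau {S : Type} [Fintype S] (W : E d → ℝ) (η : ℝ) (y : E d) : Ten d S := jet (Phi W η) y

/-- the gradient of `Φ_η` -/
def tau1 (W : E d → ℝ) (η : ℝ) (y : E d) : E d := grad (Phi W η) y

/-- expectation under the ladder step of length `t` from `(b, η)`: the law on `y` with density
proportional to `N(b, t) · u_{η - t}`. For `t = η` this is the posterior `N(b, η) e^{-W}`. -/
def stepE {F : Type} [NormedAddCommGroup F] [NormedSpace ℝ F] (W : E d → ℝ) (η t : ℝ) (b : E d)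
    (h : E d → F) : F :=
  (uu W η b)⁻¹ • heat t (fun y => uu W (η - t) y • h y) b

/-- the backward generator `-∂_η + Δ/2 - ∇Φ_η · ∇` -/
def DD (W : E d → ℝ) (h : ℝ → E d → ℝ) : ℝ → E d → ℝ :=
  fun η y => -deriv (fun s => h s y) η + lap (h η) y / 2 - tau1 W η y ⬝ᵥ grad (h η) y

end Tower

/-- "graph polynomials" in the tower; indices: depth, number of nodes, total number of slots -/
inductive PP (d : ℕ) : ℕ → ℕ → ℕ → ∀ (S : Type), ((E d → ℝ) → ℝ → E d → Ten d S) → Prop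
  | node (n : ℕ) (S : Type) [Fintype S] (h2 : 2 ≤ Fintype.card S) (hn : Fintype.card S ≤ n) :
      PP d n 1 (Fintype.card S) S (fun W η y => tau W η y)
  | con (n k₁ k₂ w₁ w₂ : ℕ) (S₁ S₂ J : Type) [Fintype J] [DecidableEq J] [Nonempty J]
      [Nonempty S₁] [Nonempty S₂] (hJ : Fintype.card J ≤ n)
      (G₁ : (E d → ℝ) → ℝ → E d → Ten d (S₁ ⊕ J)) (G₂ : (E d → ℝ) → ℝ → E d → Ten d (J ⊕ S₂))
      (h₁ : PP d n k₁ w₁ (S₁ ⊕ J) G₁) (h₂ : PP d n k₂ w₂ (J ⊕ S₂) G₂) :
      PP d (n + 1) (k₁ + k₂) (w₁ + w₂) (S₁ ⊕ S₂) (fun W η y => con (G₁ W η y) (G₂ W η y))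
  | sc (n k w : ℕ) (S S' : Type) (e : S ≃ S') (c : ℝ) (hc : |c| ≤ 1)
      (G : (E d → ℝ) → ℝ → E d → Ten d S) (h : PP d n k w S G) :
      PP d (n + 1) k w S' (fun W η y => c • reix e (G W η y))

/-! ### Parameters -/

/-- numerical parameters: dimension, loss `K`, ladder length `Q`, small parameter `th`,
size bound `D` -/
structure Par where
  d : ℕ
  K : ℝ
  Q : ℝ
  th : ℝ
  D : ℝ

/-- the basic inequalities `2 ≤ K ≤ Q ≤ 1/th`, `1 ≤ d ≤ D` -/
structure Par.Base (P : Par) : Prop where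
  two_le : 2 ≤ P.K
  K_le : P.K ≤ P.Q
  th_pos : 0 < P.th
  Q_th : P.Q * P.th ≤ 1
  d_pos : 1 ≤ P.d
  d_le : (P.d : ℝ) ≤ P.D

/-- admissible parameter tuples -/
structure Par.OK (P : Par) (J Ms C M : ℕ) (K0 : ℝ) : Prop extends P.Base where
  K0_le : K0 ≤ P.K
  pow_le : P.K ^ C ≤ P.Q
  th_Q : 1 ≤ P.th * P.Q ^ J
  th_K : 1 ≤ P.th * P.K ^ M
  D_le : P.D * P.th ^ Ms ≤ 1

/-- the filter `K → ∞`, `K^C ≤ Q` for every fixed `C`, `1/th ≤ K^M` for an unspecified `M` -/
def LL (J Ms : ℕ) : Filter Par where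
  sets := {s | ∃ C, ∀ M, ∃ K0, ∀ P : Par, P.OK J Ms C M K0 → P ∈ s}
  univ_sets := ⟨0, fun _ => ⟨0, fun _ _ => trivial⟩⟩
  sets_of_superset := fun ⟨C, h⟩ hs => ⟨C, fun M => (h M).imp fun _ k P hP => hs (k P hP)⟩
  inter_sets := by
    rintro s t ⟨C, h⟩ ⟨C', h'⟩
    refine ⟨max C C', fun M => ?_⟩
    obtain ⟨K0, k⟩ := h M
    obtain ⟨K0', k'⟩ := h' M
    refine ⟨max K0 K0', fun P hP => ⟨k P ?_, k' P ?_⟩⟩
    · exact { hP with
        K0_le := (le_max_left _ _).trans hP.K0_le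
        pow_le := (pow_le_pow_right₀ (by linarith [hP.two_le]) (le_max_left _ _)).trans hP.pow_le }
    · exact { hP with
        K0_le := (le_max_right _ _).trans hP.K0_le
        pow_le := (pow_le_pow_right₀ (by linarith [hP.two_le]) (le_max_right _ _)).trans hP.pow_le }

/-- side conditions on the threshold `β` and on the class of potentials -/
structure Cl (P : Par) (β δ G : ℝ) : Prop where
  β_pos : 0 < β
  β_le : β ≤ 1
  δ_pos : 0 < δ
  δ_le : P.Q * δ ≤ P.th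
  G_nonneg : 0 ≤ G

/-! ### The class of tensor fields -/

/-- admissible potentials -/
abbrev Pot (d : ℕ) (δ G : ℝ) := {W : E d → ℝ // Adm δ G W}

/-- families of tensor fields, indexed by the potential and by a free vector parameter -/
abbrev Fam (P : Par) (δ G : ℝ) (V S : Type) := Pot P.d δ G → E P.d → Om P.d V → Ten P.d S

/-- The class of tensor fields. Indices: complexity, slots, amplitude, a space `F` of directions
on which the field does not depend. -/
inductive Mem (P : Par) (β δ G : ℝ) (V : Type) [Fintype V] :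
    ℕ → ∀ (S : Type), ℝ → Submodule ℝ (V → ℝ) → Fam P δ G V S → Prop
  | node (n : ℕ) (S : Type) [Fintype S] [Nonempty S] (a : ℝ) (F : Submodule ℝ (V → ℝ)) (c η : ℝ)
      (b0 : E P.d → E P.d) (hb0 : Measurable b0) (l : V → ℝ) (κ : Type) [Fintype κ]
      (T : κ → Fam P δ G V Unit) (hT : ∀ k, Mem P β δ G V n Unit β F (T k))
      (hκ : (Fintype.card κ : ℝ) ≤ P.K ^ n) (hl : l ⬝ᵥ l ≤ n) (hF : ∀ z ∈ F, z ⬝ᵥ l = 0)
      (hS : Fintype.card S ≤ n + 1) (hη : P.Q - n ≤ η) (hη' : η ≤ P.Q) (ha : 0 < a) (ha' : a ≤ β)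
      (hc : |c| * δ ≤ a) (hc' : |c| * G ≤ a * P.D) :
      Mem P β δ G V (n + 1) S a F
        (fun W p x => c • tau W.1 η (b0 p + lin l x + ∑ k, vec (T k W p x)))
  | con (n : ℕ) (S₁ S₂ : Type) [Nonempty S₁] [Nonempty S₂] (a₁ a₂ a : ℝ)
      (F : Submodule ℝ (V → ℝ)) (T₁ : Fam P δ G V (Option S₁)) (T₂ : Fam P δ G V (Option S₂))
      (h₁ : Mem P β δ G V n (Option S₁) a₁ F T₁) (h₂ : Mem P β δ G V n (Option S₂) a₂ F T₂)
      (ha : a₁ * a₂ / β ≤ a) (ha' : a ≤ β) :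
      Mem P β δ G V (n + 1) (S₁ ⊕ S₂) a F (fun W p x => con1 (T₁ W p x) (T₂ W p x))
  | leaf (n : ℕ) (S : Type) [Nonempty S] (a : ℝ) (F' F : Submodule ℝ (V → ℝ))
      (T : Fam P δ G V (Option S)) (h : Mem P β δ G V n (Option S) a F' T) (z : V → ℝ)
      (hz : z ∈ F') (hz1 : z ⬝ᵥ z = 1) (hF : F ≤ F') (hFz : ∀ y ∈ F, y ⬝ᵥ z = 0) :
      Mem P β δ G V (n + 1) S a F (fun W p x => leaf (T W p x) (lin z x))
  | sc (n : ℕ) (S S' : Type) (e : S ≃ S') (a a' c : ℝ) (F F' : Submodule ℝ (V → ℝ))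
      (T : Fam P δ G V S) (h : Mem P β δ G V n S a F T) (hc : |c| * a ≤ a') (ha : 0 < a')
      (ha' : a' ≤ β) (hF : F' ≤ F) :
      Mem P β δ G V (n + 1) S' a' F' (fun W p x => c • reix e (T W p x))

section Cls
variable (P : Par) (β δ G : ℝ) (V : Type) [Fintype V]

/-- sums of at most `K^n` members -/
def SMem (n : ℕ) (S : Type) (a : ℝ) (F : Submodule ℝ (V → ℝ)) (T : Fam P δ G V S) : Prop :=
  ∃ (κ : Type) (_ : Fintype κ) (U : κ → Fam P δ G V S), (Fintype.card κ : ℝ) ≤ P.K ^ n ∧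
    (∀ k, Mem P β δ G V n S a F (U k)) ∧ ∀ W p x, T W p x = ∑ k, U k W p x

/-- base points: known part + linear part + members of amplitude `a` -/
def Bas (n : ℕ) (a : ℝ) (F : Submodule ℝ (V → ℝ))
    (b : Pot P.d δ G → E P.d → Om P.d V → E P.d) : Prop :=
  ∃ (b0 : E P.d → E P.d) (l : V → ℝ) (T : Fam P δ G V Unit), Measurable b0 ∧ l ⬝ᵥ l ≤ n ∧
    (∀ z ∈ F, z ⬝ᵥ l = 0) ∧ SMem P β δ G V n Unit a F T ∧
    ∀ W p x, b W p x = b0 p + lin l x + vec (T W p x)

/-- a triangular system of legs `L i · (z i · x)` -/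
structure Legs (n m : ℕ) where
  z : Fin m → V → ℝ
  F : Fin m → Submodule ℝ (V → ℝ)
  L : Fin m → Pot P.d δ G → E P.d → Om P.d V → Matrix (Fin P.d) (Fin P.d) ℝ
  orth : ∀ i j, z i ⬝ᵥ z j = if i = j then 1 else 0
  mem : ∀ i j, i ≤ j → z j ∈ F i
  ok : ∀ i, (∀ W p x, L i W p x = 1) ∨
    ∃ M, Mem P β δ G V n (Option Unit) β (F i) M ∧ ∀ W p x, L i W p x = mat (M W p x)

variable {P β δ G V} in
/-- the vector in the `i`-th leg -/
def Legs.v {n m : ℕ} (g : Legs P β δ G V n m) (W : Pot P.d δ G) (p : E P.d) (x : Om P.d V)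
    (i : Fin m) : E P.d :=
  g.L i W p x *ᵥ lin (g.z i) x

end Cls

/-- A block with frozen variables `V0` and seeds `V`: visible linear part `α` and a nonlinear part
`∑ φ i t • Θ i` depending on a path parameter `t ∈ [0,1]`. -/
structure Blk (P : Par) (β δ G : ℝ) (V0 V : Type) [Fintype V0] [Fintype V] (n : ℕ) (a : ℝ)
    (F0 : Submodule ℝ (V0 → ℝ)) where
  ι : Type
  fι : Fintype ι
  hι : (Fintype.card ι : ℝ) ≤ P.K ^ n
  Θ : ι → Fam P δ G (V0 ⊕ V) Unit
  mem : ∀ i, Mem P β δ G (V0 ⊕ V) n Unit a (inlF V F0) (Θ i)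
  φ : ι → ℝ → ℝ
  φ' : ι → ℝ → ℝ
  hd : ∀ i t, HasDerivAt (φ i) (φ' i t) t
  cont : ∀ i, Continuous (φ' i)
  φ0 : ∀ i, φ i 0 = 0
  bd : ∀ i, ∀ t ∈ Set.Icc (0 : ℝ) 1, |φ' i t| ≤ 1
  α : V → ℝ
  hα : α ⬝ᵥ α ≤ P.K ^ n
  hV : (Fintype.card V : ℝ) ≤ P.K ^ n

attribute [instance] Blk.fι

section Blk
variable {P : Par} {β δ G : ℝ} {V0 V : Type} [Fintype V0] [Fintype V] {n : ℕ} {a : ℝ}
  {F0 : Submodule ℝ (V0 → ℝ)}

/-- nonlinear part of the block -/
def Blk.N (B : Blk P β δ G V0 V n a F0) (W : Pot P.d δ G) (p : E P.d) (x : Om P.d V0) (t : ℝ)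
    (ζ : Om P.d V) : E P.d :=
  ∑ i, B.φ i t • vec (B.Θ i W p (join x ζ))

/-- value of the block -/
def Blk.Y (B : Blk P β δ G V0 V n a F0) (W : Pot P.d δ G) (p : E P.d) (x : Om P.d V0) (t : ℝ)
    (ζ : Om P.d V) : E P.d :=
  lin B.α ζ + B.N W p x t ζ

/-- velocity of the block -/
def Blk.Y' (B : Blk P β δ G V0 V n a F0) (W : Pot P.d δ G) (p : E P.d) (x : Om P.d V0) (t : ℝ)
    (ζ : Om P.d V) : E P.d :=
  ∑ i, B.φ' i t • vec (B.Θ i W p (join x ζ))

end Blk

/-- The first-order symbol of a free field `Λ` with visible linear part `α`, tested against `f`,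
the reservoir having total variance `ρ`. -/
def sym {d : ℕ} {V : Type} [Fintype V] (ρ : ℝ) (f : E d → ℝ) (α : V → ℝ) (Λ : Om d V → E d) : ℝ :=
  ∫ ξ, grad (heat (ρ - α ⬝ᵥ α) f) (lin α ξ) ⬝ᵥ Λ ξ ∂gam (V × Fin d)

section Tied
variable {d : ℕ} {V U : Type} [Fintype V] [DecidableEq V] [Fintype U] [DecidableEq U]

/-- `Λ` is evaluated at the seeds `ζ` of the block `lin α ζ + Θ ζ` and at free seeds `φ` with
visible linear part `αU` -/
def tied (ρ : ℝ) (f : E d → ℝ) (α : V → ℝ) (Θ : Om d V → Ten d Unit) (αU : U → ℝ)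
    (Λ : Om d (V ⊕ U) → Ten d Unit) : ℝ :=
  ∫ ζ, ∫ φ, grad (heat (ρ - αU ⬝ᵥ αU) f) (lin α ζ + vec (Θ ζ) + lin αU φ) ⬝ᵥ vec (Λ (join ζ φ))
    ∂gam (U × Fin d) ∂gam (V × Fin d)

/-- `Λ` is evaluated at a free copy of the seeds of the block -/
def freed (ρ : ℝ) (f : E d → ℝ) (α : V → ℝ) (Θ : Om d V → Ten d Unit) (αU : U → ℝ)
    (Λ : Om d (V ⊕ U) → Ten d Unit) : ℝ :=
  ∫ ζ, sym ρ (fun y => f (lin α ζ + vec (Θ ζ) + y)) (Sum.elim α αU) (fun ξ => vec (Λ ξ))
    ∂gam (V × Fin d)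

/-- the free seeds after one expansion step: old free seeds, `η'`, `η''`, `Z` -/
abbrev Ext (V U : Type) := U ⊕ (V ⊕ (V ⊕ Unit))

/-- visible coefficients of the new free seeds -/
def extA (α : V → ℝ) (αU : U → ℝ) : Ext V U → ℝ :=
  Sum.elim αU (Sum.elim α (Sum.elim (fun _ => 0) (fun _ => 1)))

/-- the substitution `ζ ↦ t ζ + (1-t) η' + √(2t(1-t)) η''`, `φ ↦ φ` -/
def rotM (V U : Type) [DecidableEq V] [DecidableEq U] (t : ℝ) :
    Matrix (V ⊕ U) (V ⊕ Ext V U) ℝ :=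
  fun r s => match r, s with
    | Sum.inl v, Sum.inl v' => if v = v' then t else 0
    | Sum.inl v, Sum.inr (Sum.inr (Sum.inl v')) => if v = v' then 1 - t else 0
    | Sum.inl v, Sum.inr (Sum.inr (Sum.inr (Sum.inl v'))) =>
        if v = v' then √(2 * t * (1 - t)) else 0
    | Sum.inr u, Sum.inr (Sum.inl u') => if u = u' then 1 else 0
    | _, _ => 0

/-- the carré du champ `DΛ(ζ_t, φ) · DΘ(ζ)ᵀ Z` -/
def Gam (t : ℝ) (Θ : Om d V → Ten d Unit) (Λ : Om d (V ⊕ U) → Ten d Unit) :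
    Om d (V ⊕ Ext V U) → Ten d Unit :=
  fun x i => ∑ v, ∑ k, ∑ j, dT (Sum.inl v) Λ (sub (rotM V U t) x) (oc k i) *
    dT v Θ (ren Sum.inl x) (oc k fun _ => j) *
      x (Sum.inr (Sum.inr (Sum.inr (Sum.inr ()))), j)

end Tied

/-! ### Query programs -/

/-- deterministic measurable programs with exactly `q` oracle calls -/
inductive DImpl (X A O : Type) [MeasurableSpace X] [MeasurableSpace A] [MeasurableSpace O] :
    ℕ → ∀ (I : Type) [MeasurableSpace I], ((X → A) → I → O) → Prop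
  | pure (I : Type) [MeasurableSpace I] (f : I → O) (hf : Measurable f) :
      DImpl X A O 0 I (fun _ i => f i)
  | step (q : ℕ) (I : Type) [MeasurableSpace I] (x : I → X) (hx : Measurable x)
      (r : (X → A) → I × A → O) (hr : DImpl X A O q (I × A) r) :
      DImpl X A O (q + 1) I (fun o i => r o (i, o (x i)))

/-- `o` is a measurable oracle for the gradient of `W` with error at most `e` -/
def Orc {d : ℕ} (e : ℝ) (W : E d → ℝ) (o : E d → E d) : Prop :=
  Measurable o ∧ ∀ y, nrm (o y - grad W y) ≤ e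

/-- A randomised program with at most `q` queries realises the conditional laws `Λ` up to `ε`,
uniformly in the potential and in the free parameter (`kap * G` is the oracle error). -/
def Rz (d : ℕ) (kap δ G : ℝ) (V : Type) [Fintype V]
    (Λ : Pot d δ G → E d → Om d V → (E d → ℝ) → ℝ) (q ε : ℝ) : Prop :=
  ∃ (Ω : Type) (_ : MeasurableSpace Ω) (ν : Measure Ω) (_ : IsProbabilityMeasure ν) (q' : ℕ)
    (r : (E d → E d) → (E d × Om d V) × Ω → E d), (q' : ℝ) ≤ q ∧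
    DImpl (E d) (E d) (E d) q' ((E d × Om d V) × Ω) r ∧
    ∀ (W : Pot d δ G) (o : E d → E d), Orc (kap * G) W.1 o → ∀ p,
      CNear (fun x f => ∫ ω, f (r o ((p, x), ω)) ∂ν) (Λ W p) ε

/-- side conditions of the main induction: `δ ≤ th^R`, `G ≤ th^R D` -/
structure Cl0 (P : Par) (R : ℕ) (δ G : ℝ) : Prop where
  δ_pos : 0 < δ
  δ_le : δ ≤ P.th ^ R
  G_nonneg : 0 ≤ G
  G_le : G ≤ P.th ^ R * P.D

/-- All vector members of threshold `th^b` and amplitude `th^a` can be realised (with unit noise)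
up to `K^C Q^c th^B D` with `K^C Q^c` queries. -/
def RA (J Ms R B0 b a B c : ℕ) : Prop :=
  ∀ n, ∃ C : ℕ, ∀ᶠ P in LL J Ms, ∀ δ G, Cl0 P R δ G →
    ∀ (V : Type) [Fintype V] (F : Submodule ℝ (V → ℝ)) (T : Fam P δ G V Unit),
      Mem P (P.th ^ b) δ G V n Unit (P.th ^ a) F T →
      Rz P.d (P.th ^ B0) δ G V (fun W p x f => heat 1 f (vec (T W p x)))
        (P.K ^ C * P.Q ^ c) (P.K ^ C * P.Q ^ c * P.th ^ B * P.D)

end Crest.Agent.R285

end
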