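import Crest.Agent.R285.EdgeAux

/-!
Edgeworth expansion for the posterior.

Let `p_b` be the posterior density and `a_n = D_b^n p_b / p_b` (Appell polynomials):
`a_0 = 1`, `a_{n+1}[i :: I](b, x) = ∂_{b_i} a_n[I] + ((x_i - b_i)/η + τ₁(b)_i) a_n[I]`. Then
`E_b[Λ a_n[I]] = ∂_I E_b[Λ]` (`pd_stepE`, `stepE_ibp`), `∂_{x_k} a_n[I] = η⁻¹ ∑_m [I m = k] a_{n-1}[I ∖ m]`.
For `R_N h = h - ∑_{n<N} (η^n/n!) ∑_I a_n[I] E[∂_I h]` one has `E R_N h = 0` (`N ≥ 1`) and
`∂_k R_N h = R_{N-1} ∂_k h`, so `poincare` gives `E (R_N h)² ≤ (2η)^N E |D^N h|²`.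
Finally `E[∑_a F_a h_a] - ∑_n … = E[∑_a (F_a - E F_a) R_N h_a]` with `F = ∇W`,
`h_a x = ∂_a f (y₀ + (λ/η)(x - b))`, `∂_I E_b[F_a] = τ[a :: I]`, and `∑_a Var F_a ≤ 2 η δ² d`.
-/

set_option autoImplicit false

open MeasureTheory ProbabilityTheory Matrix Filter
open scoped ENNReal

noncomputable section

namespace Crest.Agent.R285

open TenB

namespace Edge

variable {d : ℕ} {δ G : ℝ} {W : E d → ℝ} {η : ℝ}

theorem stepE_sq_nonneg (hW : Adm δ G W) (hη : 0 < η) (b : E d) {R : E d → ℝ}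
    (hR : R.HasTemperateGrowth) : 0 ≤ stepE W η η b fun x => R x ^ 2 := by
  have h4 := stepE_mono hW η η b (PG.of_temp (Function.HasTemperateGrowth.const (0 : ℝ)))
    (PG.of_temp (temp_sq hR)) fun y => sq_nonneg _
  rwa [stepE_const hW hη.le le_rfl] at h4

/-- the expansion of one covariance -/
theorem one (hW : Adm δ G W) (hη : 0 < η) (h2 : 2 * η * δ ≤ 1) (b : E d) (N : ℕ)
    {h F : E d → ℝ} (hh : h.HasTemperateGrowth) (hF : F.HasTemperateGrowth) :
    (stepE W η η b (fun x => F x * h x) - ∑ n ∈ Finset.range (N + 1),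
        η ^ n / n.factorial * pr W η n h (fun b => stepE W η η b F) b) ^ 2 ≤
      (2 * η * ∑ k, stepE W η η b fun x => pd k F x ^ 2) * ((2 * η) ^ (N + 1) *
        ∑ I : Fin (N + 1) → Fin d, stepE W η η b fun x => (jet h x : Ten d (Fin (N + 1))) I ^ 2) := by
  obtain ⟨P, hP, hd, hi, hm⟩ := exists_poly hW hη b N hh
  have hK := temp_stepE hW η η hF
  have hR := temp_sub' hh hP
  set c : ℝ := stepE W η η b F with hc
  have hFc : (fun x => F x - c).HasTemperateGrowth :=
    temp_sub' hF (Function.HasTemperateGrowth.const c)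
  have hmean : ∀ l : List (Fin d), l.length < N + 1 →
      stepE W η η b (pdl l fun x => h x - P x) = 0 := by
    intro l hl
    rw [pdl_sub hh hP, stepE_sub hW η η b (PG.of_temp (temp_pdl hh l))
      (PG.of_temp (temp_pdl hP l)), hm l (by omega), sub_self]
  have h1 : ∑ n ∈ Finset.range (N + 1),
      η ^ n / n.factorial * pr W η n h (fun b => stepE W η η b F) b =
      stepE W η η b (fun x => F x * P x) := by
    rw [hi F hF b]
    refine Finset.sum_congr rfl fun n hn => ?_
    rw [pr_eq_sum n hh hK, pr_eq_sum n hP hK]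
    congr 1
    refine Finset.sum_congr rfl fun I _ => ?_
    obtain ⟨l, hl, e⟩ := jet_eq_pdl I
    rw [e, e, hm l (by have := Finset.mem_range.1 hn; omega)]
  have h3 : stepE W η η b (fun x => F x * h x) - stepE W η η b (fun x => F x * P x) =
      stepE W η η b (fun x => (F x - c) * (h x - P x)) := by
    have h4 : stepE W η η b (fun x => h x - P x) = 0 := hmean [] (by simp)
    have h5 : (fun x => (F x - c) * (h x - P x)) =
        fun x => (F x * h x - F x * P x) - c * (h x - P x) := funext fun x => by ring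
    rw [h5, stepE_sub hW η η b (PG.of_temp (temp_sub' (temp_mul hF hh) (temp_mul hF hP)))
      (PG.of_temp (temp_cmul c hR)), stepE_cmul, h4, stepE_sub hW η η b
      (PG.of_temp (temp_mul hF hh)) (PG.of_temp (temp_mul hF hP))]
    ring
  rw [h1, h3]
  refine (stepE_mul_sq_le hW η η b (PG.of_temp hFc) (PG.of_temp hR)).trans ?_
  have h6 : stepE W η η b (fun x => (F x - c) ^ 2) ≤
      2 * η * ∑ k, stepE W η η b fun x => pd k F x ^ 2 := by
    have h7 := poin2 hW hη h2 b hFc
    have h8 : stepE W η η b (fun x => F x - c) = 0 := by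
      rw [stepE_sub hW η η b (PG.of_temp hF) (PG.of_temp (Function.HasTemperateGrowth.const c)),
        stepE_const hW hη.le le_rfl, sub_self]
    have h9 : ∀ k x, pd k (fun x => F x - c) x = pd k F x := fun k x => by
      rw [pd_sub' (tdiff hF x) (differentiableAt_const c), pd_const, sub_zero]
    simp only [h8, h9] at h7
    linarith
  have h10 := poin_iter hW hη h2 b (N + 1) hR hmean
  have h11 : ∀ (I : Fin (N + 1) → Fin d) x,
      (jet (fun x => h x - P x) x : Ten d (Fin (N + 1))) I = (jet h x : Ten d (Fin (N + 1))) I := by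
    intro I x
    obtain ⟨l, hl, e⟩ := jet_eq_pdl I
    rw [congrFun (e _) x, congrFun (e _) x, pdl_sub hh hP, hd l (by omega)]
    simp
  simp only [h11] at h10
  exact mul_le_mul h6 h10 (stepE_sq_nonneg hW hη b hR)
    ((stepE_sq_nonneg hW hη b hFc).trans h6)

theorem hess_row_le (hW : Adm δ G W) (hδ : 0 ≤ δ) (a : Fin d) (x : E d) :
    ∑ k, pd k (pd a W) x ^ 2 ≤ δ ^ 2 := by
  have h1 := hW.hess_le x (grad (pd a W) x) (Pi.single a 1)
  have h2 : nrm (Pi.single a 1 : E d) = 1 := by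
    simp [nrm, Pi.single_apply]
  have h3 : ∑ i, ∑ j, pd i (pd j W) x * grad (pd a W) x i * (Pi.single a 1 : E d) j =
      nrm (grad (pd a W) x) ^ 2 := by
    rw [nrm_sq]
    refine Finset.sum_congr rfl fun i _ => ?_
    simp [Pi.single_apply, grad, sq]
  rw [h2, h3, mul_one] at h1
  have h4 := nrm_nonneg (grad (pd a W) x)
  have h5 : ∑ k, pd k (pd a W) x ^ 2 = nrm (grad (pd a W) x) ^ 2 := by rw [nrm_sq]; rfl
  have h6 := (le_abs_self _).trans h1
  rw [h5]
  refine pow_le_pow_left₀ h4 ?_ 2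
  by_contra h7
  nlinarith [not_le.1 h7]

end Edge

open Edge in
theorem edgeworth (N : ℕ) : ∃ C : ℝ, 1 ≤ C ∧ ∀ (d : ℕ) (δ G : ℝ) (W : E d → ℝ), Adm δ G W →
    0 ≤ δ → ∀ η, 0 < η → 2 * η * δ ≤ 1 → ∀ f : E d → ℝ, f.HasTemperateGrowth → ∀ A : ℝ,
    (∀ y, nrm (jet f y : Ten d (Option (Fin (N + 1)))) ≤ A) → ∀ (lam : ℝ) (y₀ b : E d),
    |stepE W η η b (fun x => grad f (y₀ + (lam / η) • (x - b)) ⬝ᵥ grad W x) -
        ∑ n ∈ Finset.range (N + 1), lam ^ n / n.factorial *
          stepE W η η b (fun x => (jet f (y₀ + (lam / η) • (x - b)) : Ten d (Option (Fin n))) ⬝ᵥ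
            tau W η b)|
      ≤ C * A * δ * √(η * d) * (|lam| / √η) ^ (N + 1) := by
  refine ⟨2 ^ (N + 2), one_le_pow₀ (by norm_num), ?_⟩
  intro d δ G W hW hδ η hη h2 f hf A hA lam y₀ b
  have hA0 : 0 ≤ A := (nrm_nonneg _).trans (hA 0)
  set c : ℝ := lam / η with hc
  have hφe : ∀ x : E d, y₀ + c • (x - b) = (y₀ - c • b) + c • x := fun x => by
    rw [smul_sub]; abel
  have hφ : (fun x : E d => y₀ + c • (x - b)).HasTemperateGrowth := by
    simp only [hφe]
    exact (Function.HasTemperateGrowth.const _).add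
      (c • ContinuousLinearMap.id ℝ (E d)).hasTemperateGrowth
  set h : Fin d → E d → ℝ := fun a x => pd a f (y₀ + c • (x - b)) with hh
  have hht : ∀ a, (h a).HasTemperateGrowth := fun a => (temp_pd hf a).comp hφ
  have hFt : ∀ a, (pd a W).HasTemperateGrowth := fun a => temp_pd hW.temp a
  have hjet : ∀ (n : ℕ) (a : Fin d) (I : Fin n → Fin d) (x : E d),
      (jet (h a) x : Ten d (Fin n)) I =
        c ^ n * (jet f (y₀ + c • (x - b)) : Ten d (Option (Fin n))) (oc a I) := by
    intro n a I x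
    simp only [hh, hφe]
    rw [jet_comp_affine (temp_pd hf a).1, Fintype.card_fin, Pi.smul_apply, smul_eq_mul,
      jet_pd hf.1]
  have hjt : ∀ (n : ℕ) (i : Option (Fin n) → Fin d),
      (fun x => (jet f (y₀ + c • (x - b)) : Ten d (Option (Fin n))) i).HasTemperateGrowth :=
    fun n i => (temp_coord (temp_jet hf) i).comp hφ
  have hK : ∀ a, (fun b => stepE W η η b (pd a W)) = pd a (Phi W η) := by
    intro a
    funext b
    have h1 := congrFun (tau1_step hW hη.le le_rfl b) a
    rw [sub_self, tau1_zero, stepE_apply hW η η b (PG.of_temp (temp_grad hW.temp))] at h1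
    exact h1.symm
  -- the expression is a sum of covariance remainders
  have e1 : stepE W η η b (fun x => grad f (y₀ + c • (x - b)) ⬝ᵥ grad W x) =
      ∑ a, stepE W η η b fun x => pd a W x * h a x := by
    rw [← stepE_sum hW η η b _ fun a _ => PG.of_temp (temp_mul (hFt a) (hht a))]
    congr 1
    funext x
    exact Finset.sum_congr rfl fun a _ => mul_comm _ _
  have e2 : ∀ n : ℕ, lam ^ n / n.factorial * stepE W η η b (fun x =>
      (jet f (y₀ + c • (x - b)) : Ten d (Option (Fin n))) ⬝ᵥ tau W η b) =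
      ∑ a, η ^ n / n.factorial * pr W η n (h a) (fun b => stepE W η η b (pd a W)) b := by
    intro n
    have h1 : lam ^ n = η ^ n * c ^ n := by rw [← mul_pow, hc, mul_div_cancel₀ _ hη.ne']
    unfold dotProduct
    rw [stepE_sum hW η η b _ fun i _ =>
      PG.of_temp (temp_mul (hjt n i) (Function.HasTemperateGrowth.const _)), sum_option,
      Finset.mul_sum]
    refine Finset.sum_congr rfl fun a _ => ?_
    rw [hK, pr_eq_sum n (hht a) (temp_pd (temp_Phi hW η) a), Finset.mul_sum, Finset.mul_sum]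
    refine Finset.sum_congr rfl fun I _ => ?_
    simp only [hjet, mul_comm _ (tau W η b (oc a I)), stepE_cmul]
    rw [jet_pd (contDiff_Phi hW η), h1]
    unfold tau
    ring
  simp only [e1, e2]
  rw [Finset.sum_comm, ← Finset.sum_sub_distrib]
  have hU : ∀ a, 2 * η * ∑ k, (stepE W η η b fun x => pd k (pd a W) x ^ 2) ≤ 2 * η * δ ^ 2 := by
    intro a
    refine mul_le_mul_of_nonneg_left ?_ (by positivity)
    rw [← stepE_sum hW η η b _ fun k _ => PG.of_temp (temp_sq (temp_pd (hFt a) k))]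
    have h1 := stepE_mono hW η η b
      (PG.of_temp (temp_sum Finset.univ fun k _ => temp_sq (temp_pd (hFt a) k)))
      (PG.of_temp (Function.HasTemperateGrowth.const (δ ^ 2))) (hess_row_le hW hδ a)
    rwa [stepE_const hW hη.le le_rfl] at h1
  set V : Fin d → ℝ := fun a => (2 * η) ^ (N + 1) * ∑ I : Fin (N + 1) → Fin d,
    stepE W η η b fun x => (jet (h a) x : Ten d (Fin (N + 1))) I ^ 2 with hV
  have hV0 : ∀ a, 0 ≤ V a := fun a => mul_nonneg (by positivity)
    (Finset.sum_nonneg fun I _ => stepE_sq_nonneg hW hη b (temp_coord (temp_jet (hht a)) I))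
  have hVs : ∑ a, V a ≤ (2 * η) ^ (N + 1) * ((c ^ (N + 1)) ^ 2 * A ^ 2) := by
    simp only [hV, ← Finset.mul_sum, hjet, mul_pow, stepE_cmul]
    refine mul_le_mul_of_nonneg_left (mul_le_mul_of_nonneg_left ?_ (by positivity))
      (by positivity)
    rw [← sum_option (fun i => stepE W η η b fun x =>
      (jet f (y₀ + c • (x - b)) : Ten d (Option (Fin (N + 1)))) i ^ 2),
      ← stepE_sum hW η η b _ fun i _ => PG.of_temp (temp_sq (hjt _ i))]
    have h1 := stepE_mono hW η η b
      (PG.of_temp (temp_sum Finset.univ fun i _ => temp_sq (hjt (N + 1) i)))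
      (PG.of_temp (Function.HasTemperateGrowth.const (A ^ 2))) fun x => by
        rw [← nrm_sq]
        exact pow_le_pow_left₀ (nrm_nonneg _) (hA _) 2
    rwa [stepE_const hW hη.le le_rfl] at h1
  refine abs_le_of_sq_le_sq ?_ (by positivity)
  refine (Finset.sum_sq_le_sum_mul_sum_of_sq_le_mul Finset.univ (f := fun _ => 2 * η * δ ^ 2)
    (g := V) (fun _ _ => by positivity) (fun a _ => hV0 a) (fun a _ =>
      (one hW hη h2 b N (hht a) (hFt a)).trans (mul_le_mul_of_nonneg_right (hU a) (hV0 a)))).trans ?_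
  rw [Finset.sum_const, Finset.card_univ, Fintype.card_fin, nsmul_eq_mul]
  refine (mul_le_mul_of_nonneg_left hVs (by positivity)).trans ?_
  have e3 : ((|lam| / √η) ^ (N + 1)) ^ 2 = η ^ (N + 1) * (c ^ (N + 1)) ^ 2 := by
    rw [← pow_mul, mul_comm (N + 1) 2, pow_mul, div_pow, sq_abs, Real.sq_sqrt hη.le, ← pow_mul,
      mul_comm (N + 1) 2, pow_mul, ← mul_pow, hc]
    congr 1
    field_simp
  have e4 : (2 ^ (N + 2) * A * δ * √(η * d) * (|lam| / √η) ^ (N + 1)) ^ 2 =
      2 ^ (N + 2) * (d * (2 * η * δ ^ 2) * ((2 * η) ^ (N + 1) * ((c ^ (N + 1)) ^ 2 * A ^ 2))) := by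
    rw [mul_pow, mul_pow, e3, Real.sq_sqrt (by positivity)]
    ring
  rw [e4]
  exact le_mul_of_one_le_left (by positivity) (one_le_pow₀ (by norm_num))

end Crest.Agent.R285

end
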