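import Crest.Agent.R285.Poin

/-!
Auxiliary results for the Edgeworth expansion: the cumulant expansion is exact on polynomials,
every function has a polynomial with the same mean derivatives, iterated Poincaré inequality.
-/

set_option autoImplicit false

open MeasureTheory ProbabilityTheory Matrix Filter
open scoped ENNReal

noncomputable section

namespace Crest.Agent.R285.Edge

open TenB

variable {d : ℕ} {δ G : ℝ} {W : E d → ℝ} {η : ℝ}

theorem tdiff {f : E d → ℝ} (hf : f.HasTemperateGrowth) (x : E d) : DifferentiableAt ℝ f x :=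
  (hf.1.differentiable (by simp)) x

theorem temp_add {f g : E d → ℝ} (hf : f.HasTemperateGrowth) (hg : g.HasTemperateGrowth) :
    (fun x => f x + g x).HasTemperateGrowth := hf.add hg

theorem temp_sub' {f g : E d → ℝ} (hf : f.HasTemperateGrowth) (hg : g.HasTemperateGrowth) :
    (fun x => f x - g x).HasTemperateGrowth := hf.sub hg

theorem temp_cmul (c : ℝ) {f : E d → ℝ} (hf : f.HasTemperateGrowth) :
    (fun x => c * f x).HasTemperateGrowth := temp_mul (Function.HasTemperateGrowth.const c) hf

theorem temp_x (i : Fin d) : (fun x : E d => x i).HasTemperateGrowth :=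
  (ContinuousLinearMap.proj (R := ℝ) (φ := fun _ : Fin d => ℝ) i).hasTemperateGrowth

theorem temp_sq {f : E d → ℝ} (hf : f.HasTemperateGrowth) :
    (fun x => f x ^ 2).HasTemperateGrowth := hf.pow 2

theorem pdl_cons (i : Fin d) (l : List (Fin d)) (f : E d → ℝ) :
    pdl (i :: l) f = pd i (pdl l f) := rfl

theorem pdl_concat (l : List (Fin d)) (k : Fin d) (f : E d → ℝ) :
    pdl (l ++ [k]) f = pdl l (pd k f) := by
  simp [pdl, List.foldr_append]

theorem pdl_add {f g : E d → ℝ} (hf : f.HasTemperateGrowth) (hg : g.HasTemperateGrowth)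
    (l : List (Fin d)) : pdl l (fun x => f x + g x) = fun x => pdl l f x + pdl l g x := by
  induction l with
  | nil => rfl
  | cons i l ih =>
    funext x
    rw [pdl_cons, ih, pd_add (tdiff (temp_pdl hf l) x) (tdiff (temp_pdl hg l) x)]
    rfl

theorem pd_sub' {f g : E d → ℝ} {x : E d} (hf : DifferentiableAt ℝ f x)
    (hg : DifferentiableAt ℝ g x) (i : Fin d) :
    pd i (fun y => f y - g y) x = pd i f x - pd i g x := by
  unfold pd
  rw [fderiv_fun_sub hf hg]
  rfl

theorem pdl_sub {f g : E d → ℝ} (hf : f.HasTemperateGrowth) (hg : g.HasTemperateGrowth)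
    (l : List (Fin d)) : pdl l (fun x => f x - g x) = fun x => pdl l f x - pdl l g x := by
  induction l with
  | nil => rfl
  | cons i l ih =>
    funext x
    rw [pdl_cons, ih, pd_sub' (tdiff (temp_pdl hf l) x) (tdiff (temp_pdl hg l) x)]
    rfl

theorem stepE_cmul (W : E d → ℝ) (η t : ℝ) (b : E d) (c : ℝ) (h : E d → ℝ) :
    stepE W η t b (fun y => c * h y) = c * stepE W η t b h := stepE_smul W η t b c h

/-! ### sums over multi-indices -/

theorem sum_fin_succ {n : ℕ} (φ : (Fin (n + 1) → Fin d) → ℝ) :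
    ∑ I, φ I = ∑ k, ∑ I : Fin n → Fin d, φ (Fin.cons k I) := by
  rw [← (Fin.consEquiv fun _ : Fin (n + 1) => Fin d).sum_comp, Fintype.sum_prod_type]
  rfl

theorem jet_cons {f : E d → ℝ} (hf : ContDiff ℝ (⊤ : ℕ∞) f) {n : ℕ} (k : Fin d)
    (I : Fin n → Fin d) (y : E d) :
    (jet f y : Ten d (Fin (n + 1))) (Fin.cons k I) = (jet (pd k f) y : Ten d (Fin n)) I := by
  rw [jet_pd hf, ← jet_reix hf (finSuccEquiv n).symm y]
  unfold reix
  congr 1
  funext s
  rcases s with _ | s <;> simp

theorem jet_eq_pdl {n : ℕ} (I : Fin n → Fin d) :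
    ∃ l : List (Fin d), l.length = n ∧
      ∀ (f : E d → ℝ), (fun y => (jet f y : Ten d (Fin n)) I) = pdl l f :=
  ⟨(Finset.univ : Finset (Fin n)).toList.map I, by simp, fun _ => rfl⟩

/-! ### the pairing -/

/-- `∑_I E_b[∂_I h] ∂_I K (b)` -/
def pr (W : E d → ℝ) (η : ℝ) : ℕ → (E d → ℝ) → (E d → ℝ) → E d → ℝ
  | 0, h, K => fun b => stepE W η η b h * K b
  | n + 1, h, K => fun b => ∑ k, pr W η n (pd k h) (pd k K) b

theorem pr_eq_sum (n : ℕ) : ∀ {h K : E d → ℝ}, h.HasTemperateGrowth → K.HasTemperateGrowth →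
    ∀ b, pr W η n h K b = ∑ I : Fin n → Fin d,
      stepE W η η b (fun x => (jet h x : Ten d (Fin n)) I) * (jet K b : Ten d (Fin n)) I := by
  induction n with
  | zero =>
    intro h K _ _ b
    simp only [pr, jet_empty, Finset.univ_unique, Finset.sum_singleton]
  | succ n ih =>
    intro h K hh hK b
    rw [sum_fin_succ]
    simp only [pr, jet_cons hh.1, jet_cons hK.1]
    exact Finset.sum_congr rfl fun k _ => ih (temp_pd hh k) (temp_pd hK k) b

theorem temp_pr (hW : Adm δ G W) (n : ℕ) : ∀ {h K : E d → ℝ}, h.HasTemperateGrowth →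
    K.HasTemperateGrowth → (pr W η n h K).HasTemperateGrowth := by
  induction n with
  | zero => exact fun hh hK => temp_mul (temp_stepE hW η η hh) hK
  | succ n ih => exact fun hh hK => temp_sum _ fun k _ => ih (temp_pd hh k) (temp_pd hK k)

theorem pr_add (hW : Adm δ G W) (n : ℕ) : ∀ {h h' : E d → ℝ} (K : E d → ℝ),
    h.HasTemperateGrowth → h'.HasTemperateGrowth → ∀ b,
    pr W η n (fun x => h x + h' x) K b = pr W η n h K b + pr W η n h' K b := by
  induction n with
  | zero =>
    intro h h' K hh hh' b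
    simp only [pr]
    rw [stepE_add hW η η b (PG.of_temp hh) (PG.of_temp hh'), add_mul]
  | succ n ih =>
    intro h h' K hh hh' b
    simp only [pr, ← Finset.sum_add_distrib]
    refine Finset.sum_congr rfl fun k _ => ?_
    have : pd k (fun x => h x + h' x) = fun x => pd k h x + pd k h' x :=
      funext fun x => pd_add (tdiff hh x) (tdiff hh' x) k
    rw [this, ih _ (temp_pd hh k) (temp_pd hh' k)]

theorem pr_cmul (c : ℝ) (n : ℕ) : ∀ {h : E d → ℝ} (K : E d → ℝ),
    h.HasTemperateGrowth → ∀ b, pr W η n (fun x => c * h x) K b = c * pr W η n h K b := by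
  induction n with
  | zero =>
    intro h K _ b
    simp only [pr]
    rw [stepE_cmul, mul_assoc]
  | succ n ih =>
    intro h K hh b
    simp only [pr, Finset.mul_sum]
    refine Finset.sum_congr rfl fun k _ => ?_
    have : pd k (fun x => c * h x) = fun x => c * pd k h x :=
      funext fun x => pd_const_mul (tdiff hh x) c k
    rw [this, ih _ (temp_pd hh k)]

theorem pr_eq_zero (n : ℕ) : ∀ {h : E d → ℝ} (K : E d → ℝ),
    (∀ l : List (Fin d), l.length = n → pdl l h = fun _ => 0) → pr W η n h K = fun _ => 0 := by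
  induction n with
  | zero =>
    intro h K hh
    funext b
    have h0 : h = fun _ => 0 := hh [] rfl
    have h1 := stepE_cmul W η η b 0 h
    simp only [zero_mul] at h1
    simp only [pr, h0, h1, zero_mul]
  | succ n ih =>
    intro h K hh
    funext b
    simp only [pr]
    refine Finset.sum_eq_zero fun k _ => ?_
    rw [ih (pd k K) fun l hl => by rw [← pdl_concat]; exact hh _ (by simp [hl])]

/-- the score identity -/
theorem stepE_x_mul (hW : Adm δ G W) (hη : 0 < η) {h : E d → ℝ} (hh : h.HasTemperateGrowth)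
    (i : Fin d) (b : E d) : stepE W η η b (fun x => x i * h x) =
      η * pd i (fun b => stepE W η η b h) b + (b i - η * tau1 W η b i) * stepE W η η b h := by
  have h1 := pd_stepE hW hη.le le_rfl hh i b
  have h2 := stepE_ibp hW hη.le le_rfl hh i b
  have h3 : stepE W η η b (fun y => (y i - b i) * h y) =
      stepE W η η b (fun x => x i * h x) - b i * stepE W η η b h := by
    rw [← stepE_cmul, ← stepE_sub hW η η b (PG.of_temp (temp_mul (temp_x i) hh))
      (PG.of_temp (temp_cmul _ hh))]
    simp only [sub_mul]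
  rw [h1]
  linear_combination h2 - h3

theorem pr_x_mul (hW : Adm δ G W) (hη : 0 < η) (i : Fin d) (n : ℕ) : ∀ {g K : E d → ℝ},
    g.HasTemperateGrowth → K.HasTemperateGrowth → ∀ b,
    pr W η n (fun x => x i * g x) K b =
      η * pd i (pr W η n g K) b + (b i - η * tau1 W η b i) * pr W η n g K b
        - η * pr W η n g (pd i K) b + n * pr W η (n - 1) g (pd i K) b := by
  induction n with
  | zero =>
    intro g K hg hK b
    simp only [pr]
    rw [stepE_x_mul hW hη hg, pd_mul (tdiff (temp_stepE hW η η hg) b) (tdiff hK b)]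
    push_cast
    ring
  | succ n ih =>
    intro g K hg hK b
    have h1 : ∀ k, pd k (fun x => x i * g x) =
        fun x => x i * pd k g x + (if i = k then 1 else 0) * g x := by
      intro k
      funext x
      rw [pd_mul (tdiff (temp_x i) x) (tdiff hg x), pd_coord, add_comm]
    have h2 : ∀ k, pr W η n (pd k fun x => x i * g x) (pd k K) b =
        η * pd i (pr W η n (pd k g) (pd k K)) b
          + (b i - η * tau1 W η b i) * pr W η n (pd k g) (pd k K) b
          - η * pr W η n (pd k g) (pd k (pd i K)) b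
          + n * pr W η (n - 1) (pd k g) (pd k (pd i K)) b
          + (if i = k then 1 else 0) * pr W η n g (pd k K) b := by
      intro k
      rw [h1, pr_add hW n _ (temp_mul (temp_x i) (temp_pd hg k)) (temp_cmul _ hg),
        pr_cmul _ n _ hg, ih (temp_pd hg k) (temp_pd hK k), pd_comm hK.1 i k]
    have h3 : (n : ℝ) * ∑ k, pr W η (n - 1) (pd k g) (pd k (pd i K)) b =
        n * pr W η n g (pd i K) b := by
      cases n with
      | zero => simp
      | succ n => rfl
    have h4 : pd i (pr W η (n + 1) g K) b = ∑ k, pd i (pr W η n (pd k g) (pd k K)) b :=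
      pd_sum _ (fun k _ => tdiff (temp_pr hW n (temp_pd hg k) (temp_pd hK k)) b) i
    rw [h4]
    simp only [pr, h2, Finset.sum_add_distrib, Finset.sum_sub_distrib, ← Finset.mul_sum, h3,
      ite_mul, one_mul, zero_mul, Finset.sum_ite_eq, Finset.mem_univ, if_true,
      Nat.add_sub_cancel]
    push_cast
    ring

/-- the cumulant expansion of order `N` is exact for `P` -/
def Idn (W : E d → ℝ) (η : ℝ) (N : ℕ) (P : E d → ℝ) : Prop :=
  ∀ F : E d → ℝ, F.HasTemperateGrowth → ∀ b, stepE W η η b (fun x => F x * P x) =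
    ∑ n ∈ Finset.range (N + 1), η ^ n / n.factorial * pr W η n P (fun b => stepE W η η b F) b

/-- degree at most `N` -/
def Deg (N : ℕ) (P : E d → ℝ) : Prop :=
  ∀ l : List (Fin d), N < l.length → pdl l P = fun _ => 0

theorem Idn.const (hW : Adm δ G W) (hη : 0 < η) (c : ℝ) : Idn W η 0 (fun _ => c) := by
  intro F _ b
  simp only [zero_add, Finset.range_one, Finset.sum_singleton, pr, pow_zero, Nat.factorial_zero,
    Nat.cast_one, div_one, one_mul]
  rw [stepE_const hW hη.le le_rfl, ← stepE_cmul]
  simp only [mul_comm]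

theorem Idn.succ {N : ℕ} {P : E d → ℝ} (h : Idn W η N P) (hd : Deg N P) : Idn W η (N + 1) P := by
  intro F hF b
  rw [Finset.sum_range_succ, pr_eq_zero (N + 1) _ fun l hl => hd l (by omega), h F hF b]
  simp

theorem Idn.add (hW : Adm δ G W) {N : ℕ} {P P' : E d → ℝ} (h : Idn W η N P) (h' : Idn W η N P')
    (hP : P.HasTemperateGrowth) (hP' : P'.HasTemperateGrowth) :
    Idn W η N fun x => P x + P' x := by
  intro F hF b
  simp only [mul_add, pr_add hW _ _ hP hP', Finset.sum_add_distrib]
  rw [stepE_add hW η η b (PG.of_temp (temp_mul hF hP)) (PG.of_temp (temp_mul hF hP')), h F hF b,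
    h' F hF b]

theorem Idn.cmul {N : ℕ} {P : E d → ℝ} (h : Idn W η N P) (hP : P.HasTemperateGrowth) (c : ℝ) :
    Idn W η N fun x => c * P x := by
  intro F hF b
  have h1 : (fun x => F x * (c * P x)) = fun x => c * (F x * P x) := funext fun x => by ring
  rw [h1, stepE_cmul, h F hF b, Finset.mul_sum]
  refine Finset.sum_congr rfl fun n _ => ?_
  rw [pr_cmul c n _ hP]
  ring

theorem Idn.sum (hW : Adm δ G W) {N : ℕ} {κ : Type} (s : Finset κ) {P : κ → E d → ℝ}
    (h : ∀ k, Idn W η N (P k)) (hP : ∀ k, (P k).HasTemperateGrowth) :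
    Idn W η N fun x => ∑ k ∈ s, P k x := by
  classical
  induction s using Finset.induction_on with
  | empty =>
    intro F _ b
    have h1 := stepE_cmul W η η b 0 F
    have h2 : ∀ n (K : E d → ℝ), pr W η n (fun _ => 0) K b = 0 := fun n K => by
      simpa using pr_cmul (W := W) (η := η) 0 n K (Function.HasTemperateGrowth.const (0 : ℝ)) b
    simp only [zero_mul] at h1
    simp [h1, h2]
  | insert a s ha ih =>
    simp only [Finset.sum_insert ha]
    exact Idn.add hW (h a) ih (hP a) (temp_sum _ fun k _ => hP k)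

theorem Idn.x_mul (hW : Adm δ G W) (hη : 0 < η) {N : ℕ} {g : E d → ℝ} (h : Idn W η N g)
    (hg : g.HasTemperateGrowth) (hd : Deg N g) (i : Fin d) :
    Idn W η (N + 1) fun x => x i * g x := by
  intro F hF b
  set K : E d → ℝ := fun b => stepE W η η b F with hK
  have hKt : K.HasTemperateGrowth := temp_stepE hW η η hF
  have h1 : (fun x => F x * (x i * g x)) = fun x => x i * (F x * g x) := funext fun x => by ring
  have h2 : (fun b => stepE W η η b fun x => F x * g x) =
      fun b => ∑ n ∈ Finset.range (N + 1 + 1), η ^ n / n.factorial * pr W η n g K b :=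
    funext fun b => h.succ hd F hF b
  have h3 : ∑ n ∈ Finset.range (N + 1 + 1), η ^ n / n.factorial *
      (n * pr W η (n - 1) g (pd i K) b - η * pr W η n g (pd i K) b) = 0 := by
    have h4 : ∀ n : ℕ, η ^ n / n.factorial *
        (n * pr W η (n - 1) g (pd i K) b - η * pr W η n g (pd i K) b) =
        (fun n : ℕ => η ^ n / n.factorial * (n * pr W η (n - 1) g (pd i K) b)) n -
        (fun n : ℕ => η ^ n / n.factorial * (n * pr W η (n - 1) g (pd i K) b)) (n + 1) := by
      intro n
      have : (n.factorial : ℝ) ≠ 0 := by positivity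
      simp only [Nat.add_sub_cancel, Nat.factorial_succ]
      push_cast
      field_simp
      ring
    simp only [h4]
    rw [Finset.sum_range_sub']
    simp only [Nat.add_sub_cancel]
    rw [pr_eq_zero (N + 1) _ fun l hl => hd l (by omega)]
    simp
  rw [h1, stepE_x_mul hW hη (temp_mul hF hg), h2, congrFun h2 b,
    pd_sum _ (fun n _ => tdiff (temp_cmul _ (temp_pr hW n hg hKt)) b), ← add_zero (_ + _), ← h3,
    Finset.mul_sum, Finset.mul_sum, ← Finset.sum_add_distrib, ← Finset.sum_add_distrib]
  refine Finset.sum_congr rfl fun n _ => ?_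
  rw [pd_const_mul (tdiff (temp_pr hW n hg hKt) b), pr_x_mul hW hη i n hg hKt]
  ring

/-! ### homogeneous polynomials with prescribed derivatives -/

/-- the homogeneous polynomial of degree `N` with derivatives `t` -/
def Q : ℕ → (List (Fin d) → ℝ) → E d → ℝ
  | 0, t => fun _ => t []
  | N + 1, t => fun x => ((N : ℝ) + 1)⁻¹ * ∑ i, x i * Q N (fun l => t (i :: l)) x

theorem temp_Q (N : ℕ) : ∀ t : List (Fin d) → ℝ, (Q N t).HasTemperateGrowth := by
  induction N with
  | zero => exact fun t => Function.HasTemperateGrowth.const _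
  | succ N ih => exact fun t => temp_cmul _ (temp_sum _ fun i _ => temp_mul (temp_x i) (ih _))

theorem pd_Q (k : Fin d) (N : ℕ) : ∀ t : List (Fin d) → ℝ,
    (∀ l l' : List (Fin d), l.Perm l' → t l = t l') →
    pd k (Q (N + 1) t) = Q N fun l => t (k :: l) := by
  have key : ∀ (N : ℕ) (t : List (Fin d) → ℝ) (x : E d), pd k (Q (N + 1) t) x =
      ((N : ℝ) + 1)⁻¹ * (Q N (fun l => t (k :: l)) x +
        ∑ i, x i * pd k (Q N fun l => t (i :: l)) x) := by
    intro N t x
    change pd k (fun x => ((N : ℝ) + 1)⁻¹ * ∑ i, x i * Q N (fun l => t (i :: l)) x) x = _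
    rw [pd_const_mul (tdiff (temp_sum _ fun i _ => temp_mul (temp_x i) (temp_Q N _)) x),
      pd_sum _ (fun i _ => tdiff (temp_mul (temp_x i) (temp_Q N _)) x)]
    simp only [fun i => pd_mul (tdiff (temp_x i) x) (tdiff (temp_Q N fun l => t (i :: l)) x) k,
      pd_coord, Finset.sum_add_distrib, ite_mul, one_mul, zero_mul, Finset.sum_ite_eq',
      Finset.mem_univ, if_true]
  induction N with
  | zero =>
    intro t _
    funext x
    rw [key]
    simp [Q, pd_const]
  | succ N ih =>
    intro t ht
    funext x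
    rw [key]
    have h1 : ∀ i, pd k (Q (N + 1) fun l => t (i :: l)) = Q N fun l => t (k :: i :: l) := by
      intro i
      rw [ih _ fun l l' h => ht _ _ (h.cons i)]
      congr 1
      funext l
      exact ht _ _ (List.Perm.swap _ _ _)
    simp only [h1]
    simp only [Q]
    push_cast
    field_simp
    ring

theorem pdl_Q (l : List (Fin d)) : ∀ (m : ℕ) (t : List (Fin d) → ℝ),
    (∀ l l' : List (Fin d), l.Perm l' → t l = t l') →
    pdl l (Q (m + l.length) t) = Q m fun r => t (l ++ r) := by
  induction l with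
  | nil => intro m t _; rfl
  | cons i l ih =>
    intro m t ht
    have h1 : m + (i :: l).length = (m + 1) + l.length := by simp only [List.length_cons]; omega
    rw [h1, pdl_cons, ih _ t ht, pd_Q i m _ fun r r' h => ht _ _ (h.append_left l)]
    congr 1
    funext r
    exact ht _ _ List.perm_middle

theorem deg_Q (N : ℕ) (t : List (Fin d) → ℝ)
    (ht : ∀ l l' : List (Fin d), l.Perm l' → t l = t l') : Deg N (Q N t) := by
  intro l
  induction l with
  | nil => intro h; simp at h
  | cons i l ih =>
    intro h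
    funext x
    rcases (Nat.lt_succ_iff.1 h).eq_or_lt with h1 | h1
    · have h2 := pdl_Q l 0 t ht
      rw [zero_add, ← h1] at h2
      rw [pdl_cons, h2]
      exact pd_const _ _ _
    · rw [pdl_cons, ih h1]
      exact pd_const _ _ _

theorem idn_Q (hW : Adm δ G W) (hη : 0 < η) (N : ℕ) : ∀ (t : List (Fin d) → ℝ),
    (∀ l l' : List (Fin d), l.Perm l' → t l = t l') → Idn W η N (Q N t) := by
  induction N with
  | zero => exact fun t _ => Idn.const hW hη _
  | succ N ih =>
    intro t ht
    have h1 : ∀ i : Fin d, ∀ l l' : List (Fin d), l.Perm l' → t (i :: l) = t (i :: l') :=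
      fun i l l' h => ht _ _ (h.cons i)
    exact (Idn.sum hW _ (fun i => (ih _ (h1 i)).x_mul hW hη (temp_Q N _) (deg_Q N _ (h1 i)) i)
      fun i => temp_mul (temp_x i) (temp_Q N _)).cmul
      (temp_sum _ fun i _ => temp_mul (temp_x i) (temp_Q N _)) _

/-- a polynomial with the same mean derivatives up to order `N` -/
theorem exists_poly (hW : Adm δ G W) (hη : 0 < η) (b : E d) (N : ℕ) : ∀ {h : E d → ℝ},
    h.HasTemperateGrowth → ∃ P : E d → ℝ, P.HasTemperateGrowth ∧ Deg N P ∧ Idn W η N P ∧
      ∀ l : List (Fin d), l.length ≤ N → stepE W η η b (pdl l P) = stepE W η η b (pdl l h) := by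
  induction N with
  | zero =>
    intro h hh
    have ht : ∀ l l' : List (Fin d), l.Perm l' →
        stepE W η η b (pdl l h) = stepE W η η b (pdl l' h) := fun l l' e => by
      rw [pdl_perm hh.1 e]
    refine ⟨Q 0 fun l => stepE W η η b (pdl l h), temp_Q _ _, deg_Q _ _ ht, idn_Q hW hη _ _ ht,
      fun l hl => ?_⟩
    obtain rfl : l = [] := List.length_eq_zero_iff.1 (by omega)
    exact stepE_const hW hη.le le_rfl b _
  | succ N ih =>
    intro h hh
    have ht : ∀ l l' : List (Fin d), l.Perm l' →
        stepE W η η b (pdl l h) = stepE W η η b (pdl l' h) := fun l l' e => by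
      rw [pdl_perm hh.1 e]
    set q : E d → ℝ := Q (N + 1) fun l => stepE W η η b (pdl l h) with hq
    have hqt : q.HasTemperateGrowth := temp_Q _ _
    obtain ⟨P, hP, hd, hi, hm⟩ := ih (temp_sub' hh hqt)
    refine ⟨fun x => q x + P x, temp_add hqt hP, fun l hl => ?_,
      Idn.add hW (idn_Q hW hη _ _ ht) (hi.succ hd) hqt hP, fun l hl => ?_⟩
    · rw [pdl_add hqt hP, deg_Q _ _ ht l hl, hd l (by omega)]
      simp
    · rw [pdl_add hqt hP, stepE_add hW η η b (PG.of_temp (temp_pdl hqt l))
        (PG.of_temp (temp_pdl hP l))]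
      rcases hl.eq_or_lt with h1 | h1
      · have h2 := pdl_Q l 0 _ ht
        rw [zero_add, h1] at h2
        rw [hd l (by omega), hq, h2, stepE_const hW hη.le le_rfl b (0 : ℝ), add_zero]
        simp only [Q, List.append_nil]
        exact stepE_const hW hη.le le_rfl b _
      · rw [hm l (by omega), pdl_sub hh hqt, stepE_sub hW η η b (PG.of_temp (temp_pdl hh l))
          (PG.of_temp (temp_pdl hqt l))]
        ring

/-! ### Poincaré inequalities -/

theorem poin2 (hW : Adm δ G W) (hη : 0 < η) (h2 : 2 * η * δ ≤ 1) (b : E d) {R : E d → ℝ}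
    (hR : R.HasTemperateGrowth) :
    stepE W η η b (fun x => R x ^ 2) - stepE W η η b R ^ 2 ≤
      2 * η * ∑ k, stepE W η η b fun x => pd k R x ^ 2 := by
  have h1 := poincare hW hη (by linarith) b hR
  have h3 : (stepE W η η b fun x => nrm (grad R x) ^ 2) =
      ∑ k, stepE W η η b fun x => pd k R x ^ 2 := by
    rw [← stepE_sum hW η η b _ fun k _ => PG.of_temp (temp_sq (temp_pd hR k))]
    simp only [nrm_sq, grad]
  rw [h3] at h1
  refine h1.trans (mul_le_mul_of_nonneg_right ?_ (Finset.sum_nonneg fun k _ => ?_))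
  · rw [div_le_iff₀ (by linarith)]
    nlinarith
  · have h4 := stepE_mono hW η η b (PG.of_temp (Function.HasTemperateGrowth.const (0 : ℝ)))
      (PG.of_temp (temp_sq (temp_pd hR k))) fun y => sq_nonneg _
    rwa [stepE_const hW hη.le le_rfl] at h4

theorem poin_iter (hW : Adm δ G W) (hη : 0 < η) (h2 : 2 * η * δ ≤ 1) (b : E d) (n : ℕ) :
    ∀ {R : E d → ℝ}, R.HasTemperateGrowth →
      (∀ l : List (Fin d), l.length < n → stepE W η η b (pdl l R) = 0) →
      stepE W η η b (fun x => R x ^ 2) ≤ (2 * η) ^ n *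
        ∑ I : Fin n → Fin d, stepE W η η b fun x => (jet R x : Ten d (Fin n)) I ^ 2 := by
  induction n with
  | zero =>
    intro R _ _
    simp only [jet_empty, Finset.univ_unique, Finset.sum_singleton, pow_zero, one_mul, le_refl]
  | succ n ih =>
    intro R hR h0
    have h1 := poin2 hW hη h2 b hR
    have h3 : stepE W η η b R = 0 := h0 [] (by simp)
    rw [h3] at h1
    rw [sum_fin_succ]
    simp only [jet_cons hR.1]
    have h4 : ∑ k, (stepE W η η b fun x => pd k R x ^ 2) ≤ (2 * η) ^ n * ∑ k,
        ∑ I : Fin n → Fin d, stepE W η η b fun x => (jet (pd k R) x : Ten d (Fin n)) I ^ 2 := by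
      rw [Finset.mul_sum]
      exact Finset.sum_le_sum fun k _ => ih (temp_pd hR k) fun l hl => by
        rw [← pdl_concat]; exact h0 _ (by simpa using hl)
    have h5 := mul_le_mul_of_nonneg_left h4 (by positivity : 0 ≤ 2 * η)
    rw [pow_succ]
    nlinarith

end Crest.Agent.R285.Edge

end
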