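import Crest.Agent.R285.ExpandAux

/-!
Expansion of a tied first-order term into free terms.

`expand_aux`, induction on `k`. The field `Λ` is the velocity of the block `Z`.
* `k = 0`: both terms are bounded by `∫ nrm Λ` (`ev_blk_nrm`, `abs_sym_le`), empty child.
* step: `one_step` with `N` from `ev_big` (so `K^(-N) ≤ th^B`), `L = K^Ex` from `mem_NG`,
  `m = ⌈K^(E'+1)⌉` where `K^(E'(N+2))` bounds all the losses `(card V · L²)^(N+1)`, `card^(N+2)`,
  `(card V + 1)^(N+1) (K^Ex)^(N+2)` (`NW_sum_le`, `lintegral_NW_join`); `E'` does not depend on `N`.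
  `Gam` is bilinear, `tied` is linear in `Λ`; the field `∑ s, w s • Gam (t s) Θ Λ` is the velocity of a
  block `Z₁` with seeds `V ⊕ Ext V U` and amplitude `a' a / β ≤ a' th` (`smem_Gam`,
  `Blk.exists_of_smem`, coefficients `w s * φ i t * φ' j t`). Apply the induction hypothesis to `Z₁`;
  `freed` is a `sym` by `sym_avg`; merge `-Z₁` with the new child (`Blk.exists_sum`, `sym_pad`,
  `sym_pad'`).
-/

set_option autoImplicit false

open MeasureTheory ProbabilityTheory Matrix Filter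
open scoped ENNReal

noncomputable section

namespace Crest.Agent.R285

open Expand

theorem expand_aux (J Ms B k n : ℕ) : ∃ n' C : ℕ, ∀ᶠ P in LL J Ms, ∀ β δ G : ℝ, Cl P β δ G →
    ∀ (V0 V U : Type) [Fintype V0] [Fintype V] [DecidableEq V] [Fintype U] [DecidableEq U]
      (a a' : ℝ) (F0 : Submodule ℝ (V0 → ℝ)) (Y : Blk P β δ G V0 V n a F0)
      (Z : Blk P β δ G V0 (V ⊕ U) n a' F0) (αU : U → ℝ), Z.α = Sum.elim Y.α αU → 0 < a →
      a ≤ β * P.th → 0 < a' → a' ≤ β → a' * P.th ^ k ≤ P.th ^ B →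
      ∃ (V' : Type) (_ : Fintype V') (Y' : Blk P β δ G V0 V' n' (a' * a / β) F0), ∀ W p,
        ∃ r : Om P.d V0 → ℝ≥0∞, Measurable r ∧
          ∫⁻ x, r x ∂gam (V0 × Fin P.d) ≤ ENNReal.ofReal (P.K ^ C * P.th ^ B * P.D) ∧
          ∀ x, ∀ t ∈ Set.Icc (0 : ℝ) 1, ∀ ρ, P.K ^ n' ≤ ρ → ∀ f, TF f →
            ENNReal.ofReal
              |tied ρ f Y.α (fun ζ i => Y.N W p x t ζ (i ())) αU (fun ξ i => Z.Y' W p x t ξ (i ())) -
                sym ρ (fun y => ∫ ζ, f (Y.Y W p x t ζ + y) ∂gam (V × Fin P.d)) Z.α (Z.Y' W p x t) +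
                sym ρ (fun y => ∫ ζ, f (Y.Y W p x t ζ + y) ∂gam (V × Fin P.d)) Y'.α
                  (Y'.Y' W p x t)| ≤ r x := by
  induction k generalizing n with
  | zero =>
    obtain ⟨C, hC⟩ := ev_blk_nrm J Ms n
    refine ⟨0, C + 1, ?_⟩
    filter_upwards [ev_base, hC] with P hP hC β δ G hcl V0 V U _ _ _ _ _ a a' F0 Y Z αU hα ha haβ
      ha' ha'β hk
    obtain ⟨Y', hY'⟩ := Blk.exists_empty (β := β) (δ := δ) (G := G) (n := 0) (a := a' * a / β)
      (F0 := F0) hP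
    refine ⟨Empty, inferInstance, Y', fun W p => ?_⟩
    obtain ⟨r, hr, hr1, hr2⟩ := hC β δ G hcl V0 (V ⊕ U) a' F0 Z ha'.le W p
    have hK := hP.two_le
    have hD := hP.one_le_D
    refine ⟨fun x => r x + r x, hr.add hr, ?_, fun x t ht ρ _ f hf => ?_⟩
    · rw [lintegral_add_left hr]
      refine (add_le_add hr1 hr1).trans ?_
      rw [← ENNReal.ofReal_add (by positivity) (by positivity)]
      refine ENNReal.ofReal_le_ofReal ?_
      rw [pow_zero, mul_one] at hk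
      calc _ = P.K ^ C * 2 * a' * P.D := by ring
        _ ≤ _ := by rw [pow_succ]; gcongr
    · have e : sym ρ (fun y => ∫ ζ, f (Y.Y W p x t ζ + y) ∂gam (V × Fin P.d)) Y'.α
          (Y'.Y' W p x t) = 0 := by simp [sym, (hY' W p x t _).2]
      rw [e, add_zero]
      refine (ENNReal.ofReal_le_ofReal (abs_sub _ _)).trans (ENNReal.ofReal_add_le.trans
        (add_le_add ?_ ?_))
      · exact (abs_tied_le hf (temp_N Y W p x t) (temp_Y' Z W p x t) _ _ _).trans (hr2 x t ht)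
      · exact (abs_sym_le (hf.avg (Y.temp_Y W p x t)) _ _ _).trans (hr2 x t ht)
  | succ k ih =>
    obtain ⟨Ex, hEx⟩ := mem_NG n
    choose CN hCN using hEx
    choose C1 hC1 hstep using one_step
    obtain ⟨nG, hG⟩ := smem_Gam n
    set E := 3 * n + 1 + 3 * Ex with hE
    obtain ⟨n₂, C₂, ih⟩ := ih (nG + (E + 3 + 2 * n))
    refine ⟨max (nG + (E + 3 + 2 * n)) n₂ + 1, max (3 + 3 * E) C₂ + 1, ?_⟩
    filter_upwards [ev_base, ev_big B fun N => max (C1 N) (CN (N + 1) (N + 2) N), ih] with P hP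
      ⟨N, _, hNB, hND, hCf⟩ ih β δ G hcl V0 V U _ _ _ _ _ a a' F0 Y Z αU hα ha haβ ha' ha'β hk
    classical
    have hK2 := hP.two_le
    have hK := hP.one_le_K
    have hD := hP.one_le_D
    have hβ := hcl.β_pos
    have hth := hP.th_pos
    have haβ' : a ≤ β := haβ.trans (mul_le_of_le_one_right hβ.le (by linarith [hP.th_le]))
    have hab : a / β ≤ P.th := by rwa [div_le_iff₀' hβ]
    have hb0 : 0 < a' * a / β := by positivity
    have hb1 : a' * a / β * a / β ≤ a' * a / β := by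
      rw [mul_div_assoc _ a]
      exact mul_le_of_le_one_right hb0.le ((div_le_one hβ).2 haβ')
    have hb2 : a' * a / β ≤ β := by
      rw [mul_div_assoc]
      exact (mul_le_of_le_one_right ha'.le ((div_le_one hβ).2 haβ')).trans ha'β
    have hKn : 1 ≤ P.K ^ n := one_le_pow₀ hK
    have hK4 : 4 * P.K ^ n ≤ P.K ^ (n + 2) := by
      rw [pow_add, mul_comm]
      exact mul_le_mul_of_nonneg_left (by nlinarith) (by positivity)
    have hC1K : C1 N ≤ P.K := (le_max_left _ _).trans hCf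
    set m := ⌈P.K ^ (E + 1)⌉₊ with hm
    have hm1 : P.K ^ (E + 1) ≤ m := Nat.le_ceil _
    have hm0 : P.K ≤ m := (le_self_pow₀ hK (by omega)).trans hm1
    have hm2 : (m : ℝ) ≤ P.K ^ (E + 2) := by
      have := (Nat.ceil_lt_add_one (show 0 ≤ P.K ^ (E + 1) by positivity)).le
      nlinarith [one_le_pow₀ (n := E + 1) hK, pow_succ P.K (E + 1)]
    obtain ⟨κ, _, ts, w, hκ, hts, hw, hone⟩ := hstep N m (by exact_mod_cast hK.trans hm0)
    have hw1 : ∀ s, |w s| ≤ 1 := fun s =>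
      (hw s).trans ((div_le_one (by linarith)).2 (hC1K.trans hm0))
    choose Γ hΓ hΓ' using fun q : κ × Z.ι × Y.ι => hG P hP β δ G hβ V0 V U F0 a a' (Y.Θ q.2.2)
      (Z.Θ q.2.1) Y.hV (Y.mem _) (Z.mem _) (ts q.1) (hts _)
    have hZα : Y.α ⬝ᵥ Y.α + αU ⬝ᵥ αU ≤ P.K ^ n := by
      have := Z.hα
      rwa [hα, sumElim_dotProduct_sumElim] at this
    have hblk : ∀ ε : ℝ, |ε| ≤ 1 → ∃ Z₁ : Blk P β δ G V0 (V ⊕ Ext V U) (nG + (E + 3 + 2 * n))
        (a' * a / β) F0, Z₁.α = Sum.elim Y.α (extA Y.α αU) ∧ ∀ W p x t y, Z₁.Y' W p x t y =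
          ε • vec (∑ s, w s • Gam (ts s) (fun ζ i => Y.N W p x t ζ (i ()))
            (fun ξ i => Z.Y' W p x t ξ (i ())) y) := by
      intro ε hε
      have hn : P.K ^ (n + 2) ≤ P.K ^ (nG + (E + 3 + 2 * n)) := pow_le_pow_right₀ hK (by omega)
      refine (Blk.exists_of_smem hP (m := E + 3 + 2 * n) ?_ Γ hΓ
        (fun q t => ε * (w q.1 * (Z.φ' q.2.1 t * Y.φ q.2.2 t)))
        (fun q => continuous_const.mul (continuous_const.mul ((Z.cont _).mul
          (continuous_iff_continuousAt.2 fun t => (Y.hd _ t).continuousAt))))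
        (fun q t ht => ?_) (Sum.elim Y.α (extA Y.α αU)) ?_ ?_).imp
        fun Z₁ h => ⟨h.1, fun W p x t y => ?_⟩
      rotate_right
      · rw [(h.2 W p x t y).1, N_eq, Y'_eq]
        simp only [hΓ', Gam_sum (temp_Θ Y W p x) (temp_Θ Z W p x), Fintype.sum_prod_type, vec_sum,
          Finset.smul_sum, smul_smul]
        refine Finset.sum_congr rfl fun _ _ => Finset.sum_congr rfl fun _ _ =>
          Finset.sum_congr rfl fun _ _ => ?_
        rw [mul_smul]
        rfl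
      · rw [Fintype.card_prod, Fintype.card_prod]
        push_cast
        calc _ ≤ P.K * P.K ^ (E + 2) * (P.K ^ n * P.K ^ n) := by
              gcongr
              · exact hκ.trans (by gcongr)
              · exact Z.hι
              · exact Y.hι
          _ = _ := by ring
      · simp only [abs_mul]
        exact mul_le_one₀ hε (by positivity) (mul_le_one₀ (hw1 _) (by positivity)
          (mul_le_one₀ (Z.bd _ t ht) (abs_nonneg _) (Y.abs_φ_le _ ht)))
      · rw [sumElim_dotProduct_sumElim, extA_dot]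
        linarith [Y.hα]
      · have := Z.hV
        simp only [Fintype.card_sum, Fintype.card_unit] at this ⊢
        push_cast at this ⊢
        linarith [Y.hV]
    obtain ⟨Z₁, hZ₁α, hZ₁⟩ := hblk 1 (by simp)
    obtain ⟨Z₂, hZ₂α, hZ₂⟩ := hblk (-1) (by simp)
    obtain ⟨Y₁, e1, e2, e3, -⟩ := Y.exists_mono hP (n' := nG + (E + 3 + 2 * n)) (by omega) le_rfl
      haβ'
    obtain ⟨V₂, _, Y₂, hY₂⟩ := ih β δ G hcl V0 V (Ext V U) a _ F0 Y₁ Z₁ (extA Y.α αU)
      (by rw [hZ₁α, e1]) ha haβ hb0 hb2 (le_trans (by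
        rw [mul_div_assoc, pow_succ', ← mul_assoc]; gcongr) hk)
    rw [e1, e2, e3] at hY₂
    obtain ⟨Z₃, f1, -, -, f2⟩ := Z₂.exists_mono hP (le_max_left _ n₂) le_rfl hb2
    obtain ⟨Y₃, g1, -, -, g2⟩ := Y₂.exists_mono hP (le_max_right (nG + (E + 3 + 2 * n)) _) hb1 hb2
    obtain ⟨Y', hY'α, hY'⟩ := Blk.exists_sum hP Z₃ Y₃
    rw [f1, g1, hZ₂α] at hY'α
    rw [f2, g2] at hY'
    refine ⟨_, inferInstance, Y', fun W p => ?_⟩
    obtain ⟨r₂, hr₂, hr₂', hr₂''⟩ := hY₂ W p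
    have hNG := hCN (N + 1) (N + 2) N P hP ((le_max_right _ _).trans hCf) (hP.d_le.trans hND)
      β δ G hcl
    obtain ⟨rY, hrY, hrY', hrY''⟩ := exists_nw hP Y (haβ'.trans hcl.β_le) W p
      fun j => hNG _ _ _ _ _ (Y.mem j) W p
    obtain ⟨rZ, hrZ, hrZ', hrZ''⟩ := exists_nw hP Z (ha'β.trans hcl.β_le) W p
      fun j => hNG _ _ _ _ _ (Z.mem j) W p
    set c := C1 N * √P.d * (Fintype.card V * (P.K ^ Ex) ^ 2) ^ (N + 1) / (m : ℝ) ^ N with hc
    have hmeas : Measurable fun x => 1 + rY x + rZ x := (measurable_const.add hrY).add hrZ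
    refine ⟨fun x => ENNReal.ofReal c * (1 + rY x + rZ x) + r₂ x, (hmeas.const_mul _).add hr₂, ?_,
      fun x t ht ρ hρ f hf => ?_⟩
    · have h1 : (1 : ℝ) ≤ P.K ^ ((2 * n + 1 + Ex) * (N + 3)) := one_le_pow₀ hK
      have h2 : ∫⁻ x, (1 + rY x + rZ x) ∂gam (V0 × Fin P.d) ≤
          ENNReal.ofReal (3 * P.K ^ ((2 * n + 1 + Ex) * (N + 3))) := by
        rw [lintegral_add_right _ hrZ, lintegral_add_right _ hrY, lintegral_one, measure_univ,
          show (3 : ℝ) = 1 + 1 + 1 by norm_num, add_mul, add_mul, one_mul,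
          ENNReal.ofReal_add (by positivity) (by positivity),
          ENNReal.ofReal_add (by positivity) (by positivity)]
        rw [← ENNReal.ofReal_pow (by positivity)] at hrY' hrZ'
        exact add_le_add (add_le_add (ENNReal.one_le_ofReal.2 h1) hrY') hrZ'
      have h3 : √P.d ≤ P.D := by
        refine le_trans (Real.sqrt_le_iff.2 ⟨by positivity, le_self_pow₀ ?_ two_ne_zero⟩) hP.d_le
        exact_mod_cast hP.d_pos
      have h4 : c * (3 * P.K ^ ((2 * n + 1 + Ex) * (N + 3))) ≤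
          P.K ^ (3 + 3 * E) * P.th ^ B * P.D := by
        rw [hc, div_mul_eq_mul_div, div_le_iff₀ (by positivity)]
        calc _ ≤ P.K * P.D * (P.K ^ n * (P.K ^ Ex) ^ 2) ^ (N + 1) *
              (P.K ^ 2 * P.K ^ ((2 * n + 1 + Ex) * (N + 3))) := by
              gcongr
              · exact Y.hV
              · nlinarith
          _ = P.K ^ (3 + (n + 2 * Ex) * (N + 1) + (2 * n + 1 + Ex) * (N + 3)) * P.D * 1 := by ring
          _ ≤ P.K ^ (3 + 3 * E + E * N) * P.D * (P.th ^ B * P.K ^ N) := by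
              refine mul_le_mul (mul_le_mul_of_nonneg_right (pow_le_pow_right₀ hK ?_)
                (by positivity)) hNB zero_le_one (by positivity)
              rw [hE]
              nlinarith [Nat.zero_le n, Nat.zero_le Ex]
          _ = P.K ^ (3 + 3 * E) * P.th ^ B * P.D * (P.K ^ (E + 1)) ^ N := by ring
          _ ≤ _ := by gcongr
      have hc0 : 0 ≤ c := by have := hC1 N; positivity
      rw [lintegral_add_right _ hr₂, lintegral_const_mul _ hmeas]
      refine (add_le_add (mul_le_mul_right h2 _) hr₂').trans ?_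
      rw [← ENNReal.ofReal_mul hc0, ← ENNReal.ofReal_add (by positivity) (by positivity)]
      refine ENNReal.ofReal_le_ofReal ((add_le_add h4 le_rfl).trans ?_)
      rw [← add_mul, ← add_mul]
      gcongr
      have h5 := pow_le_pow_right₀ hK (le_max_left (3 + 3 * E) C₂)
      have h6 := pow_le_pow_right₀ hK (le_max_right (3 + 3 * E) C₂)
      nlinarith [pow_succ P.K (max (3 + 3 * E) C₂), pow_pos (show 0 < P.K by linarith) C₂]
    · have hg := (hf.avg (Y.temp_Y W p x t)).temp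
      have hΘ := temp_N Y W p x t
      have hΛ := temp_Y' Z W p x t
      have h1 := hone P.d V U f hf Y.α αU _ _ hΘ hΛ ρ (by
        linarith [pow_le_pow_right₀ hK (show n + 2 ≤ max (nG + (E + 3 + 2 * n)) n₂ + 1 by omega)])
        (P.K ^ Ex) (one_le_pow₀ hK)
      have h2 := hr₂'' x t ht ρ ((pow_le_pow_right₀ hK (by omega)).trans hρ) f hf
      have h3 : freed ρ f Y.α (fun ζ i => Y.N W p x t ζ (i ())) αU
          (fun ξ i => Z.Y' W p x t ξ (i ())) =
          sym ρ (fun y => ∫ ζ, f (Y.Y W p x t ζ + y) ∂gam (V × Fin P.d)) Z.α (Z.Y' W p x t) := by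
        rw [sym_avg hf.temp (Y.temp_Y W p x t) ρ _ (Z.temp_Y' W p x t), hα]
        rfl
      have h4 : tied ρ f Y.α (fun ζ i => Y.N W p x t ζ (i ())) (extA Y.α αU)
          (fun ξ i => Z₁.Y' W p x t ξ (i ())) =
          ∑ s, w s * tied ρ f Y.α (fun ζ i => Y.N W p x t ζ (i ())) (extA Y.α αU)
            (Gam (ts s) (fun ζ i => Y.N W p x t ζ (i ())) fun ξ i => Z.Y' W p x t ξ (i ())) := by
        rw [← tied_sum hf.temp hΘ (fun s => temp_Gam hΘ hΛ (ts s)) w ρ Y.α _]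
        simp only [hZ₁, one_smul]
        rfl
      have hρ' : _ ≤ ρ := Y'.hα.trans hρ
      have h5 : sym ρ (fun y => ∫ ζ, f (Y.Y W p x t ζ + y) ∂gam (V × Fin P.d)) Y'.α
          (Y'.Y' W p x t) =
          -sym ρ (fun y => ∫ ζ, f (Y.Y W p x t ζ + y) ∂gam (V × Fin P.d)) Z₁.α (Z₁.Y' W p x t) +
          sym ρ (fun y => ∫ ζ, f (Y.Y W p x t ζ + y) ∂gam (V × Fin P.d)) Y₂.α (Y₂.Y' W p x t) := by
        rw [hY'α, sumElim_dotProduct_sumElim] at hρ'
        rw [hZ₁α, ← sym_pad hg _ _ hρ' (Z₁.temp_Y' W p x t),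
          ← sym_pad' hg _ _ hρ' (Y₂.temp_Y' W p x t), ← hY'α]
        have := sym_sum (Finset.univ : Finset Bool) hg ρ Y'.α (fun b => cond b (-1) 1)
          (Λ := fun b => cond b (fun ξ => Z₁.Y' W p x t (ren Sum.inl ξ))
            fun ξ => Y₂.Y' W p x t (ren Sum.inr ξ)) fun b _ => by
            cases b
            exacts [(Y₂.temp_Y' W p x t).comp (temp_ren _), (Z₁.temp_Y' W p x t).comp (temp_ren _)]
        simp only [Fintype.sum_bool, cond_true, cond_false, one_mul, neg_one_mul] at this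
        rw [← this]
        congr 1
        funext ξ
        rw [(hY' W p x t ξ).2, hZ₂, hZ₁, one_smul, one_smul]
      rw [h3] at h1
      rw [h4] at h2
      rw [h5]
      refine le_trans (ENNReal.ofReal_le_ofReal (le_of_eq_of_le (congrArg abs ?_) (abs_add_le _ _)))
        (ENNReal.ofReal_add_le.trans (add_le_add (h1.trans ?_) h2))
      · ring
      · rw [N_eq, Y'_eq]
        gcongr
        · exact hrY'' x _ fun j => Y.abs_φ_le j ht
        · exact hrZ'' x _ fun j => Z.bd j t ht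

/-- `expand_aux` with `U = Empty`, `k = B` -/
theorem expand (J Ms n B : ℕ) : ∃ n' C : ℕ, ∀ᶠ P in LL J Ms, ∀ β δ G : ℝ, Cl P β δ G →
    ∀ (V0 V : Type) [Fintype V0] [Fintype V] (a : ℝ) (F0 : Submodule ℝ (V0 → ℝ))
      (Y : Blk P β δ G V0 V n a F0), 0 < a → a ≤ β * P.th →
      ∃ (V' : Type) (_ : Fintype V') (Y' : Blk P β δ G V0 V' n' (a ^ 2 / β) F0), ∀ W p,
        ∃ r : Om P.d V0 → ℝ≥0∞, Measurable r ∧
          ∫⁻ x, r x ∂gam (V0 × Fin P.d) ≤ ENNReal.ofReal (P.K ^ C * P.th ^ B * P.D) ∧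
          ∀ x, ∀ t ∈ Set.Icc (0 : ℝ) 1, ∀ ρ, P.K ^ n' ≤ ρ → ∀ f, TF f →
            ENNReal.ofReal
              |∫ ζ, grad (heat ρ f) (Y.Y W p x t ζ) ⬝ᵥ Y.Y' W p x t ζ ∂gam (V × Fin P.d) -
                sym ρ (fun y => ∫ ζ, f (Y.Y W p x t ζ + y) ∂gam (V × Fin P.d)) Y.α (Y.Y' W p x t) +
                sym ρ (fun y => ∫ ζ, f (Y.Y W p x t ζ + y) ∂gam (V × Fin P.d)) Y'.α
                  (Y'.Y' W p x t)| ≤ r x := by
  obtain ⟨n', C, h⟩ := expand_aux J Ms B B (n + 1)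
  refine ⟨n', C, ?_⟩
  filter_upwards [ev_base, h] with P hP h β δ G hcl V0 V _ _ a F0 Y ha haβ
  classical
  have haβ' : a ≤ β := haβ.trans (mul_le_of_le_one_right hcl.β_pos.le (by linarith [hP.th_le]))
  obtain ⟨Y₀, hY₀⟩ := Blk.exists_empty (β := β) (δ := δ) (G := G) (n := n) (a := a) (F0 := F0) hP
  obtain ⟨Z, hZα, hZ⟩ := Blk.exists_sum hP Y Y₀
  obtain ⟨Y₁, e1, e2, e3, -⟩ := Y.exists_mono hP n.le_succ le_rfl haβ'
  obtain ⟨V', _, Y', hY'⟩ := h β δ G hcl V0 V Empty a a F0 Y₁ Z Y₀.α (by rw [hZα, e1]) ha haβ ha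
    haβ' (mul_le_of_le_one_left (pow_pos hP.th_pos B).le (haβ'.trans hcl.β_le))
  rw [e1, e2, e3] at hY'
  rw [sq]
  refine ⟨V', inferInstance, Y', fun W p => ?_⟩
  obtain ⟨r, hr, hr1, hr2⟩ := hY' W p
  refine ⟨r, hr, hr1, fun x t ht ρ hρ f hf => le_of_eq_of_le ?_ (hr2 x t ht ρ hρ f hf)⟩
  have e : Z.Y' W p x t = fun ξ => Y.Y' W p x t (ren (Equiv.sumEmpty V Empty).symm ξ) := by
    funext ξ
    rw [(hZ W p x t ξ).2, (hY₀ W p x t _).2, add_zero]
    rfl
  have h0 : ∀ φ : Om P.d Empty, lin Y₀.α φ = 0 := fun φ => by funext i; simp [lin]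
  have h1 : Y₀.α ⬝ᵥ Y₀.α = 0 := by simp [dotProduct]
  have ren_join_aux : ∀ (ζ : Om P.d V) (φ : Om P.d Empty),
      ren (Equiv.sumEmpty V Empty).symm (join ζ φ) = ζ := fun _ _ => rfl
  rw [e, sym_equiv, hZα, tied]
  simp only [h0, h1, sub_zero, add_zero]
  congr 4
  refine integral_congr_ae (Eventually.of_forall fun ζ => ?_)
  simp only [ren_join_aux, integral_const, probReal_univ, one_smul]
  rfl

end Crest.Agent.R285

end
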