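import Crest.Agent.R285.Ten

/-!
Graded `L^p` bounds for the flattening norms of the derivatives of a tensor field.
-/

set_option autoImplicit false

open MeasureTheory ProbabilityTheory Matrix Filter
open scoped ENNReal

noncomputable section

namespace Crest.Agent.R285

variable {d : ℕ} {V V0 : Type} [Fintype V] [DecidableEq V] [Fintype V0] [DecidableEq V0]

/-- the derivatives of order `j ≤ m` have flattening norms bounded by `L^j a` in `L^p` -/
def NG {d : ℕ} {V : Type} [Fintype V] [DecidableEq V] (p : ℕ) (L : ℝ) :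
    ℕ → ∀ (S : Type), (Om d V → Ten d S) → ℝ → Prop
  | 0, _, T, a => LpLe (gam (V × Fin d)) p (fun x => opN (T x)) a
  | m + 1, S, T, a => LpLe (gam (V × Fin d)) p (fun x => opN (T x)) a ∧
      ∀ v, NG p L m (Option S) (dT v T) (L * a)

/-- the sum of the `p`-th moments of `opN (D^j T) / L^j` over all derivatives of order `j ≤ m` -/
def NW {d : ℕ} {V : Type} [Fintype V] [DecidableEq V] (p : ℕ) (L : ℝ) :
    ℕ → ∀ (S : Type), (Om d V → Ten d S) → ℝ≥0∞
  | 0, _, T => ∫⁻ x, ENNReal.ofReal (opN (T x)) ^ p ∂gam (V × Fin d)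
  | m + 1, S, T => ∫⁻ x, ENNReal.ofReal (opN (T x)) ^ p ∂gam (V × Fin d) +
      ∑ v, NW p L m (Option S) (fun x => L⁻¹ • dT v T x)

variable {p m : ℕ} {L a : ℝ} {S S' S₁ S₂ : Type}

namespace NWAux

omit [DecidableEq V] in
theorem meas [Fintype S] [DecidableEq S] {T : Om d V → Ten d S} (hT : T.HasTemperateGrowth) :
    Measurable fun x => opN (T x) := measurable_opN.comp hT.1.continuous.measurable

omit [DecidableEq V] in
theorem meas' [Fintype S] [DecidableEq S] {T : Om d V → Ten d S} (hT : T.HasTemperateGrowth) :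
    Measurable fun x => ENNReal.ofReal (opN (T x)) ^ p := (meas hT).ennreal_ofReal.pow_const p

theorem meas_join [Fintype S] [DecidableEq S] {T : Om d (V0 ⊕ V) → Ten d S}
    (hT : T.HasTemperateGrowth) :
    Measurable fun x0 => ∫⁻ y, ENNReal.ofReal (opN (T (join x0 y))) ^ p ∂gam (V × Fin d) :=
  ((meas' hT).comp (mp_join (d := d) (V := V0) (V' := V)).measurable).lintegral_prod_right'

omit [DecidableEq V] in
theorem temp_smul [Fintype S] [DecidableEq S] {T : Om d V → Ten d S} (hT : T.HasTemperateGrowth)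
    (c : ℝ) : (fun x => c • T x).HasTemperateGrowth :=
  (Function.HasTemperateGrowth.const c).smul hT

theorem sum_le [Fintype S] [DecidableEq S] {κ : Type} [Fintype κ] {T : κ → Om d V → Ten d S}
    (hT : ∀ k, (T k).HasTemperateGrowth) {c : κ → ℝ} (hc : ∀ k, |c k| ≤ 1) (hp : 1 ≤ p) :
    ∫⁻ x, ENNReal.ofReal (opN (∑ k, c k • T k x)) ^ p ∂gam (V × Fin d) ≤
      (Fintype.card κ : ℝ≥0∞) ^ p * ∑ k, ∫⁻ x, ENNReal.ofReal (opN (T k x)) ^ p ∂gam (V × Fin d) := by
  rw [← lintegral_finsetSum _ fun k _ => meas' (hT k),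
    ← lintegral_const_mul _ (Finset.measurable_sum _ fun k _ => meas' (hT k))]
  refine lintegral_mono fun x => ?_
  rcases isEmpty_or_nonempty κ with hκ | hκ
  · simp [opN_zero, zero_pow (by omega : p ≠ 0)]
  obtain ⟨j, -, hj⟩ := Finset.exists_max_image Finset.univ (fun k => opN (T k x))
    Finset.univ_nonempty
  have h1 : opN (∑ k, c k • T k x) ≤ Fintype.card κ * opN (T j x) := by
    refine (opN_sum_le _ _).trans ((Finset.sum_le_sum (g := fun _ => opN (T j x))
      fun k _ => ?_).trans (by simp))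
    exact (opN_smul_le _ _).trans ((mul_le_of_le_one_left (opN_nonneg _) (hc k)).trans
      (hj k (Finset.mem_univ _)))
  calc _ ≤ ENNReal.ofReal (Fintype.card κ * opN (T j x)) ^ p := by gcongr
    _ = (Fintype.card κ : ℝ≥0∞) ^ p * ENNReal.ofReal (opN (T j x)) ^ p := by
      rw [ENNReal.ofReal_mul (Nat.cast_nonneg _), ENNReal.ofReal_natCast, mul_pow]
    _ ≤ _ := by
      gcongr
      exact Finset.single_le_sum (f := fun k => ENNReal.ofReal (opN (T k x)) ^ p)
        (fun _ _ => zero_le) (Finset.mem_univ j)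

end NWAux

theorem NG.zero {T : Om d V → Ten d S} (h : NG p L m S T a) :
    LpLe (gam (V × Fin d)) p (fun x => opN (T x)) a := by
  cases m
  · exact h
  · exact h.1

theorem NG.mono [Fintype S] [DecidableEq S] {T : Om d V → Ten d S} (hT : T.HasTemperateGrowth)
    (h : NG p L m S T a) {p' m' : ℕ} {L' a' : ℝ} (hp : p' ≤ p) (hm : m' ≤ m) (hL0 : 0 ≤ L)
    (hL : L ≤ L') (ha0 : 0 ≤ a) (ha : a ≤ a') : NG p' L' m' S T a' := by
  induction m' generalizing S m a a' with
  | zero => exact (h.zero.anti (NWAux.meas hT) hp).mono (fun _ => le_rfl) ha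
  | succ k ih =>
    obtain ⟨m, rfl⟩ : ∃ n, m = n + 1 := ⟨m - 1, by omega⟩
    exact ⟨(h.zero.anti (NWAux.meas hT) hp).mono (fun _ => le_rfl) ha, fun v =>
      ih (temp_dT hT v) (h.2 v) (by omega) (mul_nonneg hL0 ha0)
        (mul_le_mul hL ha ha0 (hL0.trans hL))⟩

theorem NG.smul [Fintype S] [DecidableEq S] {T : Om d V → Ten d S} (hT : T.HasTemperateGrowth)
    (h : NG p L m S T a) (c : ℝ) : NG p L m S (fun x => c • T x) (|c| * a) := by
  have h0 : ∀ {S : Type} [Fintype S] {T : Om d V → Ten d S} {a : ℝ},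
      LpLe (gam (V × Fin d)) p (fun x => opN (T x)) a →
        LpLe (gam (V × Fin d)) p (fun x => opN (c • T x)) (|c| * a) := fun h =>
    (h.const_mul (abs_nonneg c)).mono (fun _ => opN_smul_le _ _) le_rfl
  induction m generalizing S a with
  | zero => exact h0 h
  | succ k ih =>
    refine ⟨h0 h.1, fun v => ?_⟩
    rw [funext (dT_smul hT c v), mul_left_comm]
    exact ih (temp_dT hT v) (h.2 v)

theorem NG.reix {T : Om d V → Ten d S} (h : NG p L m S T a) (e : S ≃ S') :
    NG p L m S' (fun x => reix e (T x)) a := by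
  induction m generalizing S S' a with
  | zero => simpa only [NG, opN_reix] using h
  | succ k ih =>
    refine ⟨by simpa only [opN_reix] using h.1, fun v => ?_⟩
    rw [funext (dT_reix e T v)]
    exact ih (h.2 v) _

theorem NG.add [Fintype S] [DecidableEq S] {T T' : Om d V → Ten d S} (hT : T.HasTemperateGrowth)
    (hT' : T'.HasTemperateGrowth) {a' : ℝ} (h : NG p L m S T a) (h' : NG p L m S T' a')
    (hp : 1 ≤ p) (hL : 0 ≤ L) (ha : 0 ≤ a) (ha' : 0 ≤ a') :
    NG p L m S (fun x => T x + T' x) (a + a') := by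
  induction m generalizing S a a' with
  | zero =>
    exact (LpLe.add h h' (NWAux.meas hT) (NWAux.meas hT') hp ha ha').mono
      (fun _ => opN_add_le _ _) le_rfl
  | succ k ih =>
    refine ⟨(h.1.add h'.1 (NWAux.meas hT) (NWAux.meas hT') hp ha ha').mono
      (fun _ => opN_add_le _ _) le_rfl, fun v => ?_⟩
    rw [funext (dT_add hT hT' v), mul_add]
    exact ih (temp_dT hT v) (temp_dT hT' v) (h.2 v) (h'.2 v) (mul_nonneg hL ha)
      (mul_nonneg hL ha')

theorem NG.sum [Fintype S] [DecidableEq S] {κ : Type} (s : Finset κ) {T : κ → Om d V → Ten d S}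
    (hT : ∀ k ∈ s, (T k).HasTemperateGrowth) (h : ∀ k ∈ s, NG p L m S (T k) a) (hp : 1 ≤ p)
    (hL : 0 ≤ L) (ha : 0 ≤ a) : NG p L m S (fun x => ∑ k ∈ s, T k x) (s.card * a) := by
  have h0 : ∀ {S : Type} [Fintype S] [DecidableEq S] {T : κ → Om d V → Ten d S} {a : ℝ},
      (∀ k ∈ s, (T k).HasTemperateGrowth) → 0 ≤ a →
      (∀ k ∈ s, LpLe (gam (V × Fin d)) p (fun x => opN (T k x)) a) →
        LpLe (gam (V × Fin d)) p (fun x => opN (∑ k ∈ s, T k x)) (s.card * a) := fun hT ha h =>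
    (LpLe.sum s h (fun k hk => NWAux.meas (hT k hk)) hp fun _ _ => ha).mono
      (fun _ => opN_sum_le _ _) (by simp)
  induction m generalizing S a with
  | zero => exact h0 hT ha h
  | succ n ih =>
    refine ⟨h0 hT ha fun k hk => (h k hk).1, fun v => ?_⟩
    rw [funext (dT_sum s hT v), mul_left_comm]
    exact ih (fun k hk => temp_dT (hT k hk) v) (fun k hk => (h k hk).2 v) (mul_nonneg hL ha)

/-- Leibniz rule (induction on `m`, `dT_con1`, `opN_con1_le`, `LpLe.mul`) -/
theorem NG.con1 [Fintype S₁] [DecidableEq S₁] [Fintype S₂] [DecidableEq S₂] [Nonempty S₁]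
    [Nonempty S₂] {T₁ : Om d V → Ten d (Option S₁)} {T₂ : Om d V → Ten d (Option S₂)}
    (hT₁ : T₁.HasTemperateGrowth) (hT₂ : T₂.HasTemperateGrowth) {a₁ a₂ : ℝ}
    (h₁ : NG (2 * p) L m (Option S₁) T₁ a₁) (h₂ : NG (2 * p) L m (Option S₂) T₂ a₂) (hp : 1 ≤ p)
    (hL : 0 ≤ L) (ha₁ : 0 ≤ a₁) (ha₂ : 0 ≤ a₂) :
    NG p (2 * L) m (S₁ ⊕ S₂) (fun x => con1 (T₁ x) (T₂ x)) (a₁ * a₂) := by
  induction m generalizing S₁ S₂ a₁ a₂ with
  | zero =>
    exact (LpLe.mul h₁ h₂ (NWAux.meas hT₁) (NWAux.meas hT₂) (fun _ => opN_nonneg _) ha₁).mono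
      (fun _ => opN_con1_le _ _) le_rfl
  | succ k ih =>
    refine ⟨(h₁.1.mul h₂.1 (NWAux.meas hT₁) (NWAux.meas hT₂) (fun _ => opN_nonneg _) ha₁).mono
      (fun _ => opN_con1_le _ _) le_rfl, fun v => ?_⟩
    have t₁ := temp_reix (swapO S₁) (temp_dT hT₁ v)
    have t₂ := temp_reix (swapO S₂) (temp_dT hT₂ v)
    rw [funext (dT_con1 hT₁ hT₂ v),
      show 2 * L * (a₁ * a₂) = L * a₁ * a₂ + a₁ * (L * a₂) by ring]
    exact NG.add (temp_reix _ (temp_con1 t₁ hT₂)) (temp_reix _ (temp_con1 hT₁ t₂))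
      ((ih t₁ hT₂ ((h₁.2 v).reix _) (h₂.mono hT₂ le_rfl k.le_succ hL le_rfl ha₂ le_rfl)
        (mul_nonneg hL ha₁) ha₂).reix _)
      ((ih hT₁ t₂ (h₁.mono hT₁ le_rfl k.le_succ hL le_rfl ha₁ le_rfl) ((h₂.2 v).reix _) ha₁
        (mul_nonneg hL ha₂)).reix _) hp (by positivity) (by positivity) (by positivity)

theorem measurable_NW_join [Fintype S] [DecidableEq S] {T : Om d (V0 ⊕ V) → Ten d S}
    (hT : T.HasTemperateGrowth) : Measurable fun x0 => NW p L m S fun y => T (join x0 y) := by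
  induction m generalizing S with
  | zero => exact NWAux.meas_join hT
  | succ k ih =>
    simp only [NW, dT_join hT]
    exact (NWAux.meas_join hT).add (Finset.measurable_sum _ fun v _ =>
      ih (NWAux.temp_smul (temp_dT hT (Sum.inr v)) L⁻¹))

/-- fibre lemma (`dT_join`, `lintegral_join`) -/
theorem lintegral_NW_join [Fintype S] [DecidableEq S] {T : Om d (V0 ⊕ V) → Ten d S}
    (hT : T.HasTemperateGrowth) (hL : 0 < L) (h : NG p L m S T a) :
    ∫⁻ x0, NW p L m S (fun y => T (join x0 y)) ∂gam (V0 × Fin d) ≤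
      (Fintype.card V + 1 : ℝ≥0∞) ^ m * ENNReal.ofReal a ^ p := by
  induction m generalizing S with
  | zero =>
    rw [pow_zero, one_mul]
    exact (lintegral_join (NWAux.meas' hT)).symm.trans_le h
  | succ k ih =>
    have t : ∀ v : V, (fun x => L⁻¹ • dT (Sum.inr v) T x).HasTemperateGrowth := fun v =>
      NWAux.temp_smul (temp_dT hT (Sum.inr v)) L⁻¹
    have h1 : ∀ v : V, NG p L k (Option S) (fun x => L⁻¹ • dT (Sum.inr v) T x) a := fun v => by
      have := (h.2 (Sum.inr v)).smul (temp_dT hT _) L⁻¹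
      rwa [abs_of_pos (inv_pos.2 hL), inv_mul_cancel_left₀ hL.ne'] at this
    simp only [NW, dT_join hT]
    rw [lintegral_add_left (NWAux.meas_join hT), ← lintegral_join (NWAux.meas' hT),
      lintegral_finsetSum _ fun v _ => measurable_NW_join (t v)]
    calc _ ≤ (Fintype.card V + 1 : ℝ≥0∞) ^ k * ENNReal.ofReal a ^ p +
          ∑ _v : V, (Fintype.card V + 1 : ℝ≥0∞) ^ k * ENNReal.ofReal a ^ p :=
          add_le_add (le_trans h.1 (le_mul_of_one_le_left' (one_le_pow₀ le_add_self)))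
            (Finset.sum_le_sum fun v _ => ih (t v) (h1 v))
      _ = _ := by
        rw [Finset.sum_const, Finset.card_univ, nsmul_eq_mul]
        ring

theorem NW_sum_le [Fintype S] [DecidableEq S] {κ : Type} [Fintype κ] {T : κ → Om d V → Ten d S}
    (hT : ∀ k, (T k).HasTemperateGrowth) {c : κ → ℝ} (hc : ∀ k, |c k| ≤ 1) (hp : 1 ≤ p) :
    NW p L m S (fun x => ∑ k, c k • T k x) ≤
      (Fintype.card κ : ℝ≥0∞) ^ p * ∑ k, NW p L m S (T k) := by
  induction m generalizing S with
  | zero => exact NWAux.sum_le hT hc hp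
  | succ n ih =>
    have e : ∀ v, (fun x => L⁻¹ • dT v (fun x => ∑ k, c k • T k x) x) =
        fun x => ∑ k, c k • L⁻¹ • dT v (T k) x := fun v => by
      funext x
      rw [dT_sum _ fun k _ => NWAux.temp_smul (hT k) (c k), Finset.smul_sum]
      exact Finset.sum_congr rfl fun k _ => by rw [dT_smul (hT k), smul_comm]
    simp only [NW, e]
    rw [Finset.sum_add_distrib, mul_add, Finset.sum_comm]
    refine add_le_add (NWAux.sum_le hT hc hp) ?_
    rw [Finset.mul_sum]
    exact Finset.sum_le_sum fun v _ => ih fun k => NWAux.temp_smul (temp_dT (hT k) v) L⁻¹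

end Crest.Agent.R285

end
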