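import Crest.Agent.R285.Defs

/-!
One-dimensional composite quadrature: `m` panels, `N` nodes in each panel with the weights of
the interpolatory rule (Lagrange basis / Vandermonde system), Taylor's formula in each panel.
-/

set_option autoImplicit false

open MeasureTheory ProbabilityTheory Matrix Filter
open scoped ENNReal

noncomputable section

namespace Crest.Agent.R285

/-- weights with prescribed moments -/
lemma exists_weights {n : ℕ} (x : Fin n → ℝ) (hx : Function.Injective x) (c : ℕ → ℝ) :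
    ∃ w : Fin n → ℝ, ∀ j : ℕ, j < n → ∑ q, w q * x q ^ j = c j := by
  have hdet : (Matrix.vandermonde x).det ≠ 0 := Matrix.det_vandermonde_ne_zero_iff.2 hx
  have hu : IsUnit (Matrix.vandermonde x).det := isUnit_iff_ne_zero.2 hdet
  refine ⟨(fun j : Fin n => c j) ᵥ* (Matrix.vandermonde x)⁻¹, fun j hj => ?_⟩
  have h : ((fun j : Fin n => c j) ᵥ* (Matrix.vandermonde x)⁻¹) ᵥ* Matrix.vandermonde x
      = fun j : Fin n => c j := by
    rw [Matrix.vecMul_vecMul, Matrix.nonsing_inv_mul _ hu, Matrix.vecMul_one]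
  have h2 := congrFun h ⟨j, hj⟩
  simpa [Matrix.vecMul, dotProduct, Matrix.vandermonde_apply] using h2

/-- Taylor's formula for a chain of derivatives -/
theorem taylor_chain (N : ℕ) (g : ℕ → ℝ → ℝ) {a b : ℝ} (hab : a ≤ b)
    (hc : ∀ k, ContinuousOn (g k) (Set.Icc a b))
    (hd : ∀ k, ∀ s ∈ Set.Ioo a b, HasDerivAt (g k) (g (k + 1) s) s) {A : ℝ}
    (hA : ∀ s ∈ Set.Icc a b, |g N s| ≤ A) :
    |g 0 b - ∑ k ∈ Finset.range N, g k a * (b - a) ^ k / k.factorial| ≤ A * (b - a) ^ N := by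
  induction N generalizing g b with
  | zero => simpa using hA b ⟨hab, le_rfl⟩
  | succ N ih =>
    have hA0 : 0 ≤ A := (abs_nonneg _).trans (hA a ⟨le_rfl, hab⟩)
    rcases hab.eq_or_lt with rfl | hlt
    · simp [Finset.sum_range_succ']
    set φ : ℝ → ℝ := fun x => g 0 x -
      ∑ k ∈ Finset.range N, g (k + 1) a * (x - a) ^ (k + 1) / (k + 1).factorial with hφ
    have hφc : ContinuousOn φ (Set.Icc a b) := by
      refine (hc 0).sub (Continuous.continuousOn ?_)
      fun_prop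
    have hφd : ∀ x ∈ Set.Ioo a b, HasDerivAt φ
        (g 1 x - ∑ k ∈ Finset.range N, g (k + 1) a * (x - a) ^ k / k.factorial) x := by
      intro x hx
      refine (hd 0 x hx).sub (HasDerivAt.fun_sum fun k _ => ?_)
      have h1 : HasDerivAt (fun x : ℝ => (x - a) ^ (k + 1)) (((k + 1 : ℕ) : ℝ) * (x - a) ^ k * 1) x :=
        ((hasDerivAt_id' x).sub_const a).fun_pow (k + 1)
      have h2 := (h1.const_mul (g (k + 1) a)).div_const ((k + 1).factorial : ℝ)
      refine h2.congr_deriv ?_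
      rw [Nat.factorial_succ]
      push_cast
      field_simp
    obtain ⟨c, hc', hcs⟩ := exists_hasDerivAt_eq_slope φ _ hlt hφc hφd
    have hih := ih (fun k => g (k + 1)) hc'.1.le
      (fun k => (hc (k + 1)).mono (Set.Icc_subset_Icc_right hc'.2.le))
      (fun k s hs => hd (k + 1) s ⟨hs.1, hs.2.trans hc'.2⟩)
      (fun s hs => hA s ⟨hs.1, hs.2.trans hc'.2.le⟩)
    have hba : 0 < b - a := sub_pos.2 hlt
    have he : g 0 b - ∑ k ∈ Finset.range (N + 1), g k a * (b - a) ^ k / k.factorial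
        = φ b - φ a := by
      simp only [hφ, Finset.sum_range_succ']
      simp
      ring
    rw [he, (eq_div_iff hba.ne').1 hcs |>.symm, abs_mul, abs_of_pos hba, pow_succ, ← mul_assoc]
    refine mul_le_mul_of_nonneg_right (hih.trans ?_) hba.le
    exact mul_le_mul_of_nonneg_left
      (pow_le_pow_left₀ (sub_nonneg.2 hc'.1.le) (by linarith [hc'.2]) N) hA0

/-- one panel of the composite rule -/
lemma quad_panel (N : ℕ) (x ω : Fin N → ℝ) (hx : ∀ q, x q ∈ Set.Icc (0 : ℝ) 1)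
    (hω : ∀ j : ℕ, j < N → ∑ q, ω q * x q ^ j = 1 / ((j : ℝ) + 1))
    (g : ℕ → ℝ → ℝ) {a h : ℝ} (hh : 0 ≤ h)
    (hc : ∀ k, ContinuousOn (g k) (Set.Icc a (a + h)))
    (hd : ∀ k, ∀ s ∈ Set.Ioo a (a + h), HasDerivAt (g k) (g (k + 1) s) s) {A : ℝ}
    (hA : ∀ s ∈ Set.Icc a (a + h), |g (N + 1) s| ≤ A) :
    |g 0 (a + h) - g 0 a - ∑ q, ω q * h * g 1 (a + x q * h)|
      ≤ (1 + ∑ q, |ω q|) * A * h ^ (N + 1) := by
  have hA0 : 0 ≤ A := (abs_nonneg _).trans (hA a ⟨le_rfl, by linarith⟩)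
  have h1 := taylor_chain (N + 1) g (by linarith : a ≤ a + h) hc hd hA
  have h2 : ∀ q, |g 1 (a + x q * h) -
      ∑ k ∈ Finset.range N, g (k + 1) a * (x q * h) ^ k / k.factorial| ≤ A * h ^ N := by
    intro q
    have hq0 : 0 ≤ x q * h := mul_nonneg (hx q).1 hh
    have hq1 : x q * h ≤ h := mul_le_of_le_one_left hh (hx q).2
    have := taylor_chain N (fun k => g (k + 1)) (by linarith : a ≤ a + x q * h)
      (fun k => (hc (k + 1)).mono (Set.Icc_subset_Icc_right (by linarith)))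
      (fun k s hs => hd (k + 1) s ⟨hs.1, by linarith [hs.2]⟩)
      (fun s hs => hA s ⟨hs.1, by linarith [hs.2]⟩)
    simp only [add_sub_cancel_left, zero_add] at this
    exact this.trans (mul_le_mul_of_nonneg_left (pow_le_pow_left₀ hq0 hq1 N) hA0)
  simp only [add_sub_cancel_left] at h1
  have he : ∑ k ∈ Finset.range (N + 1), g k a * h ^ k / k.factorial = g 0 a +
      ∑ q, ω q * h * ∑ k ∈ Finset.range N, g (k + 1) a * (x q * h) ^ k / k.factorial := by
    rw [Finset.sum_range_succ', add_comm]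
    simp only [pow_zero, Nat.factorial_zero, Nat.cast_one, mul_one, div_one, Finset.mul_sum]
    rw [Finset.sum_comm]
    congr 1
    refine Finset.sum_congr rfl fun k hk => ?_
    have hk' := hω k (Finset.mem_range.1 hk)
    have : ∑ q, ω q * h * (g (k + 1) a * (x q * h) ^ k / k.factorial)
        = (∑ q, ω q * x q ^ k) * (g (k + 1) a * h ^ (k + 1) / k.factorial) := by
      rw [Finset.sum_mul]
      refine Finset.sum_congr rfl fun q _ => ?_
      rw [mul_pow]
      ring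
    rw [this, hk', Nat.factorial_succ]
    push_cast
    field_simp
  have he2 : g 0 (a + h) - g 0 a - ∑ q, ω q * h * g 1 (a + x q * h) =
      (g 0 (a + h) - ∑ k ∈ Finset.range (N + 1), g k a * h ^ k / k.factorial) -
        ∑ q, ω q * h * (g 1 (a + x q * h) -
          ∑ k ∈ Finset.range N, g (k + 1) a * (x q * h) ^ k / k.factorial) := by
    rw [he]
    simp only [mul_sub, Finset.sum_sub_distrib]
    ring
  rw [he2]
  refine (abs_sub _ _).trans ?_
  have h3 : |∑ q, ω q * h * (g 1 (a + x q * h) -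
      ∑ k ∈ Finset.range N, g (k + 1) a * (x q * h) ^ k / k.factorial)|
      ≤ ∑ q, |ω q| * (A * h ^ (N + 1)) := by
    refine (Finset.abs_sum_le_sum_abs _ _).trans (Finset.sum_le_sum fun q _ => ?_)
    rw [abs_mul, abs_mul, abs_of_nonneg hh, mul_assoc]
    refine mul_le_mul_of_nonneg_left ?_ (abs_nonneg _)
    calc h * _ ≤ h * (A * h ^ N) := mul_le_mul_of_nonneg_left (h2 q) hh
      _ = A * h ^ (N + 1) := by ring
  rw [← Finset.sum_mul] at h3
  nlinarith [h1, h3]

theorem quad (N : ℕ) : ∃ C : ℝ, 1 ≤ C ∧ ∀ m : ℕ, 1 ≤ m →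
    ∃ (κ : Type) (_ : Fintype κ) (t w : κ → ℝ), (Fintype.card κ : ℝ) ≤ C * m ∧
      (∀ s, t s ∈ Set.Icc (0 : ℝ) 1) ∧ (∀ s, |w s| ≤ C / m) ∧
      ∀ g : ℕ → ℝ → ℝ, (∀ k, ContinuousOn (g k) (Set.Icc 0 1)) →
        (∀ k, ∀ s ∈ Set.Ioo (0 : ℝ) 1, HasDerivAt (g k) (g (k + 1) s) s) →
        ∀ A : ℝ, (∀ s ∈ Set.Icc (0 : ℝ) 1, |g (N + 1) s| ≤ A) →
          |g 0 1 - g 0 0 - ∑ s, w s * g 1 (t s)| ≤ C * A / (m : ℝ) ^ N := by
  set x : Fin N → ℝ := fun q => ((q : ℕ) : ℝ) / ((N : ℝ) + 1) with hxdef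
  have hN : (0 : ℝ) < (N : ℝ) + 1 := by positivity
  have hx : ∀ q, x q ∈ Set.Icc (0 : ℝ) 1 := by
    intro q
    refine ⟨by positivity, ?_⟩
    rw [hxdef, div_le_one hN]
    have : ((q : ℕ) : ℝ) ≤ N := by exact_mod_cast q.2.le
    linarith
  have hxi : Function.Injective x := by
    intro p q hpq
    have : ((p : ℕ) : ℝ) = ((q : ℕ) : ℝ) := by
      simpa [hxdef, div_left_inj' hN.ne'] using hpq
    exact Fin.ext (by exact_mod_cast this)
  obtain ⟨ω, hω⟩ := exists_weights x hxi fun j => 1 / ((j : ℝ) + 1)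
  have hS : 0 ≤ ∑ q, |ω q| := Finset.sum_nonneg fun q _ => abs_nonneg _
  refine ⟨1 + N + ∑ q, |ω q|, by linarith [Nat.cast_nonneg (α := ℝ) N], fun m hm => ?_⟩
  have hm0 : (0 : ℝ) < m := by exact_mod_cast hm
  set h : ℝ := 1 / m with hh
  have hh0 : 0 < h := by positivity
  have hmh : (m : ℝ) * h = 1 := by rw [hh]; field_simp
  have hpan : ∀ p : ℕ, p < m → 0 ≤ (p : ℝ) * h ∧ (p : ℝ) * h + h ≤ 1 := by
    intro p hp
    refine ⟨by positivity, ?_⟩
    have : (p : ℝ) + 1 ≤ m := by exact_mod_cast hp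
    nlinarith
  refine ⟨Fin m × Fin N, inferInstance, fun s => ((s.1 : ℕ) : ℝ) * h + x s.2 * h,
    fun s => ω s.2 * h, ?_, ?_, ?_, ?_⟩
  · simp only [Fintype.card_prod, Fintype.card_fin]
    push_cast
    nlinarith
  · rintro ⟨p, q⟩
    obtain ⟨h1, h2⟩ := hpan p p.2
    have hq0 : 0 ≤ x q * h := mul_nonneg (hx q).1 hh0.le
    have hq1 : x q * h ≤ h := mul_le_of_le_one_left hh0.le (hx q).2
    exact ⟨by linarith, by linarith⟩
  · rintro ⟨p, q⟩
    have : |ω q| ≤ ∑ q, |ω q| :=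
      Finset.single_le_sum (f := fun q => |ω q|) (fun q _ => abs_nonneg _) (Finset.mem_univ q)
    rw [abs_mul, abs_of_pos hh0, hh, mul_one_div]
    exact div_le_div_of_nonneg_right (by linarith [Nat.cast_nonneg (α := ℝ) N]) hm0.le
  · intro g hc hd A hA
    have hA0 : 0 ≤ A := (abs_nonneg _).trans (hA 0 ⟨le_rfl, zero_le_one⟩)
    have htel : g 0 1 - g 0 0 = ∑ p : Fin m, (g 0 (((p : ℕ) : ℝ) * h + h) - g 0 (((p : ℕ) : ℝ) * h)) := by
      rw [Fin.sum_univ_eq_sum_range (fun p : ℕ => g 0 ((p : ℝ) * h + h) - g 0 ((p : ℝ) * h)) m]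
      have := Finset.sum_range_sub (fun p : ℕ => g 0 ((p : ℝ) * h)) m
      simp only [Nat.cast_zero, zero_mul, hmh] at this
      rw [← this]
      refine Finset.sum_congr rfl fun p _ => ?_
      push_cast
      rw [add_mul, one_mul]
    rw [htel, Fintype.sum_prod_type, ← Finset.sum_sub_distrib]
    refine (Finset.abs_sum_le_sum_abs _ _).trans ?_
    have hb : ∀ p : Fin m, |g 0 (((p : ℕ) : ℝ) * h + h) - g 0 (((p : ℕ) : ℝ) * h) -
        ∑ q, ω q * h * g 1 (((p : ℕ) : ℝ) * h + x q * h)| ≤ (1 + ∑ q, |ω q|) * A * h ^ (N + 1) := by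
      intro p
      obtain ⟨h1, h2⟩ := hpan p p.2
      exact quad_panel N x ω hx hω g hh0.le
        (fun k => (hc k).mono (Set.Icc_subset_Icc h1 h2))
        (fun k s hs => hd k s ⟨h1.trans_lt hs.1, hs.2.trans_le h2⟩)
        (fun s hs => hA s ⟨h1.trans hs.1, hs.2.trans h2⟩)
    refine (Finset.sum_le_sum fun p _ => hb p).trans ?_
    rw [Finset.sum_const, Finset.card_univ, Fintype.card_fin, nsmul_eq_mul]
    have he : (m : ℝ) * ((1 + ∑ q, |ω q|) * A * h ^ (N + 1)) = (1 + ∑ q, |ω q|) * A / (m : ℝ) ^ N := by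
      rw [hh, one_div, inv_pow, pow_succ]
      field_simp
    rw [he]
    refine div_le_div_of_nonneg_right ?_ (by positivity)
    exact mul_le_mul_of_nonneg_right (by linarith [Nat.cast_nonneg (α := ℝ) N]) hA0

/-- finite difference weights for the first derivative at `0` -/
theorem exists_fd_weights (N : ℕ) : ∃ w : Fin (N + 2) → ℝ, ∀ j : ℕ, j ≤ N + 1 →
    ∑ q, w q * ((q : ℕ) : ℝ) ^ j = if j = 1 then 1 else 0 := by
  obtain ⟨w, hw⟩ := exists_weights (fun q : Fin (N + 2) => ((q : ℕ) : ℝ))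
    (fun p q hpq => Fin.ext (Nat.cast_injective (R := ℝ) hpq)) fun j => if j = 1 then 1 else 0
  exact ⟨w, fun j hj => hw j (by omega)⟩

end Crest.Agent.R285

end
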