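import Crest.Agent.R285.InterpA
import Crest.Agent.R285.NW
import Crest.Agent.R285.Quad

/-!
Bounds for the derivatives of the interpolation functional; one expansion step.

`abs_PsiD_le`: `PsiD k` is a sum of `(card V)^k` integrals of `D^k F ⬝ᵥ D^k Λ`, and
`|D^k F ⬝ᵥ D^k Λ| ≤ nrm (D^k F) · √d · opN (D^k Λ)`. A pointwise Faà di Bruno bound gives
`nrm (D^k F0 (y, ζ)) ≤ C A (L θ(ζ))^k`, where `θ(ζ) ≥ 1` bounds all `opN (D^j Θ ζ) / L^j`,
`1 ≤ j ≤ k`. To prove it use pointwise recursive predicates in the style of `NG`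
(`FB M k S T x a := nrm (T x) ≤ a ∧ ∀ v, FB M (k-1) _ (dT v T) x (M * a)` and the same with `opN`),
closed under `con1` with `M` doubled (`dT_con1`, `nrm_con_le`, `con1_eq_con`), and induct with
`dT_jet` (`l = 0`). For `θ` take `θ^p = 1 + ` the pointwise integrand of `NW p L k Unit Θ`.
Finally Young: `θ^(N+1) λ ≤ θ^(N+2) + λ^(N+2)`, and `sub (rotM t)`, `ren inl` preserve `gam`.
-/

set_option autoImplicit false

open MeasureTheory ProbabilityTheory Matrix Filter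
open scoped ENNReal

noncomputable section

namespace Crest.Agent.R285

namespace Interp

variable {d : ℕ} {V : Type} [Fintype V] [DecidableEq V]

/-- pointwise graded Frobenius bounds -/
def FB (M : ℝ) (x : Om d V) :
    ℕ → ∀ (S : Type) [Fintype S] [DecidableEq S], (Om d V → Ten d S) → ℝ → Prop
  | 0, _, _, _, T, a => nrm (T x) ≤ a
  | m + 1, S, _, _, T, a => nrm (T x) ≤ a ∧ ∀ v, FB M x m (Option S) (dT v T) (M * a)

theorem anchor_FB : type_of% @FB.eq_def := @FB.eq_def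

/-- pointwise graded flattening bounds -/
def OB (M : ℝ) (x : Om d V) : ℕ → ∀ (S : Type), (Om d V → Ten d S) → ℝ → Prop
  | 0, _, T, a => opN (T x) ≤ a
  | m + 1, S, T, a => opN (T x) ≤ a ∧ ∀ v, OB M x m (Option S) (dT v T) (M * a)

theorem anchor_OB : type_of% @OB.eq_def := @OB.eq_def

/-- the integrand of `NW` -/
def nwP (p : ℕ) (L : ℝ) : ℕ → ∀ (S : Type), (Om d V → Ten d S) → Om d V → ℝ
  | 0, _, T, x => opN (T x) ^ p
  | m + 1, S, T, x => opN (T x) ^ p + ∑ v, nwP p L m (Option S) (fun x => L⁻¹ • dT v T x) x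

theorem anchor_nwP : type_of% @nwP.eq_def := @nwP.eq_def

variable {x : Om d V}

theorem FB.zero {M a : ℝ} {m : ℕ} {S : Type} [Fintype S] [DecidableEq S] {T : Om d V → Ten d S}
    (h : FB M x m S T a) : nrm (T x) ≤ a := by
  cases m
  · exact h
  · exact h.1

theorem OB.zero {M a : ℝ} {m : ℕ} {S : Type} {T : Om d V → Ten d S}
    (h : OB M x m S T a) : opN (T x) ≤ a := by
  cases m
  · exact h
  · exact h.1

theorem FB.pred {M : ℝ} (m : ℕ) : ∀ {S : Type} [Fintype S] [DecidableEq S] {T : Om d V → Ten d S}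
    {a : ℝ}, FB M x (m + 1) S T a → FB M x m S T a := by
  induction m with
  | zero => intro S _ _ T a h; exact h.1
  | succ m ih => intro S _ _ T a h; exact ⟨h.1, fun v => ih (h.2 v)⟩

theorem OB.pred {M : ℝ} (m : ℕ) : ∀ {S : Type} {T : Om d V → Ten d S}
    {a : ℝ}, OB M x (m + 1) S T a → OB M x m S T a := by
  induction m with
  | zero => intro S T a h; exact h.1
  | succ m ih => intro S T a h; exact ⟨h.1, fun v => ih (h.2 v)⟩

theorem FB.mono {M M' : ℝ} (hM : 0 ≤ M) (hM' : M ≤ M') (m : ℕ) :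
    ∀ {S : Type} [Fintype S] [DecidableEq S] {T : Om d V → Ten d S} {a a' : ℝ},
      FB M x m S T a → a ≤ a' → FB M' x m S T a' := by
  induction m with
  | zero => intro S _ _ T a a' h ha; exact le_trans h ha
  | succ m ih =>
    intro S _ _ T a a' h ha
    have h0 : 0 ≤ a := (nrm_nonneg _).trans h.1
    exact ⟨h.1.trans ha, fun v => ih (h.2 v) (mul_le_mul hM' ha h0 (hM.trans hM'))⟩

theorem OB.mono {M M' : ℝ} (hM : 0 ≤ M) (hM' : M ≤ M') (m : ℕ) :
    ∀ {S : Type} {T : Om d V → Ten d S} {a a' : ℝ},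
      OB M x m S T a → a ≤ a' → OB M' x m S T a' := by
  induction m with
  | zero => intro S T a a' h ha; exact le_trans h ha
  | succ m ih =>
    intro S T a a' h ha
    have h0 : 0 ≤ a := (opN_nonneg _).trans h.1
    exact ⟨h.1.trans ha, fun v => ih (h.2 v) (mul_le_mul hM' ha h0 (hM.trans hM'))⟩

theorem FB.reix {M : ℝ} (m : ℕ) : ∀ {S S' : Type} [Fintype S] [DecidableEq S] [Fintype S']
    [DecidableEq S'] (e : S ≃ S') {T : Om d V → Ten d S} {a : ℝ},
      FB M x m S T a → FB M x m S' (fun x => reix e (T x)) a := by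
  induction m with
  | zero =>
    intro S S' _ _ _ _ e T a h
    exact (nrm_reix e (T x)).trans_le h
  | succ m ih =>
    intro S S' _ _ _ _ e T a h
    exact ⟨(nrm_reix e (T x)).trans_le h.1, fun v => ih e.optionCongr (h.2 v)⟩

theorem OB.reix {M : ℝ} (m : ℕ) : ∀ {S S' : Type} (e : S ≃ S') {T : Om d V → Ten d S} {a : ℝ},
      OB M x m S T a → OB M x m S' (fun x => reix e (T x)) a := by
  induction m with
  | zero =>
    intro S S' e T a h
    exact (opN_reix e (T x)).trans_le h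
  | succ m ih =>
    intro S S' e T a h
    exact ⟨(opN_reix e (T x)).trans_le h.1, fun v => ih e.optionCongr (h.2 v)⟩

theorem FB.add {M : ℝ} (m : ℕ) : ∀ {S : Type} [Fintype S] [DecidableEq S]
    {T T' : Om d V → Ten d S} {a a' : ℝ}, T.HasTemperateGrowth → T'.HasTemperateGrowth →
      FB M x m S T a → FB M x m S T' a' → FB M x m S (fun x => T x + T' x) (a + a') := by
  induction m with
  | zero =>
    intro S _ _ T T' a a' _ _ h h'
    exact (nrm_add_le _ _).trans (add_le_add h h')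
  | succ m ih =>
    intro S _ _ T T' a a' hT hT' h h'
    refine ⟨(nrm_add_le _ _).trans (add_le_add h.1 h'.1), fun v => ?_⟩
    have e : dT v (fun x => T x + T' x) = fun x => dT v T x + dT v T' x :=
      funext fun x => dT_add hT hT' v x
    rw [e, mul_add]
    exact ih (temp_dT hT v) (temp_dT hT' v) (h.2 v) (h'.2 v)

theorem OB.smul {M c : ℝ} (hc : 0 ≤ c) (m : ℕ) : ∀ {S : Type} [Fintype S] [DecidableEq S]
    {T : Om d V → Ten d S} {a : ℝ}, T.HasTemperateGrowth →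
      OB M x m S T a → OB M x m S (fun x => c • T x) (c * a) := by
  induction m with
  | zero =>
    intro S _ _ T a _ h
    refine (opN_smul_le c (T x)).trans ?_
    rw [abs_of_nonneg hc]
    exact mul_le_mul_of_nonneg_left h hc
  | succ m ih =>
    intro S _ _ T a hT h
    refine ⟨(opN_smul_le c (T x)).trans ?_, fun v => ?_⟩
    · rw [abs_of_nonneg hc]
      exact mul_le_mul_of_nonneg_left h.1 hc
    · have e : dT v (fun x => c • T x) = fun x => c • dT v T x := funext fun x => dT_smul hT c v x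
      rw [e, mul_left_comm]
      exact ih (temp_dT hT v) (h.2 v)

theorem nrm_con1_le {S₁ S₂ : Type} [Fintype S₁] [DecidableEq S₁] [Fintype S₂] [DecidableEq S₂]
    [Nonempty S₂] (T₁ : Ten d (Option S₁)) (T₂ : Ten d (Option S₂)) :
    nrm (con1 T₁ T₂) ≤ nrm T₁ * opN T₂ := by
  rw [con1_eq_con]
  refine (nrm_con_le _ _).trans_eq ?_
  rw [nrm_reix, opN_reix]

theorem FB.con1 {M : ℝ} (m : ℕ) : ∀ {S₁ S₂ : Type} [Fintype S₁] [DecidableEq S₁]
    [Fintype S₂] [DecidableEq S₂] [Nonempty S₂] {T₁ : Om d V → Ten d (Option S₁)}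
    {T₂ : Om d V → Ten d (Option S₂)} {a₁ a₂ : ℝ}, T₁.HasTemperateGrowth → T₂.HasTemperateGrowth →
      FB M x m (Option S₁) T₁ a₁ → OB M x m (Option S₂) T₂ a₂ →
      FB (2 * M) x m (S₁ ⊕ S₂) (fun x => con1 (T₁ x) (T₂ x)) (a₁ * a₂) := by
  induction m with
  | zero =>
    intro S₁ S₂ _ _ _ _ _ T₁ T₂ a₁ a₂ _ _ h₁ h₂
    exact (nrm_con1_le _ _).trans
      (mul_le_mul h₁ h₂ (opN_nonneg _) ((nrm_nonneg _).trans h₁.zero))
  | succ m ih =>
    intro S₁ S₂ _ _ _ _ _ T₁ T₂ a₁ a₂ hT₁ hT₂ h₁ h₂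
    refine ⟨(nrm_con1_le _ _).trans
      (mul_le_mul h₁.1 h₂.1 (opN_nonneg _) ((nrm_nonneg _).trans h₁.1)), fun v => ?_⟩
    have e : dT v (fun x => R285.con1 (T₁ x) (T₂ x)) = fun x =>
        R285.reix (optL S₁ S₂) (R285.con1 (R285.reix (swapO S₁) (dT v T₁ x)) (T₂ x)) +
        R285.reix (optR S₁ S₂) (R285.con1 (T₁ x) (R285.reix (swapO S₂) (dT v T₂ x))) :=
      funext fun x => dT_con1 hT₁ hT₂ v x
    have t₁ := temp_reix (swapO S₁) (temp_dT hT₁ v)
    have t₂ := temp_reix (swapO S₂) (temp_dT hT₂ v)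
    have k₁ := FB.reix m (optL S₁ S₂) (ih t₁ hT₂ (FB.reix m (swapO S₁) (h₁.2 v)) (OB.pred m h₂))
    have k₂ := FB.reix m (optR S₁ S₂) (ih hT₁ t₂ (FB.pred m h₁) (OB.reix m (swapO S₂) (h₂.2 v)))
    have k := FB.add m (temp_reix _ (temp_con1 t₁ hT₂)) (temp_reix _ (temp_con1 hT₁ t₂)) k₁ k₂
    rw [e]
    convert k using 1
    ring

/-- Faà di Bruno -/
theorem FB_jet {h : E d → ℝ} (hh : h.HasTemperateGrowth) {A M : ℝ} {r : ℕ} (hM : 0 ≤ M)
    (hA : ∀ (S : Type) [Fintype S] [DecidableEq S] [Nonempty S], Fintype.card S ≤ r →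
      ∀ y, nrm (jet h y : Ten d S) ≤ A) {Θ : Om d V → Ten d Unit} (hΘ : Θ.HasTemperateGrowth)
    (y : E d) (m : ℕ) : ∀ (S : Type) [Fintype S] [DecidableEq S] [Nonempty S],
      Fintype.card S + m ≤ r → OB M x m Unit Θ 1 →
      FB (2 ^ m * M) x m S (fun ζ => jet h (y + vec (Θ ζ))) A := by
  have ht : ∀ (S : Type) [Fintype S] [DecidableEq S],
      (fun ζ => (jet h (y + vec (Θ ζ)) : Ten d S)).HasTemperateGrowth := fun S _ _ =>
    (temp_jet hh).comp ((Function.HasTemperateGrowth.const y).add (temp_vec hΘ))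
  induction m with
  | zero => intro S _ _ _ hS _; exact hA S hS _
  | succ m ih =>
    intro S _ _ _ hS hO
    have hA0 : 0 ≤ A := (nrm_nonneg _).trans (hA S (by omega) y)
    refine ⟨hA S (by omega) _, fun v => ?_⟩
    have e : dT v (fun ζ => (jet h (y + vec (Θ ζ)) : Ten d S)) = fun ζ =>
        R285.reix (sumU S) (R285.con1 (jet h (y + vec (Θ ζ))) (R285.reix swapU (dT v Θ ζ))) := by
      funext ζ
      have := dT_jet (S := S) hh y (0 : V → ℝ) hΘ v ζ
      have hl : ∀ x : Om d V, lin (0 : V → ℝ) x = 0 := fun x => by funext i; simp [lin]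
      simpa only [hl, add_zero, Pi.zero_apply, zero_smul, zero_add] using this
    have h1 : (1 : ℝ) ≤ 2 ^ m := one_le_pow₀ one_le_two
    have hM2 : M ≤ 2 ^ m * M := le_mul_of_one_le_left hM h1
    have k₁ := ih (Option S) (by rw [Fintype.card_option]; omega) (OB.pred m hO)
    have k₂ := OB.mono hM hM2 m (OB.reix m swapU (hO.2 v)) le_rfl
    have k := FB.reix m (sumU S) (FB.con1 m (ht _)
      (temp_reix swapU (temp_dT hΘ v)) k₁ k₂)
    rw [e]
    refine FB.mono (by positivity) (le_of_eq (by ring)) m k ?_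
    have : A * M * 1 ≤ A * M * 2 ^ (m + 1) :=
      mul_le_mul_of_nonneg_left (one_le_pow₀ one_le_two) (mul_nonneg hA0 hM)
    linarith

theorem nwP_nonneg (p : ℕ) (L : ℝ) (m : ℕ) : ∀ (S : Type) (T : Om d V → Ten d S) (x : Om d V),
    0 ≤ nwP p L m S T x := by
  induction m with
  | zero => intro S T x; exact pow_nonneg (opN_nonneg _) _
  | succ m ih =>
    intro S T x
    exact add_nonneg (pow_nonneg (opN_nonneg _) _) (Finset.sum_nonneg fun v _ => ih _ _ _)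

omit [DecidableEq V] in
theorem temp_smul {S : Type} [Fintype S] [DecidableEq S] {T : Om d V → Ten d S}
    (hT : T.HasTemperateGrowth) (c : ℝ) : (fun x => c • T x).HasTemperateGrowth :=
  temp_pi.2 fun i => TenB.temp_mul (Function.HasTemperateGrowth.const c) (TenB.temp_coord hT i)

theorem measurable_nwP (p : ℕ) (L : ℝ) (m : ℕ) : ∀ (S : Type) [Fintype S] [DecidableEq S]
    (T : Om d V → Ten d S), T.HasTemperateGrowth → Measurable (nwP p L m S T) := by
  induction m with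
  | zero =>
    intro S _ _ T hT
    exact (measurable_opN.comp hT.1.continuous.measurable).pow_const p
  | succ m ih =>
    intro S _ _ T hT
    exact ((measurable_opN.comp hT.1.continuous.measurable).pow_const p).add
      (Finset.measurable_sum _ fun v _ => ih _ _ (temp_smul (temp_dT hT v) _))

theorem lintegral_nwP (p : ℕ) (L : ℝ) (m : ℕ) : ∀ (S : Type) [Fintype S] [DecidableEq S]
    (T : Om d V → Ten d S), T.HasTemperateGrowth →
    ∫⁻ x, ENNReal.ofReal (nwP p L m S T x) ∂gam (V × Fin d) = NW p L m S T := by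
  induction m with
  | zero =>
    intro S _ _ T _
    exact lintegral_congr fun x => ENNReal.ofReal_pow (opN_nonneg _) _
  | succ m ih =>
    intro S _ _ T hT
    have e : ∀ x, ENNReal.ofReal (nwP p L (m + 1) S T x) = ENNReal.ofReal (opN (T x)) ^ p +
        ∑ v, ENNReal.ofReal (nwP p L m (Option S) (fun x => L⁻¹ • dT v T x) x) := by
      intro x
      rw [← ENNReal.ofReal_pow (opN_nonneg _),
        ← ENNReal.ofReal_sum_of_nonneg (fun v _ => nwP_nonneg p L m _ _ _),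
        ← ENNReal.ofReal_add (pow_nonneg (opN_nonneg _) _)
          (Finset.sum_nonneg fun v _ => nwP_nonneg p L m _ _ _)]
      rfl
    simp only [e]
    have hm : Measurable fun x => ENNReal.ofReal (opN (T x)) ^ p :=
      (measurable_opN.comp hT.1.continuous.measurable).ennreal_ofReal.pow_const p
    rw [lintegral_add_left hm,
      lintegral_finsetSum _ (fun v _ =>
        (measurable_nwP p L m _ _ (temp_smul (temp_dT hT v) _)).ennreal_ofReal)]
    change _ = _ + _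
    congr 1
    exact Finset.sum_congr rfl fun v _ => ih _ _ (temp_smul (temp_dT hT v) _)

theorem OB_of_nwP {p : ℕ} (hp : p ≠ 0) {L : ℝ} (hL : 0 < L) {θ : ℝ} (hθ : 0 ≤ θ) (m : ℕ) :
    ∀ (S : Type) [Fintype S] [DecidableEq S] (T : Om d V → Ten d S), T.HasTemperateGrowth →
      nwP p L m S T x ≤ θ ^ p → OB L x m S T θ := by
  induction m with
  | zero => intro S _ _ T _ h; exact (pow_le_pow_iff_left₀ (opN_nonneg _) hθ hp).1 h
  | succ m ih =>
    intro S _ _ T hT h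
    change opN (T x) ^ p + ∑ v, nwP p L m (Option S) (fun x => L⁻¹ • dT v T x) x ≤ _ at h
    have h1 : 0 ≤ ∑ v, nwP p L m (Option S) (fun x => L⁻¹ • dT v T x) x :=
      Finset.sum_nonneg fun v _ => nwP_nonneg p L m _ _ _
    have h2 : 0 ≤ opN (T x) ^ p := pow_nonneg (opN_nonneg _) _
    refine ⟨(pow_le_pow_iff_left₀ (opN_nonneg _) hθ hp).1 (by linarith), fun v => ?_⟩
    have h3 := Finset.single_le_sum (f := fun v => nwP p L m (Option S) (fun x => L⁻¹ • dT v T x) x)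
      (fun v _ => nwP_nonneg p L m _ _ _) (Finset.mem_univ v)
    have h4 := OB.smul hL.le m (temp_smul (temp_dT hT v) _)
      (ih _ _ (temp_smul (temp_dT hT v) L⁻¹) (by linarith))
    simpa only [smul_smul, mul_inv_cancel₀ hL.ne', one_smul] using h4

variable {U : Type} [Fintype U] [DecidableEq U]

theorem PsiD_le (α : V → ℝ) (αU : U → ℝ) (t L : ℝ) (M : Om d V → ℝ) (k : ℕ) :
    ∀ (S : Type) [Fintype S] [DecidableEq S] [Nontrivial S] (F : E d → Om d V → Ten d S)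
      (Λ : Om d (V ⊕ U) → Ten d S) (φ : Om d V → ℝ) (lam : Om d (V ⊕ U) → ℝ),
      (∀ y ζ, FB (M ζ) ζ k S (F y) (φ ζ)) → (∀ ξ, OB L ξ k S Λ (lam ξ)) →
      ENNReal.ofReal |PsiD α αU k S F Λ t| ≤ (Fintype.card V : ℝ≥0∞) ^ k *
        ∫⁻ x, ENNReal.ofReal (√d * (M (ren Sum.inl x) ^ k * φ (ren Sum.inl x)) *
          (L ^ k * lam (sub (rotM V U t) x))) ∂gam ((V ⊕ Ext V U) × Fin d) := by
  induction k with
  | zero =>
    intro S _ _ _ F Λ φ lam hF hΛ
    simp only [pow_zero, one_mul]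
    change ENNReal.ofReal |Psi α αU F Λ t| ≤ _
    unfold Psi
    rw [← Real.enorm_eq_ofReal_abs]
    refine (enorm_integral_le_lintegral_enorm _).trans (lintegral_mono fun x => ?_)
    rw [Real.enorm_eq_ofReal_abs]
    refine ENNReal.ofReal_le_ofReal ((abs_dot_le _ _).trans ?_)
    have h1 := (hF (lin (Sum.elim α (extA α αU)) x) (ren Sum.inl x)).zero
    have h2 := (nrm_le_sqrt_mul_opN (Λ (sub (rotM V U t) x))).trans
      (mul_le_mul_of_nonneg_left (hΛ (sub (rotM V U t) x)).zero (Real.sqrt_nonneg _))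
    refine (mul_le_mul h1 h2 (nrm_nonneg _) ((nrm_nonneg _).trans h1)).trans_eq ?_
    ring
  | succ k ih =>
    intro S _ _ _ F Λ φ lam hF hΛ
    change ENNReal.ofReal
      |∑ v, PsiD α αU k (Option S) (fun y => dT v (F y)) (dT (Sum.inl v) Λ) t| ≤ _
    refine (ENNReal.ofReal_le_ofReal (Finset.abs_sum_le_sum_abs _ _)).trans ?_
    rw [ENNReal.ofReal_sum_of_nonneg (fun v _ => abs_nonneg _)]
    refine (Finset.sum_le_sum fun v _ => ih (Option S) (fun y => dT v (F y)) (dT (Sum.inl v) Λ)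
      (fun ζ => M ζ * φ ζ) (fun ξ => L * lam ξ) (fun y ζ => (hF y ζ).2 v)
      (fun ξ => (hΛ ξ).2 _)).trans_eq ?_
    rw [Finset.sum_const, Finset.card_univ, nsmul_eq_mul, pow_succ', mul_assoc]
    congr 2
    refine lintegral_congr fun x => ?_
    congr 1
    ring

theorem young {a b : ℝ} (ha : 0 ≤ a) (hb : 0 ≤ b) (n : ℕ) :
    a ^ n * b ≤ a ^ (n + 1) + b ^ (n + 1) := by
  rcases le_total a b with h | h
  · have : a ^ n * b ≤ b ^ n * b := mul_le_mul_of_nonneg_right (pow_le_pow_left₀ ha h n) hb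
    rw [pow_succ b]
    linarith [pow_nonneg ha (n + 1)]
  · have : a ^ n * b ≤ a ^ n * a := mul_le_mul_of_nonneg_left h (pow_nonneg ha n)
    rw [pow_succ a]
    linarith [pow_nonneg hb (n + 1)]

end Interp

open Interp in
theorem abs_PsiD_le (N : ℕ) : ∃ C : ℝ, 1 ≤ C ∧ ∀ (d : ℕ) (V U : Type) [Fintype V] [DecidableEq V]
    [Fintype U] [DecidableEq U] (α : V → ℝ) (αU : U → ℝ) (h : E d → ℝ), h.HasTemperateGrowth →
    ∀ A : ℝ, (∀ (S : Type) [Fintype S] [DecidableEq S] [Nonempty S], Fintype.card S ≤ N + 2 →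
      ∀ y, nrm (jet h y : Ten d S) ≤ A) →
    ∀ (Θ : Om d V → Ten d Unit) (Λ : Om d (V ⊕ U) → Ten d Unit), Θ.HasTemperateGrowth →
      Λ.HasTemperateGrowth → ∀ L : ℝ, 1 ≤ L → ∀ t ∈ Set.Icc (0 : ℝ) 1,
      ENNReal.ofReal |PsiD α αU (N + 1) Unit (F0 h Θ) Λ t| ≤
        ENNReal.ofReal (C * A * √d * (Fintype.card V * L ^ 2) ^ (N + 1)) *
          (1 + NW (N + 2) L (N + 1) Unit Θ + NW (N + 2) L (N + 1) Unit Λ) := by
  refine ⟨(2 ^ (N + 1)) ^ (N + 1), one_le_pow₀ (one_le_pow₀ one_le_two), ?_⟩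
  intro d V U _ _ _ _ α αU h hh A hA Θ Λ hΘ hΛ L hL t ht
  have hL0 : 0 < L := by linarith
  have hA0 : 0 ≤ A := (nrm_nonneg _).trans (hA Unit (by simp) 0)
  have hroot : ∀ z : ℝ, 0 ≤ z → ∃ r : ℝ, 0 ≤ r ∧ r ^ (N + 2) = z := fun z hz =>
    ⟨z ^ (((N + 2 : ℕ) : ℝ)⁻¹), Real.rpow_nonneg hz _, Real.rpow_inv_natCast_pow hz (by omega)⟩
  choose θ hθ0 hθ using fun ζ => hroot (1 + nwP (N + 2) L (N + 1) Unit Θ ζ)
    (add_nonneg zero_le_one (nwP_nonneg _ _ _ _ _ _))
  choose lam hl0 hl using fun ξ => hroot (nwP (N + 2) L (N + 1) Unit Λ ξ) (nwP_nonneg _ _ _ _ _ _)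
  have hθ1 : ∀ ζ, 1 ≤ θ ζ := fun ζ => by
    have : 1 ^ (N + 2) ≤ θ ζ ^ (N + 2) := by
      rw [hθ, one_pow]; linarith [nwP_nonneg (N + 2) L (N + 1) Unit Θ ζ]
    exact (pow_le_pow_iff_left₀ zero_le_one (hθ0 ζ) (by omega)).1 this
  have hOΛ : ∀ ξ, OB L ξ (N + 1) Unit Λ (lam ξ) := fun ξ =>
    OB_of_nwP (p := N + 2) (by omega) hL0 (hl0 ξ) _ _ _ hΛ (hl ξ).ge
  have hOΘ : ∀ ζ, OB (L * θ ζ) ζ (N + 1) Unit Θ 1 := fun ζ => by
    have h1 : OB L ζ (N + 1) Unit Θ (θ ζ) :=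
      OB_of_nwP (p := N + 2) (by omega) hL0 (hθ0 ζ) _ _ _ hΘ (by rw [hθ]; linarith)
    refine ⟨by rw [opN_eq_zero]; exact zero_le_one, fun v => ?_⟩
    exact OB.mono hL0.le (le_mul_of_one_le_right hL0.le (hθ1 ζ)) N (h1.2 v) (by rw [mul_one])
  have hF : ∀ y ζ, FB (2 ^ (N + 1) * (L * θ ζ)) ζ (N + 1) Unit (F0 h Θ y) A := fun y ζ =>
    FB_jet hh (mul_nonneg hL0.le (hθ0 ζ)) hA hΘ y (N + 1) Unit (by simp; omega) (hOΘ ζ)
  set c : ℝ := (2 ^ (N + 1)) ^ (N + 1) * A * √d * (L ^ 2) ^ (N + 1) with hc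
  have hc0 : 0 ≤ c := by positivity
  have m1 := measurable_nwP (N + 2) L (N + 1) Unit Θ hΘ
  have m2 := measurable_nwP (N + 2) L (N + 1) Unit Λ hΛ
  have p1 := mp_ren (d := d) (Sum.inl : V → V ⊕ Ext V U) Sum.inl_injective
  have p2 := mp_sub (d := d) (rotM V U t) (rotM_mul_transpose ht)
  have key : ∀ v : V, ENNReal.ofReal
      |PsiD α αU N (Option Unit) (fun y => dT v (F0 h Θ y)) (dT (Sum.inl v) Λ) t| ≤
      (Fintype.card V : ℝ≥0∞) ^ N * (ENNReal.ofReal c *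
        (1 + NW (N + 2) L (N + 1) Unit Θ + NW (N + 2) L (N + 1) Unit Λ)) := by
    intro v
    refine (PsiD_le α αU t L (fun ζ => 2 ^ (N + 1) * (L * θ ζ)) N (Option Unit) _ _
      (fun ζ => 2 ^ (N + 1) * (L * θ ζ) * A) (fun ξ => L * lam ξ) (fun y ζ => (hF y ζ).2 v)
      (fun ξ => (hOΛ ξ).2 _)).trans (mul_le_mul_right ?_ _)
    calc _ ≤ ∫⁻ x, ENNReal.ofReal c * (1 +
          ENNReal.ofReal (nwP (N + 2) L (N + 1) Unit Θ (ren Sum.inl x)) +
          ENNReal.ofReal (nwP (N + 2) L (N + 1) Unit Λ (sub (rotM V U t) x)))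
            ∂gam ((V ⊕ Ext V U) × Fin d) := by
          refine lintegral_mono fun x => ?_
          have n1 := nwP_nonneg (N + 2) L (N + 1) Unit Θ (ren Sum.inl x)
          have n2 := nwP_nonneg (N + 2) L (N + 1) Unit Λ (sub (rotM V U t) x)
          rw [← ENNReal.ofReal_one, ← ENNReal.ofReal_add zero_le_one n1,
            ← ENNReal.ofReal_add (by linarith) n2, ← ENNReal.ofReal_mul hc0, ← hθ, ← hl]
          refine ENNReal.ofReal_le_ofReal (le_trans (le_of_eq ?_)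
            (mul_le_mul_of_nonneg_left (young (hθ0 _) (hl0 _) (N + 1)) hc0))
          rw [hc]
          ring
      _ = _ := by
          have m3 : Measurable fun x => ENNReal.ofReal
              (nwP (N + 2) L (N + 1) Unit Λ (sub (rotM V U t) x)) :=
            m2.ennreal_ofReal.comp p2.measurable
          rw [lintegral_const_mul' _ _ ENNReal.ofReal_ne_top, lintegral_add_right _ m3,
            lintegral_add_left measurable_const,
            p1.lintegral_comp m1.ennreal_ofReal, p2.lintegral_comp m2.ennreal_ofReal,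
            lintegral_nwP _ _ _ _ _ hΘ, lintegral_nwP _ _ _ _ _ hΛ]
          simp
  change ENNReal.ofReal
    |∑ v, PsiD α αU N (Option Unit) (fun y => dT v (F0 h Θ y)) (dT (Sum.inl v) Λ) t| ≤ _
  refine (ENNReal.ofReal_le_ofReal (Finset.abs_sum_le_sum_abs _ _)).trans ?_
  rw [ENNReal.ofReal_sum_of_nonneg (fun v _ => abs_nonneg _)]
  refine (Finset.sum_le_sum fun v _ => key v).trans_eq ?_
  rw [Finset.sum_const, Finset.card_univ, nsmul_eq_mul, ← mul_assoc, ← mul_assoc, ← pow_succ',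
    ← ENNReal.ofReal_natCast, ← ENNReal.ofReal_pow (Nat.cast_nonneg _),
    ← ENNReal.ofReal_mul (by positivity)]
  congr 2
  rw [hc]
  ring

/-- `quad` applied to `g k = PsiD k`; `nrm_jet_heat_le` -/
theorem one_step (N : ℕ) : ∃ C : ℝ, 1 ≤ C ∧ ∀ m : ℕ, 1 ≤ m →
    ∃ (κ : Type) (_ : Fintype κ) (t w : κ → ℝ), (Fintype.card κ : ℝ) ≤ C * m ∧
      (∀ s, t s ∈ Set.Icc (0 : ℝ) 1) ∧ (∀ s, |w s| ≤ C / m) ∧
      ∀ (d : ℕ) (V U : Type) [Fintype V] [DecidableEq V] [Fintype U] [DecidableEq U]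
        (f : E d → ℝ), TF f → ∀ (α : V → ℝ) (αU : U → ℝ) (Θ : Om d V → Ten d Unit)
        (Λ : Om d (V ⊕ U) → Ten d Unit), Θ.HasTemperateGrowth → Λ.HasTemperateGrowth →
        ∀ ρ : ℝ, α ⬝ᵥ α + αU ⬝ᵥ αU + 2 ≤ ρ → ∀ L : ℝ, 1 ≤ L →
        ENNReal.ofReal |tied ρ f α Θ αU Λ - freed ρ f α Θ αU Λ -
            ∑ s, w s * tied ρ f α Θ (extA α αU) (Gam (t s) Θ Λ)| ≤
          ENNReal.ofReal (C * √d * (Fintype.card V * L ^ 2) ^ (N + 1) / (m : ℝ) ^ N) *
            (1 + NW (N + 2) L (N + 1) Unit Θ + NW (N + 2) L (N + 1) Unit Λ) := by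
  obtain ⟨C₁, h₁, H₁⟩ := abs_PsiD_le N
  obtain ⟨C₂, h₂, H₂⟩ := quad N
  obtain ⟨C₃, h₃, H₃⟩ := nrm_jet_heat_le (N + 2)
  have h13 : 1 ≤ C₁ * C₃ := one_le_mul_of_one_le_of_one_le h₁ h₃
  have h2 : C₂ ≤ C₂ * (C₁ * C₃) := le_mul_of_one_le_right (by linarith) h13
  refine ⟨C₂ * (C₁ * C₃), h₂.trans h2, fun m hm => ?_⟩
  obtain ⟨κ, iκ, t, w, hκ, ht, hw, H⟩ := H₂ m hm
  have hm0 : (0 : ℝ) < m := by exact_mod_cast hm
  refine ⟨κ, iκ, t, w, hκ.trans (mul_le_mul_of_nonneg_right h2 hm0.le), ht,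
    fun s => (hw s).trans (div_le_div_of_nonneg_right h2 hm0.le), ?_⟩
  intro d V U _ _ _ _ f hf α αU Θ Λ hΘ hΛ ρ hρ L hL
  set h : E d → ℝ := heat (ρ - (α ⬝ᵥ α + αU ⬝ᵥ αU + 1)) f with hh
  have hht : h.HasTemperateGrowth := temp_heat hf.temp _
  have hF := temp_F0 hht hΘ
  set Z : ℝ≥0∞ := 1 + NW (N + 2) L (N + 1) Unit Θ + NW (N + 2) L (N + 1) Unit Λ with hZ
  set B : ℝ := C₁ * C₃ * √d * (Fintype.card V * L ^ 2) ^ (N + 1) with hB
  have hb : ∀ s ∈ Set.Icc (0 : ℝ) 1,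
      ENNReal.ofReal |PsiD α αU (N + 1) Unit (F0 h Θ) Λ s| ≤ ENNReal.ofReal B * Z := fun s hs =>
    H₁ d V U α αU h hht C₃ (fun S _ _ _ hS y => H₃ d S hS f hf _ (by linarith) y) Θ Λ hΘ hΛ L hL s hs
  have hq : 0 < C₂ / (m : ℝ) ^ N := by have : 0 < C₂ := by linarith
                                       positivity
  have e : ENNReal.ofReal (C₂ * (C₁ * C₃) * √d * (Fintype.card V * L ^ 2) ^ (N + 1) / (m : ℝ) ^ N) * Z =
      ENNReal.ofReal (C₂ / (m : ℝ) ^ N) * (ENNReal.ofReal B * Z) := by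
    rw [← mul_assoc (ENNReal.ofReal _), ← ENNReal.ofReal_mul hq.le]
    congr 2
    rw [hB]
    ring
  rw [e]
  by_cases hW : ENNReal.ofReal B * Z = ⊤
  · rw [hW, ENNReal.mul_top (by simpa using hq)]
    exact le_top
  have k := H (fun k => PsiD α αU k Unit (F0 h Θ) Λ)
    (fun k => (continuous_PsiD k hF hΛ).continuousOn) (fun k s hs => hasDerivAt_PsiD k hF hΛ hs)
    (ENNReal.ofReal B * Z).toReal fun s hs => (ENNReal.ofReal_le_iff_le_toReal hW).1 (hb s hs)
  have e1 : PsiD α αU 0 Unit (F0 h Θ) Λ 1 = tied ρ f α Θ αU Λ :=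
    Psi_one hf.temp hΘ hΛ (by linarith)
  have e0 : PsiD α αU 0 Unit (F0 h Θ) Λ 0 = freed ρ f α Θ αU Λ :=
    Psi_zero hf.temp hΘ hΛ (by linarith)
  have es : ∀ s, PsiD α αU 1 Unit (F0 h Θ) Λ s = tied ρ f α Θ (extA α αU) (Gam s Θ Λ) :=
    fun s => PsiD_one hf.temp hΘ hΛ s
  simp only [e1, e0, es] at k
  refine (ENNReal.ofReal_le_ofReal k).trans_eq ?_
  rw [← ENNReal.ofReal_toReal hW, ← ENNReal.ofReal_mul hq.le, ENNReal.ofReal_toReal hW]
  congr 1
  ring

end Crest.Agent.R285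

end
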