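import Crest.Agent.R285.BlkA
import Crest.Agent.R285.Interp

/-!
Auxiliary lemmas for `Expand.lean`: linearity of `tied` and `Gam`, bounds for blocks.
-/

set_option autoImplicit false

open MeasureTheory ProbabilityTheory Matrix Filter
open scoped ENNReal

noncomputable section

namespace Crest.Agent.R285.Expand

section Tied
variable {d : ℕ} {V U : Type} [Fintype V] [DecidableEq V] [Fintype U] [DecidableEq U]
  {f : E d → ℝ} {Θ : Om d V → Ten d Unit} {Λ : Om d (V ⊕ U) → Ten d Unit}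

/-- the first factor of `tied` as a function of all seeds -/
def GG (ρ : ℝ) (f : E d → ℝ) (α : V → ℝ) (Θ : Om d V → Ten d Unit) (αU : U → ℝ)
    (z : Om d (V ⊕ U)) : E d :=
  grad (heat (ρ - αU ⬝ᵥ αU) f)
    (lin α (ren Sum.inl z) + vec (Θ (ren Sum.inl z)) + lin αU (ren Sum.inr z))

omit [DecidableEq V] [DecidableEq U] in
theorem temp_GG (hf : f.HasTemperateGrowth) (hΘ : Θ.HasTemperateGrowth) (ρ : ℝ) (α : V → ℝ)
    (αU : U → ℝ) : (GG ρ f α Θ αU).HasTemperateGrowth :=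
  (temp_grad (temp_heat hf _)).comp ((((temp_lin α).comp (temp_ren Sum.inl)).add
    (temp_vec (hΘ.comp (temp_ren Sum.inl)))).add ((temp_lin αU).comp (temp_ren Sum.inr)))

omit [DecidableEq V] [DecidableEq U] in
theorem tied_eq (hf : f.HasTemperateGrowth) (hΘ : Θ.HasTemperateGrowth)
    (hΛ : Λ.HasTemperateGrowth) (ρ : ℝ) (α : V → ℝ) (αU : U → ℝ) :
    tied ρ f α Θ αU Λ = ∫ z, GG ρ f α Θ αU z ⬝ᵥ vec (Λ z) ∂gam ((V ⊕ U) × Fin d) := by
  rw [integral_join (PG.of_temp (temp_dot (temp_GG hf hΘ ρ α αU) (temp_vec hΛ)))]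
  rfl

omit [DecidableEq V] [DecidableEq U] in
theorem abs_tied_le (hf : TF f) (hΘ : Θ.HasTemperateGrowth) (hΛ : Λ.HasTemperateGrowth) (ρ : ℝ)
    (α : V → ℝ) (αU : U → ℝ) : ENNReal.ofReal |tied ρ f α Θ αU Λ| ≤
      ∫⁻ z, ENNReal.ofReal (nrm (vec (Λ z))) ∂gam ((V ⊕ U) × Fin d) := by
  rw [tied_eq hf.temp hΘ hΛ, ← Real.norm_eq_abs, ofReal_norm]
  refine (enorm_integral_le_lintegral_enorm _).trans (lintegral_mono fun z => ?_)
  rw [← ofReal_norm, Real.norm_eq_abs]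
  exact ENNReal.ofReal_le_ofReal ((abs_dot_le _ _).trans
    (mul_le_of_le_one_left (nrm_nonneg _) ((hf.heat _).lip _)))

omit [DecidableEq V] [DecidableEq U] in
theorem tied_sum {κ : Type} [Fintype κ] (hf : f.HasTemperateGrowth) (hΘ : Θ.HasTemperateGrowth)
    {Λ : κ → Om d (V ⊕ U) → Ten d Unit} (hΛ : ∀ k, (Λ k).HasTemperateGrowth) (c : κ → ℝ) (ρ : ℝ)
    (α : V → ℝ) (αU : U → ℝ) :
    tied ρ f α Θ αU (fun ξ => ∑ k, c k • Λ k ξ) = ∑ k, c k * tied ρ f α Θ αU (Λ k) := by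
  rw [tied_eq hf hΘ (Function.HasTemperateGrowth.sum fun k _ => NWAux.temp_smul (hΛ k) (c k))]
  simp only [tied_eq hf hΘ (hΛ _), ← integral_const_mul]
  rw [← integral_finsetSum _ fun k _ =>
    (temp_integrable (temp_dot (temp_GG hf hΘ ρ α αU) (temp_vec (hΛ k)))).const_mul _]
  refine integral_congr_ae (Eventually.of_forall fun z => ?_)
  simp only [vec_sum, dotProduct_sum]
  exact Finset.sum_congr rfl fun k _ => dotProduct_smul (c k) _ (vec (Λ k z))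

theorem dT_lc {S κ : Type} [Fintype S] [DecidableEq S] [Fintype κ] {T : κ → Om d V → Ten d S}
    (hT : ∀ k, (T k).HasTemperateGrowth) (c : κ → ℝ) (v : V) (x : Om d V) :
    dT v (fun x => ∑ k, c k • T k x) x = ∑ k, c k • dT v (T k) x := by
  rw [dT_sum _ fun k _ => NWAux.temp_smul (hT k) (c k)]
  exact Finset.sum_congr rfl fun k _ => dT_smul (hT k) (c k) v x

theorem Gam_sum {κ κ' : Type} [Fintype κ] [Fintype κ'] {Θ : κ → Om d V → Ten d Unit}
    {Λ : κ' → Om d (V ⊕ U) → Ten d Unit} (hΘ : ∀ k, (Θ k).HasTemperateGrowth)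
    (hΛ : ∀ k, (Λ k).HasTemperateGrowth) (c : κ → ℝ) (c' : κ' → ℝ) (t : ℝ)
    (x : Om d (V ⊕ Ext V U)) :
    Gam t (fun ζ => ∑ k, c k • Θ k ζ) (fun ξ => ∑ k, c' k • Λ k ξ) x =
      ∑ k', ∑ k, (c' k' * c k) • Gam t (Θ k) (Λ k') x := by
  funext i
  have h1 : ∀ {A B C D : Type} [Fintype A] [Fintype B] [Fintype C] [Fintype D]
      (g : A → B → C → D → ℝ), ∑ a, ∑ b, ∑ c, ∑ e, g a b c e = ∑ e, ∑ a, ∑ b, ∑ c, g a b c e := by
    intro A B C D _ _ _ _ g
    rw [eq_comm, Finset.sum_comm]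
    refine Finset.sum_congr rfl fun a _ => ?_
    rw [Finset.sum_comm]
    exact Finset.sum_congr rfl fun b _ => Finset.sum_comm
  have h2 : ∀ (A : κ' → ℝ) (B : κ → ℝ) (z : ℝ), (∑ k', c' k' * A k') * (∑ k, c k * B k) * z =
      ∑ k', ∑ k, c' k' * c k * (A k' * B k * z) := by
    intro A B z
    rw [Finset.sum_mul_sum]
    simp only [Finset.sum_mul]
    exact Finset.sum_congr rfl fun _ _ => Finset.sum_congr rfl fun _ _ => by ring
  simp only [Gam, dT_lc hΘ, dT_lc hΛ, Finset.sum_apply, Pi.smul_apply, smul_eq_mul, h2]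
  rw [h1]
  refine Finset.sum_congr rfl fun k' _ => ?_
  rw [h1]
  simp only [Finset.mul_sum]

end Tied

section Blk
variable {P : Par} {β δ G : ℝ} {V0 V : Type} [Fintype V0] [Fintype V] {n : ℕ} {a : ℝ}
  {F0 : Submodule ℝ (V0 → ℝ)}

theorem N_eq (Y : Blk P β δ G V0 V n a F0) (W : Pot P.d δ G) (p : E P.d) (x : Om P.d V0) (t : ℝ) :
    (fun ζ (i : Unit → Fin P.d) => Y.N W p x t ζ (i ())) =
      fun ζ => ∑ j, Y.φ j t • Y.Θ j W p (join x ζ) := by
  funext ζ i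
  simp only [Blk.N, Finset.sum_apply]
  rfl

theorem Y'_eq (Y : Blk P β δ G V0 V n a F0) (W : Pot P.d δ G) (p : E P.d) (x : Om P.d V0) (t : ℝ) :
    (fun ζ (i : Unit → Fin P.d) => Y.Y' W p x t ζ (i ())) =
      fun ζ => ∑ j, Y.φ' j t • Y.Θ j W p (join x ζ) := by
  funext ζ i
  simp only [Blk.Y', Finset.sum_apply]
  rfl

theorem temp_Θ (Y : Blk P β δ G V0 V n a F0) (W : Pot P.d δ G) (p : E P.d) (x : Om P.d V0)
    (j : Y.ι) : (fun ζ => Y.Θ j W p (join x ζ)).HasTemperateGrowth :=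
  ((Y.mem j).temp W p).comp (temp_join_right x)

theorem temp_N (Y : Blk P β δ G V0 V n a F0) (W : Pot P.d δ G) (p : E P.d) (x : Om P.d V0)
    (t : ℝ) : (fun ζ (i : Unit → Fin P.d) => Y.N W p x t ζ (i ())).HasTemperateGrowth :=
  temp_pi.2 fun i => temp_pi.1 (Y.temp_N W p x t) (i ())

theorem temp_Y' (Y : Blk P β δ G V0 V n a F0) (W : Pot P.d δ G) (p : E P.d) (x : Om P.d V0)
    (t : ℝ) : (fun ζ (i : Unit → Fin P.d) => Y.Y' W p x t ζ (i ())).HasTemperateGrowth :=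
  temp_pi.2 fun i => temp_pi.1 (Y.temp_Y' W p x t) (i ())

/-- moments of the derivatives of combinations of the members of a block -/
theorem exists_nw [DecidableEq V0] [DecidableEq V] (hP : P.Base) (Y : Blk P β δ G V0 V n a F0)
    (ha : a ≤ 1) (W : Pot P.d δ G) (p : E P.d) {Ex N : ℕ}
    (h : ∀ j, NG (N + 2) (P.K ^ Ex) (N + 1) Unit (Y.Θ j W p) (P.K ^ Ex * a)) :
    ∃ r : Om P.d V0 → ℝ≥0∞, Measurable r ∧
      ∫⁻ x, r x ∂gam (V0 × Fin P.d) ≤ ENNReal.ofReal P.K ^ ((2 * n + 1 + Ex) * (N + 3)) ∧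
      ∀ x, ∀ c : Y.ι → ℝ, (∀ j, |c j| ≤ 1) →
        NW (N + 2) (P.K ^ Ex) (N + 1) Unit (fun ζ => ∑ j, c j • Y.Θ j W p (join x ζ)) ≤ r x := by
  have hK := hP.one_le_K
  have hm : ∀ j, Measurable fun x => NW (N + 2) (P.K ^ Ex) (N + 1) Unit
      fun ζ => Y.Θ j W p (join x ζ) := fun j => measurable_NW_join ((Y.mem j).temp W p)
  refine ⟨fun x => (Fintype.card Y.ι : ℝ≥0∞) ^ (N + 2) * ∑ j, NW (N + 2) (P.K ^ Ex) (N + 1) Unit
    fun ζ => Y.Θ j W p (join x ζ), (Finset.measurable_sum _ fun j _ => hm j).const_mul _, ?_,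
    fun x c hc => NW_sum_le (temp_Θ Y W p x) hc (by omega)⟩
  set k := ENNReal.ofReal P.K with hk
  have h1 : 1 ≤ k := ENNReal.one_le_ofReal.2 hK
  have h2 : ∀ {c e : ℕ}, (c : ℝ) ≤ P.K ^ e → (c : ℝ≥0∞) ≤ k ^ e := fun h => by
    rw [hk, ← ENNReal.ofReal_pow (by linarith), ← ENNReal.ofReal_natCast]
    exact ENNReal.ofReal_le_ofReal h
  have h3 : (Fintype.card V + 1 : ℝ≥0∞) ≤ k ^ (n + 1) := by
    have := h2 (c := Fintype.card V + 1) (e := n + 1) (by
      push_cast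
      nlinarith [Y.hV, hP.two_le, one_le_pow₀ (n := n) hK, pow_succ P.K n])
    simpa using this
  have h4 : ENNReal.ofReal (P.K ^ Ex * a) ≤ k ^ Ex := by
    rw [hk, ← ENNReal.ofReal_pow (by linarith)]
    exact ENNReal.ofReal_le_ofReal (mul_le_of_le_one_right (by positivity) ha)
  rw [lintegral_const_mul _ (Finset.measurable_sum _ fun j _ => hm j),
    lintegral_finsetSum _ fun j _ => hm j]
  calc _ ≤ (k ^ n) ^ (N + 2) * ∑ _j : Y.ι, (k ^ (n + 1)) ^ (N + 1) * (k ^ Ex) ^ (N + 2) := by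
        gcongr with j
        · exact h2 Y.hι
        · refine (lintegral_NW_join ((Y.mem j).temp W p) (by positivity) (h j)).trans ?_
          gcongr
    _ ≤ (k ^ n) ^ (N + 2) * (k ^ n * ((k ^ (n + 1)) ^ (N + 1) * (k ^ Ex) ^ (N + 2))) := by
        rw [Finset.sum_const, Finset.card_univ, nsmul_eq_mul]
        gcongr
        exact h2 Y.hι
    _ ≤ _ := by
        simp only [← pow_mul, ← pow_add]
        exact pow_le_pow_right₀ h1 (by nlinarith [Nat.zero_le (n * N), Nat.zero_le Ex])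

end Blk

end Crest.Agent.R285.Expand

end
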