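import Crest.Agent.R285.HeatA
import Crest.Agent.R285.Quad

/-!
Auxiliary results for `Extract`: Bessel smoothing, iterated sums over derivatives, Price's formula.
-/

set_option autoImplicit false

open MeasureTheory ProbabilityTheory Matrix Filter
open scoped ENNReal

noncomputable section

namespace Crest.Agent.R285.Extr

variable {d : ℕ}

theorem temp_aff (y : E d) (σ : ℝ) : (fun g : E d => y + σ • g).HasTemperateGrowth :=
  (Function.HasTemperateGrowth.const y).fun_add
    ((Function.HasTemperateGrowth.const σ).fun_smul .id')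

theorem temp_ev (i : Fin d) : (fun g : E d => g i).HasTemperateGrowth :=
  (ContinuousLinearMap.proj (R := ℝ) (φ := fun _ : Fin d => ℝ) i).hasTemperateGrowth

theorem temp_at {f : E d → ℝ} (hf : f.HasTemperateGrowth) (y : E d) (σ : ℝ) :
    (fun g : E d => f (y + σ • g)).HasTemperateGrowth := hf.comp (temp_aff y σ)

theorem pd_aff {f : E d → ℝ} (hf : f.HasTemperateGrowth) (y : E d) (σ : ℝ) (i : Fin d)
    (g : E d) : pd i (fun g => f (y + σ • g)) g = σ * pd i f (y + σ • g) := by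
  have hd : DifferentiableAt ℝ f (y + σ • g) := hf.1.differentiable (by simp) _
  have h2 := hd.hasFDerivAt.comp g
    ((σ • ContinuousLinearMap.id ℝ (E d)).hasFDerivAt.const_add y)
  have h3 := h2.fderiv
  change fderiv ℝ (fun g : E d => f (y + σ • g)) g = _ at h3
  simp only [pd, h3]
  simp

theorem int_aff (f : E d → ℝ) (y : E d) {s : ℝ} (hs : 0 ≤ s) :
    ∫ Z, f (y + s • Z) ∂gam (Fin d) = heat (s ^ 2) f y := by
  rw [heat, Real.sqrt_sq hs]

theorem stein_aff {f : E d → ℝ} (hf : f.HasTemperateGrowth) (y : E d) (s : ℝ) (i : Fin d) :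
    ∫ Z, Z i * f (y + s • Z) ∂gam (Fin d) = s * ∫ Z, pd i f (y + s • Z) ∂gam (Fin d) := by
  rw [stein (temp_at hf y s) i, ← integral_const_mul]
  exact integral_congr_ae (ae_of_all _ fun g => pd_aff hf y s i g)

theorem sum_int_sq_le {κ : Type} [Fintype κ] {F : E d → κ → ℝ} (hF : F.HasTemperateGrowth)
    {A : ℝ} (hA : ∀ y, nrm (F y) ≤ A) (y : E d) (s : ℝ) :
    ∑ k, ∫ Z, F (y + s • Z) k ^ 2 ∂gam (Fin d) ≤ A ^ 2 := by
  have hi : ∀ k, Integrable (fun Z => F (y + s • Z) k ^ 2) (gam (Fin d)) := fun k =>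
    temp_integrable ((temp_at (temp_pi.1 hF k) y s).fun_pow 2)
  rw [← integral_finsetSum _ fun k _ => hi k]
  calc _ ≤ ∫ _ : E d, A ^ 2 ∂gam (Fin d) := by
        refine integral_mono (integrable_finsetSum _ fun k _ => hi k) (integrable_const _)
          fun Z => ?_
        simp only [← nrm_sq]
        exact pow_le_pow_left₀ (nrm_nonneg _) (hA _) 2
    _ = A ^ 2 := by simp

theorem dE_le {κ : Type} [Fintype κ] {F : E d → κ → ℝ} (hF : F.HasTemperateGrowth)
    {A : ℝ} (hA : ∀ y, nrm (F y) ≤ A) {ρ : ℝ} (hρ : 0 < ρ) (y : E d) :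
    nrm (fun q : Fin d × κ => pd q.1 (heat ρ fun x => F x q.2) y) ≤ A / √ρ := by
  have hA0 : 0 ≤ A := (nrm_nonneg _).trans (hA y)
  have hs : 0 < √ρ := Real.sqrt_pos.2 hρ
  refine abs_le_of_sq_le_sq' ?_ (by positivity) |>.2
  rw [nrm_sq, Fintype.sum_prod_type, Finset.sum_comm, div_pow, le_div_iff₀ (by positivity),
    Finset.sum_mul]
  refine le_trans (Finset.sum_le_sum fun k _ => ?_) (sum_int_sq_le hF hA y √ρ)
  have hf := temp_pi.1 hF k
  refine le_trans (le_of_eq ?_) (bessel (PG.of_temp (temp_at hf y √ρ)))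
  rw [Finset.sum_mul]
  refine Finset.sum_congr rfl fun i _ => ?_
  rw [stein_aff hf, pd_heat hf, heat]
  ring

theorem nrm_heat_le {κ : Type} [Fintype κ] {F : E d → κ → ℝ} (hF : F.HasTemperateGrowth)
    {A : ℝ} (hA : ∀ y, nrm (F y) ≤ A) (ρ : ℝ) (y : E d) :
    nrm (fun k => heat ρ (fun x => F x k) y) ≤ A := by
  have hA0 : 0 ≤ A := (nrm_nonneg _).trans (hA y)
  have e : (fun k => heat ρ (fun x => F x k) y) = heat ρ F y :=
    funext fun k => (heat_apply (PG.of_temp hF) ρ y k).symm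
  rw [e, ← ENNReal.ofReal_le_ofReal_iff hA0]
  refine (nrm_integral_le _ _).trans ?_
  calc _ ≤ ∫⁻ _ : E d, ENNReal.ofReal A ∂gam (Fin d) :=
        lintegral_mono fun Z => ENNReal.ofReal_le_ofReal (hA _)
    _ = _ := by simp

theorem temp_dE {κ : Type} [Fintype κ] {F : E d → κ → ℝ} (hF : F.HasTemperateGrowth) (ρ : ℝ) :
    (fun y (q : Fin d × κ) => pd q.1 (heat ρ fun x => F x q.2) y).HasTemperateGrowth :=
  temp_pi.2 fun q => temp_pd (temp_heat (temp_pi.1 hF q.2) ρ) q.1

theorem heat_pd_heat {f : E d → ℝ} (hf : f.HasTemperateGrowth) {ρ τ : ℝ} (hτ : 0 ≤ τ)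
    (h : τ ≤ ρ) (i : Fin d) : heat (ρ - τ) (pd i (heat τ f)) = pd i (heat ρ f) := by
  rw [pd_heat hf, pd_heat hf, heat_heat (PG.of_temp (temp_pd hf i)) (by linarith) hτ,
    sub_add_cancel]

/-! ### iterated sums over derivatives -/

/-- the sum of `Φ (∂_l f)` over all words `l` of length `j` -/
def It (Φ : (E d → ℝ) → ℝ) : ℕ → (E d → ℝ) → ℝ
  | 0, f => Φ f
  | j + 1, f => ∑ i, It Φ j (pd i f)

theorem It_congr {Φ Ψ : (E d → ℝ) → ℝ} (h : ∀ f, f.HasTemperateGrowth → Φ f = Ψ f) (j : ℕ) :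
    ∀ f, f.HasTemperateGrowth → It Φ j f = It Ψ j f := by
  induction j with
  | zero => exact h
  | succ j ih => exact fun f hf => Finset.sum_congr rfl fun i _ => ih _ (temp_pd hf i)

theorem It_abs {Φ Ψ Ψ' : (E d → ℝ) → ℝ}
    (h : ∀ f, f.HasTemperateGrowth → 2 * |Φ f| ≤ Ψ f + Ψ' f) (j : ℕ) :
    ∀ f, f.HasTemperateGrowth → 2 * |It Φ j f| ≤ It Ψ j f + It Ψ' j f := by
  induction j with
  | zero => exact h
  | succ j ih =>
    intro f hf
    simp only [It]
    rw [← Finset.sum_add_distrib]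
    refine le_trans ?_ (Finset.sum_le_sum fun i _ => ih _ (temp_pd hf i))
    rw [← Finset.mul_sum]
    exact mul_le_mul_of_nonneg_left (Finset.abs_sum_le_sum_abs _ _) (by norm_num)

theorem It_heat (Φ : (E d → ℝ) → ℝ) (τ : ℝ) (j : ℕ) :
    ∀ f, f.HasTemperateGrowth → It Φ j (heat τ f) = It (fun f => Φ (heat τ f)) j f := by
  induction j with
  | zero => exact fun _ _ => rfl
  | succ j ih =>
    refine fun f hf => Finset.sum_congr rfl fun i _ => ?_
    rw [pd_heat hf, ih _ (temp_pd hf i)]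

theorem It_deriv {Φ : ℝ → (E d → ℝ) → ℝ} {c s : ℝ}
    (h : ∀ f, f.HasTemperateGrowth → HasDerivAt (fun s => Φ s f) (c * ∑ i, Φ s (pd i f)) s)
    (j : ℕ) : ∀ f, f.HasTemperateGrowth →
      HasDerivAt (fun s => It (Φ s) j f) (c * It (Φ s) (j + 1) f) s := by
  induction j with
  | zero => exact h
  | succ j ih =>
    intro f hf
    have := HasDerivAt.fun_sum (u := Finset.univ) fun i _ => ih _ (temp_pd hf i)
    rw [← Finset.mul_sum] at this
    exact this

theorem sum_jet (Φ : ℝ → ℝ) (y : E d) (n : ℕ) : ∀ (S : Type) [Fintype S] [DecidableEq S],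
    Fintype.card S = n → ∀ f : E d → ℝ, f.HasTemperateGrowth →
      ∑ i : S → Fin d, Φ ((jet f y : Ten d S) i) = It (fun f => Φ (f y)) n f := by
  induction n with
  | zero =>
    intro S _ _ hS f _
    have := Fintype.card_eq_zero_iff.1 hS
    simp [jet_empty, It]
  | succ n ih =>
    intro S _ _ hS f hf
    have e : Option (Fin n) ≃ S := Fintype.equivOfCardEq (by simp [hS])
    have h1 : ∑ i : S → Fin d, Φ ((jet f y : Ten d S) i) =
        ∑ i : Option (Fin n) → Fin d, Φ ((jet f y : Ten d (Option (Fin n))) i) := by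
      rw [← jet_reix hf.1 e y]
      exact Fintype.sum_equiv (e.symm.arrowCongr (Equiv.refl _)) _ _ fun i => rfl
    rw [h1, sum_option]
    refine Finset.sum_congr rfl fun k _ => ?_
    rw [← ih (Fin n) (by simp) _ (temp_pd hf k)]
    exact Finset.sum_congr rfl fun i _ => by rw [jet_pd hf.1]

/-- mean square of the smoothed function -/
def QQ (y : E d) (s ρ : ℝ) (f : E d → ℝ) : ℝ := ∫ Z, heat ρ f (y + s • Z) ^ 2 ∂gam (Fin d)

theorem It_QQ_le (y : E d) (s : ℝ) {τ : ℝ} (hτ : 0 < τ) (j : ℕ) :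
    ∀ (κ : Type) [Fintype κ] (F : E d → κ → ℝ), F.HasTemperateGrowth → ∀ A : ℝ,
      (∀ y, nrm (F y) ≤ A) → ∀ ρ : ℝ, j * τ ≤ ρ →
      ∑ k, It (QQ y s ρ) j (fun x => F x k) ≤ A ^ 2 / τ ^ j := by
  induction j with
  | zero =>
    intro κ _ F hF A hA ρ _
    simpa [It, QQ] using sum_int_sq_le (F := fun x k => heat ρ (fun x => F x k) x)
      (temp_pi.2 fun k => temp_heat (temp_pi.1 hF k) ρ) (nrm_heat_le hF hA ρ) y s
  | succ j ih =>
    intro κ _ F hF A hA ρ hρ
    push_cast at hρ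
    have h0 : (0 : ℝ) ≤ j * τ := by positivity
    have h := ih (Fin d × κ) _ (temp_dE hF τ) _ (dE_le hF hA hτ) (ρ - τ) (by linarith)
    rw [div_pow, Real.sq_sqrt hτ.le, div_div, ← pow_succ', Fintype.sum_prod_type,
      Finset.sum_comm] at h
    refine le_trans (le_of_eq ?_) h
    refine Finset.sum_congr rfl fun k _ => Finset.sum_congr rfl fun i _ => ?_
    have hf := temp_pi.1 hF k
    change _ = It (QQ y s (ρ - τ)) j (pd i (heat τ fun x => F x k))
    rw [pd_heat hf, It_heat _ _ _ _ (temp_pd hf i)]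
    refine It_congr (fun f hf => ?_) j _ (temp_pd hf i)
    simp only [QQ]
    rw [heat_heat (PG.of_temp hf) (by linarith) hτ.le, sub_add_cancel]

/-! ### Price's formula -/

/-- the covariance kernel -/
def GG (r : ℝ) (y : E d) (s' s : ℝ) (f : E d → ℝ) : ℝ :=
  ∫ Z, heat (r - s' ^ 2) f (y + s' • Z) * heat (r - s ^ 2) f (y + s • Z) ∂gam (Fin d)

theorem stein_price {w h : E d → ℝ} (hw : w.HasTemperateGrowth) (hh : h.HasTemperateGrowth)
    (y : E d) (s' s : ℝ) :
    ∫ Z, w (y + s' • Z) * (grad h (y + s • Z) ⬝ᵥ Z - s * lap h (y + s • Z)) ∂gam (Fin d) =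
      s' * ∑ i, ∫ Z, pd i w (y + s' • Z) * pd i h (y + s • Z) ∂gam (Fin d) := by
  have t1 : ∀ i, (fun Z : E d => w (y + s' • Z) * pd i h (y + s • Z)).HasTemperateGrowth :=
    fun i => (temp_at hw y s').fun_mul (temp_at (temp_pd hh i) y s)
  have t2 : ∀ i, (fun Z : E d => s * (w (y + s' • Z) *
      pd i (pd i h) (y + s • Z))).HasTemperateGrowth := fun i =>
    (Function.HasTemperateGrowth.const s).fun_mul
      ((temp_at hw y s').fun_mul (temp_at (temp_pd (temp_pd hh i) i) y s))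
  have e : ∀ Z : E d, w (y + s' • Z) * (grad h (y + s • Z) ⬝ᵥ Z - s * lap h (y + s • Z)) =
      ∑ i, (Z i * (w (y + s' • Z) * pd i h (y + s • Z)) -
        s * (w (y + s' • Z) * pd i (pd i h) (y + s • Z))) := by
    intro Z
    simp only [dotProduct, grad, lap, Finset.mul_sum, ← Finset.sum_sub_distrib]
    exact Finset.sum_congr rfl fun i _ => by ring
  simp only [e]
  rw [integral_finsetSum _ fun i _ =>
    temp_integrable (((temp_ev i).fun_mul (t1 i)).fun_sub (t2 i)), Finset.mul_sum]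
  refine Finset.sum_congr rfl fun i _ => ?_
  rw [integral_sub (temp_integrable ((temp_ev i).fun_mul (t1 i))) (temp_integrable (t2 i)),
    stein (t1 i) i, ← integral_sub (temp_integrable (temp_pd (t1 i) i)) (temp_integrable (t2 i)),
    ← integral_const_mul]
  refine integral_congr_ae (ae_of_all _ fun Z => ?_)
  simp only
  rw [TenB.pd_mul ((temp_at hw y s').1.differentiable (by simp) Z)
    ((temp_at (temp_pd hh i) y s).1.differentiable (by simp) Z), pd_aff hw, pd_aff (temp_pd hh i)]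
  ring

theorem hasDerivAt_GG (r : ℝ) (y : E d) (s' : ℝ) {s : ℝ} (hs : s ^ 2 < r) (f : E d → ℝ)
    (hf : f.HasTemperateGrowth) :
    HasDerivAt (fun s => GG r y s' s f) (s' * ∑ i, GG r y s' s (pd i f)) s := by
  have h := hasDerivAt_heat_path (ι := Fin d) (κ := Fin 2) hf (Y := ![fun _ => y, fun Z => Z])
    (fun k => by
      fin_cases k
      · exact Function.HasTemperateGrowth.const y
      · exact .id')
    (temp_at (temp_heat hf (r - s' ^ 2)) y s') (c := ![fun _ => 1, fun s => s]) (c' := ![0, 1])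
    (ρ := fun s => r - s ^ 2) (ρ' := -(2 * s)) (t := s)
    (fun k => by
      fin_cases k
      · exact hasDerivAt_const s (1 : ℝ)
      · exact hasDerivAt_id' s)
    (by simpa using ((hasDerivAt_id' s).fun_pow 2).const_sub r) (by linarith)
  simp only [Fin.sum_univ_two, cons_val_zero, cons_val_one, one_smul, zero_smul, zero_add,
    cons_val_fin_one] at h
  refine HasDerivAt.congr_deriv h ?_
  simp only [GG, ← pd_heat hf]
  rw [← stein_price (temp_heat hf _) (temp_heat hf _)]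
  refine integral_congr_ae (ae_of_all _ fun Z => ?_)
  ring

theorem GG_zero (r : ℝ) (y : E d) {s' : ℝ} (h0 : 0 ≤ s') (hs : s' ^ 2 ≤ r) (f : E d → ℝ)
    (hf : f.HasTemperateGrowth) : GG r y s' 0 f = heat r f y ^ 2 := by
  simp only [GG, zero_smul, add_zero]
  rw [integral_mul_const, int_aff _ _ h0,
    heat_heat (PG.of_temp hf) (by positivity) (by linarith)]
  simp [sq]

theorem abs_GG_le (r : ℝ) (y : E d) (s' s : ℝ) (f : E d → ℝ) (hf : f.HasTemperateGrowth) :
    2 * |GG r y s' s f| ≤ QQ y s' (r - s' ^ 2) f + QQ y s (r - s ^ 2) f := by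
  have t1 := temp_at (temp_heat hf (r - s' ^ 2)) y s'
  have t2 := temp_at (temp_heat hf (r - s ^ 2)) y s
  rw [QQ, QQ, ← integral_add (temp_integrable (t1.fun_pow 2)) (temp_integrable (t2.fun_pow 2))]
  refine le_trans (mul_le_mul_of_nonneg_left abs_integral_le_integral_abs (by norm_num)) ?_
  rw [← integral_const_mul]
  refine integral_mono ((temp_integrable (t1.fun_mul t2)).abs.const_mul _)
    ((temp_integrable (t1.fun_pow 2)).add (temp_integrable (t2.fun_pow 2))) fun Z => ?_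
  simp only
  rw [abs_mul, ← sq_abs (heat (r - s' ^ 2) f _), ← sq_abs (heat (r - s ^ 2) f _)]
  nlinarith [sq_nonneg (|heat (r - s' ^ 2) f (y + s' • Z)| - |heat (r - s ^ 2) f (y + s • Z)|)]

/-- Taylor expansion of the covariance kernel -/
theorem GG_taylor (n : ℕ) {κ : Type} [Fintype κ] {F : E d → κ → ℝ} (hF : F.HasTemperateGrowth)
    {A : ℝ} (hA : ∀ y, nrm (F y) ≤ A) {r τ s' s : ℝ} (hτ : 0 < τ) (h0' : 0 ≤ s') (h0 : 0 ≤ s)
    (hs' : s' ^ 2 + (n + 1) * τ ≤ r) (hs : s ^ 2 + (n + 1) * τ ≤ r) (y : E d) :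
    |∑ k, GG r y s' s (fun x => F x k) - ∑ j ∈ Finset.range n,
      (∑ k, It (fun f => heat r f y ^ 2) j fun x => F x k) / j.factorial * (s' ^ j * s ^ j)| ≤
      A ^ 2 / τ ^ n * (s' ^ n * s ^ n) := by
  have hn : (0 : ℝ) ≤ n * τ := by positivity
  have hd : ∀ j, ∀ t ∈ Set.Icc 0 s,
      HasDerivAt (fun t => s' ^ j * ∑ k, It (GG r y s' t) j fun x => F x k)
        (s' ^ (j + 1) * ∑ k, It (GG r y s' t) (j + 1) fun x => F x k) t := by
    intro j t ht
    have ht2 : t ^ 2 < r := by nlinarith [ht.1, ht.2]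
    have := (HasDerivAt.fun_sum (u := Finset.univ) fun k _ =>
      It_deriv (hasDerivAt_GG r y s' ht2) j _ (temp_pi.1 hF k)).const_mul (s' ^ j)
    rw [← Finset.mul_sum, ← mul_assoc, ← pow_succ] at this
    exact this
  have h := taylor_chain n (fun j t => s' ^ j * ∑ k, It (GG r y s' t) j fun x => F x k) h0
    (fun j t ht => (hd j t ht).continuousAt.continuousWithinAt)
    (fun j t ht => hd j t ⟨ht.1.le, ht.2.le⟩) (A := s' ^ n * (A ^ 2 / τ ^ n)) (fun t ht => by
      rw [abs_mul, abs_of_nonneg (by positivity : 0 ≤ s' ^ n)]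
      refine mul_le_mul_of_nonneg_left ?_ (by positivity)
      have h1 := It_QQ_le y s' hτ n κ F hF A hA (r - s' ^ 2) (by linarith)
      have h2 := It_QQ_le y t hτ n κ F hF A hA (r - t ^ 2) (by nlinarith [ht.1, ht.2])
      have h3 := Finset.sum_le_sum fun k (_ : k ∈ Finset.univ) =>
        It_abs (abs_GG_le r y s' t) n _ (temp_pi.1 hF k)
      rw [Finset.sum_add_distrib, ← Finset.mul_sum] at h3
      have h4 := Finset.abs_sum_le_sum_abs (fun k => It (GG r y s' t) n fun x => F x k) Finset.univ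
      linarith)
  simp only [pow_zero, one_mul, sub_zero] at h
  have e : ∀ j k, It (GG r y s' 0) j (fun x => F x k) =
      It (fun f => heat r f y ^ 2) j fun x => F x k := fun j k =>
    It_congr (GG_zero r y h0' (by linarith)) j _ (temp_pi.1 hF k)
  simp only [e] at h
  refine le_trans (le_of_eq ?_) (h.trans (le_of_eq (by ring)))
  congr 2
  exact Finset.sum_congr rfl fun j _ => by ring

end Crest.Agent.R285.Extr

end
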