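import Crest.Agent.R285.Heat
import Crest.Agent.R285.Quad
import Crest.Agent.R285.ExtractAux

/-!
Extraction of derivatives contracted with standard vectors from point evaluations.

`nrm_dE_heat_le`: `∂_i heat ρ F (y) = ρ^(-1/2) E[g_i F(y + √ρ g)]` (`stein`) and `bessel`; iterate with
`heat_heat` for `nrm_jet_heat_vec_le`.

`extract1` (Price's formula). Let `ψ s Z = heat (r - s²) F (y + s Z)`,
`k_j(t) = E ‖D^j heat (r - t) F (y + √t g)‖²`. Then `E ⟨ψ s, ψ s'⟩ = k_0(s s')` (the pairs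
`(s Z + √(r-s²) g₁, s' Z + √(r-s'²) g₂)` and `(√t g + √(r-t) g₁, √t g + √(r-t) g₂)`, `t = s s'`, have the same
law: `map_mulVec_eq` in GaussA, `TowerBAux.law2`), `k_j' = k_(j+1)` (heat equation), `|k_j| ≤ C_j A²` since
`r - t ≥ 1/8`, `E ⟨ψ s, D heat r F (y) Z⟩ = s k_1(0)` (`stein`) and `E ‖D heat r F (y) Z‖² = k_1(0)`. Expand
the square, use `taylor_chain` to order `N + 2` and `exists_fd_weights`.

`extract`: induction on `m` for a general variance `r` (and vector-valued `F`): apply `extract1` to the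
tensor-valued function `D^(m-1) heat r' F`, fill the other slots with the independent `Z_2, …, Z_m`
(`integral_nrm_app_sq`), then use the induction hypothesis at the point `y + q s₀ Z_1` with variance
`r - (q s₀)²`.
-/

set_option autoImplicit false

open MeasureTheory ProbabilityTheory Matrix Filter
open scoped ENNReal

noncomputable section

namespace Crest.Agent.R285

open Extr

theorem nrm_dE_heat_le {d : ℕ} {κ : Type} [Fintype κ] {F : E d → κ → ℝ} (hF : F.HasTemperateGrowth)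
    {A : ℝ} (hA : ∀ y, nrm (F y) ≤ A) {ρ : ℝ} (hρ : 0 < ρ) (y : E d) :
    nrm (fun q : Fin d × κ => pd q.1 (heat ρ fun x => F x q.2) y) ≤ A / √ρ := by
  exact Extr.dE_le hF hA hρ y

theorem nrm_jet_heat_vec_le (r : ℕ) : ∃ C : ℝ, 1 ≤ C ∧ ∀ (d : ℕ) (κ : Type) [Fintype κ]
    (F : E d → κ → ℝ), F.HasTemperateGrowth → ∀ A : ℝ, (∀ y, nrm (F y) ≤ A) →
    ∀ (S : Type) [Fintype S] [DecidableEq S], Fintype.card S ≤ r → ∀ ρ : ℝ, 1 / 16 ≤ ρ → ∀ y,
      nrm (fun q : (S → Fin d) × κ => (jet (heat ρ fun x => F x q.2) y : Ten d S) q.1) ≤ C * A := by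
  have h16 : (1 : ℝ) ≤ 16 * (r + 1) := by
    have : (0 : ℝ) ≤ r := Nat.cast_nonneg r
    linarith
  refine ⟨(16 * (r + 1)) ^ r, one_le_pow₀ h16, fun d κ _ F hF A hA S _ _ hS ρ hρ y => ?_⟩
  have hA0 : 0 ≤ A := (nrm_nonneg _).trans (hA y)
  have hS' : (Fintype.card S : ℝ) ≤ r := by exact_mod_cast hS
  have h := It_QQ_le y 0 (τ := (16 * (r + 1) : ℝ)⁻¹) (by positivity) (Fintype.card S) κ F hF A hA ρ
    (by
      rw [← div_eq_mul_inv, div_le_iff₀ (by positivity)]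
      nlinarith)
  refine (abs_le_of_sq_le_sq' ?_ (mul_nonneg (by positivity) hA0)).2
  rw [nrm_sq, Fintype.sum_prod_type, Finset.sum_comm]
  have e : ∀ k, ∑ i : S → Fin d, (jet (heat ρ fun x => F x k) y : Ten d S) i ^ 2 =
      It (QQ y 0 ρ) (Fintype.card S) fun x => F x k := fun k => by
    rw [sum_jet (fun t : ℝ => t ^ 2) y _ S rfl _ (temp_heat (temp_pi.1 hF k) ρ),
      It_heat _ _ _ _ (temp_pi.1 hF k)]
    congr 1
    funext f
    simp [QQ]
  simp only [e]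
  refine h.trans ?_
  rw [inv_pow, div_inv_eq_mul, mul_pow _ A, mul_comm]
  refine mul_le_mul_of_nonneg_right ?_ (sq_nonneg A)
  have h1 := pow_le_pow_right₀ h16 hS
  have h2 : (1 : ℝ) ≤ (16 * (r + 1)) ^ r := one_le_pow₀ h16
  nlinarith

namespace Extr

variable {d : ℕ}

theorem temp_dotZ (a : E d) : (fun Z : E d => a ⬝ᵥ Z).HasTemperateGrowth :=
  temp_dot (Function.HasTemperateGrowth.const a) .id'

theorem int_dot_mul (a : E d) {g : E d → ℝ} (hg : g.HasTemperateGrowth) :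
    ∫ Z, a ⬝ᵥ Z * g Z ∂gam (Fin d) = ∑ i, a i * ∫ Z, Z i * g Z ∂gam (Fin d) := by
  simp only [dotProduct, Finset.sum_mul, mul_assoc]
  rw [integral_finsetSum _ fun i _ => (temp_integrable ((temp_ev i).fun_mul hg)).const_mul _]
  simp only [integral_const_mul]

theorem int_dot_sq (a : E d) : ∫ Z, a ⬝ᵥ Z * a ⬝ᵥ Z ∂gam (Fin d) = ∑ i, a i ^ 2 := by
  rw [int_dot_mul a (temp_dotZ a)]
  refine Finset.sum_congr rfl fun i _ => ?_
  simp only [mul_comm _ (a ⬝ᵥ _)]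
  rw [int_dot_mul a (temp_ev i)]
  simp [integral_coord_mul, sq]

theorem int_dot_heat {f : E d → ℝ} (hf : f.HasTemperateGrowth) {r s : ℝ} (h0 : 0 ≤ s)
    (hs : s ^ 2 ≤ r) (y : E d) :
    ∫ Z, grad (heat r f) y ⬝ᵥ Z * heat (r - s ^ 2) f (y + s • Z) ∂gam (Fin d) =
      s * ∑ i, grad (heat r f) y i ^ 2 := by
  rw [int_dot_mul _ (temp_at (temp_heat hf _) y s), Finset.mul_sum]
  refine Finset.sum_congr rfl fun i _ => ?_
  rw [stein_aff (temp_heat hf _), int_aff _ _ h0, pd_heat hf,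
    heat_heat (PG.of_temp (temp_pd hf i)) (by positivity) (by linarith), add_sub_cancel,
    ← pd_heat hf]
  simp only [grad]
  ring

theorem int_sq_expand {Q : Type} [Fintype Q] {L : E d → ℝ} {ψ : Q → E d → ℝ}
    (hL : L.HasTemperateGrowth) (hψ : ∀ q, (ψ q).HasTemperateGrowth) (c : Q → ℝ) :
    ∫ Z, (L Z - ∑ q, c q * ψ q Z) ^ 2 ∂gam (Fin d) =
      ∫ Z, L Z * L Z ∂gam (Fin d) - 2 * ∑ q, c q * ∫ Z, L Z * ψ q Z ∂gam (Fin d) +
        ∑ q, ∑ q', c q * c q' * ∫ Z, ψ q Z * ψ q' Z ∂gam (Fin d) := by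
  have e : ∀ Z, (L Z - ∑ q, c q * ψ q Z) ^ 2 = L Z * L Z - 2 * ∑ q, c q * (L Z * ψ q Z) +
      ∑ q, ∑ q', c q * c q' * (ψ q Z * ψ q' Z) := fun Z => by
    have a1 : ∑ q, c q * (L Z * ψ q Z) = L Z * ∑ q, c q * ψ q Z := by
      rw [Finset.mul_sum]
      exact Finset.sum_congr rfl fun i _ => by ring
    have a2 : ∑ q, ∑ q', c q * c q' * (ψ q Z * ψ q' Z) =
        (∑ q, c q * ψ q Z) * ∑ q, c q * ψ q Z := by
      rw [Finset.sum_mul_sum]
      exact Finset.sum_congr rfl fun i _ => Finset.sum_congr rfl fun j _ => by ring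
    rw [a1, a2]
    ring
  simp only [e]
  have j1 : ∀ q, Integrable (fun Z => c q * (L Z * ψ q Z)) (gam (Fin d)) := fun q =>
    (temp_integrable (hL.fun_mul (hψ q))).const_mul _
  have j2 : ∀ q q', Integrable (fun Z => c q * c q' * (ψ q Z * ψ q' Z)) (gam (Fin d)) :=
    fun q q' => (temp_integrable ((hψ q).fun_mul (hψ q'))).const_mul _
  have i1 : Integrable (fun Z => 2 * ∑ q, c q * (L Z * ψ q Z)) (gam (Fin d)) :=
    (integrable_finsetSum _ fun q _ => j1 q).const_mul _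
  have i2 : ∀ q, Integrable (fun Z => ∑ q', c q * c q' * (ψ q Z * ψ q' Z)) (gam (Fin d)) :=
    fun q => integrable_finsetSum _ fun q' _ => j2 q q'
  have i3 := temp_integrable (hL.fun_mul hL)
  have i0 : Integrable (fun Z => L Z * L Z - 2 * ∑ q, c q * (L Z * ψ q Z)) (gam (Fin d)) :=
    i3.sub i1
  rw [integral_add i0 (integrable_finsetSum _ fun q _ => i2 q), integral_sub i3 i1,
    integral_const_mul, integral_finsetSum _ fun q _ => j1 q, integral_finsetSum _ fun q _ => i2 q]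
  simp only [integral_finsetSum _ fun q' _ => j2 _ q', integral_const_mul]

theorem price_sq (n : ℕ) (hn : 2 ≤ n) {κ : Type} [Fintype κ] {F : E d → κ → ℝ}
    (hF : F.HasTemperateGrowth) {A : ℝ} (hA : ∀ y, nrm (F y) ≤ A) {τ : ℝ} (hτ : 0 < τ)
    {Q : Type} [Fintype Q] (c s : Q → ℝ) (h0 : ∀ q, 0 ≤ s q) {r : ℝ}
    (hs : ∀ q, s q ^ 2 + (n + 1) * τ ≤ r)
    (hm : ∀ j ∈ Finset.range n, ∑ q, c q * s q ^ j = if j = 1 then 1 else 0) (y : E d) :
    ∫ Z, nrm (fun k => grad (heat r fun x => F x k) y ⬝ᵥ Z - ∑ q, c q *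
        heat (r - s q ^ 2) (fun x => F x k) (y + s q • Z)) ^ 2 ∂gam (Fin d) ≤
      A ^ 2 / τ ^ n * (∑ q, |c q| * s q ^ n) ^ 2 := by
  have hs' : ∀ q, s q ^ 2 ≤ r := fun q => by
    have : (0 : ℝ) ≤ (n + 1) * τ := by positivity
    linarith [hs q]
  have tψ : ∀ k q, (fun Z : E d =>
      heat (r - s q ^ 2) (fun x => F x k) (y + s q • Z)).HasTemperateGrowth := fun k q =>
    temp_at (temp_heat (temp_pi.1 hF k) _) y _
  simp only [nrm_sq]
  rw [integral_finsetSum _ fun k _ => temp_integrable (((temp_dotZ _).fun_sub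
    (TenB.temp_sum _ fun q _ =>
      (Function.HasTemperateGrowth.const (c q)).fun_mul (tψ k q))).fun_pow 2)]
  set K : ℕ → ℝ := fun j => ∑ k, It (fun f => heat r f y ^ 2) j fun x => F x k with hK
  have hK1 : ∑ k, ∑ i, grad (heat r fun x => F x k) y i ^ 2 = K 1 := by
    simp only [hK, It, grad, fun k => pd_heat (temp_pi.1 hF k)]
  have hm1 : ∑ q, c q * s q = 1 := by simpa using hm 1 (Finset.mem_range.2 (by omega))
  have e1 : ∀ k, ∫ Z, (grad (heat r fun x => F x k) y ⬝ᵥ Z - ∑ q, c q *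
        heat (r - s q ^ 2) (fun x => F x k) (y + s q • Z)) ^ 2 ∂gam (Fin d) =
      ∑ q, ∑ q', c q * c q' * GG r y (s q) (s q') (fun x => F x k) -
        ∑ i, grad (heat r fun x => F x k) y i ^ 2 := fun k => by
    rw [int_sq_expand (temp_dotZ _) (tψ k), int_dot_sq]
    simp only [fun q => int_dot_heat (temp_pi.1 hF k) (h0 q) (hs' q) y, ← mul_assoc,
      ← Finset.sum_mul, hm1, GG]
    ring
  simp only [e1]
  rw [Finset.sum_sub_distrib, hK1]
  have e2 : K 1 = ∑ q, ∑ q', c q * c q' *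
      ∑ j ∈ Finset.range n, K j / j.factorial * (s q ^ j * s q' ^ j) := by
    have : ∑ q, ∑ q', c q * c q' * ∑ j ∈ Finset.range n, K j / j.factorial * (s q ^ j * s q' ^ j) =
        ∑ j ∈ Finset.range n, K j / j.factorial * ((∑ q, c q * s q ^ j) * ∑ q, c q * s q ^ j) := by
      simp only [Finset.sum_mul_sum]
      simp only [Finset.mul_sum]
      rw [Finset.sum_comm (s := Finset.range n)]
      refine Finset.sum_congr rfl fun q _ => ?_
      rw [Finset.sum_comm (s := Finset.range n)]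
      exact Finset.sum_congr rfl fun q' _ => Finset.sum_congr rfl fun j _ => by ring
    rw [this, Finset.sum_congr rfl fun j hj => by rw [hm j hj],
      Finset.sum_eq_single_of_mem 1 (Finset.mem_range.2 (by omega)) fun j _ hj => by simp [hj]]
    simp
  have e3 : ∑ k, ∑ q, ∑ q', c q * c q' * GG r y (s q) (s q') (fun x => F x k) =
      ∑ q, ∑ q', c q * c q' * ∑ k, GG r y (s q) (s q') (fun x => F x k) := by
    rw [Finset.sum_comm]
    refine Finset.sum_congr rfl fun q _ => ?_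
    rw [Finset.sum_comm]
    simp only [Finset.mul_sum]
  rw [e3, e2, ← Finset.sum_sub_distrib, sq (∑ q, _), Finset.sum_mul_sum, Finset.mul_sum]
  refine Finset.sum_le_sum fun q _ => ?_
  rw [← Finset.sum_sub_distrib, Finset.mul_sum]
  refine Finset.sum_le_sum fun q' _ => ?_
  rw [← mul_sub]
  refine (le_abs_self _).trans ?_
  rw [abs_mul, abs_mul]
  refine (mul_le_mul_of_nonneg_left (GG_taylor n hF hA hτ (h0 q) (h0 q') (hs q) (hs q') y)
    (by positivity)).trans (le_of_eq ?_)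
  ring

end Extr

theorem extract1 (N : ℕ) : ∃ (C : ℝ) (w : Fin (N + 2) → ℝ), 1 ≤ C ∧ (∀ q, |w q| ≤ C) ∧
    ∀ (d : ℕ) (κ : Type) [Fintype κ] (F : E d → κ → ℝ), F.HasTemperateGrowth → ∀ A : ℝ,
      (∀ y, nrm (F y) ≤ A) → ∀ r s₀ : ℝ, 0 < s₀ → s₀ ≤ 1 → ((N + 1) * s₀) ^ 2 + 1 / 8 ≤ r → ∀ y,
      ∫ Z, nrm (fun k => grad (heat r fun x => F x k) y ⬝ᵥ Z - ∑ q : Fin (N + 2), w q / s₀ *
          heat (r - ((q : ℕ) * s₀) ^ 2) (fun x => F x k) (y + (((q : ℕ) : ℝ) * s₀) • Z)) ^ 2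
        ∂gam (Fin d) ≤ (C * s₀ ^ N * A) ^ 2 := by
  obtain ⟨w, hw⟩ := exists_fd_weights N
  set B : ℝ := (8 * (((N + 2 : ℕ) : ℝ) + 1)) ^ (N + 2) with hB
  have h8 : (1 : ℝ) ≤ 8 * (((N + 2 : ℕ) : ℝ) + 1) := by
    have : (0 : ℝ) ≤ ((N + 2 : ℕ) : ℝ) := Nat.cast_nonneg _
    linarith
  have hB1 : 1 ≤ B := one_le_pow₀ h8
  set M : ℝ := ∑ q, |w q| * ((q : ℕ) : ℝ) ^ (N + 2) with hM
  have hM0 : 0 ≤ M := Finset.sum_nonneg fun q _ => by positivity
  have hW0 : 0 ≤ ∑ q, |w q| := Finset.sum_nonneg fun q _ => abs_nonneg _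
  have hMB : 0 ≤ M * B := by positivity
  refine ⟨1 + ∑ q, |w q| + M * B, w, by linarith, fun q => ?_,
    fun d κ _ F hF A hA r s₀ h0 h1 hr y => ?_⟩
  · have := Finset.single_le_sum (f := fun q => |w q|) (fun q _ => abs_nonneg _) (Finset.mem_univ q)
    linarith
  have hs : ∀ q : Fin (N + 2), (((q : ℕ) : ℝ) * s₀) ^ 2 + 1 / 8 ≤ r := fun q => by
    have hq : ((q : ℕ) : ℝ) ≤ N + 1 := by exact_mod_cast Nat.lt_succ_iff.1 q.2
    have := pow_le_pow_left₀ (by positivity) (mul_le_mul_of_nonneg_right hq h0.le) 2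
    linarith
  have hmom : ∀ j ∈ Finset.range (N + 2),
      ∑ q, w q / s₀ * (((q : ℕ) : ℝ) * s₀) ^ j = if j = 1 then 1 else 0 := fun j hj => by
    have : ∑ q, w q / s₀ * (((q : ℕ) : ℝ) * s₀) ^ j =
        (∑ q, w q * ((q : ℕ) : ℝ) ^ j) * (s₀ ^ j / s₀) := by
      rw [Finset.sum_mul]
      exact Finset.sum_congr rfl fun q _ => by ring
    rw [this, hw j (Nat.lt_succ_iff.1 (Finset.mem_range.1 hj))]
    split_ifs with h
    · simp [h, h0.ne']
    · simp
  have key := price_sq (N + 2) (by omega) hF hA (τ := (8 * (((N + 2 : ℕ) : ℝ) + 1))⁻¹)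
    (by positivity) (fun q : Fin (N + 2) => w q / s₀) (fun q => ((q : ℕ) : ℝ) * s₀)
    (fun q => by positivity) (r := r)
    (fun q => by
      have : (((N + 2 : ℕ) : ℝ) + 1) * (8 * (((N + 2 : ℕ) : ℝ) + 1))⁻¹ = 1 / 8 := by field_simp
      rw [this]; exact hs q) hmom y
  refine key.trans ?_
  have e : ∑ q : Fin (N + 2), |w q / s₀| * (((q : ℕ) : ℝ) * s₀) ^ (N + 2) = M * s₀ ^ (N + 1) := by
    rw [hM, Finset.sum_mul]
    refine Finset.sum_congr rfl fun q _ => ?_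
    rw [abs_div, abs_of_pos h0]
    field_simp
    ring
  rw [e, inv_pow, div_inv_eq_mul, ← hB]
  have hA0 : 0 ≤ A := (nrm_nonneg _).trans (hA y)
  have h2 : M * B * s₀ ^ (N + 1) * A ≤ (1 + ∑ q, |w q| + M * B) * s₀ ^ N * A := by
    refine mul_le_mul_of_nonneg_right (mul_le_mul (by linarith)
      (pow_le_pow_of_le_one h0.le h1 (Nat.le_succ N)) (by positivity) (by linarith)) hA0
  refine le_trans ?_ (pow_le_pow_left₀ (by positivity) h2 2)
  have h3 : 0 ≤ A ^ 2 * B * (M * s₀ ^ (N + 1)) ^ 2 := by positivity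
  nlinarith

namespace Extr

variable {d : ℕ}

/-- the `m`-th derivative contracted with `m` vectors -/
def ML : (m : ℕ) → (E d → ℝ) → E d → Om d (Fin m) → ℝ
  | 0, f, y, _ => f y
  | m + 1, f, y, Z => ∑ j, ML m (pd j f) y (ren Fin.succ Z) * Z (0, j)

theorem ML_eq (y : E d) (m : ℕ) : ∀ {f : E d → ℝ}, f.HasTemperateGrowth → ∀ Z : Om d (Fin m),
    ML m f y Z = ∑ i : Fin m → Fin d, (jet f y : Ten d (Fin m)) i * ∏ s, Z (s, i s) := by
  induction m with
  | zero =>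
    intro f _ Z
    simp [ML, jet_empty]
  | succ m ih =>
    intro f hf Z
    rw [ML, ← (Fin.consEquiv fun _ : Fin (m + 1) => Fin d).sum_comp, Fintype.sum_prod_type]
    refine Finset.sum_congr rfl fun j _ => ?_
    rw [ih (temp_pd hf j), Finset.sum_mul]
    refine Finset.sum_congr rfl fun i _ => ?_
    rw [jet_pd hf.1, ← jet_reix hf.1 (finSuccEquiv m) y, Fin.prod_univ_succ, mul_assoc,
      mul_comm _ (Z (0, j))]
    congr 1
    simp only [reix]
    congr 1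
    funext s
    refine Fin.cases ?_ (fun s => ?_) s <;> simp [oc]

theorem cont_ML (y : E d) (m : ℕ) : ∀ f : E d → ℝ, Continuous (ML m f y) := by
  induction m with
  | zero => exact fun f => continuous_const
  | succ m ih =>
    intro f
    refine continuous_finsetSum _ fun j _ => ?_
    exact ((ih _).comp (temp_ren _).1.continuous).mul (continuous_apply _)

/-- the error of the finite difference scheme -/
def Err {m : ℕ} {κ κ' : Type} [Fintype κ'] (F : E d → κ → ℝ) (ν : κ' → Fin m → ℝ) (w : κ' → ℝ)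
    (r s₀ : ℝ) (y : E d) (Z : Om d (Fin m)) (k : κ) : ℝ :=
  ML m (heat r fun x => F x k) y Z - ∑ q, w q / s₀ ^ m *
    heat (r - s₀ ^ 2 * (ν q ⬝ᵥ ν q)) (fun x => F x k) (y + s₀ • lin (ν q) Z)

theorem cont_Err {m : ℕ} {κ κ' : Type} [Fintype κ] [Fintype κ'] {F : E d → κ → ℝ}
    (hF : F.HasTemperateGrowth) (ν : κ' → Fin m → ℝ) (w : κ' → ℝ) (r s₀ : ℝ) (y : E d) :
    Continuous (Err F ν w r s₀ y) := by
  refine continuous_pi fun k => (cont_ML y m _).sub (continuous_finsetSum _ fun q _ => ?_)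
  exact continuous_const.mul ((temp_heat (temp_pi.1 hF k) _).1.continuous.comp
    (continuous_const.add ((temp_lin _).1.continuous.const_smul s₀)))

theorem mp_split (m : ℕ) :
    MeasurePreserving (fun Z : Om d (Fin (m + 1)) => (ren Fin.succ Z, fun j => Z (0, j)))
      (gam (Fin (m + 1) × Fin d)) ((gam (Fin m × Fin d)).prod (gam (Fin d))) := by
  let e : (Fin m × Fin d) ⊕ Fin d ≃ Fin (m + 1) × Fin d :=
    { toFun := Sum.elim (fun q => (q.1.succ, q.2)) (fun j => (0, j))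
      invFun := fun q => Fin.cases (Sum.inr q.2) (fun s => Sum.inl (s, q.2)) q.1
      left_inv := by rintro (⟨s, j⟩ | j) <;> simp
      right_inv := by
        rintro ⟨s, j⟩
        refine Fin.cases ?_ (fun s => ?_) s <;> simp }
  have h1 := measurePreserving_sumPiEquivProdPi
    (fun _ : (Fin m × Fin d) ⊕ Fin d => gaussianReal 0 1)
  have h2 := (measurePreserving_piCongrLeft
    (fun _ : Fin (m + 1) × Fin d => gaussianReal 0 1) e).symm
  exact h1.comp h2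

theorem lpLe_of_int {Ω : Type} [MeasurableSpace Ω] {μ : Measure Ω} {h : Ω → ℝ} {a : ℝ}
    (h0 : ∀ x, 0 ≤ h x) (ha : 0 ≤ a) (hi : Integrable (fun x => h x ^ 2) μ)
    (H : ∫ x, h x ^ 2 ∂μ ≤ a ^ 2) : LpLe μ 2 h a := by
  unfold LpLe
  simp only [fun x => (ENNReal.ofReal_pow (h0 x) 2).symm]
  rw [← ofReal_integral_eq_lintegral_ofReal hi (ae_of_all _ fun x => by positivity),
    ← ENNReal.ofReal_pow ha]
  exact ENNReal.ofReal_le_ofReal H

/-- the error of the one-step scheme -/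
def Err1 {κ : Type} {n : ℕ} (F : E d → κ → ℝ) (w : Fin n → ℝ) (r s₀ : ℝ) (y Z : E d) (k : κ) : ℝ :=
  grad (heat r fun x => F x k) y ⬝ᵥ Z - ∑ q : Fin n, w q / s₀ *
    heat (r - ((q : ℕ) * s₀) ^ 2) (fun x => F x k) (y + (((q : ℕ) : ℝ) * s₀) • Z)

theorem temp_Err1 {κ : Type} [Fintype κ] {n : ℕ} {F : E d → κ → ℝ} (hF : F.HasTemperateGrowth)
    (w : Fin n → ℝ) (r s₀ : ℝ) :
    (fun p : E d × E d => Err1 F w r s₀ p.1 p.2).HasTemperateGrowth := by
  have t1 := (ContinuousLinearMap.fst ℝ (E d) (E d)).hasTemperateGrowth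
  have t2 := (ContinuousLinearMap.snd ℝ (E d) (E d)).hasTemperateGrowth
  refine temp_pi.2 fun k => ?_
  refine (temp_dot ((temp_grad (temp_heat (temp_pi.1 hF k) r)).comp t1) t2).fun_sub
    (TenB.temp_sum _ fun q _ => (Function.HasTemperateGrowth.const _).fun_mul ?_)
  exact (temp_heat (temp_pi.1 hF k) _).comp
    (t1.fun_add ((Function.HasTemperateGrowth.const _).fun_smul t2))

theorem Err_succ {m n : ℕ} {κ κ' : Type} [Fintype κ] [Fintype κ'] {F : E d → κ → ℝ}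
    (hF : F.HasTemperateGrowth) (ν : κ' → Fin m → ℝ) (w : κ' → ℝ) (w' : Fin n → ℝ) {r s₀ τ : ℝ}
    (hτ : 0 ≤ τ) (hr0 : τ ≤ r) (hr : ∀ q, τ ≤ r - s₀ ^ 2 * (ν q ⬝ᵥ ν q)) (y : E d)
    (Z : Om d (Fin (m + 1))) :
    Err F (fun q : κ' × Fin n => Fin.cons ((q.2 : ℕ) : ℝ) (ν q.1)) (fun q => w q.1 * w' q.2)
      r s₀ y Z =
    (fun k => ∑ j, Err (fun y (q : Fin d × κ) => pd q.1 (heat τ fun x => F x q.2) y) ν w (r - τ)
      s₀ y (ren Fin.succ Z) (j, k) * Z (0, j)) +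
    ∑ q, (w q / s₀ ^ m) • Err1 F w' (r - s₀ ^ 2 * (ν q ⬝ᵥ ν q)) s₀
      (y + s₀ • lin (ν q) (ren Fin.succ Z)) (fun j => Z (0, j)) := by
  funext k
  have hf := temp_pi.1 hF k
  have e1 : ∀ j q, heat (r - τ - s₀ ^ 2 * (ν q ⬝ᵥ ν q)) (pd j (heat τ fun x => F x k)) =
      pd j (heat (r - s₀ ^ 2 * (ν q ⬝ᵥ ν q)) fun x => F x k) := fun j q => by
    rw [← heat_pd_heat hf hτ (hr q)]
    congr 1
    ring
  have e2 : ∀ (c : ℝ) q, r - s₀ ^ 2 * ((Fin.cons c (ν q) : Fin (m + 1) → ℝ) ⬝ᵥ Fin.cons c (ν q)) =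
      r - s₀ ^ 2 * (ν q ⬝ᵥ ν q) - (c * s₀) ^ 2 := fun c q => by
    simp only [dotProduct, Fin.sum_univ_succ, Fin.cons_zero, Fin.cons_succ]
    ring
  have e3 : ∀ (c : ℝ) q, y + s₀ • lin (Fin.cons c (ν q) : Fin (m + 1) → ℝ) Z =
      y + s₀ • lin (ν q) (ren Fin.succ Z) + (c * s₀) • fun j => Z (0, j) := fun c q => by
    funext j
    simp only [lin, ren, Fin.sum_univ_succ, Fin.cons_zero, Fin.cons_succ, Pi.add_apply,
      Pi.smul_apply, smul_eq_mul]
    ring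
  simp only [Err, Err1, ML, Pi.add_apply, Finset.sum_apply, Pi.smul_apply, smul_eq_mul, e1, e2, e3,
    heat_pd_heat hf hτ hr0, sub_mul, mul_sub, Finset.sum_sub_distrib, Fintype.sum_prod_type]
  have e4 : ∑ j, (∑ q, w q / s₀ ^ m * pd j (heat (r - s₀ ^ 2 * (ν q ⬝ᵥ ν q)) fun x => F x k)
      (y + s₀ • lin (ν q) (ren Fin.succ Z))) * Z (0, j) =
      ∑ q, w q / s₀ ^ m * grad (heat (r - s₀ ^ 2 * (ν q ⬝ᵥ ν q)) fun x => F x k)
        (y + s₀ • lin (ν q) (ren Fin.succ Z)) ⬝ᵥ fun j => Z (0, j) := by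
    simp only [Finset.sum_mul, dotProduct, Finset.mul_sum, grad, mul_assoc]
    exact Finset.sum_comm
  rw [e4, sub_add_sub_cancel]
  congr 1
  refine Finset.sum_congr rfl fun q _ => ?_
  rw [Finset.mul_sum]
  refine Finset.sum_congr rfl fun q' _ => ?_
  ring

theorem extract_aux {τ : ℝ} (hτ : 0 < τ) (m : ℕ) : ∀ N : ℕ,
    ∃ (C : ℝ) (κ' : Type) (_ : Fintype κ') (ν : κ' → Fin m → ℝ) (w : κ' → ℝ),
    1 ≤ C ∧ (Fintype.card κ' : ℝ) ≤ C ∧ (∀ k, ν k ⬝ᵥ ν k ≤ C) ∧ (∀ k, |w k| ≤ C) ∧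
    ∀ (d : ℕ) (κ : Type) [Fintype κ] (F : E d → κ → ℝ), F.HasTemperateGrowth → ∀ A : ℝ,
      (∀ y, nrm (F y) ≤ A) → ∀ r s₀ : ℝ, 0 < s₀ → s₀ ≤ 1 → C * s₀ ^ 2 + 1 / 8 + m * τ ≤ r → ∀ y,
      LpLe (gam (Fin m × Fin d)) 2 (fun Z => nrm (Err F ν w r s₀ y Z)) (C * s₀ ^ N * A) := by
  induction m with
  | zero =>
    intro N
    refine ⟨1, Unit, inferInstance, fun _ => 0, fun _ => 1, le_rfl, by simp, by simp, by simp,
      fun d κ _ F hF A hA r s₀ h0 _ _ y => LpLe.const fun Z => ?_⟩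
    have hA0 : 0 ≤ A := (nrm_nonneg _).trans (hA y)
    have : Err F (fun _ : Unit => (0 : Fin 0 → ℝ)) (fun _ => 1) r s₀ y Z = 0 := by
      funext k
      have : ∀ a : Fin 0 → ℝ, lin a Z = 0 := fun a => by
        funext i; simp [lin]
      simp [Err, ML, this]
    rw [this, nrm_zero]
    positivity
  | succ m ih =>
    intro N
    obtain ⟨C₁, κ₁, _, ν, w, a1, a2, a3, a4, H₁⟩ := ih N
    obtain ⟨C₂, w', b1, b2, H₂⟩ := extract1 (N + m)
    obtain ⟨C₃, c1, H₃⟩ := lp_mulVec 2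
    have hsτ : 0 < √τ := Real.sqrt_pos.2 hτ
    set L : ℝ := ((N + m : ℕ) : ℝ) + 1 with hL
    have hL0 : 0 ≤ L := by positivity
    have p1 : 0 ≤ C₁ * (L + 1) := by positivity
    have p2 : 0 ≤ C₁ * C₂ := by positivity
    have p3 : 0 ≤ C₃ * C₁ / √τ := by positivity
    have p4 : 0 ≤ C₁ * (C₁ * C₂) := by positivity
    have p5 : 0 ≤ L ^ 2 := by positivity
    refine ⟨C₁ + L ^ 2 + C₁ * (L + 1) + C₁ * C₂ + C₃ * C₁ / √τ + C₁ * (C₁ * C₂),
      κ₁ × Fin (N + m + 2), inferInstance, fun q => Fin.cons ((q.2 : ℕ) : ℝ) (ν q.1),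
      fun q => w q.1 * w' q.2, by linarith, ?_, fun q => ?_, fun q => ?_,
      fun d κ _ F hF A hA r s₀ h0 h1 hr y => ?_⟩
    · have : ((N + m + 2 : ℕ) : ℝ) = L + 1 := by rw [hL]; push_cast; ring
      rw [Fintype.card_prod, Fintype.card_fin, Nat.cast_mul, this]
      have := mul_le_mul_of_nonneg_right a2 (by positivity : 0 ≤ L + 1)
      linarith
    · have hq : ((q.2 : ℕ) : ℝ) ≤ L := by
        rw [hL]; exact_mod_cast Nat.lt_succ_iff.1 q.2.2
      have h1 := mul_le_mul hq hq (by positivity) hL0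
      have h2 := a3 q.1
      simp only [dotProduct, Fin.sum_univ_succ, Fin.cons_zero, Fin.cons_succ] at h2 ⊢
      nlinarith
    · have := mul_le_mul (a4 q.1) (b2 q.2) (abs_nonneg _) (by linarith)
      rw [abs_mul]
      linarith
    have hA0 : 0 ≤ A := (nrm_nonneg _).trans (hA y)
    have hs2 : 0 ≤ s₀ ^ 2 := by positivity
    have hmτ : (0 : ℝ) ≤ m * τ := by positivity
    push_cast at hr
    have hr1 : C₁ * s₀ ^ 2 + L ^ 2 * s₀ ^ 2 + 1 / 8 + m * τ + τ ≤ r := by nlinarith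
    have hν : ∀ q, s₀ ^ 2 * (ν q ⬝ᵥ ν q) ≤ C₁ * s₀ ^ 2 := fun q => by nlinarith [a3 q]
    have q1 : 0 ≤ C₁ * s₀ ^ 2 := by positivity
    have q2 : 0 ≤ L ^ 2 * s₀ ^ 2 := by positivity
    set T := Err (fun y (q : Fin d × κ) => pd q.1 (heat τ fun x => F x q.2) y) ν w (r - τ) s₀ y
      with hT
    have cT : Continuous T := cont_Err (temp_dE hF τ) _ _ _ _ _
    have m1 : Measurable fun p : Om d (Fin m) × E d => nrm fun k => ∑ j, T p.1 (j, k) * p.2 j :=
      (continuous_nrm.comp (continuous_pi fun k => continuous_finsetSum _ fun j _ =>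
        ((continuous_apply _).comp (cT.comp continuous_fst)).mul
          ((continuous_apply j).comp continuous_snd))).measurable
    have K1 : LpLe ((gam (Fin m × Fin d)).prod (gam (Fin d))) 2
        (fun p => nrm fun k => ∑ j, T p.1 (j, k) * p.2 j) (C₃ * (C₁ * s₀ ^ N * (A / √τ))) := by
      refine LpLe.prod m1 (h := fun Z => C₃ * nrm (T Z)) (fun Z => ?_)
        ((H₁ d _ _ (temp_dE hF τ) _ (dE_le hF hA hτ) (r - τ) s₀ h0 h1 (by linarith) y).const_mul
          (by linarith))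
      have := H₃ κ (Fin d) fun q => T Z (q.2, q.1)
      rwa [show nrm (fun q : κ × Fin d => T Z (q.2, q.1)) = nrm (T Z) from
        nrm_comp_equiv (Equiv.prodComm κ (Fin d)) (T Z)] at this
    have m2 : ∀ q, Measurable fun p : Om d (Fin m) × E d => |w q / s₀ ^ m| *
        nrm (Err1 F w' (r - s₀ ^ 2 * (ν q ⬝ᵥ ν q)) s₀ (y + s₀ • lin (ν q) p.1) p.2) := fun q =>
      (continuous_const.mul (continuous_nrm.comp ((temp_Err1 hF w' _ s₀).1.continuous.comp
        ((continuous_const.add (((temp_lin _).1.continuous.comp continuous_fst).const_smul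
          s₀)).prodMk continuous_snd)))).measurable
    have K2 : ∀ q, LpLe ((gam (Fin m × Fin d)).prod (gam (Fin d))) 2 (fun p => |w q / s₀ ^ m| *
        nrm (Err1 F w' (r - s₀ ^ 2 * (ν q ⬝ᵥ ν q)) s₀ (y + s₀ • lin (ν q) p.1) p.2))
        (C₁ * C₂ * s₀ ^ N * A) := fun q => by
      refine LpLe.prod (m2 q) (h := fun _ => C₁ * C₂ * s₀ ^ N * A) (fun Z => ?_)
        (LpLe.const fun _ => le_rfl)
      have h2 := H₂ d κ F hF A hA (r - s₀ ^ 2 * (ν q ⬝ᵥ ν q)) s₀ h0 h1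
        (by rw [mul_pow]; linarith [hν q]) (y + s₀ • lin (ν q) Z)
      have t := (temp_Err1 hF w' (r - s₀ ^ 2 * (ν q ⬝ᵥ ν q)) s₀).comp
        (temp_prodMk (Function.HasTemperateGrowth.const (y + s₀ • lin (ν q) Z)) .id')
      have h3 := (lpLe_of_int (fun _ => nrm_nonneg _) (by positivity) (by
        simp only [nrm_sq]
        exact integrable_finsetSum _ fun k _ => temp_integrable ((temp_pi.1 t k).fun_pow 2))
        h2).const_mul (abs_nonneg (w q / s₀ ^ m))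
      refine h3.mono (fun _ => le_rfl) ?_
      rw [abs_div, abs_of_pos (pow_pos h0 m), pow_add]
      calc _ = |w q| * (C₂ * s₀ ^ N * A) := by field_simp
        _ ≤ C₁ * (C₂ * s₀ ^ N * A) := mul_le_mul_of_nonneg_right (a4 q) (by positivity)
        _ = _ := by ring
    have K3 := K1.add (LpLe.sum Finset.univ (fun q _ => K2 q) (fun q _ => m2 q) (by norm_num)
      (fun _ _ => by positivity)) m1 (Finset.measurable_sum _ fun q _ => m2 q) (by norm_num)
      (by positivity) (Finset.sum_nonneg fun _ _ => by positivity)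
    have K4 := K3.comp (m1.add (Finset.measurable_sum _ fun q _ => m2 q)) (mp_split m)
    refine K4.mono (fun Z => ?_) ?_
    · rw [Err_succ hF ν w w' hτ.le (by linarith) (fun q => by linarith [hν q])]
      refine (nrm_add_le _ _).trans (add_le_add le_rfl ((nrm_sum_le _ _).trans (le_of_eq ?_)))
      simp only [nrm_smul]
    · rw [Finset.sum_const, Finset.card_univ, nsmul_eq_mul]
      have h5 : 0 ≤ s₀ ^ N * A := by positivity
      have h6 := mul_le_mul_of_nonneg_right a2 (by positivity : 0 ≤ C₁ * C₂ * s₀ ^ N * A)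
      have h7 : C₃ * (C₁ * s₀ ^ N * (A / √τ)) = C₃ * C₁ / √τ * (s₀ ^ N * A) := by ring
      have h8 : 0 ≤ (C₁ + L ^ 2 + C₁ * (L + 1) + C₁ * C₂) * (s₀ ^ N * A) := by positivity
      rw [h7]
      nlinarith

end Extr

theorem extract (m N : ℕ) : ∃ (C : ℝ) (κ : Type) (_ : Fintype κ) (ν : κ → Fin m → ℝ) (w : κ → ℝ),
    1 ≤ C ∧ (Fintype.card κ : ℝ) ≤ C ∧ (∀ k, ν k ⬝ᵥ ν k ≤ C) ∧ (∀ k, |w k| ≤ C) ∧
    ∀ (d : ℕ) (u : E d → ℝ), u.HasTemperateGrowth → ∀ A : ℝ, (∀ y, nrm (grad u y) ≤ A) →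
      ∀ s₀ : ℝ, 0 < s₀ → C * s₀ ≤ 1 → ∀ y,
      ∫⁻ Z, ENNReal.ofReal (nrm (app (jet (heat (1 / 2) u) y : Ten d (Option (Fin m)))
          (fun i k => Z (i, k)) - ∑ k, (w k / s₀ ^ m) •
            heat (1 / 2 - s₀ ^ 2 * (ν k ⬝ᵥ ν k)) (grad u) (y + s₀ • lin (ν k) Z)))
        ∂gam (Fin m × Fin d) ≤ ENNReal.ofReal (C * s₀ ^ N * A) := by
  obtain ⟨C, κ, _, ν, w, h1, h2, h3, h4, h⟩ :=
    extract_aux (τ := (4 * (m + 1) : ℝ)⁻¹) (by positivity) m N
  refine ⟨8 * C, κ, inferInstance, ν, w, by linarith, by linarith, fun k => by linarith [h3 k],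
    fun k => by linarith [h4 k], fun d u hu A hA s₀ h0 hs y => ?_⟩
  have hA0 : 0 ≤ A := (nrm_nonneg _).trans (hA y)
  have hs1 : s₀ ≤ 1 := by nlinarith
  have hm : (m : ℝ) * (4 * (m + 1) : ℝ)⁻¹ ≤ 1 / 4 := by
    rw [← div_eq_mul_inv, div_le_iff₀ (by positivity)]
    linarith
  have key := h d (Fin d) (grad u) (temp_grad hu) A hA (1 / 2) s₀ h0 hs1 (by nlinarith) y
  have key1 := (key.anti (measurable_nrm.comp
    (cont_Err (temp_grad hu) _ _ _ _ _).measurable) (by norm_num : 1 ≤ 2)).one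
  refine le_trans (le_of_eq ?_) (key1.trans (ENNReal.ofReal_le_ofReal ?_))
  · congr 1
    funext Z
    congr 2
    funext k
    simp only [Err, Pi.sub_apply, Finset.sum_apply, Pi.smul_apply, smul_eq_mul, app,
      heat_apply (PG.of_temp (temp_grad hu))]
    congr 1
    rw [ML_eq _ _ (temp_heat (temp_pi.1 (temp_grad hu) k) _)]
    refine Finset.sum_congr rfl fun i _ => ?_
    rw [← jet_pd (temp_heat hu _).1, pd_heat hu]
    rfl
  · have : 0 ≤ C * s₀ ^ N * A := by positivity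
    linarith

end Crest.Agent.R285

end
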