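import Crest.Agent.R285.PoinA

/-!
Consequences of the Poincaré inequality. Covariances are bounded by Cauchy-Schwarz
(`stepE_mul_sq_le`) and `poincare`; ladder steps are posteriors by `stepE_eq_post` and `adm_Phi`.
-/

set_option autoImplicit false

open MeasureTheory ProbabilityTheory Matrix Filter
open scoped ENNReal

noncomputable section

namespace Crest.Agent.R285

variable {d : ℕ} {δ G : ℝ} {W : E d → ℝ}

namespace PoinAux

open TenB

theorem temp_const (c : ℝ) : (fun _ : E d => c).HasTemperateGrowth :=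
  Function.HasTemperateGrowth.const c

theorem temp_sub_coord (b : E d) (i : Fin d) : (fun y : E d => y i - b i).HasTemperateGrowth :=
  (ContinuousLinearMap.proj (R := ℝ) (φ := fun _ : Fin d => ℝ) i).hasTemperateGrowth.sub
    (temp_const (b i))

theorem temp_sq {f : E d → ℝ} (hf : f.HasTemperateGrowth) :
    (fun y => f y ^ 2).HasTemperateGrowth := by
  simpa only [sq] using temp_mul hf hf

theorem temp_diff {f : E d → ℝ} (hf : f.HasTemperateGrowth) : Differentiable ℝ f :=
  hf.1.differentiable (by simp)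

theorem pg_nrm (b : E d) : PG fun y : E d => nrm (y - b) := by
  refine ⟨(continuous_nrm.comp (by fun_prop)).stronglyMeasurable,
    √(Fintype.card (Fin d)) * (1 + ‖b‖), 1, fun y => ?_⟩
  rw [Real.norm_eq_abs, abs_of_nonneg (nrm_nonneg _), pow_one, mul_assoc]
  refine (nrm_le_norm _).trans (mul_le_mul_of_nonneg_left ((norm_sub_le _ _).trans ?_)
    (Real.sqrt_nonneg _))
  nlinarith [norm_nonneg b, norm_nonneg y]

theorem pg_const_mul {f : E d → ℝ} (hf : PG f) (c : ℝ) : PG fun y => c * f y := by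
  obtain ⟨hm, C, k, h⟩ := hf
  refine ⟨hm.const_mul c, ‖c‖ * C, k, fun y => ?_⟩
  rw [norm_mul, mul_assoc]
  exact mul_le_mul_of_nonneg_left (h y) (norm_nonneg c)

theorem stepE_const_mul (W : E d → ℝ) (η t : ℝ) (b : E d) (c : ℝ) (h : E d → ℝ) :
    stepE W η t b (fun y => c * h y) = c * stepE W η t b h := stepE_smul W η t b c h

theorem G_nonneg (hW : Adm δ G W) : 0 ≤ G := (nrm_nonneg _).trans (hW.grad_le 0)

/-- the covariance as the expectation of the product of the centred functions -/
theorem cov_eq (hW : Adm δ G W) {η t : ℝ} (ht : 0 ≤ t) (htη : t ≤ η) (b : E d) {f g : E d → ℝ}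
    (hf : f.HasTemperateGrowth) (hg : g.HasTemperateGrowth) :
    stepE W η t b (fun y => (f y - stepE W η t b f) * (g y - stepE W η t b g)) =
      stepE W η t b (fun y => f y * g y) - stepE W η t b f * stepE W η t b g := by
  set m := stepE W η t b f with hm
  set n := stepE W η t b g with hn
  have h1 : (fun y => (f y - m) * (g y - n)) =
      fun y => (f y * g y - m * g y) - (n * f y - m * n) := by
    funext y; ring
  have p1 := PG.of_temp (temp_mul hf hg)
  have t2 := temp_mul (temp_const m) hg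
  have t3 := temp_mul (temp_const n) hf
  have t4 : (fun y => f y * g y - m * g y).HasTemperateGrowth := (temp_mul hf hg).sub t2
  have t5 : (fun y => n * f y - m * n).HasTemperateGrowth := t3.sub (temp_const (m * n))
  rw [h1, stepE_sub hW η t b (PG.of_temp t4) (PG.of_temp t5),
    stepE_sub hW η t b p1 (PG.of_temp t2),
    stepE_sub hW η t b (PG.of_temp t3) (PG.of_temp (temp_const (m * n))),
    stepE_const_mul, stepE_const_mul, stepE_const hW ht htη, ← hm, ← hn]
  ring

theorem pg_nrm_grad_sq {f : E d → ℝ} (hf : f.HasTemperateGrowth) :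
    PG fun x => nrm (grad f x) ^ 2 := by
  simp only [← dot_self]
  exact PG.of_temp (temp_dot (temp_grad hf) (temp_grad hf))

theorem var_le (hW : Adm δ G W) {η : ℝ} (hη : 0 < η) (hδ : η * δ < 1) (b : E d) {f : E d → ℝ}
    (hf : f.HasTemperateGrowth) {A : ℝ} (hA : ∀ y, nrm (grad f y) ≤ A) :
    stepE W η η b (fun y => (f y - stepE W η η b f) ^ 2) ≤ η / (1 - η * δ) * A ^ 2 := by
  have h1 := cov_eq hW hη.le le_rfl b hf hf
  simp only [← sq] at h1
  rw [h1]
  refine (poincare hW hη hδ b hf).trans (mul_le_mul_of_nonneg_left ?_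
    (div_nonneg hη.le (by linarith)))
  refine (stepE_mono hW η η b (pg_nrm_grad_sq hf) (PG.of_temp (temp_const (A ^ 2)))
    fun y => pow_le_pow_left₀ (nrm_nonneg _) (hA y) 2).trans_eq (stepE_const hW hη.le le_rfl b _)

theorem cov_le (hW : Adm δ G W) {η : ℝ} (hη : 0 ≤ η) (hδ : η * δ < 1) (b : E d) {f g : E d → ℝ}
    (hf : f.HasTemperateGrowth) (hg : g.HasTemperateGrowth) {A B : ℝ}
    (hA : ∀ y, nrm (grad f y) ≤ A) (hB : ∀ y, nrm (grad g y) ≤ B) :
    |stepE W η η b (fun y => f y * g y) - stepE W η η b f * stepE W η η b g| ≤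
      η / (1 - η * δ) * (A * B) := by
  rcases hη.eq_or_lt with rfl | hη
  · simp [stepE_zero hW]
  have hA0 : 0 ≤ A := (nrm_nonneg _).trans (hA 0)
  have hB0 : 0 ≤ B := (nrm_nonneg _).trans (hB 0)
  have hc : 0 ≤ η / (1 - η * δ) := div_nonneg hη.le (by linarith)
  have tf := hf.sub (temp_const (stepE W η η b f))
  have tg := hg.sub (temp_const (stepE W η η b g))
  rw [← cov_eq hW hη.le le_rfl b hf hg]
  refine abs_le_of_sq_le_sq ?_ (by positivity)
  refine (stepE_mul_sq_le hW η η b (PG.of_temp tf) (PG.of_temp tg)).trans ?_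
  have h0 : 0 ≤ stepE W η η b (fun y => (g y - stepE W η η b g) ^ 2) :=
    (stepE_const hW hη.le le_rfl b (0 : ℝ)).symm.trans_le (stepE_mono hW η η b
      (PG.of_temp (temp_const 0)) (PG.of_temp (temp_sq tg)) fun y => sq_nonneg _)
  refine (mul_le_mul (var_le hW hη hδ b hf hA) (var_le hW hη hδ b hg hB) h0
    (by positivity)).trans_eq ?_
  ring

theorem hess_dot {f : E d → ℝ} (hf : ContDiff ℝ (⊤ : ℕ∞) f) (u w y : E d) :
    u ⬝ᵥ grad (fun x => grad f x ⬝ᵥ w) y = ∑ i, ∑ j, pd i (pd j f) y * u i * w j := by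
  have hd : ∀ j, DifferentiableAt ℝ (pd j f) y := fun j =>
    (contDiff_pd hf j).differentiable (by simp) y
  refine Finset.sum_congr rfl fun i _ => ?_
  change u i * pd i (fun x => ∑ j, pd j f x * w j) y = _
  rw [pd_sum _ fun j _ => (hd j).mul_const _, Finset.mul_sum]
  refine Finset.sum_congr rfl fun j _ => ?_
  rw [pd_mul_const (hd j)]
  ring

theorem nrm_grad_dot_le (hW : Adm δ G W) (hδ : 0 ≤ δ) (w y : E d) :
    nrm (grad (fun x => grad W x ⬝ᵥ w) y) ≤ δ * nrm w := by
  refine nrm_le_of_dot (mul_nonneg hδ (nrm_nonneg w)) fun u => ?_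
  rw [hess_dot hW.smooth]
  exact (le_abs_self _).trans ((hW.hess_le y u w).trans_eq (by ring))

theorem temp_dot_const {f : E d → E d} (hf : f.HasTemperateGrowth) (w : E d) :
    (fun x => f x ⬝ᵥ w).HasTemperateGrowth :=
  temp_dot hf (Function.HasTemperateGrowth.const w)

theorem stepE_dot (hW : Adm δ G W) (η t : ℝ) (b : E d) {f : E d → E d} (hf : f.HasTemperateGrowth)
    (w : E d) : stepE W η t b (fun x => f x ⬝ᵥ w) = stepE W η t b f ⬝ᵥ w := by
  unfold dotProduct
  rw [stepE_sum hW η t b _ fun i _ => PG.of_temp (temp_mul (temp_coord hf i) (temp_const (w i)))]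
  refine Finset.sum_congr rfl fun i _ => ?_
  rw [stepE_apply hW η t b (PG.of_temp hf), mul_comm, ← stepE_const_mul]
  simp only [mul_comm]

theorem tau1_post (hW : Adm δ G W) {η : ℝ} (hη : 0 ≤ η) (b : E d) :
    tau1 W η b = stepE W η η b (grad W) := by
  rw [tau1_step hW hη le_rfl, sub_self, tau1_zero]

/-- the gradient of a posterior expectation -/
theorem nrm_grad_post_le (hW : Adm δ G W) (hδ : 0 ≤ δ) {η : ℝ} (hη : 0 ≤ η) (h : η * δ < 1)
    {f : E d → ℝ} (hf : f.HasTemperateGrowth) {A : ℝ} (hA : ∀ y, nrm (grad f y) ≤ A) (b : E d) :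
    nrm (grad (fun b => stepE W η η b f) b) ≤ A * (1 + η * δ / (1 - η * δ)) := by
  have hA0 : 0 ≤ A := (nrm_nonneg _).trans (hA 0)
  have hc : 0 ≤ η * δ / (1 - η * δ) := div_nonneg (mul_nonneg hη hδ) (by linarith)
  refine nrm_le_of_dot (by positivity) fun u => ?_
  have tW := temp_grad hW.temp
  have h1 : u ⬝ᵥ grad (fun b => stepE W η η b f) b = stepE W η η b (fun y => grad f y ⬝ᵥ u) -
      (stepE W η η b (fun y => f y * (grad W y ⬝ᵥ u)) -
        stepE W η η b f * stepE W η η b fun y => grad W y ⬝ᵥ u) := by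
    have t2 : (fun y => f y • grad W y).HasTemperateGrowth := hf.smul tW
    have h2 : (fun y => f y * (grad W y ⬝ᵥ u)) = fun y => (f y • grad W y) ⬝ᵥ u := by
      funext y; rw [smul_dotProduct, smul_eq_mul]
    rw [h2, stepE_dot hW η η b (temp_grad hf), stepE_dot hW η η b t2, stepE_dot hW η η b tW,
      ← tau1_post hW hη, ← smul_eq_mul, ← smul_dotProduct, ← sub_dotProduct, ← sub_dotProduct,
      dotProduct_comm]
    congr 1
    funext i
    change pd i _ b = _
    rw [pd_stepE hW hη le_rfl hf, sub_self, tau1_zero, Pi.sub_apply, Pi.sub_apply,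
      stepE_apply hW η η b (PG.of_temp (temp_grad hf)), stepE_apply hW η η b (PG.of_temp t2)]
    change _ = stepE W η η b (pd i f) - (stepE W η η b (fun y => f y * grad W y i) -
      stepE W η η b f * tau1 W η b i)
    ring
  have h3 := abs_stepE_le hW hη le_rfl b (h := fun y => grad f y ⬝ᵥ u) (C := A * nrm u) fun y =>
    (abs_dot_le _ _).trans (mul_le_mul_of_nonneg_right (hA y) (nrm_nonneg u))
  have h4 := cov_le hW hη h b hf (temp_dot_const tW u) hA (nrm_grad_dot_le hW hδ u)
  rw [h1]
  calc _ ≤ A * nrm u + η / (1 - η * δ) * (A * (δ * nrm u)) := by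
        linarith [(abs_le.1 h3).2, (abs_le.1 h4).1]
    _ = _ := by ring

/-- first moment of a ladder step, by integration by parts -/
theorem stepE_nrm_le' (hW : Adm δ G W) {η t : ℝ} (ht : 0 ≤ t) (htη : t ≤ η) (b : E d) :
    stepE W η t b (fun y => nrm (y - b)) ≤ t * G + √(t * d) := by
  have hG := G_nonneg hW
  have tτ := temp_tau1 hW (η - t)
  have tb : (fun y : E d => y - b).HasTemperateGrowth := temp_pi.2 (temp_sub_coord b)
  have h1 : ∀ i, stepE W η t b (fun y => (y i - b i) ^ 2) =
      t * (1 - stepE W η t b fun y => (y i - b i) * tau1 W (η - t) y i) := by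
    intro i
    have h2 : pd i (fun y : E d => y i - b i) = fun _ => 1 := by
      funext y
      simp only [sub_eq_add_neg]
      rw [pd_add (by fun_prop) (by fun_prop), pd_coord, pd_const, if_pos rfl, add_zero]
    simp only [sq]
    rw [stepE_ibp hW ht htη (temp_sub_coord b i), h2, stepE_const hW ht htη]
  have h3 : stepE W η t b (fun y => nrm (y - b) ^ 2) =
      t * (d - stepE W η t b fun y => (y - b) ⬝ᵥ tau1 W (η - t) y) := by
    simp only [nrm_sq, dotProduct, Pi.sub_apply]
    rw [stepE_sum hW η t b _ fun i _ => PG.of_temp (temp_sq (temp_sub_coord b i)),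
      stepE_sum hW η t b _ fun i _ => PG.of_temp (temp_mul (temp_sub_coord b i) (temp_coord tτ i))]
    simp only [h1, ← Finset.mul_sum, Finset.sum_sub_distrib]
    simp
  have h4 : stepE W η t b (fun y => -G * nrm (y - b)) ≤
      stepE W η t b fun y => (y - b) ⬝ᵥ tau1 W (η - t) y :=
    stepE_mono hW η t b (pg_const_mul (pg_nrm b) _) (PG.of_temp (temp_dot tb tτ)) fun y => by
      have := (abs_le.1 (abs_dot_le (y - b) (tau1 W (η - t) y))).1
      nlinarith [nrm_tau1_le hW (η - t) y, nrm_nonneg (y - b)]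
  have h5 := stepE_mul_sq_le hW η t b (pg_nrm b) (PG.of_temp (temp_const (1 : ℝ)))
  simp only [mul_one, one_pow] at h5
  rw [stepE_const hW ht htη, mul_one, h3] at h5
  rw [stepE_const_mul] at h4
  set M := stepE W η t b fun y => nrm (y - b)
  have h6 : M ^ 2 ≤ t * d + t * G * M := by nlinarith [mul_le_mul_of_nonneg_left h4 ht]
  have h7 : √(t * d) ^ 2 = t * d := Real.sq_sqrt (by positivity)
  have h8 := Real.sqrt_nonneg (t * d)
  have h9 : 0 ≤ t * G := mul_nonneg ht hG
  by_contra h10
  rw [not_le] at h10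
  nlinarith

theorem abs_exp_sub_one_le (x : ℝ) : |Real.exp x - 1| ≤ |x| * (1 + Real.exp x) := by
  have h1 := Real.add_one_le_exp x
  have h2 := Real.add_one_le_exp (-x)
  have h3 := Real.exp_pos x
  have h4 : Real.exp x * Real.exp (-x) = 1 := by rw [← Real.exp_add]; simp
  have h5 : Real.exp x - 1 ≤ x * Real.exp x := by nlinarith
  rw [abs_le]
  constructor
  · nlinarith [neg_abs_le x, abs_nonneg x]
  · nlinarith [le_abs_self x, abs_nonneg x]

end PoinAux

open PoinAux

/-- `∇²Φ_η = E ∇²W - Cov(∇W)` -/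
theorem adm_Phi (hW : Adm δ G W) (hδ : 0 ≤ δ) {η : ℝ} (hη : 0 ≤ η) (h : 2 * η * δ ≤ 1) :
    Adm (δ * (1 + 2 * η * δ)) G (Phi W η) := by
  refine ⟨contDiff_Phi hW η, Phi_bdd hW η, nrm_tau1_le hW η, fun y u w => ?_⟩
  have tW := temp_grad hW.temp
  have h1 : (fun x => grad (Phi W η) x ⬝ᵥ w) =
      fun b => stepE W η η b fun x => grad W x ⬝ᵥ w := by
    funext b
    rw [stepE_dot hW η η b tW, ← tau1_post hW hη, tau1]
  have h2 := nrm_grad_post_le hW hδ hη (by linarith) (temp_dot_const tW w)
    (nrm_grad_dot_le hW hδ w) y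
  have h3 : η * δ / (1 - η * δ) ≤ 2 * η * δ := by
    rw [div_le_iff₀ (by linarith)]
    nlinarith [mul_nonneg hη hδ]
  rw [← hess_dot (contDiff_Phi hW η), h1]
  calc _ ≤ nrm u * (δ * nrm w * (1 + 2 * η * δ)) := by
        refine (abs_dot_le _ _).trans (mul_le_mul_of_nonneg_left (h2.trans ?_) (nrm_nonneg u))
        exact mul_le_mul_of_nonneg_left (by linarith) (mul_nonneg hδ (nrm_nonneg w))
    _ = _ := by ring

theorem tau1_lip (hW : Adm δ G W) (hδ : 0 ≤ δ) {η : ℝ} (h : 2 * η * δ ≤ 1) (y y' : E d) :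
    nrm (tau1 W η y - tau1 W η y') ≤ 2 * δ * nrm (y - y') := by
  rcases le_total 0 η with hη | hη
  · have h1 : 0 ≤ 2 * η * δ := by positivity
    refine ((adm_Phi hW hδ hη h).lip_grad (by positivity) y y').trans
      (mul_le_mul_of_nonneg_right ?_ (nrm_nonneg _))
    nlinarith
  · have h1 : tau1 W η = grad W := by
      rw [← tau1_zero]
      unfold tau1 Phi uu
      rw [heat_of_nonpos hη, heat_zero]
    rw [h1]
    exact (hW.lip_grad hδ y y').trans (mul_le_mul_of_nonneg_right (by linarith) (nrm_nonneg _))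

/-- the ladder step almost does not increase Lipschitz constants -/
theorem stepE_lip (hW : Adm δ G W) (hδ : 0 ≤ δ) {η t : ℝ} (ht : 0 ≤ t) (htη : t ≤ η)
    (h : 20 * η * δ ≤ 1) {f : E d → ℝ} (hf : BL f) (b b' : E d) :
    |stepE W η t b f - stepE W η t b' f| ≤ (1 + 13 / 10 * t * δ) * nrm (b - b') := by
  have h0 : 0 ≤ t * δ := mul_nonneg ht hδ
  have h1 : t * δ ≤ η * δ := mul_le_mul_of_nonneg_right htη hδ
  have hW' : Adm (11 / 10 * δ) G (Phi W (η - t)) :=
    (adm_Phi hW hδ (sub_nonneg.2 htη) (by nlinarith)).mono (by nlinarith) le_rfl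
  have h2 : t * (11 / 10 * δ) / (1 - t * (11 / 10 * δ)) ≤ 13 / 10 * t * δ := by
    rw [div_le_iff₀ (by nlinarith)]
    nlinarith
  refine le_of_forall_pos_le_add fun ε hε => ?_
  obtain ⟨g, hg, hg', hfg⟩ := hf.exists_TF (half_pos hε)
  have h3 : ∀ x, |stepE W η t x f - stepE W η t x g| ≤ ε / 2 := fun x => by
    rw [← stepE_sub hW η t x hf.pg hg'.pg]
    exact abs_stepE_le hW ht htη x hfg
  have h4 : |stepE W η t b g - stepE W η t b' g| ≤ (1 + 13 / 10 * t * δ) * nrm (b - b') := by
    rw [stepE_eq_post hW ht htη, stepE_eq_post hW ht htη]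
    refine abs_sub_le_of_grad (f := fun x => stepE (Phi W (η - t)) t t x g)
      (temp_diff (temp_stepE hW' t t hg.temp)) (fun y => ?_) b b'
    refine (nrm_grad_post_le hW' (by positivity) ht (by nlinarith) hg.temp hg.lip y).trans ?_
    linarith
  have h5 := abs_le.1 (h3 b)
  have h6 := abs_le.1 (h3 b')
  have h7 := abs_le.1 h4
  rw [abs_le]
  constructor <;> linarith [h5.1, h5.2, h6.1, h6.2, h7.1, h7.2]

set_option linter.unusedVariables false in
/-- first moment of a ladder step -/
theorem stepE_nrm_le (hW : Adm δ G W) (hδ : 0 ≤ δ) {η t : ℝ} (ht : 0 ≤ t) (htη : t ≤ η)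
    (h : 4 * η * δ ≤ 1) (b : E d) :
    stepE W η t b (fun y => nrm (y - b)) ≤ t * G + 2 * √(t * d) := by
  linarith [stepE_nrm_le' hW ht htη b, Real.sqrt_nonneg (t * d)]

theorem nrm_tau1_sub_grad_le (hW : Adm δ G W) (hδ : 0 ≤ δ) {η : ℝ} (hη : 0 ≤ η)
    (h : 4 * η * δ ≤ 1) (b : E d) :
    nrm (tau1 W η b - grad W b) ≤ δ * (η * G + 2 * √(η * d)) := by
  have tW := temp_grad hW.temp
  have tc : (fun _ : E d => grad W b).HasTemperateGrowth := Function.HasTemperateGrowth.const _
  have h1 : tau1 W η b - grad W b = stepE W η η b fun y => grad W y - grad W b := by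
    rw [stepE_sub hW η η b (PG.of_temp tW) (PG.of_temp tc), stepE_const hW hη le_rfl,
      tau1_post hW hη]
  have h2 : PG fun y => nrm (grad W y - grad W b) :=
    PG.of_bdd (continuous_nrm.comp (tW.sub tc).1.continuous).stronglyMeasurable (C := G + G)
      fun y => by
        rw [Real.norm_eq_abs, abs_of_nonneg (nrm_nonneg _)]
        exact (nrm_sub_le _ _).trans (add_le_add (hW.grad_le y) (hW.grad_le b))
  rw [h1]
  refine (nrm_stepE_le hW b (PG.of_temp (tW.sub tc))).trans ?_
  refine (stepE_mono hW η η b h2 (pg_const_mul (pg_nrm b) δ)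
    fun y => hW.lip_grad hδ y b).trans ?_
  rw [stepE_const_mul]
  exact mul_le_mul_of_nonneg_left (stepE_nrm_le hW hδ hη le_rfl h b) hδ

/-- a posterior with small variance is close to the Gaussian in total variation -/
theorem abs_post_sub_heat_le (hW : Adm δ G W) {η : ℝ} (hη : 0 ≤ η) (h : G * √(η * d) ≤ 1 / 1000)
    (hd : 1 ≤ d) (b : E d) {f : E d → ℝ} (hm : Measurable f) (h0 : ∀ y, 0 ≤ f y)
    (h1 : ∀ y, f y ≤ 1) : |stepE W η η b f - heat η f b| ≤ 1 / 100 := by
  have hG := G_nonneg hW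
  obtain ⟨C, hC⟩ := hW.abs_le
  set w : E d → ℝ := fun y => Real.exp (W b - W y) with hw
  set Z := Real.exp (W b) * uu W η b with hZ
  have hZ0 : 0 < Z := mul_pos (Real.exp_pos _) (uu_pos hW η b)
  have wc : Continuous w := Real.continuous_exp.comp (continuous_const.sub hW.smooth.continuous)
  have w0 : ∀ y, 0 < w y := fun y => Real.exp_pos _
  have wb : ∀ y, w y ≤ Real.exp (C + C) := fun y =>
    Real.exp_le_exp.2 (by linarith [(abs_le.1 (hC b)).2, (abs_le.1 (hC y)).1])
  have key : ∀ k : E d → ℝ, heat η (fun y => w y * k y) b = Z * stepE W η η b k := by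
    intro k
    have e1 : (fun y => w y * k y) = fun y => Real.exp (W b) • (Real.exp (-W y) • k y) := by
      funext y
      rw [smul_eq_mul, smul_eq_mul, ← mul_assoc, ← Real.exp_add, ← sub_eq_add_neg]
    rw [e1, heat_smul, stepE, sub_self, uu_zero, hZ, smul_eq_mul, smul_eq_mul, mul_assoc,
      mul_inv_cancel_left₀ (uu_pos hW η b).ne']
  have pw : ∀ {k : E d → ℝ}, PG k → PG fun y => w y * k y := by
    rintro k ⟨km, A, n, hk⟩
    refine ⟨wc.stronglyMeasurable.mul km, Real.exp (C + C) * A, n, fun y => ?_⟩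
    rw [norm_mul, mul_assoc, Real.norm_eq_abs, abs_of_pos (w0 y)]
    exact mul_le_mul (wb y) (hk y) (norm_nonneg _) (Real.exp_pos _).le
  have pa : PG fun y => |w y - 1| :=
    PG.of_bdd (wc.sub continuous_const).abs.stronglyMeasurable (C := Real.exp (C + C) + 1)
      fun y => by
        rw [Real.norm_eq_abs, abs_abs, abs_le]
        constructor <;> linarith [w0 y, wb y, Real.exp_pos (C + C)]
  set ε := heat η (fun y => |w y - 1|) b with hε
  have tv : ∀ k : E d → ℝ, Measurable k → (∀ y, 0 ≤ k y) → (∀ y, k y ≤ 1) →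
      |Z * stepE W η η b k - heat η k b| ≤ ε := by
    intro k km k0 k1
    have pk : PG k := PG.of_bdd km.stronglyMeasurable (C := 1) fun y => by
      rw [Real.norm_eq_abs, abs_of_nonneg (k0 y)]; exact k1 y
    rw [← key, hε]
    unfold heat
    rw [← integral_sub ((pw pk).integrable_heat η b) (pk.integrable_heat η b)]
    refine abs_integral_le_integral_abs.trans (integral_mono
      (((pw pk).integrable_heat η b).sub (pk.integrable_heat η b)).abs (pa.integrable_heat η b)
      fun g => ?_)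
    dsimp only
    rw [← sub_one_mul, abs_mul, abs_of_nonneg (k0 _)]
    exact mul_le_of_le_one_right (abs_nonneg _) (k1 _)
  have hq : heat η (fun y => nrm (y - b)) b ≤ √(η * d) := by
    unfold heat
    simp only [add_sub_cancel_left, nrm_smul, abs_of_nonneg (Real.sqrt_nonneg η)]
    rw [integral_const_mul, Real.sqrt_mul hη]
    refine mul_le_mul_of_nonneg_left (integral_nrm_le.trans_eq ?_) (Real.sqrt_nonneg η)
    rw [Fintype.card_fin]
  have he : ε ≤ G * √(η * d) + G * (Z * (η * G + √(η * d))) := by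
    have i1 := (pg_nrm b).integrable_heat η b
    have i2 := (pw (pg_nrm b)).integrable_heat η b
    calc ε ≤ G * heat η (fun y => nrm (y - b)) b + G * heat η (fun y => w y * nrm (y - b)) b := by
          rw [hε]
          unfold heat
          rw [← mul_add, ← integral_add i1 i2, ← integral_const_mul]
          refine integral_mono (pa.integrable_heat η b) ((i1.add i2).const_mul G) fun g => ?_
          dsimp only
          generalize b + √η • g = y
          refine (abs_exp_sub_one_le _).trans ?_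
          have h2 := hW.lip b y
          rw [nrm_sub_comm] at h2
          exact (mul_le_mul_of_nonneg_right h2 (by linarith [w0 y])).trans_eq (by ring)
      _ ≤ _ := by
          rw [key]
          exact add_le_add (mul_le_mul_of_nonneg_left hq hG) (mul_le_mul_of_nonneg_left
            (mul_le_mul_of_nonneg_left (stepE_nrm_le' hW hη le_rfl b) hZ0.le) hG)
  have t1 := tv (fun _ => 1) measurable_const (fun _ => zero_le_one) fun _ => le_rfl
  rw [stepE_const hW hη le_rfl, heat_const, mul_one] at t1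
  have t2 := abs_le.1 (tv f hm h0 h1)
  have t3 : |stepE W η η b f| ≤ 1 := abs_stepE_le hW hη le_rfl b fun y => by
    rw [abs_of_nonneg (h0 y)]; exact h1 y
  have a0 : 0 ≤ G * √(η * d) := by positivity
  have a1 : G * (η * G) ≤ (G * √(η * d)) ^ 2 := by
    have hd' : (1 : ℝ) ≤ d := by exact_mod_cast hd
    rw [mul_pow, Real.sq_sqrt (by positivity)]
    nlinarith [mul_nonneg (sq_nonneg G) hη]
  have a2 : G * (η * G + √(η * d)) ≤ 1 / 500 := by nlinarith
  have a3 : ε ≤ 1 / 200 := by
    have := (abs_le.1 t1).2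
    nlinarith [mul_le_mul_of_nonneg_left a2 hZ0.le]
  have a4 : |(Z - 1) * stepE W η η b f| ≤ ε := by
    rw [abs_mul]
    exact (mul_le_of_le_one_right (abs_nonneg _) t3).trans t1
  have a5 := abs_le.1 a4
  rw [abs_le]
  constructor <;> nlinarith [t2.1, t2.2, a5.1, a5.2]

end Crest.Agent.R285

end
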