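import Crest.Agent.R285.Prog
import Crest.Agent.R285.Poin

/-!
The outer chain.

Write `μ η := stepE W (2/3) (2/3 - η) 0` (the law of the ladder at level `η`; `μ 0` is the target). By
`Rz.rescale`, `stepE_scale`, `Rz.map` the hypothesis realises, for every `0 < r² ≤ σ² := (5/3) δ0`, the step
`p ↦ stepE W (r² Q) (r²) p` for the class `Pot (3/5) G0` with `q` queries and error `r ε ≤ ε`.
* Phase 1 at level `η₀ = σ² Q ≤ 1/12`, `t = σ²`, `s = 2/3 - η₀`: the kernel
  `𝒦 y f = stepE W η₀ t y (y' ↦ heat (s t/(s+t)) f ((s/(s+t)) • y'))` leaves `μ η₀` invariant (`stepE_stepE`,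
  `heat_uu_up`) and multiplies Lipschitz constants by at most `(1 + 0.78 t) s/(s+t) ≤ 1 - t/2` (`stepE_lip`).
  Start at `0` (`W₁` distance to `μ η₀` at most `s G0 + √(s d) ≤ 2 D`: `PoinAux.stepE_nrm_le'`), iterate
  `⌈C log D / t⌉` times (`Rz.bind`): distance `≤ D^(-5) + (number of steps) ε`.
* Phase 2: levels `η_k = η₀ (1 - 1/Q)^k`, steps of length `η_k / Q`, until the first `k` with
  `η_k ≤ 10^(-6) D^(-3)`; at most `C Q log D ≤ C log D / δ0` steps; `μ η_k` is mapped to `μ η_(k+1)`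
  (`stepE_stepE`), errors are amplified by `∏ (1 + 0.78 t_k) ≤ exp (0.78 η₀) ≤ 2`.
* Final noise `heat η_k`: `abs_heat_sub_le` with `Near.lip`, and `abs_post_sub_heat_le`, `stepE_stepE`.
-/

set_option autoImplicit false

open MeasureTheory ProbabilityTheory Matrix Filter
open scoped ENNReal

noncomputable section

namespace Crest.Agent.R285

namespace OuterAux

variable {d : ℕ}

theorem pr_comp {Λ : (E d → ℝ) → ℝ} {K : E d → (E d → ℝ) → ℝ} (h : Pr Λ) (hK : ∀ y, Pr (K y))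
    (hb : ∀ f, BL f → BL fun y => K y f) : Pr fun f => Λ fun y => K y f := by
  refine ⟨fun f g c hf hg hc => h.lip _ _ c (hb f hf) (hb g hg) fun y => (hK y).lip f g c hf hg hc,
    fun c f => ?_⟩
  simp only [(hK _).hom, h.hom]

theorem bl_scale {f : E d → ℝ} (hf : BL f) {c : ℝ} (hc : 0 < c) :
    BL fun y => c⁻¹ * f (c • y) := by
  obtain ⟨C, hC⟩ := hf.bdd
  refine ⟨⟨|c⁻¹| * C, fun y => ?_⟩, fun y y' => ?_⟩
  · rw [abs_mul]; exact mul_le_mul_of_nonneg_left (hC _) (abs_nonneg _)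
  · rw [← mul_sub, abs_mul, abs_of_pos (inv_pos.2 hc)]
    have h1 := hf.lip (c • y) (c • y')
    rw [← smul_sub, nrm_smul, abs_of_pos hc] at h1
    calc c⁻¹ * |f (c • y) - f (c • y')| ≤ c⁻¹ * (c * nrm (y - y')) :=
          mul_le_mul_of_nonneg_left h1 (inv_pos.2 hc).le
      _ = nrm (y - y') := by field_simp

theorem bl_scale' {f : E d → ℝ} (hf : BL f) {c : ℝ} (hc : 0 < c) (hc1 : c ≤ 1) :
    BL fun y => f (c • y) := by
  obtain ⟨C, hC⟩ := hf.bdd
  refine ⟨⟨C, fun y => hC _⟩, fun y y' => ?_⟩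
  have h1 := hf.lip (c • y) (c • y')
  rw [← smul_sub, nrm_smul, abs_of_pos hc] at h1
  exact h1.trans (mul_le_of_le_one_left (nrm_nonneg _) hc1)

/-- the law of the ladder at level `η` -/
def mu (W : E d → ℝ) (η : ℝ) (f : E d → ℝ) : ℝ := stepE W (2 / 3) (2 / 3 - η) 0 f

theorem pr_mu {δ G : ℝ} {W : E d → ℝ} (hW : Adm δ G W) {η : ℝ} (h0 : 0 ≤ η) (h1 : η ≤ 2 / 3) :
    Pr (mu W η) := pr_stepE hW (by linarith) (by linarith) 0

theorem mu_step {δ G : ℝ} {W : E d → ℝ} (hW : Adm δ G W) {η t : ℝ} (h1 : η ≤ 2 / 3) (ht : 0 ≤ t)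
    {f : E d → ℝ} (hf : PG f) : mu W η (fun y => stepE W η t y f) = mu W (η - t) f := by
  have h := stepE_stepE hW (η := 2 / 3) (t := 2 / 3 - η) (s := t) (by linarith) ht 0 hf
  rw [sub_sub_cancel] at h
  unfold mu
  rw [h]
  congr 1
  ring

theorem mu_up {δ G : ℝ} {W : E d → ℝ} (hW : Adm δ G W) {η t : ℝ} (h1 : η < 2 / 3) (ht : 0 ≤ t)
    (htη : t ≤ η) {f : E d → ℝ} (hf : PG f) :
    mu W (η - t) (fun y => heat ((2 / 3 - η) * t / (2 / 3 - η + t)) f
      (((2 / 3 - η) / (2 / 3 - η + t)) • y)) = mu W η f := by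
  have h := heat_uu_up hW (s := 2 / 3 - η) (η := η) (t := t) (by linarith) ht htη hf
  unfold mu stepE
  simp only [smul_eq_mul, sub_sub_cancel]
  rw [show 2 / 3 - (η - t) = 2 / 3 - η + t by ring, h]

variable {kap G : ℝ}

/-- one step of a Markov chain of laws -/
theorem chain_step {δ : ℝ} {Λ Λ' : Pot d δ G → (E d → ℝ) → ℝ} {K : Pot d δ G → E d → (E d → ℝ) → ℝ}
    {q q' ε ε' L : ℝ} (h : Rz d kap δ G Empty (fun W _ _ => Λ W) q ε)
    (h' : Rz d kap δ G Empty (fun W p _ => K W p) q' ε') (hΛ : ∀ W, Pr (Λ W))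
    (hK : ∀ W p, Pr (K W p)) (hL : 0 < L)
    (hl : ∀ W f, BL f → ∀ y y', |K W y f - K W y' f| ≤ L * nrm (y - y')) (hε : 0 ≤ ε)
    (hε' : 0 ≤ ε') (he : ∀ W f, BL f → Λ W (fun y => K W y f) = Λ' W f) :
    Rz d kap δ G Empty (fun W _ _ => Λ' W) (q + q') (L * ε + ε') :=
  (h.bind h' (fun W _ _ => hΛ W) hK hL hl hε hε').congr fun W _ _ f hf => he W f hf

/-- the rescaled ladder step -/
theorem rz_step {Q δ0 D q ε : ℝ} (hQ : 2 ≤ Q) (hG : 0 ≤ G) (hGD : G ≤ δ0 * D) (hε : 0 ≤ ε)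
    (H : ∀ δ G, 0 < δ → δ ≤ δ0 → 0 ≤ G → G ≤ δ0 * D →
      Rz d kap δ G Empty (fun W p _ f => stepE W.1 Q 1 p f) q ε)
    {t : ℝ} (ht : 0 < t) (ht1 : t ≤ 1) (htδ : t * (3 / 5) ≤ δ0) :
    Rz d kap (3 / 5) G Empty (fun W p _ f => stepE W.1 (t * Q) t p f) q ε := by
  have hr : 0 < √t := Real.sqrt_pos.2 ht
  have hr1 : √t ≤ 1 := Real.sqrt_le_one.2 ht1
  have hr2 : √t ^ 2 = t := Real.sq_sqrt ht.le
  have h1 := H (√t ^ 2 * (3 / 5)) (√t * G) (by positivity) (by rw [hr2]; exact htδ)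
    (by positivity) ((mul_le_of_le_one_left hG hr1).trans hGD)
  have h2 := h1.rescale hr.le (ψ := fun p => (√t)⁻¹ • p) (by fun_prop)
  have h3 := h2.map (fun W p x => pr_stepE (W.2.scale hr.le) zero_le_one (by linarith) _)
    (ψ := fun z => √t • z.2) (by fun_prop) hr
    (fun z y y' => by rw [← smul_sub, nrm_smul, abs_of_pos hr])
  refine (h3.mono le_rfl (mul_le_of_le_one_left hε hr1)).congr fun W p x f _ => ?_
  show stepE (fun x => W.1 (√t • x)) Q 1 ((√t)⁻¹ • p) (fun y => f (√t • y)) = _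
  rw [stepE_scale W.1 hr.le, hr2, smul_smul, mul_inv_cancel₀ hr.ne', one_smul, mul_one]

/-- Phase 1 -/
theorem phase1 {q ε η t : ℝ} (ht : 0 < t) (htη : 2 * t ≤ η) (hη : η ≤ 1 / 12) (hε : 0 ≤ ε)
    (hG : 0 ≤ G) (h : Rz d kap (3 / 5) G Empty (fun W p _ f => stepE W.1 η t p f) q ε) (n : ℕ) :
    Rz d kap (3 / 5) G Empty (fun W _ _ => mu W.1 η) (n * q)
      ((1 - t / 2) ^ n * (G + √d) + n * ε) := by
  have hq := h.q_nonneg
  set s : ℝ := 2 / 3 - η with hs
  have hs0 : 0 < s := by linarith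
  set c : ℝ := s / (s + t) with hc
  set ρ : ℝ := s * t / (s + t) with hρ
  have hc0 : 0 < c := by positivity
  have hc1 : c ≤ 1 := (div_le_one (by positivity)).2 (by linarith)
  have hbl : ∀ f : E d → ℝ, BL f → BL fun y => heat ρ f (c • y) :=
    fun f hf => bl_scale' (hf.heat ρ) hc0 hc1
  -- the kernel
  have hK : Rz d kap (3 / 5) G Empty
      (fun W p _ f => stepE W.1 η t p fun y => heat ρ f (c • y)) q ε := by
    have h0 : Rz d kap (3 / 5) G Empty (fun _ p _ f => heat ρ f (c • p)) 0 0 :=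
      Rz.noise ρ (m := fun z => c • z.1) (by fun_prop)
    have h1 := h.bind (Λ' := fun _ p f => heat ρ f (c • p)) h0
      (fun W p _ => pr_stepE W.2 ht.le (by linarith) p) (fun _ p => pr_heat ρ _) one_pos
      (fun _ f hf y y' => by rw [one_mul]; exact (hbl f hf).lip y y') hε le_rfl
    simpa using h1
  have hKpr : ∀ (W : Pot d (3 / 5) G) (p : E d),
      Pr fun f => stepE W.1 η t p fun y => heat ρ f (c • y) := fun W p =>
    pr_comp (K := fun y f => heat ρ f (c • y)) (pr_stepE W.2 ht.le (by linarith) p)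
      (fun _ => pr_heat ρ _) hbl
  have hL : 0 < 1 - t / 2 := by linarith
  have hKl : ∀ (W : Pot d (3 / 5) G) (f : E d → ℝ), BL f → ∀ y y',
      |(stepE W.1 η t y fun y => heat ρ f (c • y)) - stepE W.1 η t y' fun y => heat ρ f (c • y)|
        ≤ (1 - t / 2) * nrm (y - y') := by
    intro W f hf y y'
    have h1 := stepE_lip W.2 (by norm_num) ht.le (by linarith : t ≤ η) (by linarith)
      (bl_scale (hf.heat ρ) hc0) y y'
    rw [PoinAux.stepE_const_mul, PoinAux.stepE_const_mul, ← mul_sub, abs_mul,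
      abs_of_pos (inv_pos.2 hc0), inv_mul_le_iff₀ hc0] at h1
    refine h1.trans ?_
    rw [← mul_assoc]
    refine mul_le_mul_of_nonneg_right ?_ (nrm_nonneg _)
    rw [hc, div_mul_eq_mul_div, div_le_iff₀ (by positivity)]
    have h2 : s ≤ 2 / 3 := by linarith
    nlinarith [mul_pos ht ht, mul_pos ht hs0]
  induction n with
  | zero =>
    have h0 : Rz d kap (3 / 5) G Empty (fun _ _ _ f => heat 0 f (0 : E d)) 0 0 :=
      Rz.noise 0 (m := fun _ => 0) measurable_const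
    have h1 := h0.near (Λ' := fun W _ _ => mu W.1 η) (ε' := G + √d) (fun W p => ?_) le_rfl
      (by positivity)
    · simpa using h1
    · refine cnear_empty.2 fun x f hf => ENNReal.ofReal_le_ofReal ?_
      simp only [heat_zero]
      have h2 := PoinAux.stepE_nrm_le' W.2 (η := 2 / 3) (t := s) hs0.le (by linarith) 0
      have h3 : √(s * d) ≤ √d := Real.sqrt_le_sqrt
        (mul_le_of_le_one_left (Nat.cast_nonneg d) (by linarith))
      have h4 : s * G ≤ G := mul_le_of_le_one_left hG (by linarith)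
      have h5 : f 0 - mu W.1 η f = stepE W.1 (2 / 3) s 0 fun y => f 0 - f y := by
        rw [stepE_sub W.2 _ _ _ (TA.pg_const _) hf.pg, stepE_const W.2 hs0.le (by linarith)]
        rfl
      have hp : PG fun y => f 0 - f y := PG.of_bdd
        (continuous_const.sub hf.continuous).stronglyMeasurable
        (C := hf.bdd.choose + hf.bdd.choose) fun y => by
          rw [Real.norm_eq_abs]
          exact (abs_sub _ _).trans (add_le_add (hf.bdd.choose_spec _) (hf.bdd.choose_spec _))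
      have h6 := stepE_mono W.2 (2 / 3) s 0 hp (PoinAux.pg_nrm 0) fun y =>
        (le_abs_self _).trans ((hf.lip 0 y).trans_eq (nrm_sub_comm _ _))
      have h7 := stepE_mono W.2 (2 / 3) s 0 (PoinAux.pg_const_mul hp (-1)) (PoinAux.pg_nrm 0)
        fun y => by
          rw [neg_one_mul]
          exact (neg_le_abs _).trans ((hf.lip 0 y).trans_eq (nrm_sub_comm _ _))
      rw [PoinAux.stepE_const_mul] at h7
      rw [h5, abs_le]
      constructor <;> linarith
  | succ n ih =>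
    have h1 := chain_step (Λ' := fun W => mu W.1 η) ih hK
      (fun W => pr_mu W.2 (by linarith) (by linarith)) hKpr hL hKl (by positivity) hε
      (fun W f hf => by
        rw [mu_step W.2 (by linarith) ht.le (hbl f hf).pg]
        exact mu_up W.2 (by linarith) ht.le (by linarith) hf.pg)
    refine h1.mono (le_of_eq (by push_cast; ring)) ?_
    have h2 : (1 - t / 2) * (n * ε) ≤ n * ε :=
      mul_le_of_le_one_left (by positivity) (by linarith)
    rw [pow_succ]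
    push_cast
    linarith

/-- Phase 2 -/
theorem phase2 {Q q q₀ ε e η : ℝ} (hQ : 2 ≤ Q) (hη0 : 0 < η) (hη : η ≤ 1 / 12) (hε : 0 ≤ ε)
    (he : 0 ≤ e)
    (h : ∀ t, 0 < t → t * Q ≤ η →
      Rz d kap (3 / 5) G Empty (fun W p _ f => stepE W.1 (t * Q) t p f) q ε)
    (h0 : Rz d kap (3 / 5) G Empty (fun W _ _ => mu W.1 η) q₀ e) (n : ℕ) :
    Rz d kap (3 / 5) G Empty (fun W _ _ => mu W.1 (η * (1 - 1 / Q) ^ n)) (q₀ + n * q)
      ((1 + 2 * (η - η * (1 - 1 / Q) ^ n)) * (e + n * ε)) := by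
  have hQ0 : 0 < Q := by linarith
  have hQ1 : 1 / Q ≤ 1 / 2 := one_div_le_one_div_of_le (by norm_num) hQ
  have hQ2 : 0 < 1 / Q := by positivity
  induction n with
  | zero => simpa using h0
  | succ n ih =>
    set a : ℝ := η * (1 - 1 / Q) ^ n with ha
    have ha0 : 0 < a := mul_pos hη0 (pow_pos (by linarith) n)
    have ha1 : a ≤ η := mul_le_of_le_one_right hη0.le (pow_le_one₀ (by linarith) (by linarith))
    have ht0 : 0 < a / Q := by positivity
    have htQ : a / Q * Q = a := by field_simp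
    have hta : a / Q ≤ a := div_le_self ha0.le (by linarith)
    have h1 := h (a / Q) ht0 (by rw [htQ]; exact ha1)
    rw [htQ] at h1
    have h2 : η * (1 - 1 / Q) ^ (n + 1) = a - a / Q := by rw [ha, pow_succ]; ring
    have h3 := chain_step (Λ' := fun W => mu W.1 (a - a / Q)) ih h1
      (fun W => pr_mu W.2 ha0.le (by linarith)) (fun W p => pr_stepE W.2 ht0.le hta p)
      (L := 1 + 13 / 10 * (a / Q) * (3 / 5)) (by positivity)
      (fun W f hf y y' => stepE_lip W.2 (by norm_num) ht0.le hta (by linarith) hf y y')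
      (mul_nonneg (by linarith) (by positivity)) hε
      (fun W f hf => mu_step W.2 (by linarith) ht0.le hf.pg)
    rw [h2]
    refine h3.mono (le_of_eq (by push_cast; ring)) ?_
    have h4 : 0 ≤ e + n * ε := by positivity
    have h5 : (1 + 13 / 10 * (a / Q) * (3 / 5)) * (1 + 2 * (η - a)) ≤ 1 + 2 * (η - (a - a / Q)) := by
      nlinarith
    have h6 := mul_le_mul_of_nonneg_right h5 h4
    have h7 : ε ≤ (1 + 2 * (η - (a - a / Q))) * ε := le_mul_of_one_le_left hε (by linarith)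
    push_cast
    nlinarith

/-- the final noise -/
theorem final {q e η L : ℝ} (hd : 1 ≤ d) (hη0 : 0 < η) (hη : η ≤ 1 / 12)
    (hG : G * √(η * d) ≤ 1 / 1000) (hL : 1 / √η ≤ L) (he : 0 ≤ e) (heL : L * e ≤ 1 / 25)
    (h : Rz d kap (3 / 5) G Empty (fun W _ _ => mu W.1 η) q e) :
    ∃ (Ω : Type) (_ : MeasurableSpace Ω) (ν : Measure Ω) (_ : IsProbabilityMeasure ν) (q' : ℕ)
      (r : (E d → E d) → Ω → E d), (q' : ℝ) ≤ q ∧ DImpl (E d) (E d) (E d) q' Ω r ∧
      ∀ W, Adm (3 / 5) G W → ∀ o, Orc (kap * G) W o → ∀ B : Set (E d), MeasurableSet B →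
        |(ν (r o ⁻¹' B)).toReal - stepE W (2 / 3) (2 / 3) 0 (B.indicator fun _ => (1 : ℝ))| ≤
          1 / 20 := by
  obtain ⟨Ω, _, ν, _, q', r, hq, hr, H⟩ := h
  have hL0 : 0 < L := lt_of_lt_of_le (by positivity) hL
  have hr1 : DImpl (E d) (E d) (E d) q' (Ω × E d)
      fun o i => r o (((0 : E d), (0 : Om d Empty)), i.1) :=
    hr.comap (φ := fun i : Ω × E d => (((0 : E d), (0 : Om d Empty)), i.1)) (by fun_prop)
  have hr2 := hr1.map (ψ := fun z : (Ω × E d) × E d => z.2 + √η • z.1.2) (by fun_prop)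
  refine ⟨Ω × E d, inferInstance, ν.prod (gam (Fin d)), inferInstance, q', _, hq, hr2, ?_⟩
  intro W hW o ho B hB
  set b : E d → ℝ := B.indicator fun _ => (1 : ℝ) with hb
  have hbm : Measurable b := measurable_const.indicator hB
  have hb0 : ∀ y, 0 ≤ b y := fun y => Set.indicator_nonneg (fun _ _ => zero_le_one) y
  have hb1 : ∀ y, b y ≤ 1 := fun y => Set.indicator_le_self' (fun _ _ => zero_le_one) y
  have hbn : ∀ y, ‖b y‖ ≤ 1 := fun y => by
    rw [Real.norm_eq_abs, abs_of_nonneg (hb0 y)]; exact hb1 y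
  have hbp : PG b := PG.of_bdd hbm.stronglyMeasurable hbn
  have hm2 := hr2.measurable ho.1
  have hY : Measurable fun ω => r o (((0 : E d), (0 : Om d Empty)), ω) :=
    (hr.measurable ho.1).comp (by fun_prop)
  have h1 : ((ν.prod (gam (Fin d))) ((fun i : Ω × E d =>
      r o (((0 : E d), (0 : Om d Empty)), i.1) + √η • i.2) ⁻¹' B)).toReal
      = ∫ ω, heat η b (r o (((0 : E d), (0 : Om d Empty)), ω)) ∂ν := by
    have h2 := integral_indicator_one (μ := ν.prod (gam (Fin d))) (hm2 hB)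
    rw [Measure.real] at h2
    rw [← h2, integral_prod]
    · rfl
    · exact (integrable_const (1 : ℝ)).indicator (hm2 hB)
  have h3 := cnear_empty.1 (H ⟨W, hW⟩ o ho 0) 0
  have hhb : ∀ y, |heat η b y| ≤ 1 := fun y => by
    have := norm_integral_le_of_norm_le_const (μ := gam (Fin d))
      (f := fun g => b (y + √η • g)) (C := 1) (Filter.Eventually.of_forall fun g => hbn _)
    simpa [heat] using this
  have h4 := h3.lip (pr_integral ν hY).hom (pr_mu hW hη0.le (by linarith)).hom hL0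
    (f := heat η b) ⟨1, hhb⟩ fun y y' => (abs_heat_sub_le hbm hb0 hb1 hη0 y y').trans (by
      rw [div_eq_mul_one_div, mul_comm]
      exact mul_le_mul_of_nonneg_right hL (nrm_nonneg _))
  rw [← ENNReal.ofReal_mul hL0.le, ENNReal.ofReal_le_ofReal_iff (by positivity)] at h4
  have h5 : mu W η (fun y => stepE W η η y b) = stepE W (2 / 3) (2 / 3) 0 b := by
    rw [mu_step hW (by linarith) hη0.le hbp, sub_self, mu, sub_zero]
  have h6 : |mu W η (fun y => stepE W η η y b) - mu W η (heat η b)| ≤ 1 / 100 := by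
    unfold mu
    rw [← stepE_sub hW _ _ _ (PG.stepE hW η η hbp) (hbp.heat η)]
    exact abs_stepE_le hW (by linarith) (by linarith) 0 fun y =>
      abs_post_sub_heat_le hW hη0.le hG hd y hbm hb0 hb1
  show |((ν.prod (gam (Fin d))) ((fun i : Ω × E d =>
      r o (((0 : E d), (0 : Om d Empty)), i.1) + √η • i.2) ⁻¹' B)).toReal - _| ≤ _
  rw [h1, ← h5]
  have h7 := abs_le.1 h4
  have h8 := abs_le.1 h6
  rw [abs_le]
  constructor <;> linarith [h7.1, h7.2, h8.1, h8.2]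

theorem pow_small {t x : ℝ} {n : ℕ} (ht1 : t ≤ 1) (hx : 0 < x) (hn : Real.log x ≤ n * t) :
    (1 - t) ^ n ≤ 1 / x := by
  calc (1 - t) ^ n ≤ Real.exp (-t) ^ n :=
        pow_le_pow_left₀ (by linarith) (by linarith [Real.add_one_le_exp (-t)]) n
    _ = Real.exp (-(n * t)) := by rw [← Real.exp_nat_mul]; congr 1; ring
    _ ≤ Real.exp (-Real.log x) := Real.exp_le_exp.2 (by linarith)
    _ = 1 / x := by rw [Real.exp_neg, Real.exp_log hx, one_div]

end OuterAux

open OuterAux in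
theorem outer : ∃ C0 : ℝ, 0 < C0 ∧ ∀ (d : ℕ) (Q δ0 D kap q ε G0 : ℝ), 1 ≤ d → (d : ℝ) ≤ D → C0 ≤ D →
    2 ≤ Q → 0 < δ0 → 20 * Q * δ0 ≤ 1 → 1 ≤ G0 → G0 ≤ δ0 * D → 0 ≤ ε → ε * D ^ 10 ≤ 1 →
    (∀ δ G, 0 < δ → δ ≤ δ0 → 0 ≤ G → G ≤ δ0 * D →
      Rz d kap δ G Empty (fun W p _ f => stepE W.1 Q 1 p f) q ε) →
    ∃ (Ω : Type) (_ : MeasurableSpace Ω) (ν : Measure Ω) (_ : IsProbabilityMeasure ν) (q' : ℕ)
      (r : (E d → E d) → Ω → E d), (q' : ℝ) ≤ C0 * q * Real.log D / δ0 ∧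
      DImpl (E d) (E d) (E d) q' Ω r ∧
      ∀ W, Adm (3 / 5) G0 W → ∀ o, Orc (kap * G0) W o → ∀ B : Set (E d), MeasurableSet B →
        |(ν (r o ⁻¹' B)).toReal - stepE W (2 / 3) (2 / 3) 0 (B.indicator fun _ => (1 : ℝ))| ≤
          1 / 20 := by
  refine ⟨10 ^ 6, by norm_num, ?_⟩
  intro d Q δ0 D kap q ε G0 hd hdD hD hQ hδ hQδ hG1 hGD hε hεD H
  have hD0 : 0 < D := by linarith
  have hD1 : 1 ≤ D := by linarith
  have hδ1 : δ0 ≤ 1 / 40 := by nlinarith
  have hG0 : 0 ≤ G0 := by linarith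
  have hGD' : G0 ≤ D := hGD.trans (mul_le_of_le_one_left hD0.le (by linarith))
  have hq : 0 ≤ q := (H δ0 0 hδ le_rfl le_rfl (by positivity)).q_nonneg
  have hlog1 : 1 ≤ Real.log D := by
    rw [Real.le_log_iff_exp_le hD0]
    linarith [Real.exp_one_lt_d9]
  have hlogD : Real.log D ≤ D := (Real.log_le_sub_one_of_pos hD0).trans (by linarith)
  set t : ℝ := 5 / 3 * δ0 with ht
  have ht0 : 0 < t := by positivity
  set η : ℝ := t * Q with hη
  have hη0 : 0 < η := by positivity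
  have hη1 : η ≤ 1 / 12 := by rw [hη, ht]; linarith
  have hstep : ∀ t', 0 < t' → t' * Q ≤ η →
      Rz d kap (3 / 5) G0 Empty (fun W p _ f => stepE W.1 (t' * Q) t' p f) q ε := by
    intro t' ht' h
    have h1 : t' ≤ t := le_of_mul_le_mul_right h (by linarith)
    exact rz_step hQ hG0 hGD hε H ht' (by linarith) (by linarith)
  -- phase 1
  set A : ℝ := Real.log D / δ0 with hA
  have hA40 : 40 ≤ A := by rw [hA, le_div_iff₀ hδ]; linarith
  have hAD : A ≤ D ^ 2 := by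
    rw [hA, div_le_iff₀ hδ]
    nlinarith
  obtain ⟨n₁, hn₁, hn₁'⟩ : ∃ n : ℕ, 8 * A ≤ n ∧ (n : ℝ) ≤ 9 * A :=
    ⟨⌈8 * A⌉₊, Nat.le_ceil _, (Nat.ceil_lt_add_one (by linarith)).le.trans (by linarith)⟩
  have h1 := phase1 ht0 (by nlinarith) hη1 hε hG0 (hstep t ht0 le_rfl) n₁
  have h2 : (1 - t / 2) ^ n₁ ≤ 1 / D ^ 6 := by
    refine pow_small (by linarith) (by positivity) ?_
    rw [Real.log_pow]
    have h3 : 8 * A * (t / 2) ≤ n₁ * (t / 2) := mul_le_mul_of_nonneg_right hn₁ (by positivity)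
    have h4 : A * δ0 = Real.log D := by rw [hA]; field_simp
    have h5 : 8 * A * (t / 2) = 20 / 3 * Real.log D := by rw [← h4, ht]; ring
    push_cast
    linarith
  have h3 : √d ≤ D := by
    rw [Real.sqrt_le_left hD0.le]
    nlinarith
  have h4 : (1 - t / 2) ^ n₁ * (G0 + √d) ≤ 2 / D ^ 5 := by
    calc (1 - t / 2) ^ n₁ * (G0 + √d) ≤ 1 / D ^ 6 * (2 * D) :=
          mul_le_mul h2 (by linarith) (by positivity) (by positivity)
      _ = 2 / D ^ 5 := by field_simp
  have h5 := h1.mono le_rfl (add_le_add_left h4 (n₁ * ε))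
  -- phase 2
  set τ : ℝ := 1 / (10 ^ 6 * D ^ 3) with hτ
  have hτ0 : 0 < τ := by positivity
  have hQ0 : 0 < Q := by linarith
  have hQ1 : 1 / Q ≤ 1 / 2 := one_div_le_one_div_of_le (by norm_num) hQ
  have hQ2 : 0 < 1 / Q := by positivity
  obtain ⟨N, hN, hN'⟩ : ∃ n : ℕ, A / 5 ≤ n ∧ (n : ℝ) ≤ A :=
    ⟨⌈A / 5⌉₊, Nat.le_ceil _, (Nat.ceil_lt_add_one (by linarith)).le.trans (by linarith)⟩
  have hNτ : η * (1 - 1 / Q) ^ N ≤ τ := by
    refine (mul_le_of_le_one_left (pow_nonneg (by linarith) _) (by linarith)).trans ?_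
    refine pow_small (by linarith) (by positivity) ?_
    have h6 : Real.log (10 ^ 6 * D ^ 3) ≤ Real.log (D ^ 4) :=
      Real.log_le_log (by positivity) (by nlinarith [pow_pos hD0 3])
    rw [Real.log_pow] at h6
    have h7 : A / 5 * (1 / Q) ≤ N * (1 / Q) := mul_le_mul_of_nonneg_right hN hQ2.le
    have h8 : 20 * δ0 ≤ 1 / Q := by rw [le_div_iff₀ hQ0]; linarith
    have h9 : A / 5 * (20 * δ0) ≤ A / 5 * (1 / Q) := mul_le_mul_of_nonneg_left h8 (by linarith)
    have h4 : A * δ0 = Real.log D := by rw [hA]; field_simp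
    have h10 : A / 5 * (20 * δ0) = 4 * Real.log D := by rw [← h4]; ring
    push_cast at h6
    exact h6.trans (h10.symm.le.trans (h9.trans h7))
  have hex : ∃ n : ℕ, η * (1 - 1 / Q) ^ n ≤ τ := ⟨N, hNτ⟩
  obtain ⟨n₂, hn₂, hn₂N, hn₂'⟩ : ∃ n : ℕ, η * (1 - 1 / Q) ^ n ≤ τ ∧ n ≤ N ∧
      τ / 2 ≤ η * (1 - 1 / Q) ^ n := by
    classical
    refine ⟨Nat.find hex, Nat.find_spec hex, Nat.find_min' hex hNτ, ?_⟩
    rcases Nat.eq_zero_or_eq_succ_pred (Nat.find hex) with h | h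
    · rw [h, pow_zero, mul_one]
      have h6 : 1 / D ≤ δ0 := by rw [div_le_iff₀ hD0]; linarith
      have h7 : τ ≤ 1 / D := one_div_le_one_div_of_le hD0 (by
        have : D ≤ D ^ 3 := le_self_pow₀ hD1 (by norm_num)
        linarith)
      nlinarith
    · have h6 := Nat.find_min hex (m := (Nat.find hex).pred) (by rw [h]; exact Nat.lt_succ_self _)
      rw [not_le] at h6
      rw [h, pow_succ, ← mul_assoc]
      nlinarith
  have hn₂A : (n₂ : ℝ) ≤ A := (Nat.cast_le.2 hn₂N).trans hN'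
  have h6 := phase2 hQ hη0 hη1 hε (by positivity) hstep h5 n₂
  set a : ℝ := η * (1 - 1 / Q) ^ n₂ with ha
  have ha0 : 0 < a := by linarith
  have ha1 : a ≤ η := mul_le_of_le_one_right hη0.le (pow_le_one₀ (by linarith) (by linarith))
  have hε' : ε ≤ 1 / D ^ 10 := by rw [le_div_iff₀ (by positivity)]; exact hεD
  have h7 : (1 + 2 * (η - a)) * (2 / D ^ 5 + n₁ * ε + n₂ * ε) ≤ 24 / D ^ 5 := by
    have h8 : A * ε ≤ 1 / D ^ 5 := by
      calc A * ε ≤ D ^ 2 * (1 / D ^ 10) := mul_le_mul hAD hε' hε (by positivity)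
        _ = 1 / D ^ 8 := by field_simp
        _ ≤ 1 / D ^ 5 := one_div_le_one_div_of_le (by positivity)
            (pow_le_pow_right₀ hD1 (by norm_num))
    have h9 : n₁ * ε ≤ 9 * A * ε := mul_le_mul_of_nonneg_right hn₁' hε
    have h10 : n₂ * ε ≤ A * ε := mul_le_mul_of_nonneg_right hn₂A hε
    calc (1 + 2 * (η - a)) * (2 / D ^ 5 + n₁ * ε + n₂ * ε) ≤ 2 * (12 / D ^ 5) := by
          refine mul_le_mul (by linarith) ?_ (by positivity) (by norm_num)
          have : 12 / D ^ 5 = 2 / D ^ 5 + 10 * (1 / D ^ 5) := by ring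
          linarith
      _ = 24 / D ^ 5 := by ring
  have h8 := h6.mono (q' := 10 ^ 6 * q * Real.log D / δ0) (by
    have h9 : n₁ * q ≤ 9 * A * q := mul_le_mul_of_nonneg_right hn₁' hq
    have h10 : n₂ * q ≤ A * q := mul_le_mul_of_nonneg_right hn₂A hq
    have h11 : 10 ^ 6 * q * Real.log D / δ0 = 10 ^ 6 * (A * q) := by rw [hA]; ring
    have h12 : 0 ≤ A * q := by positivity
    rw [h11]
    linarith) h7
  refine final (L := 2000 * D ^ 2) hd ha0 (by linarith) ?_ ?_ (by positivity) ?_ h8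
  · have h9 : √(a * d) ≤ 1 / (1000 * D) := by
      rw [Real.sqrt_le_left (by positivity)]
      calc a * d ≤ τ * D := mul_le_mul hn₂ hdD (by positivity) hτ0.le
        _ = (1 / (1000 * D)) ^ 2 := by rw [hτ]; field_simp; norm_num
    calc G0 * √(a * d) ≤ D * (1 / (1000 * D)) := mul_le_mul hGD' h9 (by positivity) hD0.le
      _ = 1 / 1000 := by field_simp
  · have h9 : 1 / (2000 * D ^ 2) ≤ √a := by
      refine Real.le_sqrt_of_sq_le (le_trans ?_ hn₂')
      have h10 : (1 / (2000 * D ^ 2)) ^ 2 = 1 / (4 * 10 ^ 6 * D ^ 4) := by field_simp; norm_num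
      have h11 : τ / 2 = 1 / (2 * 10 ^ 6 * D ^ 3) := by rw [hτ]; field_simp
      rw [h10, h11]
      refine one_div_le_one_div_of_le (by positivity) ?_
      have : D ^ 3 ≤ D ^ 4 := pow_le_pow_right₀ hD1 (by norm_num)
      nlinarith [pow_pos hD0 3]
    rw [div_le_iff₀ (Real.sqrt_pos.2 ha0)]
    rw [div_le_iff₀ (by positivity)] at h9
    linarith
  · have h9 : 2000 * D ^ 2 * (24 / D ^ 5) = 48000 / D ^ 3 := by field_simp; norm_num
    rw [h9, div_le_iff₀ (by positivity)]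
    have : D ^ 2 ≤ D ^ 3 := pow_le_pow_right₀ hD1 (by norm_num)
    nlinarith

end Crest.Agent.R285

end
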