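import Crest.Agent.R285.Tower

/-!
Mollification: convolve with a normalised `ContDiffBump` of small radius (compare `BL.exists_TF`).
The convolution `W y = ∫ φ(z) W₀(y - z) dz` is smooth with compact support, and its first and second
derivatives are the averages of those of `W₀`.
-/

set_option autoImplicit false

open MeasureTheory ProbabilityTheory Matrix Filter
open scoped ENNReal Convolution

noncomputable section

namespace Crest.Agent.R285

namespace TruncB

variable {d : ℕ}

/-- convolution with the normalised bump -/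
def cv (φ : ContDiffBump (0 : E d)) (g : E d → ℝ) : E d → ℝ :=
  φ.normed volume ⋆[ContinuousLinearMap.lsmul ℝ ℝ, volume] g

theorem cv_apply (φ : ContDiffBump (0 : E d)) (g : E d → ℝ) (y : E d) :
    cv φ g y = ∫ t, φ.normed volume t * g (y - t) := rfl

theorem contDiff_pd_nat {g : E d → ℝ} {n : ℕ} (hg : ContDiff ℝ (n + 1 : ℕ) g) (i : Fin d) :
    ContDiff ℝ n (pd i g) := by
  unfold pd
  exact (hg.fderiv_right (m := n) (by norm_cast)).clm_apply contDiff_const

theorem supp_pd {g : E d → ℝ} (hs : HasCompactSupport g) (i : Fin d) :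
    HasCompactSupport (pd i g) := hs.fderiv_apply ℝ _

theorem pd_cv (φ : ContDiffBump (0 : E d)) {g : E d → ℝ} (hg : ContDiff ℝ 1 g)
    (hs : HasCompactSupport g) (i : Fin d) : pd i (cv φ g) = cv φ (pd i g) := by
  funext y
  have hφ : LocallyIntegrable (φ.normed volume) volume := φ.integrable_normed.locallyIntegrable
  have h := (hs.hasFDerivAt_convolution_right (ContinuousLinearMap.lsmul ℝ ℝ) hφ hg y).fderiv
  unfold pd cv
  rw [h, convolution_precompR_apply _ hφ (hs.fderiv ℝ) (hg.continuous_fderiv one_ne_zero)]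

theorem abs_sum_cv_le (φ : ContDiffBump (0 : E d)) {ι : Type} [Fintype ι] {g : ι → E d → ℝ}
    (hg : ∀ i, Continuous (g i)) (a : ι → ℝ) {c : ℝ} (hc : ∀ y, |∑ i, g i y * a i| ≤ c)
    (y : E d) : |∑ i, cv φ (g i) y * a i| ≤ c := by
  have hφi : Integrable (φ.normed volume) volume := φ.integrable_normed
  have hi : ∀ i, Integrable (fun t => φ.normed volume t * g i (y - t) * a i) volume := fun i =>
    ((φ.continuous_normed.mul ((hg i).comp (continuous_const.sub continuous_id))
      ).integrable_of_hasCompactSupport φ.hasCompactSupport_normed.mul_right).mul_const _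
  have e : ∑ i, cv φ (g i) y * a i = ∫ t, φ.normed volume t * ∑ i, g i (y - t) * a i := by
    simp only [cv_apply, ← integral_mul_const, Finset.mul_sum, ← mul_assoc]
    rw [integral_finsetSum _ fun i _ => hi i]
  have h := norm_integral_le_of_norm_le
    (f := fun t => φ.normed volume t * ∑ i, g i (y - t) * a i) (hφi.mul_const c)
    (ae_of_all _ fun t => by
      rw [Real.norm_eq_abs, abs_mul, abs_of_nonneg (φ.nonneg_normed t)]
      exact mul_le_mul_of_nonneg_left (hc _) (φ.nonneg_normed t))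
  rwa [integral_mul_const, φ.integral_normed, one_mul, Real.norm_eq_abs, ← e] at h

theorem abs_sub_cv_le (φ : ContDiffBump (0 : E d)) {g : E d → ℝ} (hg : Continuous g) {c : ℝ}
    (hc : ∀ x y, dist x y < φ.rOut → dist (g x) (g y) ≤ c) (y : E d) : |g y - cv φ g y| ≤ c := by
  rw [abs_sub_comm, ← Real.dist_eq]
  exact φ.dist_normed_convolution_le hg.aestronglyMeasurable fun x hx => hc x y hx

end TruncB

open TruncB in
theorem exists_mollify {d : ℕ} {W₀ : E d → ℝ} (h2 : ContDiff ℝ 2 W₀) (hs : HasCompactSupport W₀)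
    {δ G : ℝ} (hG : ∀ y, nrm (grad W₀ y) ≤ G)
    (hδ : ∀ y u w, |∑ i, ∑ j, pd i (pd j W₀) y * u i * w j| ≤ δ * nrm u * nrm w) {κ : ℝ}
    (hκ : 0 < κ) : ∃ W : E d → ℝ, Adm δ G W ∧ (∀ y, nrm (grad W₀ y - grad W y) ≤ κ) ∧
      ∀ y, |W₀ y - W y| ≤ κ := by
  have h1 : ContDiff ℝ 1 W₀ := h2.of_le (by norm_num)
  have h1' : ∀ i, ContDiff ℝ 1 (pd i W₀) := fun i => contDiff_pd_nat (n := 1) h2 i
  have h0' : ∀ i j, Continuous (pd i (pd j W₀)) := fun i j =>
    (contDiff_pd_nat (n := 0) (h1' j) i).continuous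
  have hsq : (0 : ℝ) ≤ √(Fintype.card (Fin d)) := Real.sqrt_nonneg _
  set κ' : ℝ := κ / (√(Fintype.card (Fin d)) + 1) with hκ'
  have hκ'0 : 0 < κ' := by positivity
  have hu0 : UniformContinuous W₀ := hs.uniformContinuous_of_continuous h2.continuous
  have hu1 : UniformContinuous (grad W₀) := uniformContinuous_pi.2 fun i =>
    (supp_pd hs i).uniformContinuous_of_continuous (h1' i).continuous
  obtain ⟨r₀, hr₀, hr₀'⟩ := Metric.uniformContinuous_iff.1 hu0 κ hκ
  obtain ⟨r₁, hr₁, hr₁'⟩ := Metric.uniformContinuous_iff.1 hu1 κ' hκ'0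
  have hr : 0 < min r₀ r₁ := lt_min hr₀ hr₁
  let φ : ContDiffBump (0 : E d) := ⟨min r₀ r₁ / 2, min r₀ r₁, by positivity, by linarith⟩
  have hgrad : ∀ y, grad (cv φ W₀) y = fun i => cv φ (pd i W₀) y := fun y => by
    funext i
    rw [grad, pd_cv φ h1 hs]
  obtain ⟨C, hC⟩ := h2.continuous.bounded_above_of_compact_support hs
  refine ⟨cv φ W₀, ⟨φ.hasCompactSupport_normed.contDiff_convolution_left _ φ.contDiff_normed
    h2.continuous.locallyIntegrable, fun m => HeatB.iteratedFDeriv_conv_bdd h2.continuous hC m ℝ ℝ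
      (ContinuousLinearMap.lsmul ℝ ℝ) (φ.normed volume) φ.contDiff_normed
      φ.hasCompactSupport_normed, fun y => ?_, fun y u w => ?_⟩, fun y => ?_, fun y => ?_⟩
  · refine nrm_le_of_dot ((nrm_nonneg _).trans (hG 0)) fun u => ?_
    rw [hgrad, dotProduct_comm]
    refine (le_abs_self _).trans
      (abs_sum_cv_le φ (fun i => (h1' i).continuous) u (fun x => ?_) y)
    exact (abs_dot_le (grad W₀ x) u).trans (mul_le_mul_of_nonneg_right (hG x) (nrm_nonneg _))
  · have e : ∀ i j, pd i (pd j (cv φ W₀)) = cv φ (pd i (pd j W₀)) := fun i j => by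
      rw [pd_cv φ h1 hs, pd_cv φ (h1' j) (supp_pd hs j)]
    have h := abs_sum_cv_le φ (ι := Fin d × Fin d) (g := fun q => pd q.1 (pd q.2 W₀))
      (fun q => h0' q.1 q.2) (fun q => u q.1 * w q.2) (c := δ * nrm u * nrm w)
      (fun x => by simpa only [Fintype.sum_prod_type, mul_assoc] using hδ x u w) y
    simpa only [e, Fintype.sum_prod_type, mul_assoc] using h
  · have h : ‖grad W₀ y - grad (cv φ W₀) y‖ ≤ κ' := by
      refine (pi_norm_le_iff_of_nonneg hκ'0.le).2 fun i => ?_
      rw [hgrad]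
      exact abs_sub_cv_le φ (h1' i).continuous (fun x x' hx =>
        (dist_le_pi_dist (grad W₀ x) (grad W₀ x') i).trans
          (hr₁' (lt_of_lt_of_le hx (min_le_right _ _))).le) y
    refine (nrm_le_norm _).trans ?_
    calc √(Fintype.card (Fin d)) * ‖grad W₀ y - grad (cv φ W₀) y‖
        ≤ (√(Fintype.card (Fin d)) + 1) * κ' := by
          gcongr
          linarith
      _ = κ := by rw [hκ']; field_simp
  · exact abs_sub_cv_le φ h2.continuous
      (fun x x' hx => (hr₀' (lt_of_lt_of_le hx (min_le_left _ _))).le) y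

end Crest.Agent.R285

end
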