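import Crest.Agent.R285.Tower
import Crest.Prelude.Def_OracleSampling

/-!
Comparison of the target with the truncated target.

Both laws have densities proportional to `exp (-U₁)`, `exp (-U₂)` with respect to Lebesgue measure on
`Fin d → ℝ` (`PoinA.gam_eq` or `GaussB.gam_eq`: density of `gam`; change of variables `y = √(2/3) g`), where
`U₁ y = V (toLp y)`, `U₂ y = (3/4)|y|² + W y`. First compare with `W₀`: if `f₁, f₂` agree on the ball, have
masses `Z₁, Z₂ ≥ z` and tails `≤ τ`, then `|f₁(B)/Z₁ - f₂(B)/Z₂| ≤ 2τ/z`. Here `z = ∫ exp (-|y|²) = π^(d/2)` and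
`τ = ∫_{|y| > c√d} exp (-|y|²/2) ≤ exp (-c² d/4) (4π)^(d/2)`, so `τ/z ≤ (2 exp (-c²/4))^d`. Then `W₀` and `W`
differ by at most `1/1000`.
-/

set_option autoImplicit false

open MeasureTheory ProbabilityTheory Matrix Filter
open scoped ENNReal

noncomputable section

namespace Crest.Agent.R285

namespace TruncC

/-- normalised masses of two densities that are close in `L¹` -/
theorem ratio_close {X : Type} [MeasurableSpace X] {μ : Measure X} {f g : X → ℝ}
    (hf : Integrable f μ) (hg : Integrable g μ) (g0 : ∀ x, 0 ≤ g x)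
    (hZf : 0 < ∫ x, f x ∂μ) (hZg : 0 < ∫ x, g x ∂μ) {ε : ℝ}
    (hε : ∫ x, |f x - g x| ∂μ ≤ ε * ∫ x, f x ∂μ) (B : Set X) :
    |(∫ x in B, f x ∂μ) / (∫ x, f x ∂μ) - (∫ x in B, g x ∂μ) / (∫ x, g x ∂μ)| ≤ 2 * ε := by
  have hfg : Integrable (fun x => |f x - g x|) μ := (hf.sub hg).abs
  have a1 : |(∫ x in B, f x ∂μ) - ∫ x in B, g x ∂μ| ≤ ε * ∫ x, f x ∂μ := by
    rw [← integral_sub hf.integrableOn hg.integrableOn]
    refine (abs_integral_le_integral_abs).trans (le_trans ?_ hε)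
    exact setIntegral_le_integral hfg (ae_of_all _ fun x => abs_nonneg _)
  have a2 : |(∫ x, f x ∂μ) - ∫ x, g x ∂μ| ≤ ε * ∫ x, f x ∂μ := by
    rw [← integral_sub hf hg]
    exact (abs_integral_le_integral_abs).trans hε
  have a3 : 0 ≤ ∫ x in B, g x ∂μ := integral_nonneg g0
  have a4 : ∫ x in B, g x ∂μ ≤ ∫ x, g x ∂μ := setIntegral_le_integral hg (ae_of_all _ g0)
  generalize (∫ x in B, f x ∂μ) = a at *
  generalize (∫ x in B, g x ∂μ) = b at *
  generalize (∫ x, f x ∂μ) = Z at *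
  generalize (∫ x, g x ∂μ) = Y at *
  have e : a / Z - b / Y = (a - b) / Z + (b / Y) * ((Y - Z) / Z) := by
    field_simp
    ring
  have b1 : |(a - b) / Z| ≤ ε := by
    rw [abs_div, abs_of_pos hZf, div_le_iff₀ hZf]; exact a1
  have b2 : |(Y - Z) / Z| ≤ ε := by
    rw [abs_div, abs_of_pos hZf, div_le_iff₀ hZf, abs_sub_comm]; exact a2
  have b3 : |b / Y| ≤ 1 := by
    rw [abs_of_nonneg (div_nonneg a3 hZg.le), div_le_one hZg]; exact a4
  rw [e]
  refine (abs_add_le _ _).trans ?_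
  rw [abs_mul]
  have := mul_le_mul b3 b2 (abs_nonneg _) zero_le_one
  linarith

theorem exp_nrm {d : ℕ} (b : ℝ) (y : E d) :
    Real.exp (-b * nrm y ^ 2) = ∏ i, Real.exp (-b * y i ^ 2) := by
  rw [nrm_sq, Finset.mul_sum, Real.exp_sum]

theorem int_gauss {d : ℕ} {b : ℝ} (hb : 0 < b) :
    Integrable fun y : E d => Real.exp (-b * nrm y ^ 2) := by
  simp only [exp_nrm]
  rw [volume_pi]
  exact Integrable.fintype_prod (f := fun _ x => Real.exp (-b * x ^ 2))
    fun _ => integrable_exp_neg_mul_sq hb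

theorem integral_gauss {d : ℕ} (b : ℝ) :
    ∫ y : E d, Real.exp (-b * nrm y ^ 2) = √(Real.pi / b) ^ d := by
  simp only [exp_nrm]
  rw [integral_fintype_prod_volume_eq_pow (fun x : ℝ => Real.exp (-b * x ^ 2)), integral_gaussian,
    Fintype.card_fin]

theorem target_eq {d : ℕ} {V : OracleSampling.E d → ℝ} (hV : Continuous V)
    (hi : Integrable fun y : E d => Real.exp (-V (WithLp.toLp 2 y)))
    (B : Set (OracleSampling.E d)) (hB : MeasurableSet B) :
    (OracleSampling.target d V B).toReal =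
      (∫ y in (WithLp.toLp 2 : E d → OracleSampling.E d) ⁻¹' B, Real.exp (-V (WithLp.toLp 2 y))) /
        ∫ y : E d, Real.exp (-V (WithLp.toLp 2 y)) := by
  have mp := PiLp.volume_preserving_toLp (Fin d)
  have key : ∀ A : Set (OracleSampling.E d), MeasurableSet A →
      ((volume : Measure (OracleSampling.E d)).withDensity
        (fun x => ENNReal.ofReal (Real.exp (-V x))) A).toReal =
      ∫ y in (WithLp.toLp 2 : E d → OracleSampling.E d) ⁻¹' A, Real.exp (-V (WithLp.toLp 2 y)) := by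
    intro A hA
    rw [withDensity_apply _ hA, ← (mp.restrict_preimage hA).lintegral_comp (by fun_prop),
      ← ofReal_integral_eq_lintegral_ofReal hi.integrableOn
        (ae_of_all _ fun x => (Real.exp_pos _).le),
      ENNReal.toReal_ofReal (integral_nonneg fun x => (Real.exp_pos _).le)]
  have k1 := key Set.univ MeasurableSet.univ
  rw [Set.preimage_univ, Measure.restrict_univ] at k1
  simp only [OracleSampling.target, Measure.smul_apply, smul_eq_mul, ENNReal.toReal_mul,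
    ENNReal.toReal_inv]
  rw [k1, key B hB, div_eq_inv_mul]

theorem heat_eq (d : ℕ) : ∃ c : ℝ, 0 < c ∧ ∀ φ : E d → ℝ,
    heat (2 / 3) φ 0 = c * ∫ y, φ y * Real.exp (-(3 / 4 * nrm y ^ 2)) := by
  have hs : (0 : ℝ) < √(2 / 3) := Real.sqrt_pos.2 (by norm_num)
  refine ⟨(√(2 * Real.pi))⁻¹ ^ d * |(√(2 / 3) ^ Module.finrank ℝ (E d))⁻¹|, by positivity,
    fun φ => ?_⟩
  have h := Measure.integral_comp_smul (volume : Measure (E d))
    (fun y => φ y * Real.exp (-(3 / 4 * nrm y ^ 2))) √(2 / 3)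
  rw [mul_assoc, ← smul_eq_mul |_|, ← h, heat, GaussB.integral_rho, ← integral_const_mul]
  refine integral_congr_ae (ae_of_all _ fun g => ?_)
  have e : 3 / 4 * nrm (√(2 / 3) • g) ^ 2 = (∑ i, g i ^ 2) / 2 := by
    rw [nrm_smul, mul_pow, sq_abs, Real.sq_sqrt (by norm_num), nrm_sq]
    ring
  simp only [zero_add, GaussB.rho, Fintype.card_fin, e, neg_div]
  ring

theorem stepE_eq {d : ℕ} (W : E d → ℝ) {B : Set (E d)} (hB : MeasurableSet B) :
    stepE W (2 / 3) (2 / 3) 0 (B.indicator fun _ => (1 : ℝ)) =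
      (∫ y in B, Real.exp (-(3 / 4 * nrm y ^ 2 + W y))) /
        ∫ y, Real.exp (-(3 / 4 * nrm y ^ 2 + W y)) := by
  obtain ⟨c, hc, h⟩ := heat_eq d
  have e : ∀ y : E d, Real.exp (-W y) * Real.exp (-(3 / 4 * nrm y ^ 2)) =
      Real.exp (-(3 / 4 * nrm y ^ 2 + W y)) := fun y => by
    rw [← Real.exp_add]; congr 1; ring
  rw [stepE, sub_self, uu_zero, uu, h, h, ← integral_indicator hB]
  simp only [e, smul_eq_mul]
  have e2 : ∀ y : E d, Real.exp (-W y) * B.indicator (fun _ => (1 : ℝ)) y *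
      Real.exp (-(3 / 4 * nrm y ^ 2)) =
      B.indicator (fun y => Real.exp (-(3 / 4 * nrm y ^ 2 + W y))) y := fun y => by
    by_cases hy : y ∈ B
    · simp only [Set.indicator_of_mem hy, mul_one, e]
    · simp only [Set.indicator_of_notMem hy, mul_zero, zero_mul]
  simp only [e2]
  rw [mul_inv, div_eq_inv_mul]
  field_simp

theorem int_of_le {d : ℕ} {U : E d → ℝ} (hU : Continuous U) {c : ℝ}
    (h : ∀ y, nrm y ^ 2 / 2 - c ≤ U y) : Integrable fun y => Real.exp (-U y) := by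
  refine ((int_gauss (d := d) (b := 1 / 2) (by norm_num)).const_mul (Real.exp c)).mono'
    (by fun_prop : Continuous fun y => Real.exp (-U y)).aestronglyMeasurable
    (ae_of_all _ fun y => ?_)
  rw [Real.norm_of_nonneg (Real.exp_pos _).le, ← Real.exp_add]
  exact Real.exp_le_exp.2 (by linarith [h y])

theorem tail_const {d : ℕ} (hd : 1 ≤ d) :
    Real.exp (-25 * d) * √(Real.pi / (1 / 4)) ^ d ≤ 1 / 100 * √(Real.pi / 1) ^ d := by
  have e1 : √(Real.pi / (1 / 4)) = 2 * √(Real.pi / 1) := by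
    rw [show Real.pi / (1 / 4) = 2 ^ 2 * (Real.pi / 1) by ring, Real.sqrt_mul (by norm_num),
      Real.sqrt_sq (by norm_num)]
  have e2 : Real.exp (-25 * d) = Real.exp (-25) ^ d := by
    rw [← Real.exp_nat_mul, mul_comm]
  have e3 : Real.exp (-25) * 2 ≤ 1 / 100 := by
    have h1 : (1 : ℝ) + 25 + 25 ^ 2 / 2 ≤ Real.exp 25 := Real.quadratic_le_exp_of_nonneg (by norm_num)
    rw [Real.exp_neg, inv_mul_le_iff₀ (Real.exp_pos _)]
    linarith
  rw [e1, e2, mul_pow, ← mul_assoc, ← mul_pow]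
  refine mul_le_mul_of_nonneg_right ?_ (by positivity)
  exact (pow_le_of_le_one (by positivity) (by linarith) (by omega)).trans e3

theorem abs_exp_sub_le {a b : ℝ} (h : |a - b| ≤ 1 / 1000) :
    |Real.exp (-a) - Real.exp (-b)| ≤ 2 / 1000 * Real.exp (-a) := by
  have e : Real.exp (-a) - Real.exp (-b) = -(Real.exp (a - b) - 1) * Real.exp (-a) := by
    rw [neg_mul, sub_mul, ← Real.exp_add]
    ring_nf
  rw [e, abs_mul, abs_neg, abs_of_pos (Real.exp_pos _)]
  refine mul_le_mul_of_nonneg_right ?_ (Real.exp_pos _).le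
  have := Real.abs_exp_sub_one_le (x := a - b) (by linarith)
  linarith

end TruncC

theorem target_close {d : ℕ} (hd : 1 ≤ d) {V : OracleSampling.E d → ℝ} (hV : Continuous V)
    {W₀ W : E d → ℝ} (hW₀ : Continuous W₀) (hW : Continuous W)
    (h1 : ∀ y : E d, nrm y ^ 2 / 2 ≤ V (WithLp.toLp 2 y) ∧ V (WithLp.toLp 2 y) ≤ nrm y ^ 2)
    (h2 : ∀ y, |W₀ y| ≤ nrm y ^ 2 / 4)
    (h3 : ∀ y, nrm y ≤ 10 * √d → W₀ y = V (WithLp.toLp 2 y) - 3 / 4 * nrm y ^ 2)
    (h4 : ∀ y, |W₀ y - W y| ≤ 1 / 1000) (B : Set (OracleSampling.E d)) (hB : MeasurableSet B) :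
    |(OracleSampling.target d V B).toReal - stepE W (2 / 3) (2 / 3) 0
      (((WithLp.toLp 2 : E d → OracleSampling.E d) ⁻¹' B).indicator fun _ => (1 : ℝ))| ≤
      1 / 40 := by
  have hn : Continuous (nrm : E d → ℝ) := continuous_nrm
  have hB' : MeasurableSet ((WithLp.toLp 2 : E d → OracleSampling.E d) ⁻¹' B) :=
    (PiLp.volume_preserving_toLp (Fin d)).measurable hB
  have i1 : Integrable fun y : E d => Real.exp (-V (WithLp.toLp 2 y)) :=
    TruncC.int_of_le (c := 0) (by fun_prop) fun y => by linarith [(h1 y).1]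
  have i0 : Integrable fun y : E d => Real.exp (-(3 / 4 * nrm y ^ 2 + W₀ y)) :=
    TruncC.int_of_le (c := 0) (by fun_prop) fun y => by linarith [(abs_le.1 (h2 y)).1]
  have i2 : Integrable fun y : E d => Real.exp (-(3 / 4 * nrm y ^ 2 + W y)) :=
    TruncC.int_of_le (c := 1) (by fun_prop) fun y => by
      linarith [(abs_le.1 (h2 y)).1, (abs_le.1 (h4 y)).2]
  have p1 := integral_exp_pos i1
  have p0 := integral_exp_pos i0
  have p2 := integral_exp_pos i2
  rw [TruncC.target_eq hV i1 B hB, TruncC.stepE_eq W hB']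
  have c1 := TruncC.ratio_close (ε := 1 / 100) i1 i0 (fun _ => (Real.exp_pos _).le) p1 p0 (by
    have l1 : √(Real.pi / 1) ^ d ≤ ∫ y : E d, Real.exp (-V (WithLp.toLp 2 y)) := by
      rw [← TruncC.integral_gauss]
      exact integral_mono (TruncC.int_gauss one_pos) i1 fun y =>
        Real.exp_le_exp.2 (by linarith [(h1 y).2])
    have l2 : ∫ y : E d, |Real.exp (-V (WithLp.toLp 2 y)) -
        Real.exp (-(3 / 4 * nrm y ^ 2 + W₀ y))| ≤
        Real.exp (-25 * d) * √(Real.pi / (1 / 4)) ^ d := by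
      rw [← TruncC.integral_gauss, ← integral_const_mul]
      refine integral_mono (i1.sub i0).abs ((TruncC.int_gauss (by norm_num)).const_mul _)
        fun y => ?_
      simp only
      by_cases hy : nrm y ≤ 10 * √d
      · rw [h3 y hy, show 3 / 4 * nrm y ^ 2 + (V (WithLp.toLp 2 y) - 3 / 4 * nrm y ^ 2) =
          V (WithLp.toLp 2 y) by ring, sub_self, abs_zero]
        positivity
      · have hy2 : 100 * (d : ℝ) ≤ nrm y ^ 2 := by
          have := pow_le_pow_left₀ (by positivity) (not_le.1 hy).le 2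
          rw [mul_pow, Real.sq_sqrt (by positivity)] at this
          linarith
        rw [← Real.exp_add]
        have u1 : Real.exp (-V (WithLp.toLp 2 y)) ≤
            Real.exp (-25 * d + -(1 / 4) * nrm y ^ 2) :=
          Real.exp_le_exp.2 (by linarith [(h1 y).1])
        have u2 : Real.exp (-(3 / 4 * nrm y ^ 2 + W₀ y)) ≤
            Real.exp (-25 * d + -(1 / 4) * nrm y ^ 2) :=
          Real.exp_le_exp.2 (by linarith [(abs_le.1 (h2 y)).1])
        have u3 := Real.exp_pos (-V (WithLp.toLp 2 y))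
        have u4 := Real.exp_pos (-(3 / 4 * nrm y ^ 2 + W₀ y))
        exact abs_le.2 ⟨by linarith, by linarith⟩
    have l3 := TruncC.tail_const hd
    linarith) ((WithLp.toLp 2 : E d → OracleSampling.E d) ⁻¹' B)
  have c2 := TruncC.ratio_close (ε := 2 / 1000) i0 i2 (fun _ => (Real.exp_pos _).le) p0 p2 (by
    rw [← integral_const_mul]
    refine integral_mono (i0.sub i2).abs (i0.const_mul _) fun y => ?_
    exact TruncC.abs_exp_sub_le (by simpa using h4 y))
    ((WithLp.toLp 2 : E d → OracleSampling.E d) ⁻¹' B)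
  have := abs_sub_le
    ((∫ y in (WithLp.toLp 2 : E d → OracleSampling.E d) ⁻¹' B, Real.exp (-V (WithLp.toLp 2 y))) /
      ∫ y : E d, Real.exp (-V (WithLp.toLp 2 y)))
    ((∫ y in (WithLp.toLp 2 : E d → OracleSampling.E d) ⁻¹' B,
      Real.exp (-(3 / 4 * nrm y ^ 2 + W₀ y))) / ∫ y : E d, Real.exp (-(3 / 4 * nrm y ^ 2 + W₀ y)))
    ((∫ y in (WithLp.toLp 2 : E d → OracleSampling.E d) ⁻¹' B,
      Real.exp (-(3 / 4 * nrm y ^ 2 + W y))) / ∫ y : E d, Real.exp (-(3 / 4 * nrm y ^ 2 + W y)))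
  linarith

end Crest.Agent.R285

end
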