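import Crest.Agent.R285.TruncA
import Crest.Agent.R285.TruncB
import Crest.Agent.R285.TruncC
import Crest.Prelude.Def_OracleSampling

/-!
Truncation and mollification of the potential.

Let `U y = V y - (3/4) |y|²`: Hessian in `[-1/2, 1/2]`, `|∇U y| ≤ |y|/2`, `|U y| ≤ |y|²/4`. Take a smooth cutoff
`χ` with values in `[0,1]`, `χ = 1` on `|y| ≤ c √d`, `χ = 0` on `|y| ≥ c' √d`, `|∇χ| ≤ ε₁/|y|`,
`‖∇²χ‖ ≤ ε₁/|y|²` with `ε₁ = 1/20` (`χ y = κ (ε₂ log (|y|²/(c² d)))` for a fixed smooth `κ`, e.g.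
`1 - Real.smoothTransition`, and a small absolute constant `ε₂`). Then `W₀ = χ U` is `C²` with compact support,
Hessian `≤ 1/2 + ε₁ + ε₁/4 ≤ 3/5`, gradient `≤ c' √d`, and `∇W₀ y = χ y (∇V y - (3/2) y) + (V y - (3/4)|y|²) ∇χ y`.
`W` is the convolution of `W₀` with a normalised bump of small radius. Both `V` and `(3/4)|y|² + W₀` lie
between `|y|²/2` and `|y|²` and agree on the ball, so the two laws differ by at most
`2 · 2^(d/2) P(|g| > c √d) ≤ 1/100` (Chernoff with `E exp (|g|²/4) = 2^(d/2)`).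
-/

set_option autoImplicit false

open MeasureTheory ProbabilityTheory Matrix Filter
open scoped ENNReal

noncomputable section

namespace Crest.Agent.R285

namespace TruncAux

variable {d : ℕ}

/-- the Hessian form -/
def Hs (f : E d → ℝ) (y u w : E d) : ℝ := ∑ i, ∑ j, pd i (pd j f) y * u i * w j

theorem diff_pd {f : E d → ℝ} (hf : ContDiff ℝ 2 f) (j : Fin d) : Differentiable ℝ (pd j f) := by
  have h1 : ContDiff ℝ 1 (fderiv ℝ f) := hf.fderiv_right (by norm_num)
  exact (h1.differentiable (by norm_num)).clm_apply (differentiable_const _)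

theorem pd_pd_eq {f : E d → ℝ} (hf : ContDiff ℝ 2 f) (i j : Fin d) (y : E d) :
    pd i (pd j f) y = fderiv ℝ (fderiv ℝ f) y (Pi.single i 1) (Pi.single j 1) := by
  have h1 : ContDiff ℝ 1 (fderiv ℝ f) := hf.fderiv_right (by norm_num)
  have h2 := fderiv_clm_apply (𝕜 := ℝ) (c := fderiv ℝ f) (u := fun _ => (Pi.single j 1 : E d))
    (h1.differentiable (by norm_num) y) (differentiableAt_const _)
  unfold pd
  rw [h2]
  simp

theorem Hs_eq {f : E d → ℝ} (hf : ContDiff ℝ 2 f) (y u w : E d) :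
    Hs f y u w = fderiv ℝ (fderiv ℝ f) y u w := by
  have hu : u = ∑ i, u i • (Pi.single i (1 : ℝ) : E d) := by
    conv_lhs => rw [← Finset.univ_sum_single u]
    refine Finset.sum_congr rfl fun i _ => ?_
    rw [← Pi.single_smul, smul_eq_mul, mul_one]
  have hw : w = ∑ i, w i • (Pi.single i (1 : ℝ) : E d) := by
    conv_lhs => rw [← Finset.univ_sum_single w]
    refine Finset.sum_congr rfl fun i _ => ?_
    rw [← Pi.single_smul, smul_eq_mul, mul_one]
  conv_rhs => rw [hu, hw]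
  simp only [map_sum, map_smul, _root_.sum_apply, _root_.smul_apply,
    smul_eq_mul, Hs, pd_pd_eq hf, Finset.mul_sum]
  rw [Finset.sum_comm]
  refine Finset.sum_congr rfl fun i _ => Finset.sum_congr rfl fun j _ => ?_
  ring

theorem polar (B : E d →L[ℝ] E d →L[ℝ] ℝ) (hs : ∀ u w, B u w = B w u) {c : ℝ}
    (h : ∀ u, |B u u| ≤ c * nrm u ^ 2) (u w : E d) : |B u w| ≤ c * nrm u * nrm w := by
  have key : ∀ u w : E d, |B u w| ≤ c * (nrm u ^ 2 + nrm w ^ 2) / 2 := by
    intro u w
    have h1 := h (u + w)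
    have h2 := h (u - w)
    have e1 : B (u + w) (u + w) - B (u - w) (u - w) = 4 * B u w := by
      simp only [map_add, map_sub, _root_.add_apply, _root_.sub_apply,
        hs w u]
      ring
    have e2 : nrm (u + w) ^ 2 + nrm (u - w) ^ 2 = 2 * (nrm u ^ 2 + nrm w ^ 2) := by
      simp only [nrm_sq, ← Finset.sum_add_distrib, Finset.mul_sum, Pi.add_apply, Pi.sub_apply]
      exact Finset.sum_congr rfl fun i _ => by ring
    have e3 : c * nrm (u + w) ^ 2 + c * nrm (u - w) ^ 2 = 2 * (c * (nrm u ^ 2 + nrm w ^ 2)) := by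
      rw [← mul_add, e2]; ring
    rw [abs_le] at h1 h2 ⊢
    constructor <;> linarith [h1.1, h1.2, h2.1, h2.2]
  have z : ∀ u : E d, nrm u = 0 → u = 0 := fun u hu => by
    funext i
    have := abs_le_nrm u i
    rw [hu] at this
    exact abs_nonpos_iff.1 this
  rcases (nrm_nonneg u).eq_or_lt with hu | hu
  · rw [z u hu.symm]; simp [nrm_zero]
  rcases (nrm_nonneg w).eq_or_lt with hw | hw
  · rw [z w hw.symm]; simp [nrm_zero]
  have h1 := key (nrm w • u) (nrm u • w)
  simp only [map_smul, _root_.smul_apply, smul_eq_mul, nrm_smul, abs_mul,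
    abs_of_pos hu, abs_of_pos hw] at h1
  have h2 : nrm u * nrm w * |B u w| ≤ nrm u * nrm w * (c * nrm u * nrm w) := by nlinarith
  exact le_of_mul_le_mul_left h2 (by positivity)

theorem nrm_grad_le {U : E d → ℝ} (hU : ContDiff ℝ 2 U) (h0 : grad U 0 = 0) {c : ℝ} (hc : 0 ≤ c)
    (h : ∀ y u w, |Hs U y u w| ≤ c * nrm u * nrm w) (y : E d) : nrm (grad U y) ≤ c * nrm y := by
  refine nrm_le_of_dot (mul_nonneg hc (nrm_nonneg _)) fun u => ?_
  have hd : ∀ j, Differentiable ℝ fun y => u j * pd j U y := fun j =>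
    (diff_pd hU j).const_mul _
  have hφ : Differentiable ℝ fun y => ∑ j, u j * pd j U y := Differentiable.fun_sum fun j _ => hd j
  have h1 := abs_sub_le_of_grad hφ (L := c * nrm u) (fun y => ?_) y 0
  · have e0 : ∑ j, u j * pd j U 0 = 0 := Finset.sum_eq_zero fun j _ => by
      have : pd j U 0 = 0 := congrFun h0 j
      rw [this, mul_zero]
    rw [e0, sub_zero, sub_zero] at h1
    calc u ⬝ᵥ grad U y ≤ |∑ j, u j * pd j U y| := le_abs_self _
      _ ≤ _ := h1
      _ = _ := by ring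
  · refine nrm_le_of_dot (mul_nonneg hc (nrm_nonneg _)) fun v => ?_
    have e : v ⬝ᵥ grad (fun y => ∑ j, u j * pd j U y) y = Hs U y v u := by
      simp only [dotProduct, grad, Hs]
      refine Finset.sum_congr rfl fun i _ => ?_
      rw [TenB.pd_sum _ (fun j _ => hd j y), Finset.mul_sum]
      refine Finset.sum_congr rfl fun j _ => ?_
      rw [TenB.pd_const_mul (diff_pd hU j y)]
      ring
    rw [e]
    calc _ ≤ |Hs U y v u| := le_abs_self _
      _ ≤ _ := h y v u
      _ = _ := by ring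

theorem abs_le_sq {U : E d → ℝ} (hU : Differentiable ℝ U) (h0 : U 0 = 0) {c : ℝ}
    (h : ∀ y, nrm (grad U y) ≤ c * nrm y) (y : E d) : |U y| ≤ c * nrm y ^ 2 / 2 := by
  have hd : ∀ t : ℝ, HasDerivAt (fun t : ℝ => U (t • y)) (grad U (t • y) ⬝ᵥ y) t := fun t => by
    rw [← fderiv_eq_dot]
    have h1 : HasDerivAt (fun t : ℝ => t • y) y t := by
      simpa using (hasDerivAt_id t).smul_const y
    exact (hU (t • y)).hasFDerivAt.comp_hasDerivAt t h1
  have hB : ∀ t : ℝ, HasDerivAt (fun t : ℝ => c * nrm y ^ 2 / 2 * t ^ 2) (c * nrm y ^ 2 * t) t :=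
    fun t => by
      refine ((hasDerivAt_pow 2 t).const_mul (c * nrm y ^ 2 / 2)).congr_deriv ?_
      norm_num
      ring
  have := image_norm_le_of_norm_deriv_right_le_deriv_boundary (a := 0) (b := 1)
    (f := fun t : ℝ => U (t • y)) (f' := fun t => grad U (t • y) ⬝ᵥ y)
    (fun t _ => (hd t).continuousAt.continuousWithinAt) (fun t _ => (hd t).hasDerivWithinAt)
    (B := fun t : ℝ => c * nrm y ^ 2 / 2 * t ^ 2) (B' := fun t => c * nrm y ^ 2 * t)
    (by simp [h0]) hB (fun t ht => ?_) (x := 1) (by simp)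
  · simpa using this
  · rw [Real.norm_eq_abs]
    calc _ ≤ nrm (grad U (t • y)) * nrm y := abs_dot_le _ _
      _ ≤ c * nrm (t • y) * nrm y := mul_le_mul_of_nonneg_right (h _) (nrm_nonneg _)
      _ = _ := by rw [nrm_smul, abs_of_nonneg ht.1]; ring

/-- `toLp` as a continuous linear map -/
def LL2 (d : ℕ) : E d →L[ℝ] OracleSampling.E d :=
  (PiLp.continuousLinearEquiv 2 ℝ fun _ : Fin d => ℝ).symm.toContinuousLinearMap

theorem LL2_apply (y : E d) : LL2 d y = WithLp.toLp 2 y := rfl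

theorem pd_toLp {V : OracleSampling.E d → ℝ} (hV : Differentiable ℝ V) (i : Fin d) (y : E d) :
    pd i (fun y => V (WithLp.toLp 2 y)) y = gradient V (WithLp.toLp 2 y) i := by
  have h1 : HasFDerivAt (fun y => V (WithLp.toLp 2 y))
      ((fderiv ℝ V (WithLp.toLp 2 y)).comp (LL2 d)) y :=
    (hV (LL2 d y)).hasFDerivAt.comp y (LL2 d).hasFDerivAt
  unfold pd
  rw [h1.fderiv, ContinuousLinearMap.comp_apply, LL2_apply,
    ← InnerProductSpace.toDual_symm_apply (𝕜 := ℝ) (y := fderiv ℝ V (WithLp.toLp 2 y))]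
  change inner ℝ (gradient V (WithLp.toLp 2 y)) _ = _
  generalize gradient V (WithLp.toLp 2 y) = g
  simp [PiLp.inner_apply]

theorem pd_nrm_sq (i : Fin d) (y : E d) : pd i (fun y : E d => nrm y ^ 2) y = 2 * y i := by
  have : (fun y : E d => nrm y ^ 2) = fun y => ∑ j, y j * y j := by
    funext y; rw [nrm_sq]; exact Finset.sum_congr rfl fun j _ => by ring
  rw [this, TenB.pd_sum _ (fun j _ => by fun_prop)]
  rw [Finset.sum_eq_single i]
  · rw [TenB.pd_mul (by fun_prop) (by fun_prop), TenB.pd_coord]; simp; ring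
  · intro j _ hj
    rw [TenB.pd_mul (by fun_prop) (by fun_prop), TenB.pd_coord]; simp [hj]
  · simp

theorem contDiff_nrm_sq : ContDiff ℝ 2 fun y : E d => nrm y ^ 2 := by
  have : (fun y : E d => nrm y ^ 2) = fun y => ∑ j, y j ^ 2 := by
    funext y; rw [nrm_sq]
  rw [this]
  fun_prop

/-- the perturbation `V - (3/4) |y|²` -/
def UU (V : OracleSampling.E d → ℝ) (y : E d) : ℝ := V (WithLp.toLp 2 y) + (-(3 / 4)) * nrm y ^ 2

variable {V : OracleSampling.E d → ℝ}

theorem contDiff_toLp (hV : ContDiff ℝ 2 V) : ContDiff ℝ 2 fun y : E d => V (WithLp.toLp 2 y) :=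
  hV.comp (LL2 d).contDiff

theorem contDiff_UU (hV : ContDiff ℝ 2 V) : ContDiff ℝ 2 (UU V) :=
  (contDiff_toLp hV).add (contDiff_const.mul contDiff_nrm_sq)

theorem pd_UU' (hV : ContDiff ℝ 2 V) (i : Fin d) (y : E d) :
    pd i (UU V) y = pd i (fun y => V (WithLp.toLp 2 y)) y + (-(3 / 2)) * y i := by
  have h1 := (contDiff_toLp hV).differentiable (by norm_num) y
  have h2 := (contDiff_nrm_sq (d := d)).differentiable (by norm_num) y
  unfold UU
  rw [TenB.pd_add h1 (h2.const_mul _), TenB.pd_const_mul h2, pd_nrm_sq]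
  ring

theorem pd_UU (hV : ContDiff ℝ 2 V) (i : Fin d) (y : E d) :
    pd i (UU V) y = gradient V (WithLp.toLp 2 y) i - 3 / 2 * y i := by
  rw [pd_UU' hV, pd_toLp (hV.differentiable (by norm_num))]
  ring

theorem Hs_UU (hV : OracleSampling.Admissible d V) (y u w : E d) :
    |Hs (UU V) y u w| ≤ 1 / 2 * nrm u * nrm w := by
  have hU := contDiff_UU hV.1
  rw [Hs_eq hU]
  refine polar _ (fun u w => (hU.contDiffAt.isSymmSndFDerivAt (by simp)) u w) (fun u => ?_) u w
  rw [← Hs_eq hU]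
  have h1 : Hs (UU V) y u u = Hs (fun y => V (WithLp.toLp 2 y)) y u u - 3 / 2 * nrm u ^ 2 := by
    have e : ∀ i j, pd i (pd j (UU V)) y =
        pd i (pd j fun y => V (WithLp.toLp 2 y)) y - if j = i then 3 / 2 else 0 := by
      intro i j
      rw [show pd j (UU V) = _ from funext (pd_UU' hV.1 j),
        TenB.pd_add (diff_pd (contDiff_toLp hV.1) j y) (by fun_prop),
        TenB.pd_const_mul (by fun_prop), TenB.pd_coord]
      split_ifs <;> ring
    simp only [Hs, e, sub_mul, Finset.sum_sub_distrib, nrm_sq, Finset.mul_sum]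
    congr 1
    refine Finset.sum_congr rfl fun i _ => ?_
    simp only [ite_mul, zero_mul, Finset.sum_ite_eq', Finset.mem_univ, if_true]
    ring
  have h2 : Hs (fun y => V (WithLp.toLp 2 y)) y u u =
      iteratedFDeriv ℝ 2 V (WithLp.toLp 2 y) ![WithLp.toLp 2 u, WithLp.toLp 2 u] := by
    rw [Hs_eq (contDiff_toLp hV.1)]
    have h3 := (LL2 d).iteratedFDeriv_comp_right hV.1 y (i := 2) le_rfl
    have h4 := iteratedFDeriv_two_apply (𝕜 := ℝ) (fun y : E d => V (WithLp.toLp 2 y)) y ![u, u]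
    simp only [Matrix.cons_val_zero, Matrix.cons_val_one] at h4
    rw [← h4, show (fun y : E d => V (WithLp.toLp 2 y)) = V ∘ LL2 d from rfl, h3,
      ContinuousMultilinearMap.compContinuousLinearMap_apply, LL2_apply]
    congr 1
    funext i
    fin_cases i <;> rfl
  have h3 := hV.2.2.2 (WithLp.toLp 2 y) (WithLp.toLp 2 u)
  rw [← nrm_eq_norm, ← h2] at h3
  rw [h1, abs_le]
  constructor <;> linarith [h3.1, h3.2]

theorem nrm_grad_UU (hV : OracleSampling.Admissible d V) (y : E d) :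
    nrm (grad (UU V) y) ≤ 1 / 2 * nrm y := by
  refine nrm_grad_le (contDiff_UU hV.1) ?_ (by norm_num) (Hs_UU hV) y
  funext i
  have : (WithLp.toLp 2 (0 : E d) : OracleSampling.E d) = 0 := rfl
  simp [grad, pd_UU hV.1, this, hV.2.2.1]

theorem abs_UU (hV : OracleSampling.Admissible d V) (y : E d) : |UU V y| ≤ nrm y ^ 2 / 4 := by
  have h0 : UU V 0 = 0 := by
    have : (WithLp.toLp 2 (0 : E d) : OracleSampling.E d) = 0 := rfl
    simp [UU, this, hV.2.1, nrm_zero]
  have := abs_le_sq ((contDiff_UU hV.1).differentiable (by norm_num)) h0 (nrm_grad_UU hV) y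
  linarith

theorem pd_mul' {χ U : E d → ℝ} (hχ : ContDiff ℝ 2 χ) (hU : ContDiff ℝ 2 U) (j : Fin d) :
    pd j (fun y => χ y * U y) = fun y => pd j χ y * U y + χ y * pd j U y :=
  funext fun y => TenB.pd_mul (hχ.differentiable (by norm_num) y)
    (hU.differentiable (by norm_num) y) j

theorem Hs_mul {χ U : E d → ℝ} (hχ : ContDiff ℝ 2 χ) (hU : ContDiff ℝ 2 U) (y u w : E d) :
    Hs (fun y => χ y * U y) y u w = Hs χ y u w * U y + (grad χ y ⬝ᵥ w) * (grad U y ⬝ᵥ u) +
      (grad χ y ⬝ᵥ u) * (grad U y ⬝ᵥ w) + χ y * Hs U y u w := by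
  have d1 := hχ.differentiable (by norm_num) y
  have d2 := hU.differentiable (by norm_num) y
  have e : ∀ i j, pd i (pd j fun y => χ y * U y) y = pd i (pd j χ) y * U y +
      pd j χ y * pd i U y + (pd i χ y * pd j U y + χ y * pd i (pd j U) y) := by
    intro i j
    rw [pd_mul' hχ hU, TenB.pd_add ((diff_pd hχ j y).fun_mul d2) (d1.fun_mul (diff_pd hU j y)),
      TenB.pd_mul (diff_pd hχ j y) d2, TenB.pd_mul d1 (diff_pd hU j y)]
  rw [mul_comm (grad χ y ⬝ᵥ w)]
  simp only [Hs, e, dotProduct, grad]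
  rw [Finset.sum_mul_sum, Finset.sum_mul_sum]
  simp only [Finset.sum_mul, Finset.mul_sum, ← Finset.sum_add_distrib]
  refine Finset.sum_congr rfl fun i _ => Finset.sum_congr rfl fun j _ => ?_
  ring

end TruncAux

open TruncAux in
theorem trunc : ∃ c0 : ℝ, 0 < c0 ∧ ∀ d : ℕ, 1 ≤ d → ∃ (G0 : ℝ)
    (ψ : E d × OracleSampling.Answer d → E d), 1 ≤ G0 ∧ G0 ≤ c0 * d ∧ Measurable ψ ∧
    ∀ κ : ℝ, 0 < κ → ∀ V : OracleSampling.E d → ℝ, OracleSampling.Admissible d V →
      ∃ W : E d → ℝ, Adm (3 / 5) G0 W ∧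
        (∀ y, nrm (ψ (y, OracleSampling.oracle V (WithLp.toLp 2 y)) - grad W y) ≤ κ) ∧
        ∀ B : Set (OracleSampling.E d), MeasurableSet B →
          |(OracleSampling.target d V B).toReal - stepE W (2 / 3) (2 / 3) 0
            (((WithLp.toLp 2 : E d → OracleSampling.E d) ⁻¹' B).indicator fun _ => (1 : ℝ))| ≤
            1 / 40 := by
  obtain ⟨A, hA, hcut⟩ := exists_cutoff
  refine ⟨10 * A, by positivity, fun d hd => ?_⟩
  have hd1 : (1 : ℝ) ≤ d := by exact_mod_cast hd
  have hsq : √(d : ℝ) ≤ d := by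
    rw [Real.sqrt_le_left (by positivity)]; nlinarith
  have hsq0 : 0 < √(d : ℝ) := Real.sqrt_pos.2 (by linarith)
  obtain ⟨χ, hχ, h01, hone, hzero, hg, hH⟩ := hcut d (10 * √d) (by positivity)
  have hχ2 : ContDiff ℝ 2 χ := hχ.of_le (by exact WithTop.coe_le_coe.2 (le_top : (2 : ℕ∞) ≤ ⊤))
  refine ⟨10 * A * d, fun z i => χ z.1 * (z.2.2 i - 3 / 2 * z.1 i) +
    (z.2.1 - 3 / 4 * nrm z.1 ^ 2) * pd i χ z.1, by nlinarith, le_rfl, ?_, fun κ hκ V hV => ?_⟩
  · refine measurable_pi_lambda _ fun i => Continuous.measurable ?_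
    have h1 := hχ.continuous
    have h2 := (contDiff_pd hχ i).continuous
    have h3 := continuous_nrm (ι := Fin d)
    fun_prop
  have hU := contDiff_UU hV.1
  have hW₀ : ContDiff ℝ 2 fun y => χ y * UU V y := hχ2.mul hU
  have hgW : ∀ y, grad (fun y => χ y * UU V y) y = UU V y • grad χ y + χ y • grad (UU V) y := by
    intro y
    funext j
    simp only [grad, pd_mul' hχ2 hU, Pi.add_apply, Pi.smul_apply, smul_eq_mul]
    ring
  have g1 : HasCompactSupport fun y => χ y * UU V y := by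
    refine HasCompactSupport.intro (isCompact_closedBall (0 : E d) (A * (10 * √d))) fun y hy => ?_
    rw [mem_closedBall_zero_iff, not_le] at hy
    rw [(hzero y (hy.le.trans (norm_le_nrm y))).1, zero_mul]
  have g2 : ∀ y, nrm (grad (fun y => χ y * UU V y) y) ≤ 10 * A * d := by
    intro y
    rw [hgW]
    rcases le_total (A * (10 * √d)) (nrm y) with h | h
    · rw [(hzero y h).1, (hzero y h).2, smul_zero, zero_smul, add_zero, nrm_zero]
      positivity
    · refine (nrm_add_le _ _).trans ?_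
      rw [nrm_smul, nrm_smul, abs_of_nonneg (h01 y).1]
      have h1 : |UU V y| * nrm (grad χ y) ≤ nrm y / 80 := by
        calc _ ≤ nrm y ^ 2 / 4 * nrm (grad χ y) :=
              mul_le_mul_of_nonneg_right (abs_UU hV y) (nrm_nonneg _)
          _ = nrm y / 4 * (nrm (grad χ y) * nrm y) := by ring
          _ ≤ nrm y / 4 * (1 / 20) :=
              mul_le_mul_of_nonneg_left (hg y) (by have := nrm_nonneg y; positivity)
          _ = _ := by ring
      have h2 : χ y * nrm (grad (UU V) y) ≤ 1 * (1 / 2 * nrm y) :=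
        mul_le_mul (h01 y).2 (nrm_grad_UU hV y) (nrm_nonneg _) zero_le_one
      have h3 : A * (10 * √d) ≤ 10 * A * d := by nlinarith
      have := nrm_nonneg y
      linarith
  have g3 : ∀ y u w, |∑ i, ∑ j, pd i (pd j fun y => χ y * UU V y) y * u i * w j| ≤
      3 / 5 * nrm u * nrm w := by
    intro y u w
    change |Hs (fun y => χ y * UU V y) y u w| ≤ _
    rw [Hs_mul hχ2 hU]
    have hu := nrm_nonneg u
    have hw := nrm_nonneg w
    have hy := nrm_nonneg y
    have h1 : |Hs χ y u w * UU V y| ≤ 1 / 80 * (nrm u * nrm w) := by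
      rw [abs_mul]
      calc _ ≤ |Hs χ y u w| * (nrm y ^ 2 / 4) :=
            mul_le_mul_of_nonneg_left (abs_UU hV y) (abs_nonneg _)
        _ = |Hs χ y u w| * nrm y ^ 2 / 4 := by ring
        _ ≤ 1 / 20 * (nrm u * nrm w) / 4 := by
            have := hH y u w
            change |Hs χ y u w| * _ ≤ _ at this
            linarith
        _ = _ := by ring
    have h2 : ∀ u w : E d, |(grad χ y ⬝ᵥ w) * (grad (UU V) y ⬝ᵥ u)| ≤ 1 / 40 * (nrm u * nrm w) := by
      intro u w
      have hu := nrm_nonneg u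
      have hw := nrm_nonneg w
      have hc := nrm_nonneg (grad χ y)
      rw [abs_mul]
      calc _ ≤ (nrm (grad χ y) * nrm w) * (1 / 2 * nrm y * nrm u) :=
            mul_le_mul (abs_dot_le _ _) ((abs_dot_le _ _).trans
              (mul_le_mul_of_nonneg_right (nrm_grad_UU hV y) hu)) (abs_nonneg _) (by positivity)
        _ = (nrm (grad χ y) * nrm y) * (1 / 2 * (nrm u * nrm w)) := by ring
        _ ≤ 1 / 20 * (1 / 2 * (nrm u * nrm w)) := mul_le_mul_of_nonneg_right (hg y) (by positivity)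
        _ = _ := by ring
    have h3 : |χ y * Hs (UU V) y u w| ≤ 1 / 2 * (nrm u * nrm w) := by
      rw [abs_mul, abs_of_nonneg (h01 y).1]
      calc _ ≤ 1 * (1 / 2 * nrm u * nrm w) :=
            mul_le_mul (h01 y).2 (Hs_UU hV y u w) (abs_nonneg _) zero_le_one
        _ = _ := by ring
    have h4 := h2 u w
    have h5 := h2 w u
    have h6 : 0 ≤ nrm u * nrm w := by positivity
    rw [abs_le] at h1 h3 h4 h5 ⊢
    constructor <;> nlinarith [h1.1, h1.2, h3.1, h3.2, h4.1, h4.2, h5.1, h5.2]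
  obtain ⟨W, hW, hW1, hW2⟩ := exists_mollify (δ := 3 / 5) (G := 10 * A * d) hW₀ g1 g2 g3
    (κ := min κ (1 / 1000)) (by positivity)
  refine ⟨W, hW, fun y => le_trans (le_of_eq ?_) ((hW1 y).trans (min_le_left _ _)),
    fun B hB => ?_⟩
  · congr 2
    rw [hgW]
    funext i
    simp only [OracleSampling.oracle, Pi.add_apply, Pi.smul_apply, smul_eq_mul, grad,
      pd_UU hV.1, UU]
    ring
  · refine target_close hd hV.1.continuous hW₀.continuous hW.smooth.continuous (fun y => ?_)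
      (fun y => ?_) (fun y hy => ?_) (fun y => (hW2 y).trans (min_le_right _ _)) B hB
    · have := abs_le.1 (abs_UU hV y)
      unfold UU at this
      constructor <;> linarith [this.1, this.2]
    · rw [abs_mul, abs_of_nonneg (h01 y).1]
      calc χ y * |UU V y| ≤ 1 * |UU V y| := mul_le_mul_of_nonneg_right (h01 y).2 (abs_nonneg _)
        _ ≤ _ := by rw [one_mul]; exact abs_UU hV y
    · rw [hone y hy, UU]; ring

end Crest.Agent.R285

end
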