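import Crest.Agent.R285.MainD
import Crest.Agent.R285.Outer
import Crest.Agent.R285.Trunc

/-!
The double induction on level and amplitude; choice of the parameters.
-/

set_option autoImplicit false

open MeasureTheory ProbabilityTheory Matrix Filter
open scoped ENNReal

noncomputable section

namespace Crest.Agent.R285

theorem RA_level {J Ms R B0 a' b b' B B' c : ℕ} (h2 : RA J Ms R B0 b' a' B' c) (hb' : b' ≤ a')
    (hb : b = a' + 1) (hB : B ≤ B' + b) (hR : b + 4 ≤ R) (hB0 : B ≤ B0) (k : ℕ) :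
    ∀ a, b + 10 ≤ a → B ≤ a + k → RA J Ms R B0 b a B (c + k) := by
  induction k with
  | zero => intro a _ h; exact RA_drop (by omega) (by omega)
  | succ k ih =>
    intro a ha h
    exact RA_step (ih (a + 1) (by omega) (by omega)) (h2.mono_c (Nat.le_add_right _ _)) hb' hb ha
      hB hR hB0

theorem RA_all (J Ms L : ℕ) (j : ℕ) (hj : j ≤ L) : ∀ a, 12 * (L + 1) + 12 * j + 10 ≤ a →
    RA J Ms (24 * L + 24) (12 * (L + 1) * L) (12 * (L + 1) + 12 * j) a (12 * (L + 1) * j)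
      (j * (12 * (L + 1) * L)) := by
  induction j with
  | zero => intro a _; exact RA_drop (by omega) (by omega)
  | succ j ih =>
    intro a ha
    have h2 := ih (by omega) (12 * (L + 1) + 12 * j + 11) (by omega)
    have hB0 : 12 * (L + 1) * (j + 1) ≤ 12 * (L + 1) * L := Nat.mul_le_mul_left _ hj
    have := RA_level (b := 12 * (L + 1) + 12 * (j + 1)) (B := 12 * (L + 1) * (j + 1)) h2 (by omega)
      (by omega) (by rw [Nat.mul_succ]; omega) (by omega) hB0 (12 * (L + 1) * L) a ha (by omega)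
    rwa [← Nat.succ_mul] at this

theorem step_rz (L : ℕ) : ∃ c : ℕ, ∀ J Ms, ∃ C : ℕ, ∀ᶠ P in LL J Ms, ∀ δ G,
    Cl0 P (24 * L + 24) δ G →
      Rz P.d (P.th ^ (12 * (L + 1) * L)) δ G Empty (fun W p _ f => stepE W.1 P.Q 1 p f)
        (P.K ^ C * P.Q ^ c) (P.K ^ C * P.Q ^ c * P.th ^ (12 * (L + 1) * L) * P.D) :=
  ⟨_, fun J Ms => step_rz_of (RA_all J Ms L L le_rfl (24 * L + 22) (by omega)) (by omega)
    (by omega)⟩

/-- the sampler for the smooth problem -/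
theorem main_prog {ε : ℝ} (hε : 0 < ε) (c0 : ℝ) : ∃ C : ℝ, ∀ d : ℕ, 1 ≤ d → ∀ G0 : ℝ, 1 ≤ G0 →
    G0 ≤ c0 * d → ∃ (κ : ℝ) (Ω : Type) (_ : MeasurableSpace Ω) (ν : Measure Ω)
      (_ : IsProbabilityMeasure ν) (q : ℕ) (r : (E d → E d) → Ω → E d), 0 < κ ∧
      (q : ℝ) ≤ C * (d : ℝ) ^ ε ∧ DImpl (E d) (E d) (E d) q Ω r ∧
      ∀ W, Adm (3 / 5) G0 W → ∀ o, Orc κ W o → ∀ B : Set (E d), MeasurableSet B →
        |(ν (r o ⁻¹' B)).toReal - stepE W (2 / 3) (2 / 3) 0 (B.indicator fun _ => (1 : ℝ))| ≤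
          1 / 20 := by
  obtain ⟨C0, hC0, hout⟩ := outer
  obtain ⟨T, hT2, hTε⟩ : ∃ T : ℕ, 2 ≤ T ∧ 2 / (T : ℝ) ≤ ε := by
    refine ⟨⌈2 / ε⌉₊ + 2, by omega, ?_⟩
    rw [div_le_iff₀ (by positivity)]
    have h1 : 2 / ε ≤ (⌈2 / ε⌉₊ : ℝ) := Nat.le_ceil _
    rw [div_le_iff₀ hε] at h1
    push_cast
    nlinarith
  set L := 45 * T with hL
  obtain ⟨c, hc⟩ := step_rz L
  set R := 24 * L + 24 with hR
  set B0 := 12 * (L + 1) * L with hB0
  obtain ⟨C, Cf, hf⟩ := hc (c + 1) (2 * R * T)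
  set C' := max (max C Cf) 1 with hC'
  have hC'1 : 1 ≤ C' := le_max_right _ _
  obtain ⟨K0, hK0⟩ := hf (C' * (c + 1))
  set K1 : ℝ := max (max K0 20) (max C0 c0) with hK1
  have hK120 : 20 ≤ K1 := (le_max_right _ _).trans (le_max_left _ _)
  set e := C' * (c + 1) * (R * T) with he
  have hRpos : 2 ≤ R := by omega
  have he0 : e ≠ 0 := by positivity
  refine ⟨C0 * (2 * R * T) * (K1 ^ e) ^ (2 / (T : ℝ)), fun d hd G0 hG1 hG0 => ?_⟩
  have hd1 : (1 : ℝ) ≤ d := by exact_mod_cast hd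
  set K : ℝ := max K1 ((d : ℝ) ^ ((e : ℝ)⁻¹)) with hK
  have hK1K : K1 ≤ K := le_max_left _ _
  have hK20 : 20 ≤ K := hK120.trans hK1K
  have hK1' : 1 ≤ K := by linarith
  have hdK : (d : ℝ) ≤ K ^ e := by
    calc (d : ℝ) = ((d : ℝ) ^ ((e : ℝ)⁻¹)) ^ e := (Real.rpow_inv_natCast_pow (by positivity) he0).symm
      _ ≤ K ^ e := pow_le_pow_left₀ (by positivity) (le_max_right _ _) _
  have hKd : K ^ e ≤ K1 ^ e * d := by
    have h1 : (1 : ℝ) ≤ K1 ^ e := one_le_pow₀ (by linarith)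
    rcases le_total K1 ((d : ℝ) ^ ((e : ℝ)⁻¹)) with h | h
    · rw [hK, max_eq_right h, Real.rpow_inv_natCast_pow (by positivity) he0]
      nlinarith
    · rw [hK, max_eq_left h]
      nlinarith
  set Q : ℝ := K ^ C' with hQ
  set x : ℝ := Q ^ (c + 1) with hx
  have hKQ : K ≤ Q := le_self_pow₀ hK1' (by omega)
  have hQ1 : 1 ≤ Q := hK1'.trans hKQ
  have hQx : Q ≤ x := le_self_pow₀ hQ1 (by omega)
  have hx1 : 1 ≤ x := hQ1.trans hQx
  have hx0 : 0 < x := by linarith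
  have hxK : x = K ^ (C' * (c + 1)) := by rw [hx, hQ, ← pow_mul]
  have hxe : x ^ (R * T) = K ^ e := by rw [hxK, ← pow_mul]
  set D : ℝ := x ^ (2 * R * T) with hD
  have hD2 : D = x ^ (R * T) * x ^ (R * T) := by rw [hD, ← pow_add]; congr 1; ring
  have hxD : x ≤ D := le_self_pow₀ hx1 (by positivity)
  have hdD : (d : ℝ) ≤ D := by
    rw [hD2, hxe]
    have : (1 : ℝ) ≤ K ^ e := one_le_pow₀ hK1'
    nlinarith
  let P : Par := ⟨d, K, Q, x⁻¹, D⟩
  have hP : P.OK (c + 1) (2 * R * T) Cf (C' * (c + 1)) K0 :=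
    { two_le := by show 2 ≤ K; linarith
      K_le := hKQ
      th_pos := by show 0 < x⁻¹; positivity
      Q_th := by show Q * x⁻¹ ≤ 1; rw [mul_inv_le_iff₀ hx0]; linarith
      d_pos := hd
      d_le := hdD
      K0_le := ((le_max_left _ _).trans (le_max_left _ _)).trans hK1K
      pow_le := pow_le_pow_right₀ hK1' ((le_max_right _ _).trans (le_max_left _ _))
      th_Q := by show 1 ≤ x⁻¹ * Q ^ (c + 1); rw [← hx, inv_mul_cancel₀ hx0.ne']
      th_K := by show 1 ≤ x⁻¹ * K ^ (C' * (c + 1)); rw [← hxK, inv_mul_cancel₀ hx0.ne']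
      D_le := by
        show D * x⁻¹ ^ (2 * R * T) ≤ 1
        rw [hD, ← mul_pow, mul_inv_cancel₀ hx0.ne', one_pow] }
  have hstep := hK0 P hP
  have hq : K ^ C * Q ^ c ≤ x := by
    rw [hx, pow_succ']
    exact mul_le_mul_of_nonneg_right
      (pow_le_pow_right₀ hK1' ((le_max_left _ _).trans (le_max_left _ _))) (by positivity)
  have hδD : x⁻¹ ^ R * D = x ^ (R * T) * x ^ (R * (T - 1)) := by
    obtain ⟨T', hT'⟩ : ∃ T', T = T' + 1 := ⟨T - 1, by omega⟩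
    have : D = x ^ R * (x ^ (R * T) * x ^ (R * (T - 1))) := by
      rw [hD, ← pow_add, ← pow_add]; congr 1; rw [hT', Nat.add_sub_cancel]; ring
    rw [this, ← mul_assoc, ← mul_pow, inv_mul_cancel₀ hx0.ne', one_pow, one_mul]
  have g1 : 20 * Q * x⁻¹ ^ R ≤ 1 := by
    have h1 : x⁻¹ ^ R ≤ x⁻¹ ^ 2 := pow_le_pow_of_le_one (by positivity) (inv_le_one_of_one_le₀ hx1) hRpos
    have h2 : 20 * Q * x⁻¹ ^ 2 ≤ 1 := by
      rw [inv_pow, mul_inv_le_iff₀ (by positivity)]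
      nlinarith
    exact le_trans (by gcongr) h2
  have g2 : G0 ≤ x⁻¹ ^ R * D := by
    rw [hδD, hxe]
    have h1 : c0 ≤ x ^ (R * (T - 1)) :=
      (((le_max_right _ _).trans (le_max_right _ _)).trans (hK1K.trans (hKQ.trans hQx))).trans
        (le_self_pow₀ hx1 (Nat.mul_ne_zero (by omega) (by omega)))
    calc G0 ≤ c0 * d := hG0
      _ ≤ x ^ (R * (T - 1)) * K ^ e := mul_le_mul h1 hdK (by positivity) (by positivity)
      _ = _ := mul_comm _ _
  have g3 : K ^ C * Q ^ c * x⁻¹ ^ B0 * D * D ^ 10 ≤ 1 := by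
    have h1 : 1 + 2 * R * T * 11 ≤ B0 := by
      rw [hB0, hR]
      have : 12 * (L + 1) * L = 540 * (T * (L + 1)) := by rw [hL]; ring
      have h2 : 2 * (24 * L + 24) * T * 11 = 528 * (T * (L + 1)) := by ring
      have h3 : 1 ≤ T * (L + 1) := Nat.mul_pos (by omega) (by omega)
      omega
    calc K ^ C * Q ^ c * x⁻¹ ^ B0 * D * D ^ 10 ≤ x * x⁻¹ ^ B0 * D * D ^ 10 := by gcongr
      _ = x ^ (1 + 2 * R * T * 11) * x⁻¹ ^ B0 := by rw [hD, pow_add, pow_mul x (2 * R * T) 11]; ring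
      _ ≤ x ^ B0 * x⁻¹ ^ B0 := by gcongr
      _ = 1 := by rw [← mul_pow, mul_inv_cancel₀ hx0.ne', one_pow]
  obtain ⟨Ω, mΩ, ν, hν, q', r, hq', hr, hres⟩ := hout d Q (x⁻¹ ^ R) D (x⁻¹ ^ B0) (K ^ C * Q ^ c)
    (K ^ C * Q ^ c * x⁻¹ ^ B0 * D) G0 hd hdD
    (((le_max_left _ _).trans (le_max_right _ _)).trans (hK1K.trans (hKQ.trans (hQx.trans hxD))))
    (by linarith) (by positivity) g1 hG1 g2 (by positivity) g3
    (fun δ G h1 h2 h3 h4 => hstep δ G ⟨h1, h2, h3, h4⟩)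
  refine ⟨x⁻¹ ^ B0 * G0, Ω, mΩ, ν, hν, q', r, by positivity, hq'.trans ?_, hr, hres⟩
  have hlog : Real.log D ≤ 2 * R * T * x := by
    rw [hD, Real.log_pow]
    push_cast
    exact mul_le_mul_of_nonneg_left ((Real.log_le_self hx0.le)) (by positivity)
  have hlog0 : 0 ≤ Real.log D := Real.log_nonneg (hx1.trans hxD)
  have h1 : C0 * (K ^ C * Q ^ c) * Real.log D / x⁻¹ ^ R ≤ C0 * (2 * R * T) * x ^ (2 * R) := by
    rw [inv_pow, div_inv_eq_mul]
    have h2 : x * x * x ^ R ≤ x ^ (2 * R) := by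
      rw [← pow_two, ← pow_add]; exact pow_le_pow_right₀ hx1 (by omega)
    calc C0 * (K ^ C * Q ^ c) * Real.log D * x ^ R ≤ C0 * x * (2 * R * T * x) * x ^ R := by
          gcongr
      _ = C0 * (2 * R * T) * (x * x * x ^ R) := by ring
      _ ≤ _ := by gcongr
  refine h1.trans ?_
  rw [mul_assoc (C0 * _)]
  refine mul_le_mul_of_nonneg_left ?_ (by positivity)
  have hT0 : (T : ℝ) ≠ 0 := by positivity
  have h3 : x ^ (2 * R) = (x ^ (R * T)) ^ (2 / (T : ℝ)) := by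
    rw [← Real.rpow_natCast, ← Real.rpow_natCast, ← Real.rpow_mul hx0.le]
    congr 1
    push_cast
    field_simp
  rw [h3, hxe]
  calc (K ^ e) ^ (2 / (T : ℝ)) ≤ (K1 ^ e * d) ^ (2 / (T : ℝ)) :=
        Real.rpow_le_rpow (by positivity) hKd (by positivity)
    _ = (K1 ^ e) ^ (2 / (T : ℝ)) * (d : ℝ) ^ (2 / (T : ℝ)) :=
        Real.mul_rpow (by positivity) (by positivity)
    _ ≤ _ := mul_le_mul_of_nonneg_left (Real.rpow_le_rpow_of_exponent_le hd1 hTε) (by positivity)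

theorem measurable_oracle {d : ℕ} {V : OracleSampling.E d → ℝ} (hV : ContDiff ℝ 2 V) :
    Measurable (OracleSampling.oracle V) := by
  refine hV.continuous.measurable.prodMk (Continuous.measurable ?_)
  exact (InnerProductSpace.toDual ℝ _).symm.continuous.comp (hV.continuous_fderiv (by norm_num))

theorem main : ∀ ε : ℝ, 0 < ε → ∃ C : ℝ, ∀ d : ℕ, 2 ≤ d →
    ∃ (q : ℕ) (A : OracleSampling.QueryAlg d q), (q : ℝ) ≤ C * (d : ℝ) ^ ε ∧
      ∀ V : OracleSampling.E d → ℝ, OracleSampling.Admissible d V →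
        OracleSampling.Succeeds A V := by
  intro ε hε
  obtain ⟨c0, -, htr⟩ := trunc
  obtain ⟨C, hC⟩ := main_prog hε c0
  refine ⟨C, fun d hd => ?_⟩
  obtain ⟨G0, ψ, hG1, hG0, hψ, htr⟩ := htr d (by omega)
  obtain ⟨κ, Ω, mΩ, ν, hν, q, r, hκ, hq, hr, hres⟩ := hC d (by omega) G0 hG1 hG0
  have hlp : Measurable (WithLp.toLp 2 : E d → OracleSampling.E d) := WithLp.measurable_toLp 2 _
  have hr' := (hr.oracle hlp hψ).map (O' := OracleSampling.E d)
    (ψ := fun z => WithLp.toLp 2 z.2) (hlp.comp measurable_snd)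
  obtain ⟨A, hA⟩ := hr'.queryAlg ν
  refine ⟨q, A, hq, fun V hV B hB => ?_⟩
  obtain ⟨W, hW, hWo, hWt⟩ := htr κ hκ V hV
  have hmo := measurable_oracle hV.1
  have ho : Measurable fun y : E d => ψ (y, OracleSampling.oracle V (WithLp.toLp 2 y)) :=
    hψ.comp (measurable_id.prodMk (hmo.comp hlp))
  have h1 := hres W hW _ ⟨ho, hWo⟩ _ (hlp hB)
  have h2 := hWt B hB
  rw [hA V, Measure.map_apply (hr'.measurable hmo) hB]
  have e : (fun i => (WithLp.toLp 2 (r (fun y => ψ (y, OracleSampling.oracle V (WithLp.toLp 2 y))) i)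
      : OracleSampling.E d)) ⁻¹' B = r (fun y => ψ (y, OracleSampling.oracle V (WithLp.toLp 2 y))) ⁻¹'
      ((WithLp.toLp 2 : E d → OracleSampling.E d) ⁻¹' B) := rfl
  rw [abs_le] at h1 h2 ⊢
  rw [e]
  constructor <;> linarith [h1.1, h1.2, h2.1, h2.2]

end Crest.Agent.R285

end
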