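import Crest.Agent.R285.Defs

/-!
Euclidean norm, variables, invariance of the Gaussian measure.
-/

set_option autoImplicit false

open MeasureTheory ProbabilityTheory Matrix Filter
open scoped ENNReal

noncomputable section

namespace Crest.Agent.R285

variable {ι ι' : Type} [Fintype ι] [Fintype ι'] {d : ℕ} {V V' : Type}

/-! ### the norm -/

theorem nrm_nonneg (v : ι → ℝ) : 0 ≤ nrm v := Real.sqrt_nonneg _

theorem nrm_sq (v : ι → ℝ) : nrm v ^ 2 = ∑ i, v i ^ 2 := by
  exact Real.sq_sqrt (Finset.sum_nonneg fun i _ => sq_nonneg _)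

theorem nrm_eq_norm (v : ι → ℝ) : nrm v = ‖(WithLp.toLp 2 v : EuclideanSpace ℝ ι)‖ := by
  rw [EuclideanSpace.norm_eq, nrm]
  simp

theorem nrm_zero : nrm (0 : ι → ℝ) = 0 := by
  simp [nrm]

theorem nrm_add_le (u v : ι → ℝ) : nrm (u + v) ≤ nrm u + nrm v := by
  simp only [nrm_eq_norm, WithLp.toLp_add]
  exact norm_add_le _ _

theorem nrm_smul (c : ℝ) (v : ι → ℝ) : nrm (c • v) = |c| * nrm v := by
  simp only [nrm_eq_norm, WithLp.toLp_smul, norm_smul, Real.norm_eq_abs]

theorem nrm_neg (v : ι → ℝ) : nrm (-v) = nrm v := by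
  simp only [nrm_eq_norm, WithLp.toLp_neg, norm_neg]

theorem nrm_sub_comm (u v : ι → ℝ) : nrm (u - v) = nrm (v - u) := by
  rw [← nrm_neg, neg_sub]

theorem nrm_sub_le (u v : ι → ℝ) : nrm (u - v) ≤ nrm u + nrm v := by
  simp only [nrm_eq_norm, WithLp.toLp_sub]
  exact norm_sub_le _ _

theorem nrm_sum_le {κ : Type} (s : Finset κ) (v : κ → ι → ℝ) :
    nrm (∑ k ∈ s, v k) ≤ ∑ k ∈ s, nrm (v k) := by
  classical
  induction s using Finset.induction_on with
  | empty => simp [nrm_zero]
  | insert k s hk ih =>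
    rw [Finset.sum_insert hk, Finset.sum_insert hk]
    exact (nrm_add_le _ _).trans (by linarith)

theorem abs_dot_le (u v : ι → ℝ) : |u ⬝ᵥ v| ≤ nrm u * nrm v := by
  have := abs_real_inner_le_norm (WithLp.toLp 2 v : EuclideanSpace ℝ ι) (WithLp.toLp 2 u)
  rw [EuclideanSpace.inner_toLp_toLp, star_trivial, ← nrm_eq_norm, ← nrm_eq_norm, mul_comm] at this
  exact this

theorem dot_self (v : ι → ℝ) : v ⬝ᵥ v = nrm v ^ 2 := by
  rw [nrm_sq, dotProduct]
  exact Finset.sum_congr rfl fun i _ => (sq _).symm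

/-- duality -/
theorem nrm_le_of_dot {v : ι → ℝ} {a : ℝ} (ha : 0 ≤ a) (h : ∀ u, u ⬝ᵥ v ≤ a * nrm u) :
    nrm v ≤ a := by
  have h1 := h v
  rw [dot_self] at h1
  by_contra h2
  have h3 := not_le.1 h2
  nlinarith

theorem abs_le_nrm (v : ι → ℝ) (i : ι) : |v i| ≤ nrm v := by
  exact Real.abs_le_sqrt (Finset.single_le_sum (f := fun i => v i ^ 2)
    (fun i _ => sq_nonneg _) (Finset.mem_univ i))

theorem norm_le_nrm (v : ι → ℝ) : ‖v‖ ≤ nrm v := by
  exact (pi_norm_le_iff_of_nonneg (nrm_nonneg v)).2 fun i => abs_le_nrm v i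

theorem nrm_le_norm (v : ι → ℝ) : nrm v ≤ √(Fintype.card ι) * ‖v‖ := by
  rw [← Real.sqrt_sq (norm_nonneg v), ← Real.sqrt_mul (Nat.cast_nonneg _)]
  refine Real.sqrt_le_sqrt ?_
  calc ∑ i, v i ^ 2 ≤ ∑ _i : ι, ‖v‖ ^ 2 := Finset.sum_le_sum fun i _ => by
        rw [← sq_abs]
        exact pow_le_pow_left₀ (abs_nonneg _) (norm_le_pi_norm v i) 2
    _ = _ := by simp

theorem nrm_comp_equiv (e : ι' ≃ ι) (v : ι → ℝ) : nrm (fun i => v (e i)) = nrm v := by
  rw [nrm, nrm, e.sum_comp fun i => v i ^ 2]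

theorem continuous_nrm : Continuous (nrm : (ι → ℝ) → ℝ) := by
  unfold nrm
  fun_prop

theorem measurable_nrm : Measurable (nrm : (ι → ℝ) → ℝ) := continuous_nrm.measurable

/-- the norm of a vector-valued integral -/
theorem nrm_integral_le {Ω : Type} [MeasurableSpace Ω] (μ : Measure Ω) (f : Ω → ι → ℝ) :
    ENNReal.ofReal (nrm (∫ x, f x ∂μ)) ≤ ∫⁻ x, ENNReal.ofReal (nrm (f x)) ∂μ := by
  have h := (PiLp.continuousLinearEquiv 2 ℝ (fun _ : ι => ℝ)).symm.integral_comp_comm (μ := μ) f
  have h2 := enorm_integral_le_lintegral_enorm (μ := μ)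
    fun x => (PiLp.continuousLinearEquiv 2 ℝ (fun _ : ι => ℝ)).symm (f x)
  rw [h] at h2
  simp only [nrm_eq_norm, ofReal_norm]
  exact h2

theorem fderiv_eq_dot [DecidableEq ι] (f : (ι → ℝ) → ℝ) (y v : ι → ℝ) :
    fderiv ℝ f y v = grad f y ⬝ᵥ v := by
  conv_lhs => rw [← Finset.univ_sum_single v, map_sum]
  refine Finset.sum_congr rfl fun i _ => ?_
  rw [show (Pi.single i (v i) : ι → ℝ) = v i • Pi.single i 1 by
    rw [← Pi.single_smul, smul_eq_mul, mul_one], map_smul, smul_eq_mul, mul_comm]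
  rfl

/-- mean value inequality -/
theorem abs_sub_le_of_grad [DecidableEq ι] {f : (ι → ℝ) → ℝ} (hf : Differentiable ℝ f) {L : ℝ}
    (h : ∀ y, nrm (grad f y) ≤ L) (y y' : ι → ℝ) : |f y - f y'| ≤ L * nrm (y - y') := by
  have hd : ∀ t : ℝ, HasDerivAt (fun t : ℝ => f (y' + t • (y - y')))
      (fderiv ℝ f (y' + t • (y - y')) (y - y')) t := fun t => by
    have h1 : HasDerivAt (fun t : ℝ => y' + t • (y - y')) (y - y') t := by
      simpa using ((hasDerivAt_id t).smul_const (y - y')).const_add y'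
    exact (hf _).hasFDerivAt.comp_hasDerivAt t h1
  have := norm_image_sub_le_of_norm_deriv_le_segment_01' (C := L * nrm (y - y'))
    (fun t _ => (hd t).hasDerivWithinAt) fun t _ => by
      rw [fderiv_eq_dot]
      exact (abs_dot_le _ _).trans (mul_le_mul_of_nonneg_right (h _) (nrm_nonneg _))
  simpa using this

theorem nrm_grad_le_of_lip [DecidableEq ι] {f : (ι → ℝ) → ℝ} {L : ℝ} (hL : 0 ≤ L)
    (h : ∀ y y', |f y - f y'| ≤ L * nrm (y - y')) (y : ι → ℝ) : nrm (grad f y) ≤ L := by
  by_cases hf : DifferentiableAt ℝ f y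
  · refine nrm_le_of_dot hL fun u => ?_
    rw [dotProduct_comm, ← fderiv_eq_dot]
    have h1 : HasDerivAt (fun t : ℝ => y + t • u) u 0 := by
      simpa using ((hasDerivAt_id (0 : ℝ)).smul_const u).const_add y
    have h2 : HasDerivAt (fun t : ℝ => f (y + t • u)) (fderiv ℝ f y u) 0 :=
      HasFDerivAt.comp_hasDerivAt_of_eq (0 : ℝ) hf.hasFDerivAt h1 (by simp)
    have h3 := h2.le_of_lip' (C := L * nrm u) (mul_nonneg hL (nrm_nonneg u))
      (Eventually.of_forall fun t => by
        have := h (y + t • u) (y + (0 : ℝ) • u)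
        rw [show y + t • u - (y + (0 : ℝ) • u) = t • u by simp, nrm_smul] at this
        rw [Real.norm_eq_abs, Real.norm_eq_abs, sub_zero]
        linarith)
    exact (le_abs_self _).trans h3
  · have : grad f y = 0 := by
      funext i
      simp [grad, pd, fderiv_zero_of_not_differentiableAt hf]
    rw [this, nrm_zero]
    exact hL

/-! ### variables -/

section Vars
variable [Fintype V] [Fintype V']

theorem lin_join (a : V → ℝ) (a' : V' → ℝ) (x : Om d V) (y : Om d V') :
    lin (Sum.elim a a') (join x y) = lin a x + lin a' y := by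
  funext i
  simp [lin, join, Fintype.sum_sum_type]

theorem lin_join' (a : V ⊕ V' → ℝ) (x : Om d V) (y : Om d V') :
    lin a (join x y) = lin (fun v => a (Sum.inl v)) x + lin (fun v => a (Sum.inr v)) y := by
  funext i
  simp [lin, join, Fintype.sum_sum_type]

theorem lin_sub (A : Matrix V V' ℝ) (a : V → ℝ) (x : Om d V') :
    lin a (sub A x) = lin (Aᵀ *ᵥ a) x := by
  funext i
  simp only [lin, sub, mulVec, dotProduct, transpose_apply, Finset.mul_sum, Finset.sum_mul]
  rw [Finset.sum_comm]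
  exact Finset.sum_congr rfl fun v' _ => Finset.sum_congr rfl fun v _ => by ring

theorem lin_dir (a z : V → ℝ) (x : Om d V) (h : E d) :
    lin a (x + dir z h) = lin a x + (a ⬝ᵥ z) • h := by
  funext i
  simp only [lin, dir, Pi.add_apply, Pi.smul_apply, dotProduct, smul_eq_mul, mul_add,
    Finset.sum_add_distrib, Finset.sum_mul, mul_assoc]

theorem lin_single [DecidableEq V] (v : V) (x : Om d V) :
    lin (Pi.single v 1) x = fun i => x (v, i) := by
  funext i
  simp [lin, Pi.single_apply]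

omit [Fintype V] [Fintype V'] in
theorem ren_inl_join (x : Om d V) (y : Om d V') : ren Sum.inl (join x y) = x := rfl

omit [Fintype V] [Fintype V'] in
theorem ren_inr_join (x : Om d V) (y : Om d V') : ren Sum.inr (join x y) = y := rfl

theorem ren_eq_sub [DecidableEq V'] (e : V → V') (x : Om d V') :
    ren e x = sub (Matrix.of fun v v' => if e v = v' then (1 : ℝ) else 0) x := by
  funext q
  simp [ren, sub]

omit [Fintype V] [Fintype V'] in
theorem temp_linear {A B : Type} [NormedAddCommGroup A] [NormedSpace ℝ A] [FiniteDimensional ℝ A]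
    [NormedAddCommGroup B] [NormedSpace ℝ B] (f : A → B) (h1 : ∀ x y, f (x + y) = f x + f y)
    (h2 : ∀ (c : ℝ) x, f (c • x) = c • f x) : f.HasTemperateGrowth :=
  (LinearMap.toContinuousLinearMap (⟨⟨f, h1⟩, h2⟩ : A →ₗ[ℝ] B)).hasTemperateGrowth

theorem temp_lin (a : V → ℝ) : (lin (d := d) a).HasTemperateGrowth := by
  exact temp_linear _ (fun x y => by funext i; simp [lin, mul_add, Finset.sum_add_distrib])
    fun c x => by funext i; simp [lin, Finset.mul_sum, mul_left_comm]

theorem temp_sub (A : Matrix V V' ℝ) : (sub (d := d) A).HasTemperateGrowth := by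
  exact temp_linear _ (fun x y => by funext i; simp [sub, mul_add, Finset.sum_add_distrib])
    fun c x => by funext i; simp [sub, Finset.mul_sum, mul_left_comm]

theorem temp_ren (e : V → V') : (ren (d := d) e).HasTemperateGrowth := by
  exact temp_linear _ (fun x y => rfl) fun c x => rfl

theorem temp_join : (fun z : Om d V × Om d V' => join z.1 z.2).HasTemperateGrowth := by
  exact temp_linear _ (fun x y => by funext ⟨q, i⟩; cases q <;> rfl)
    fun c x => by funext ⟨q, i⟩; cases q <;> rfl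

theorem temp_join_right (x : Om d V) : (join x : Om d V' → Om d (V ⊕ V')).HasTemperateGrowth := by
  have h1 : (join x : Om d V' → Om d (V ⊕ V')) = fun y => join x 0 + join 0 y := by
    funext y ⟨q, i⟩
    cases q <;> simp [join]
  rw [h1]
  exact (Function.HasTemperateGrowth.const _).add
    (temp_linear (fun y : Om d V' => join (0 : Om d V) y)
      (fun x y => by funext ⟨q, i⟩; cases q <;> simp [join])
      fun c x => by funext ⟨q, i⟩; cases q <;> simp [join])

theorem inlF_bot : inlF V' (⊥ : Submodule ℝ (V → ℝ)) = ⊥ := by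
  refine eq_bot_iff.2 fun a ha => ?_
  obtain ⟨h1, h2⟩ := ha
  rw [Submodule.mem_bot] at h1 ⊢
  funext q
  cases q with
  | inl v => exact congrFun h1 v
  | inr v => exact h2 v

/-! ### invariance -/

omit [Fintype V] [Fintype V'] in
theorem measurable_mulVec (A : Matrix ι ι' ℝ) : Measurable fun x : ι' → ℝ => A *ᵥ x :=
  (continuous_const.matrix_mulVec continuous_id).measurable

omit [Fintype V] [Fintype V'] in
theorem charFun_map_mulVec (A : Matrix ι ι' ℝ) (t : EuclideanSpace ℝ ι) :
    charFun (((gam ι').map fun x : ι' → ℝ => A *ᵥ x).map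
      (WithLp.toLp 2 : (ι → ℝ) → EuclideanSpace ℝ ι)) t =
      Complex.exp (-((t.ofLp ⬝ᵥ (A * Aᵀ) *ᵥ t.ofLp : ℝ) : ℂ) / 2) := by
  have h1 := charFun_stdGaussian (WithLp.toLp 2 (Aᵀ *ᵥ t.ofLp) : EuclideanSpace ℝ ι')
  rw [← map_pi_eq_stdGaussian, ← nrm_eq_norm, ← Complex.ofReal_pow, ← dot_self,
    charFun_apply, integral_map (by fun_prop) (by fun_prop)] at h1
  have h2 : (Aᵀ *ᵥ t.ofLp) ⬝ᵥ (Aᵀ *ᵥ t.ofLp) = t.ofLp ⬝ᵥ (A * Aᵀ) *ᵥ t.ofLp := by
    rw [← mulVec_mulVec, dotProduct_mulVec t.ofLp A, mulVec_transpose]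
  rw [h2] at h1
  rw [← h1, charFun_apply, integral_map (by fun_prop) (by fun_prop),
    integral_map (measurable_mulVec A).aemeasurable (by fun_prop)]
  refine integral_congr_ae (Eventually.of_forall fun x => ?_)
  have h3 : inner ℝ (WithLp.toLp 2 (A *ᵥ x) : EuclideanSpace ℝ ι) t =
      inner ℝ (WithLp.toLp 2 x : EuclideanSpace ℝ ι') (WithLp.toLp 2 (Aᵀ *ᵥ t.ofLp)) := by
    rw [EuclideanSpace.inner_toLp_toLp, EuclideanSpace.inner_eq_star_dotProduct, star_trivial,
      star_trivial, mulVec_transpose, ← dotProduct_mulVec]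
  simp only [h3]

omit [Fintype V] [Fintype V'] in
/-- the law of `A g` only depends on `A Aᵀ` -/
theorem map_mulVec_eq {ι'' : Type} [Fintype ι''] (A : Matrix ι ι' ℝ) (B : Matrix ι ι'' ℝ)
    (h : A * Aᵀ = B * Bᵀ) :
    (gam ι').map (fun x : ι' → ℝ => A *ᵥ x) = (gam ι'').map fun x : ι'' → ℝ => B *ᵥ x := by
  have := Measure.isProbabilityMeasure_map (μ := gam ι') (measurable_mulVec A).aemeasurable
  have := Measure.isProbabilityMeasure_map (μ := gam ι'') (measurable_mulVec B).aemeasurable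
  refine (MeasurableEquiv.toLp 2 (ι → ℝ)).map_measurableEquiv_injective ?_
  refine Measure.ext_of_charFun (funext fun t => ?_)
  exact (charFun_map_mulVec A t).trans (by rw [h]; exact (charFun_map_mulVec B t).symm)

theorem mp_mulVec [DecidableEq ι] (A : Matrix ι ι' ℝ) (h : A * Aᵀ = 1) :
    MeasurePreserving (fun x : ι' → ℝ => A *ᵥ x) (gam ι') (gam ι) := by
  refine ⟨measurable_mulVec A, ?_⟩
  rw [map_mulVec_eq A (1 : Matrix ι ι ℝ) (by simp [h])]
  simp

theorem mp_sub [DecidableEq V] (A : Matrix V V' ℝ) (h : A * Aᵀ = 1) :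
    MeasurePreserving (sub (d := d) A) (gam (V' × Fin d)) (gam (V × Fin d)) := by
  have h1 : sub (d := d) A = fun x => kroneckerMap (· * ·) A (1 : Matrix (Fin d) (Fin d) ℝ) *ᵥ x := by
    funext x q
    simp [sub, mulVec, dotProduct, Fintype.sum_prod_type, one_apply]
  rw [h1]
  refine mp_mulVec _ ?_
  rw [← kroneckerMap_transpose, ← mul_kronecker_mul, h]
  simp

theorem mp_ren (e : V → V') (he : Function.Injective e) :
    MeasurePreserving (ren (d := d) e) (gam (V' × Fin d)) (gam (V × Fin d)) := by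
  classical
  rw [show ren (d := d) e = sub (Matrix.of fun v v' => if e v = v' then (1 : ℝ) else 0) from
    funext fun x => ren_eq_sub e x]
  refine mp_sub _ ?_
  ext v w
  simp [mul_apply, one_apply, he.eq_iff, eq_comm]

/-- `lin a ξ` has the law of `|a| g` -/
theorem map_lin (a : V → ℝ) :
    (gam (V × Fin d)).map (lin (d := d) a) = (gam (Fin d)).map (fun g => √(a ⬝ᵥ a) • g) := by
  have h1 : lin (d := d) a = fun x =>
      (Matrix.of fun (i : Fin d) (q : V × Fin d) => if i = q.2 then a q.1 else 0) *ᵥ x := by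
    funext x i
    simp [lin, mulVec, dotProduct, Fintype.sum_prod_type]
  have h2 : (fun g : Fin d → ℝ => √(a ⬝ᵥ a) • g) =
      fun g => (√(a ⬝ᵥ a) • (1 : Matrix (Fin d) (Fin d) ℝ)) *ᵥ g := by
    funext g
    rw [smul_mulVec, one_mulVec]
  rw [h1, h2]
  refine map_mulVec_eq _ _ ?_
  have h3 : 0 ≤ a ⬝ᵥ a := by rw [dot_self]; positivity
  rw [transpose_smul, transpose_one, smul_mul, mul_smul_comm, smul_smul, Real.mul_self_sqrt h3,
    mul_one]
  ext i j
  by_cases hij : i = j
  · simp [mul_apply, Fintype.sum_prod_type, dotProduct, hij]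
  · simp [mul_apply, Fintype.sum_prod_type, hij]

theorem mp_lin (a : V → ℝ) (ha : a ⬝ᵥ a = 1) :
    MeasurePreserving (lin (d := d) a) (gam (V × Fin d)) (gam (Fin d)) := by
  refine ⟨(temp_lin a).1.continuous.measurable, ?_⟩
  rw [map_lin, ha]
  simp

theorem mp_join : MeasurePreserving (fun z : Om d V × Om d V' => join z.1 z.2)
    ((gam (V × Fin d)).prod (gam (V' × Fin d))) (gam ((V ⊕ V') × Fin d)) := by
  have h1 := (measurePreserving_sumPiEquivProdPi_symm
    (fun _ : (V × Fin d) ⊕ (V' × Fin d) => gaussianReal 0 1))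
  have h2 := measurePreserving_piCongrLeft
    (fun _ : (V ⊕ V') × Fin d => gaussianReal 0 1) (Equiv.sumProdDistrib V V' (Fin d)).symm
  unfold gam
  convert h2.comp h1 using 1
  funext z ⟨q, i⟩
  cases q with
  | inl v =>
    exact (MeasurableEquiv.piCongrLeft_apply_apply (Equiv.sumProdDistrib V V' (Fin d)).symm
      (β := fun _ => ℝ) ((MeasurableEquiv.sumPiEquivProdPi fun _ => ℝ).symm z) (Sum.inl (v, i))).symm
  | inr v =>
    exact (MeasurableEquiv.piCongrLeft_apply_apply (Equiv.sumProdDistrib V V' (Fin d)).symm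
      (β := fun _ => ℝ) ((MeasurableEquiv.sumPiEquivProdPi fun _ => ℝ).symm z) (Sum.inr (v, i))).symm

/-- resampling the direction `a` -/
theorem mp_resample (a : V → ℝ) (ha : a ⬝ᵥ a = 1) :
    MeasurePreserving (fun z : Om d V × E d => z.1 + dir a (z.2 - lin a z.1))
      ((gam (V × Fin d)).prod (gam (Fin d))) (gam (V × Fin d)) := by
  classical
  have h1 : MeasurePreserving (fun (g : E d) (q : Unit × Fin d) => g q.2) (gam (Fin d))
      (gam (Unit × Fin d)) := by
    have := measurePreserving_piCongrLeft (fun _ : Unit × Fin d => gaussianReal 0 1)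
      (Equiv.punitProd (Fin d)).symm
    unfold gam
    convert this using 1
    funext g ⟨u, i⟩
    exact (MeasurableEquiv.piCongrLeft_apply_apply (Equiv.punitProd (Fin d)).symm
      (β := fun _ => ℝ) g i).symm
  have h2 := (mp_join (d := d) (V := V) (V' := Unit)).comp
    ((MeasurePreserving.id (gam (V × Fin d))).prod h1)
  have h3 := mp_sub (d := d) (Matrix.fromCols ((1 : Matrix V V ℝ) - vecMulVec a a)
    (replicateCol Unit a)) (by
      rw [transpose_fromCols, fromCols_mul_fromRows, transpose_replicateCol, ← vecMulVec_eq,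
        transpose_sub, transpose_one, transpose_vecMulVec, sub_mul, mul_sub, mul_sub,
        vecMulVec_mul_vecMulVec, ha]
      simp)
  convert h3.comp h2 using 1
  funext z ⟨v, i⟩
  simp [sub, join, dir, lin, Fintype.sum_sum_type, vecMulVec_apply, one_apply, sub_mul,
    mul_sub, Finset.mul_sum, mul_assoc]
  ring

theorem mp_neg : MeasurePreserving (fun x : ι → ℝ => -x) (gam ι) (gam ι) := by
  classical
  have := mp_mulVec (-1 : Matrix ι ι ℝ) (by simp)
  simpa [neg_mulVec] using this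

theorem lintegral_join {h : Om d (V ⊕ V') → ℝ≥0∞} (hh : Measurable h) :
    ∫⁻ z, h z ∂gam ((V ⊕ V') × Fin d) =
      ∫⁻ x, ∫⁻ y, h (join x y) ∂gam (V' × Fin d) ∂gam (V × Fin d) := by
  rw [← (mp_join (d := d) (V := V) (V' := V')).lintegral_comp hh]
  exact lintegral_prod _ (hh.comp (mp_join (d := d) (V := V) (V' := V')).measurable).aemeasurable

end Vars

end Crest.Agent.R285

end
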