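import Crest.Agent.R285.GaussA

/-!
Polynomial growth, temperate functions, Stein identity, parametric Gaussian integrals.
-/

set_option autoImplicit false
set_option linter.unusedSectionVars false

open MeasureTheory ProbabilityTheory Matrix Filter
open scoped ENNReal

noncomputable section

namespace Crest.Agent.R285

variable {ι ι' : Type} [Fintype ι] [Fintype ι'] {d : ℕ} {V V' : Type}

/-! ### polynomial growth, temperate functions -/

section Temp
variable {X F : Type} [NormedAddCommGroup X] [NormedSpace ℝ X] [NormedAddCommGroup F]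
  [NormedSpace ℝ F]

namespace GaussB

theorem int_pow (ι : Type) [Fintype ι] (k : ℕ) :
    Integrable (fun x : ι → ℝ => (1 + ‖x‖) ^ k) (gam ι) := by
  have h1 : MemLp (fun x : ι → ℝ => x) k (gam ι) := by
    refine memLp_pi_iff.2 fun i => ?_
    have hm : MeasurePreserving (fun x : ι → ℝ => x i) (gam ι) (gaussianReal 0 1) :=
      measurePreserving_eval (fun _ : ι => gaussianReal 0 1) i
    have h0 := (memLp_id_gaussianReal' (μ := 0) (v := 1) k (by simp)).comp_measurePreserving hm
    simpa only [Function.id_comp] using h0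
  have h2 : MemLp (fun x : ι → ℝ => 1 + ‖x‖) k (gam ι) := by
    have := (memLp_const (μ := gam ι) (p := k) (1 : ℝ)).add h1.norm
    simpa only [Pi.add_def] using this
  refine h2.integrable_norm_pow'.congr (ae_of_all _ fun x => ?_)
  simp only
  rw [Real.norm_of_nonneg (by positivity)]

omit [NormedSpace ℝ X] [NormedSpace ℝ F] in
theorem one_add_prod_le (x : X) (y : F) (k : ℕ) :
    (1 + ‖(x, y)‖) ^ k ≤ (1 + ‖x‖) ^ k * (1 + ‖y‖) ^ k := by
  rw [← mul_pow]
  refine pow_le_pow_left₀ (by positivity) ?_ k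
  have h1 := norm_nonneg x
  have h2 := norm_nonneg y
  rw [Prod.norm_mk]
  rcases le_total ‖x‖ ‖y‖ with h | h
  · rw [max_eq_right h]; nlinarith
  · rw [max_eq_left h]; nlinarith

theorem exists_bd {f : X → F} (hf : f.HasTemperateGrowth) :
    ∃ (C : ℝ) (k : ℕ), 0 ≤ C ∧ ∀ x, ‖f x‖ ≤ C * (1 + ‖x‖) ^ k := by
  obtain ⟨k, C, hC, h⟩ := hf.norm_iteratedFDeriv_le_uniform 0
  exact ⟨C, k, hC, fun x => by simpa using h 0 le_rfl x⟩

end GaussB

theorem PG.integrable {f : (ι → ℝ) → F} (hf : PG f) : Integrable f (gam ι) := by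
  obtain ⟨C, k, h⟩ := hf.bd
  exact ((GaussB.int_pow ι k).const_mul C).mono' hf.meas.aestronglyMeasurable (ae_of_all _ h)

theorem PG.integrable_prod {f : (ι → ℝ) × (ι' → ℝ) → F} (hf : PG f) :
    Integrable f ((gam ι).prod (gam ι')) := by
  obtain ⟨C, k, h⟩ := hf.bd
  refine (((GaussB.int_pow ι k).mul_prod (GaussB.int_pow ι' k)).const_mul |C|).mono'
    hf.meas.aestronglyMeasurable (ae_of_all _ fun z => (h z).trans ?_)
  exact mul_le_mul (le_abs_self C) (GaussB.one_add_prod_le z.1 z.2 k) (by positivity)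
    (abs_nonneg C)

theorem PG.of_temp [MeasurableSpace X] [OpensMeasurableSpace X] [SecondCountableTopology X]
    {f : X → F} (hf : f.HasTemperateGrowth) : PG f := by
  obtain ⟨C, k, -, h⟩ := GaussB.exists_bd hf
  exact ⟨hf.1.continuous.stronglyMeasurable, C, k, h⟩

theorem PG.of_bdd [MeasurableSpace X] {f : X → F} (hf : StronglyMeasurable f) {C : ℝ}
    (h : ∀ x, ‖f x‖ ≤ C) : PG f := by
  exact ⟨hf, C, 0, fun x => by simpa using h x⟩

theorem temp_integrable {f : (ι → ℝ) → F} (hf : f.HasTemperateGrowth) : Integrable f (gam ι) :=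
  (PG.of_temp hf).integrable

theorem integral_join [Fintype V] [Fintype V'] [CompleteSpace F] {h : Om d (V ⊕ V') → F}
    (hh : PG h) : ∫ z, h z ∂gam ((V ⊕ V') × Fin d) =
      ∫ x, ∫ y, h (join x y) ∂gam (V' × Fin d) ∂gam (V × Fin d) := by
  have hi := (mp_join (d := d) (V := V) (V' := V')).integrable_comp_of_integrable hh.integrable
  rw [← (mp_join (d := d) (V := V) (V' := V')).map_eq,
    integral_map mp_join.measurable.aemeasurable hh.meas.aestronglyMeasurable]
  exact integral_prod _ hi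

theorem temp_pi {κ : Type} [Fintype κ] {f : X → κ → ℝ} :
    f.HasTemperateGrowth ↔ ∀ k, (fun x => f x k).HasTemperateGrowth := by
  classical
  constructor
  · intro h k
    exact (ContinuousLinearMap.proj (R := ℝ) (φ := fun _ : κ => ℝ) k).hasTemperateGrowth.comp h
  · intro h
    have e : f = fun x => ∑ k ∈ Finset.univ, f x k • (Pi.single k (1 : ℝ) : κ → ℝ) := by
      funext x j
      simp [Finset.sum_apply, Pi.single_apply]
    rw [e]
    exact Function.HasTemperateGrowth.sum fun k _ => (h k).fun_smul (.const _)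

theorem temp_prodMk {Y : Type} [NormedAddCommGroup Y] [NormedSpace ℝ Y] {f : X → Y} {g : X → F}
    (hf : f.HasTemperateGrowth) (hg : g.HasTemperateGrowth) :
    (fun x => (f x, g x)).HasTemperateGrowth := by
  have h := ((ContinuousLinearMap.inl ℝ Y F).hasTemperateGrowth.comp hf).add
    ((ContinuousLinearMap.inr ℝ Y F).hasTemperateGrowth.comp hg)
  convert h using 1
  funext x
  simp

theorem temp_fderiv {f : X → F} (hf : f.HasTemperateGrowth) :
    (fderiv ℝ f).HasTemperateGrowth := by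
  refine ⟨hf.1.fderiv_right (m := (⊤ : ℕ∞)) (by simp), fun n => ?_⟩
  obtain ⟨k, C, h⟩ := hf.2 (n + 1)
  exact ⟨k, C, fun x => by rw [norm_iteratedFDeriv_fderiv]; exact h x⟩

theorem temp_pd [DecidableEq ι] {f : (ι → ℝ) → ℝ} (hf : f.HasTemperateGrowth) (i : ι) :
    (pd i f).HasTemperateGrowth := by
  exact (ContinuousLinearMap.apply ℝ ℝ (Pi.single i (1 : ℝ) : ι → ℝ)).hasTemperateGrowth.comp
    (temp_fderiv hf)

theorem temp_grad [DecidableEq ι] {f : (ι → ℝ) → ℝ} (hf : f.HasTemperateGrowth) :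
    (grad f).HasTemperateGrowth := by
  exact temp_pi.2 fun i => temp_pd hf i

theorem temp_dot {f g : X → ι → ℝ} (hf : f.HasTemperateGrowth) (hg : g.HasTemperateGrowth) :
    (fun x => f x ⬝ᵥ g x).HasTemperateGrowth := by
  simp only [dotProduct]
  exact Function.HasTemperateGrowth.sum fun k _ => (temp_pi.1 hf k).fun_mul (temp_pi.1 hg k)

namespace GaussB

/-- the Gaussian density -/
def rho (ι : Type) [Fintype ι] (x : ι → ℝ) : ℝ :=
  (√(2 * Real.pi))⁻¹ ^ Fintype.card ι * Real.exp (-(∑ i, x i ^ 2) / 2)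

theorem rho_eq (x : ι → ℝ) : ∏ i, gaussianPDFReal 0 1 (x i) = rho ι x := by
  have pdf_eq : ∀ x : ℝ, gaussianPDFReal 0 1 x = (√(2 * Real.pi))⁻¹ * Real.exp (-x ^ 2 / 2) := by
    intro x; simp [gaussianPDFReal]
  simp only [rho, pdf_eq, Finset.prod_mul_distrib, Finset.prod_const, Finset.card_univ,
    ← Real.exp_sum]
  congr 2
  rw [← Finset.sum_div, Finset.sum_neg_distrib]

theorem rho_nonneg (x : ι → ℝ) : 0 ≤ rho ι x := by unfold rho; positivity

theorem continuous_rho : Continuous (rho ι) := by unfold rho; fun_prop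

theorem gam_eq : gam ι = volume.withDensity fun x => ENNReal.ofReal (rho ι x) := by
  simp only [← rho_eq]
  refine Measure.pi_eq fun s hs => ?_
  rw [withDensity_apply _ (MeasurableSet.univ_pi hs), volume_pi, Measure.restrict_pi_pi,
    ← ofReal_integral_eq_lintegral_ofReal, integral_fintype_prod_eq_prod
      (f := fun _ x => gaussianPDFReal 0 1 x), ENNReal.ofReal_prod_of_nonneg]
  · simp only [gaussianReal_apply_eq_integral _ one_ne_zero]
  · exact fun i _ => integral_nonneg fun x => gaussianPDFReal_nonneg _ _ _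
  · exact Integrable.fintype_prod (f := fun _ x => gaussianPDFReal 0 1 x)
      fun i => (integrable_gaussianPDFReal _ _).restrict
  · exact ae_of_all _ fun x => Finset.prod_nonneg fun i _ => gaussianPDFReal_nonneg _ _ _

theorem integral_rho (f : (ι → ℝ) → ℝ) : ∫ x, f x ∂gam ι = ∫ x, f x * rho ι x := by
  rw [gam_eq, integral_withDensity_eq_integral_toReal_smul
    continuous_rho.measurable.ennreal_ofReal (ae_of_all _ fun _ => ENNReal.ofReal_lt_top)]
  refine integral_congr_ae (ae_of_all _ fun x => ?_)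
  simp only [ENNReal.toReal_ofReal (rho_nonneg x), smul_eq_mul, mul_comm]

theorem integrable_rho {f : (ι → ℝ) → ℝ} (hf : Integrable f (gam ι)) :
    Integrable (fun x => f x * rho ι x) := by
  rw [gam_eq, integrable_withDensity_iff_integrable_smul'
    continuous_rho.measurable.ennreal_ofReal (ae_of_all _ fun _ => ENNReal.ofReal_lt_top)] at hf
  refine hf.congr (ae_of_all _ fun x => ?_)
  simp only [ENNReal.toReal_ofReal (rho_nonneg x), smul_eq_mul, mul_comm]

theorem hasLineDerivAt_rho [DecidableEq ι] (i : ι) (x : ι → ℝ) :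
    HasLineDerivAt ℝ (rho ι) (-(x i * rho ι x)) x (Pi.single i 1) := by
  have h1 : HasDerivAt (fun t : ℝ => ∑ j, (x j + t * (Pi.single i (1 : ℝ) : ι → ℝ) j) ^ 2)
      (2 * x i) 0 := by
    have h := HasDerivAt.fun_sum (u := Finset.univ) fun j _ =>
      (((hasDerivAt_id' (0 : ℝ)).mul_const ((Pi.single i (1 : ℝ) : ι → ℝ) j)).const_add
        (x j)).fun_pow 2
    refine h.congr_deriv ?_
    simp [Pi.single_apply]
  have h2 := ((h1.fun_neg.div_const 2).exp).const_mul ((√(2 * Real.pi))⁻¹ ^ Fintype.card ι)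
  refine HasDerivAt.congr_deriv (f := fun t : ℝ => rho ι (x + t • Pi.single i 1)) h2 ?_
  simp only [rho, zero_mul, add_zero]
  ring

/-- the derivative in the parameter -/
def dP (Ψ : X × (ι → ℝ) → F) (q : X × (ι → ℝ)) : X →L[ℝ] F :=
  (fderiv ℝ Ψ q).comp (ContinuousLinearMap.inl ℝ X (ι → ℝ))

theorem temp_dP {Ψ : X × (ι → ℝ) → F} (h : Ψ.HasTemperateGrowth) :
    (dP Ψ).HasTemperateGrowth :=
  ((ContinuousLinearMap.compL ℝ X (X × (ι → ℝ)) F).flip
    (ContinuousLinearMap.inl ℝ X (ι → ℝ))).hasTemperateGrowth.comp (temp_fderiv h)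

theorem temp_slice {Ψ : X × (ι → ℝ) → F} (h : Ψ.HasTemperateGrowth) (p : X) :
    (fun z => Ψ (p, z)).HasTemperateGrowth :=
  h.comp (temp_prodMk (.const p) .id')

theorem hasFDerivAt_integral {Ψ : X × (ι → ℝ) → F} (h : Ψ.HasTemperateGrowth) (p : X) :
    HasFDerivAt (fun p => ∫ z, Ψ (p, z) ∂gam ι) (∫ z, dP Ψ (p, z) ∂gam ι) p := by
  obtain ⟨C, k, hC, hb⟩ := exists_bd (temp_dP h)
  refine hasFDerivAt_integral_of_dominated_of_fderiv_le (s := Metric.ball p 1)
    (F := fun p z => Ψ (p, z)) (F' := fun p z => dP Ψ (p, z))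
    (bound := fun z => C * (2 + ‖p‖) ^ k * (1 + ‖z‖) ^ k)
    (Metric.ball_mem_nhds p one_pos)
    (Eventually.of_forall fun x => (temp_integrable (temp_slice h x)).aestronglyMeasurable)
    (temp_integrable (temp_slice h p))
    (temp_integrable (temp_slice (temp_dP h) p)).aestronglyMeasurable
    (ae_of_all _ fun z x hx => ?_) ((int_pow ι k).const_mul _)
    (ae_of_all _ fun z x _ => ?_)
  · refine (hb _).trans ?_
    rw [mul_assoc]
    refine mul_le_mul_of_nonneg_left ((one_add_prod_le x z k).trans ?_) hC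
    have h1 : ‖x‖ ≤ ‖p‖ + 1 := by
      have := norm_sub_norm_le x p
      rw [mem_ball_iff_norm] at hx
      linarith
    exact mul_le_mul_of_nonneg_right (pow_le_pow_left₀ (by positivity) (by linarith) k)
      (by positivity)
  · exact ((h.1.differentiable (by simp)) (x, z)).hasFDerivAt.comp x (hasFDerivAt_prodMk_left x z)

theorem temp_aux (n : ℕ) : ∀ (F : Type) [NormedAddCommGroup F] [NormedSpace ℝ F]
    (Ψ : X × (ι → ℝ) → F), Ψ.HasTemperateGrowth →
    ContDiff ℝ n (fun p => ∫ z, Ψ (p, z) ∂gam ι) ∧ ∃ (k : ℕ) (C : ℝ), ∀ x,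
      ‖iteratedFDeriv ℝ n (fun p => ∫ z, Ψ (p, z) ∂gam ι) x‖ ≤ C * (1 + ‖x‖) ^ k := by
  induction n with
  | zero =>
    intro F _ _ Ψ h
    have hd : Differentiable ℝ fun p => ∫ z, Ψ (p, z) ∂gam ι :=
      fun p => (hasFDerivAt_integral h p).differentiableAt
    refine ⟨contDiff_zero.2 hd.continuous, ?_⟩
    obtain ⟨C, k, hC, hb⟩ := exists_bd h
    refine ⟨k, C * ∫ z, (1 + ‖z‖) ^ k ∂gam ι, fun x => ?_⟩
    rw [norm_iteratedFDeriv_zero]
    have h1 := norm_integral_le_of_norm_le (μ := gam ι) (f := fun z => Ψ (x, z))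
      ((int_pow ι k).const_mul (C * (1 + ‖x‖) ^ k)) (ae_of_all _ fun z => by
        refine (hb _).trans ?_
        rw [mul_assoc]
        exact mul_le_mul_of_nonneg_left (one_add_prod_le x z k) hC)
    rw [integral_const_mul] at h1
    refine h1.trans (le_of_eq ?_)
    ring
  | succ n ih =>
    intro F _ _ Ψ h
    have hd : Differentiable ℝ fun p => ∫ z, Ψ (p, z) ∂gam ι :=
      fun p => (hasFDerivAt_integral h p).differentiableAt
    have e : fderiv ℝ (fun p => ∫ z, Ψ (p, z) ∂gam ι) = fun p => ∫ z, dP Ψ (p, z) ∂gam ι :=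
      funext fun p => (hasFDerivAt_integral h p).fderiv
    obtain ⟨h1, k, C, h2⟩ := ih _ (dP Ψ) (temp_dP h)
    refine ⟨?_, k, C, fun x => ?_⟩
    · rw [Nat.cast_succ, contDiff_succ_iff_fderiv]
      exact ⟨hd, by simp, e ▸ h1⟩
    · rw [← norm_iteratedFDeriv_fderiv, e]
      exact h2 x

end GaussB

/-- Stein's identity -/
theorem stein [DecidableEq ι] {f : (ι → ℝ) → ℝ} (hf : f.HasTemperateGrowth) (i : ι) :
    ∫ x, x i * f x ∂gam ι = ∫ x, pd i f x ∂gam ι := by
  have hxi : (fun x : ι → ℝ => x i).HasTemperateGrowth :=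
    (ContinuousLinearMap.proj (R := ℝ) (φ := fun _ : ι => ℝ) i).hasTemperateGrowth
  have h1 := GaussB.integrable_rho (temp_integrable (temp_pd hf i))
  have h2 := GaussB.integrable_rho (temp_integrable (hxi.fun_mul hf))
  have h3 := GaussB.integrable_rho (temp_integrable hf)
  have key := integral_bilinear_hasLineDerivAt_right_eq_neg_left_of_integrable
    (μ := (volume : Measure (ι → ℝ))) (f := f) (f' := pd i f) (g := GaussB.rho ι)
    (g' := fun x => -(x i * GaussB.rho ι x)) (v := Pi.single i 1)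
    (B := ContinuousLinearMap.mul ℝ ℝ) h1
    (h2.neg.congr (ae_of_all _ fun x => by simp; ring)) h3
    (fun x _ => ((hf.1.differentiable (by simp)) x).hasFDerivAt.hasLineDerivAt _)
    (fun x _ => GaussB.hasLineDerivAt_rho i x)
  rw [GaussB.integral_rho, GaussB.integral_rho, ← neg_inj]
  simp only [ContinuousLinearMap.mul_apply'] at key
  rw [← key, ← integral_neg]
  refine integral_congr_ae (ae_of_all _ fun x => ?_)
  ring

/-- a Gaussian average of a temperate function is temperate in the parameters -/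
theorem temp_integral [CompleteSpace F] {Ψ : X × (ι → ℝ) → F} (h : Ψ.HasTemperateGrowth) :
    (fun p => ∫ z, Ψ (p, z) ∂gam ι).HasTemperateGrowth := by
  exact ⟨contDiff_infty.2 fun n => (GaussB.temp_aux n F Ψ h).1,
    fun n => (GaussB.temp_aux n F Ψ h).2⟩

theorem fderiv_integral [CompleteSpace F] {Ψ : X × (ι → ℝ) → F} (h : Ψ.HasTemperateGrowth)
    (p v : X) : fderiv ℝ (fun p => ∫ z, Ψ (p, z) ∂gam ι) p v =
      ∫ z, fderiv ℝ Ψ (p, z) (v, 0) ∂gam ι := by
  rw [(GaussB.hasFDerivAt_integral h p).fderiv, ContinuousLinearMap.integral_apply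
    (temp_integrable (GaussB.temp_slice (GaussB.temp_dP h) p))]
  rfl

/-- differentiation along a path of parameters -/
theorem hasDerivAt_integral_path [CompleteSpace F] {Ψ : X × (ι → ℝ) → F}
    (h : Ψ.HasTemperateGrowth) {c : ℝ → X} {c' : X} {t : ℝ} (hc : HasDerivAt c c' t) :
    HasDerivAt (fun s => ∫ z, Ψ (c s, z) ∂gam ι) (∫ z, fderiv ℝ Ψ (c t, z) (c', 0) ∂gam ι) t := by
  rw [← fderiv_integral h]
  exact (GaussB.hasFDerivAt_integral h (c t)).differentiableAt.hasFDerivAt.comp_hasDerivAt t hc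

end Temp

end Crest.Agent.R285

end
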