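import Crest.Agent.R285.GaussB

/-!
`L^p` bounds and Gaussian moments.
-/

set_option autoImplicit false

open MeasureTheory ProbabilityTheory Matrix Filter
open scoped ENNReal

noncomputable section

namespace Crest.Agent.R285

variable {ι ι' : Type} [Fintype ι] [Fintype ι'] {d : ℕ} {V V' : Type}

/-! ### `L^p` bounds -/

section Lp
variable {Ω Ω' : Type} [MeasurableSpace Ω] [MeasurableSpace Ω'] {μ : Measure Ω} {p : ℕ}
  {h h' : Ω → ℝ} {a a' : ℝ}

theorem LpLe.mono (H : LpLe μ p h a) (hh : ∀ x, h' x ≤ h x) (ha : a ≤ a') : LpLe μ p h' a' := by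
  unfold LpLe at *
  calc ∫⁻ x, ENNReal.ofReal (h' x) ^ p ∂μ ≤ ∫⁻ x, ENNReal.ofReal (h x) ^ p ∂μ :=
        lintegral_mono fun x => pow_le_pow_left' (ENNReal.ofReal_le_ofReal (hh x)) p
    _ ≤ ENNReal.ofReal a ^ p := H
    _ ≤ ENNReal.ofReal a' ^ p := pow_le_pow_left' (ENNReal.ofReal_le_ofReal ha) p

theorem LpLe.const [IsProbabilityMeasure μ] (hh : ∀ x, h x ≤ a) : LpLe μ p h a := by
  unfold LpLe
  calc ∫⁻ x, ENNReal.ofReal (h x) ^ p ∂μ ≤ ∫⁻ _x, ENNReal.ofReal a ^ p ∂μ :=
        lintegral_mono fun x => pow_le_pow_left' (ENNReal.ofReal_le_ofReal (hh x)) p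
    _ = ENNReal.ofReal a ^ p := by simp

theorem LpLe.anti [IsProbabilityMeasure μ] {q : ℕ} (H : LpLe μ q h a) (hm : Measurable h)
    (hpq : p ≤ q) : LpLe μ p h a := by
  unfold LpLe at *
  rcases Nat.eq_zero_or_pos q with rfl | hq
  · obtain rfl : p = 0 := by omega
    exact H
  have hq' : (0 : ℝ) < q := by exact_mod_cast hq
  have hθ0 : (0 : ℝ) ≤ p / q := by positivity
  have hθ1 : (0 : ℝ) ≤ 1 - p / q := by
    have : (p : ℝ) / q ≤ 1 := by
      rw [div_le_one hq']; exact_mod_cast hpq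
    linarith
  have key := ENNReal.lintegral_mul_norm_pow_le (μ := μ)
    (f := fun x => ENNReal.ofReal (h x) ^ q) (g := fun _ => 1)
    ((hm.ennreal_ofReal.pow_const q).aemeasurable) aemeasurable_const hθ0 hθ1 (by ring)
  have e : ∀ y : ℝ≥0∞, (y ^ q) ^ ((p : ℝ) / q) = y ^ p := by
    intro y
    rw [← ENNReal.rpow_natCast, ← ENNReal.rpow_mul, mul_div_cancel₀ _ hq'.ne',
      ENNReal.rpow_natCast]
  simp only [e, ENNReal.one_rpow, mul_one, lintegral_const, measure_univ] at key
  refine key.trans ?_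
  rw [← e]
  exact ENNReal.rpow_le_rpow H hθ0

theorem LpLe.add (H : LpLe μ p h a) (H' : LpLe μ p h' a') (hm : Measurable h)
    (hm' : Measurable h') (hp : 1 ≤ p) (ha : 0 ≤ a) (ha' : 0 ≤ a') :
    LpLe μ p (fun x => h x + h' x) (a + a') := by
  unfold LpLe at *
  have hp' : (1 : ℝ) ≤ p := by exact_mod_cast hp
  have hp0 : (0 : ℝ) < p := by linarith
  have key := ENNReal.lintegral_Lp_add_le (μ := μ) (f := fun x => ENNReal.ofReal (h x))
    (g := fun x => ENNReal.ofReal (h' x)) hm.ennreal_ofReal.aemeasurable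
    hm'.ennreal_ofReal.aemeasurable hp'
  simp only [ENNReal.rpow_natCast, Pi.add_apply] at key
  have e : ∀ y : ℝ≥0∞, (y ^ p) ^ (1 / (p : ℝ)) = y := by
    intro y
    rw [← ENNReal.rpow_natCast, ← ENNReal.rpow_mul, mul_one_div_cancel hp0.ne', ENNReal.rpow_one]
  have e' : ∀ y : ℝ≥0∞, (y ^ (1 / (p : ℝ))) ^ p = y := by
    intro y
    rw [← ENNReal.rpow_natCast, ← ENNReal.rpow_mul, one_div_mul_cancel hp0.ne', ENNReal.rpow_one]
  have h1 : (0 : ℝ) ≤ 1 / p := by positivity
  have k1 := ENNReal.rpow_le_rpow H h1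
  have k2 := ENNReal.rpow_le_rpow H' h1
  rw [e] at k1 k2
  have k3 := key.trans (add_le_add k1 k2)
  calc ∫⁻ x, ENNReal.ofReal (h x + h' x) ^ p ∂μ
      ≤ ∫⁻ x, (ENNReal.ofReal (h x) + ENNReal.ofReal (h' x)) ^ p ∂μ :=
        lintegral_mono fun x => pow_le_pow_left' ENNReal.ofReal_add_le p
    _ = ((∫⁻ x, (ENNReal.ofReal (h x) + ENNReal.ofReal (h' x)) ^ p ∂μ) ^ (1 / (p : ℝ))) ^ p :=
        (e' _).symm
    _ ≤ (ENNReal.ofReal a + ENNReal.ofReal a') ^ p := pow_le_pow_left' k3 p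
    _ = ENNReal.ofReal (a + a') ^ p := by rw [ENNReal.ofReal_add ha ha']

theorem LpLe.sum {κ : Type} (s : Finset κ) {h : κ → Ω → ℝ} {a : κ → ℝ}
    (H : ∀ k ∈ s, LpLe μ p (h k) (a k)) (hm : ∀ k ∈ s, Measurable (h k)) (hp : 1 ≤ p)
    (ha : ∀ k ∈ s, 0 ≤ a k) : LpLe μ p (fun x => ∑ k ∈ s, h k x) (∑ k ∈ s, a k) := by
  classical
  induction s using Finset.induction_on with
  | empty =>
    unfold LpLe
    have : p ≠ 0 := by omega
    simp [this]
  | insert k s hk ih =>
    simp only [Finset.sum_insert hk]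
    refine LpLe.add (H k (Finset.mem_insert_self _ _))
      (ih (fun j hj => H j (Finset.mem_insert_of_mem hj))
        (fun j hj => hm j (Finset.mem_insert_of_mem hj))
        (fun j hj => ha j (Finset.mem_insert_of_mem hj)))
      (hm k (Finset.mem_insert_self _ _))
      (Finset.measurable_sum _ fun j hj => hm j (Finset.mem_insert_of_mem hj)) hp
      (ha k (Finset.mem_insert_self _ _))
      (Finset.sum_nonneg fun j hj => ha j (Finset.mem_insert_of_mem hj))

theorem LpLe.const_mul (H : LpLe μ p h a) {c : ℝ} (hc : 0 ≤ c) :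
    LpLe μ p (fun x => c * h x) (c * a) := by
  unfold LpLe at *
  simp only [ENNReal.ofReal_mul hc, mul_pow]
  rw [lintegral_const_mul' _ _ (ENNReal.pow_ne_top ENNReal.ofReal_ne_top)]
  exact mul_le_mul_right H _

theorem LpLe.mul (H : LpLe μ (2 * p) h a) (H' : LpLe μ (2 * p) h' a') (hm : Measurable h)
    (hm' : Measurable h') (h0 : ∀ x, 0 ≤ h x) (ha : 0 ≤ a) :
    LpLe μ p (fun x => h x * h' x) (a * a') := by
  unfold LpLe at *
  have key := ENNReal.lintegral_mul_norm_pow_le (μ := μ)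
    (f := fun x => ENNReal.ofReal (h x) ^ (2 * p)) (g := fun x => ENNReal.ofReal (h' x) ^ (2 * p))
    ((hm.ennreal_ofReal.pow_const _).aemeasurable) ((hm'.ennreal_ofReal.pow_const _).aemeasurable)
    (p := 1 / 2) (q := 1 / 2) (by norm_num) (by norm_num) (by norm_num)
  have e : ∀ y : ℝ≥0∞, (y ^ (2 * p)) ^ ((1 : ℝ) / 2) = y ^ p := by
    intro y
    rw [← ENNReal.rpow_natCast, ← ENNReal.rpow_mul, ← ENNReal.rpow_natCast]
    congr 1
    push_cast
    ring
  simp only [e] at key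
  have k1 := ENNReal.rpow_le_rpow H (z := 1 / 2) (by norm_num)
  have k2 := ENNReal.rpow_le_rpow H' (z := 1 / 2) (by norm_num)
  rw [e] at k1 k2
  simp only [fun x => ENNReal.ofReal_mul (q := h' x) (h0 x), ENNReal.ofReal_mul ha, mul_pow]
  exact key.trans (mul_le_mul' k1 k2)

theorem LpLe.pow {k : ℕ} (H : LpLe μ (k * p) h a) (h0 : ∀ x, 0 ≤ h x) (ha : 0 ≤ a) :
    LpLe μ p (fun x => h x ^ k) (a ^ k) := by
  unfold LpLe at *
  simp only [fun x => ENNReal.ofReal_pow (h0 x) k, ENNReal.ofReal_pow ha, ← pow_mul]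
  exact H

theorem LpLe.comp {ν : Measure Ω'} {φ : Ω' → Ω} (H : LpLe μ p h a) (hm : Measurable h)
    (hφ : MeasurePreserving φ ν μ) : LpLe ν p (fun x => h (φ x)) a := by
  unfold LpLe at *
  rw [hφ.lintegral_comp (f := fun x => ENNReal.ofReal (h x) ^ p) (hm.ennreal_ofReal.pow_const p)]
  exact H

theorem LpLe.one (H : LpLe μ 1 h a) : ∫⁻ x, ENNReal.ofReal (h x) ∂μ ≤ ENNReal.ofReal a := by
  simpa [LpLe] using H

/-- Markov's inequality -/
theorem LpLe.markov (H : LpLe μ p h a) (hm : Measurable h) (ha : 0 ≤ a) {t : ℝ} (ht : 0 < t) :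
    μ {x | t < h x} ≤ ENNReal.ofReal ((a / t) ^ p) := by
  unfold LpLe at H
  have ht0 : ENNReal.ofReal t ^ p ≠ 0 := pow_ne_zero _ (by simpa using ht)
  have key := meas_ge_le_lintegral_div (μ := μ) (f := fun x => ENNReal.ofReal (h x) ^ p)
    (hm.ennreal_ofReal.pow_const p).aemeasurable ht0 (ENNReal.pow_ne_top ENNReal.ofReal_ne_top)
  calc μ {x | t < h x} ≤ μ {x | ENNReal.ofReal t ^ p ≤ ENNReal.ofReal (h x) ^ p} :=
        measure_mono fun x hx => pow_le_pow_left' (ENNReal.ofReal_le_ofReal (le_of_lt hx)) p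
    _ ≤ (∫⁻ x, ENNReal.ofReal (h x) ^ p ∂μ) / ENNReal.ofReal t ^ p := key
    _ ≤ ENNReal.ofReal a ^ p / ENNReal.ofReal t ^ p := ENNReal.div_le_div_right H _
    _ = ENNReal.ofReal ((a / t) ^ p) := by
        rw [div_pow, ENNReal.ofReal_div_of_pos (pow_pos ht p), ENNReal.ofReal_pow ha,
          ENNReal.ofReal_pow ht.le]

/-- fibrewise bounds -/
theorem LpLe.prod {ν : Measure Ω'} [SFinite ν] {k : Ω × Ω' → ℝ} (hk : Measurable k)
    (H : ∀ x, LpLe ν p (fun y => k (x, y)) (h x)) (H' : LpLe μ p h a) :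
    LpLe (μ.prod ν) p k a := by
  unfold LpLe at *
  rw [lintegral_prod _ (hk.ennreal_ofReal.pow_const p).aemeasurable]
  exact (lintegral_mono H).trans H'

end Lp

private theorem lpC_unit (q : ℕ) (hq : 1 ≤ q) :
    ∃ C : ℝ, 1 ≤ C ∧ LpLe (gam Unit) q (fun x => |x ()|) C := by
  have hi : Integrable (fun x : Unit → ℝ => |x ()| ^ q) (gam Unit) := by
    refine PG.integrable ⟨?_, 1, q, fun x => ?_⟩
    · exact (Continuous.stronglyMeasurable (by fun_prop))
    · rw [Real.norm_eq_abs, abs_pow, abs_abs, one_mul]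
      refine pow_le_pow_left₀ (abs_nonneg _) ?_ q
      have := norm_le_pi_norm x ()
      rw [Real.norm_eq_abs] at this
      linarith
  set I := ∫ x : Unit → ℝ, |x ()| ^ q ∂gam Unit with hI
  refine ⟨max 1 I, le_max_left _ _, ?_⟩
  unfold LpLe
  have h1 : ∫⁻ x : Unit → ℝ, ENNReal.ofReal |x ()| ^ q ∂gam Unit = ENNReal.ofReal I := by
    rw [hI, ofReal_integral_eq_lintegral_ofReal hi (ae_of_all _ fun x => by positivity)]
    simp only [fun x : Unit → ℝ => ENNReal.ofReal_pow (abs_nonneg (x ())) q]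
  rw [h1, ← ENNReal.ofReal_pow (by positivity)]
  refine ENNReal.ofReal_le_ofReal ?_
  exact (le_max_right 1 I).trans (le_self_pow₀ (le_max_left _ _) (by omega))

private theorem lpC_row {q : ℕ} {C : ℝ}
    (hC : LpLe (gam Unit) q (fun x => |x ()|) C) (r : ι' → ℝ) :
    LpLe (gam ι') q (fun g => |∑ j, r j * g j|) (nrm r * C) := by
  rcases (nrm_nonneg r).eq_or_lt with h0 | hpos
  · have hr : ∀ j, r j = 0 := fun j => by
      have := abs_le_nrm r j
      rw [← h0] at this
      exact abs_nonpos_iff.mp this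
    refine LpLe.const fun g => ?_
    simp [hr, ← h0]
  · let A : Matrix Unit ι' ℝ := Matrix.of fun _ j => r j / nrm r
    have hA : A * Aᵀ = 1 := by
      ext a b
      simp only [A, Matrix.mul_apply, Matrix.of_apply, Matrix.transpose_apply, Matrix.one_apply,
        if_true]
      have h2 := nrm_sq r
      have : ∑ j, r j / nrm r * (r j / nrm r) = (∑ j, r j ^ 2) / nrm r ^ 2 := by
        rw [Finset.sum_div]
        exact Finset.sum_congr rfl fun j _ => by ring
      rw [this, ← h2, div_self (pow_pos hpos 2).ne']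
    have h1 := (hC.comp (by fun_prop) (mp_mulVec A hA)).const_mul hpos.le
    refine h1.mono (fun g => le_of_eq ?_) le_rfl
    have : (A *ᵥ g) () = (∑ j, r j * g j) / nrm r := by
      simp only [A, Matrix.mulVec, dotProduct, Matrix.of_apply, Finset.sum_div]
      exact Finset.sum_congr rfl fun j _ => by ring
    rw [this, abs_div, abs_of_pos hpos, mul_div_cancel₀ _ hpos.ne']

/-- moments of `|M g|` -/
theorem lp_mulVec (p : ℕ) : ∃ C : ℝ, 1 ≤ C ∧ ∀ (ι ι' : Type) [Fintype ι] [Fintype ι']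
    (M : ι × ι' → ℝ), LpLe (gam ι') p (fun g => nrm fun i => ∑ j, M (i, j) * g j) (C * nrm M) := by
  obtain ⟨C, hC1, hC⟩ := lpC_unit (2 * (p + 1)) (by omega)
  refine ⟨C, hC1, fun ι ι' _ _ M => ?_⟩
  have hC0 : 0 ≤ C := by linarith
  have hrow : ∀ i ∈ (Finset.univ : Finset ι), LpLe (gam ι') (p + 1)
      (fun g => |∑ j, M (i, j) * g j| ^ 2) ((nrm (fun j => M (i, j)) * C) ^ 2) := fun i _ =>
    (lpC_row hC fun j => M (i, j)).pow (fun _ => abs_nonneg _)
      (mul_nonneg (nrm_nonneg _) hC0)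
  have hsum := LpLe.sum Finset.univ hrow (fun i _ => by fun_prop) (by omega)
    (fun i _ => sq_nonneg _)
  have e1 : ∑ i, (nrm (fun j => M (i, j)) * C) ^ 2 = (C * nrm M) ^ 2 := by
    simp only [mul_pow, nrm_sq, ← Finset.sum_mul]
    rw [Fintype.sum_prod_type, mul_comm]
  have e2 : ∀ g : ι' → ℝ, ∑ i, |∑ j, M (i, j) * g j| ^ 2 =
      (nrm fun i => ∑ j, M (i, j) * g j) ^ 2 := fun g => by
    simp only [sq_abs, nrm_sq]
  simp only [e1, e2] at hsum
  have h2 : LpLe (gam ι') (2 * (p + 1)) (fun g => nrm fun i => ∑ j, M (i, j) * g j)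
      (C * nrm M) := by
    unfold LpLe at hsum ⊢
    simpa only [ENNReal.ofReal_pow (nrm_nonneg _),
      ENNReal.ofReal_pow (mul_nonneg hC0 (nrm_nonneg M)), ← pow_mul] using hsum
  exact h2.anti (measurable_nrm.comp (by fun_prop)) (by omega)

theorem lp_nrm (p : ℕ) : ∃ C : ℝ, 1 ≤ C ∧ ∀ (ι : Type) [Fintype ι],
    LpLe (gam ι) p nrm (C * √(Fintype.card ι)) := by
  obtain ⟨C, hC1, hC⟩ := lp_mulVec p
  refine ⟨C, hC1, fun ι _ => ?_⟩
  classical
  have h := hC ι ι fun q => if q.1 = q.2 then 1 else 0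
  have e1 : nrm (fun q : ι × ι => if q.1 = q.2 then (1 : ℝ) else 0) = √(Fintype.card ι) := by
    unfold nrm
    congr 1
    rw [Fintype.sum_prod_type]
    simp
  rw [e1] at h
  refine h.mono (fun g => le_of_eq ?_) le_rfl
  congr 1
  funext i
  simp

theorem integral_coord (i : ι) : ∫ x, x i ∂gam ι = 0 := by
  have h : MeasurePreserving (Function.eval i) (gam ι) (gaussianReal 0 1) :=
    measurePreserving_eval (fun _ => gaussianReal 0 1) i
  have := integral_map (μ := gam ι) h.measurable.aemeasurable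
    (f := fun y : ℝ => y) (by fun_prop)
  rw [h.map_eq, integral_id_gaussianReal] at this
  exact this.symm

theorem integral_coord_mul [DecidableEq ι] (i j : ι) :
    ∫ x, x i * x j ∂gam ι = if i = j then 1 else 0 := by
  have ht : (fun x : ι → ℝ => x j).HasTemperateGrowth :=
    (ContinuousLinearMap.proj (R := ℝ) (φ := fun _ : ι => ℝ) j).hasTemperateGrowth
  rw [stein ht i]
  have : ∀ x : ι → ℝ, pd i (fun x : ι → ℝ => x j) x = if i = j then 1 else 0 := fun x => by
    unfold pd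
    rw [show (fun x : ι → ℝ => x j) = (ContinuousLinearMap.proj (R := ℝ) (φ := fun _ : ι => ℝ) j)
      from rfl, ContinuousLinearMap.fderiv]
    simp [Pi.single_apply, eq_comm]
  simp [this]

private theorem integrable_coord_mul (i j : ι) :
    Integrable (fun x : ι → ℝ => x i * x j) (gam ι) :=
  temp_integrable
    (((ContinuousLinearMap.proj (R := ℝ) (φ := fun _ : ι => ℝ) i).hasTemperateGrowth).mul
      (ContinuousLinearMap.proj (R := ℝ) (φ := fun _ : ι => ℝ) j).hasTemperateGrowth)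

private theorem integrable_nrm_sq : Integrable (fun x : ι → ℝ => nrm x ^ 2) (gam ι) := by
  simp only [nrm_sq]
  simp only [sq]
  exact integrable_finsetSum _ fun i _ => integrable_coord_mul i i

theorem integral_nrm_sq : ∫ x, nrm x ^ 2 ∂gam ι = Fintype.card ι := by
  classical
  simp only [nrm_sq]
  simp only [sq]
  rw [integral_finsetSum _ fun i _ => integrable_coord_mul i i]
  simp [integral_coord_mul]

theorem integral_nrm_le : ∫ x, nrm x ∂gam ι ≤ √(Fintype.card ι) := by
  have hi : Integrable (nrm : (ι → ℝ) → ℝ) (gam ι) := by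
    refine Integrable.mono' ((integrable_const 1).add integrable_nrm_sq)
      continuous_nrm.aestronglyMeasurable (ae_of_all _ fun x => ?_)
    rw [Real.norm_eq_abs, abs_of_nonneg (nrm_nonneg x)]
    simp only [Pi.add_apply]
    nlinarith [sq_nonneg (nrm x - 1), nrm_nonneg x]
  set m := ∫ x, nrm x ∂gam ι with hm
  apply Real.le_sqrt_of_sq_le
  have h0 : 0 ≤ ∫ x, (nrm x ^ 2 - 2 * m * nrm x + m ^ 2) ∂gam ι :=
    integral_nonneg fun x => by
      simp only [Pi.zero_apply]
      nlinarith [sq_nonneg (nrm x - m)]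
  have i0 : Integrable (fun x : ι → ℝ => nrm x ^ 2 - 2 * m * nrm x) (gam ι) :=
    integrable_nrm_sq.sub (hi.const_mul _)
  rw [integral_add i0 (integrable_const _),
    integral_sub integrable_nrm_sq (hi.const_mul _), integral_const_mul, integral_nrm_sq,
    ← hm] at h0
  simp only [integral_const, probReal_univ, smul_eq_mul, one_mul] at h0
  nlinarith

/-- Bessel's inequality for the coordinates -/
theorem bessel {h : (ι → ℝ) → ℝ} (hh : PG h) :
    ∑ i, (∫ g, g i * h g ∂gam ι) ^ 2 ≤ ∫ g, h g ^ 2 ∂gam ι := by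
  classical
  obtain ⟨hm, C, k, hb⟩ := hh
  have hC : 0 ≤ C := by
    have := (norm_nonneg _).trans (hb 0)
    simpa using this
  have hsq : Integrable (fun g => h g ^ 2) (gam ι) := by
    refine PG.integrable ⟨hm.pow 2, C ^ 2, k * 2, fun x => ?_⟩
    rw [norm_pow, pow_mul, ← mul_pow]
    exact pow_le_pow_left₀ (norm_nonneg _) (hb x) 2
  have hgi : ∀ i, Integrable (fun g : ι → ℝ => g i * h g) (gam ι) := fun i => by
    refine PG.integrable ⟨((continuous_apply i).stronglyMeasurable).mul hm, C, k + 1, fun x => ?_⟩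
    rw [norm_mul, pow_succ, ← mul_assoc, mul_comm ‖x i‖]
    refine mul_le_mul (hb x) ?_ (norm_nonneg _) (by positivity)
    linarith [norm_le_pi_norm x i]
  set c : ι → ℝ := fun i => ∫ g, g i * h g ∂gam ι with hc
  have h0 : 0 ≤ ∫ g, (h g ^ 2 - 2 * ∑ i, c i * (g i * h g) +
      ∑ i, ∑ j, c i * c j * (g i * g j)) ∂gam ι :=
    integral_nonneg fun g => by
      have : h g ^ 2 - 2 * ∑ i, c i * (g i * h g) + ∑ i, ∑ j, c i * c j * (g i * g j) =
          (h g - ∑ i, c i * g i) ^ 2 := by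
        have a1 : ∑ i, c i * (g i * h g) = (∑ i, c i * g i) * h g := by
          rw [Finset.sum_mul]
          exact Finset.sum_congr rfl fun i _ => by ring
        have a2 : ∑ i, ∑ j, c i * c j * (g i * g j) = (∑ i, c i * g i) * ∑ i, c i * g i := by
          rw [Finset.sum_mul_sum]
          exact Finset.sum_congr rfl fun i _ => Finset.sum_congr rfl fun j _ => by ring
        rw [a1, a2]
        ring
      simp only [Pi.zero_apply, this]
      positivity
  have i1 : Integrable (fun g : ι → ℝ => ∑ i, c i * (g i * h g)) (gam ι) :=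
    integrable_finsetSum _ fun i _ => (hgi i).const_mul _
  have i2 : ∀ i, Integrable (fun g : ι → ℝ => ∑ j, c i * c j * (g i * g j)) (gam ι) := fun i =>
    integrable_finsetSum _ fun j _ => (integrable_coord_mul i j).const_mul _
  have i0 : Integrable (fun g : ι → ℝ => h g ^ 2 - 2 * ∑ i, c i * (g i * h g)) (gam ι) :=
    hsq.sub (i1.const_mul _)
  rw [integral_add i0 (integrable_finsetSum _ fun i _ => i2 i),
    integral_sub hsq (i1.const_mul _), integral_const_mul,
    integral_finsetSum _ fun i _ => (hgi i).const_mul _,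
    integral_finsetSum _ fun i _ => i2 i] at h0
  have e1 : ∀ i, ∫ g : ι → ℝ, ∑ j, c i * c j * (g i * g j) ∂gam ι = c i ^ 2 := fun i => by
    rw [integral_finsetSum _ fun j _ => (integrable_coord_mul i j).const_mul _]
    simp only [integral_const_mul, integral_coord_mul]
    simp [sq]
  have e2 : ∀ i, ∫ g : ι → ℝ, c i * (g i * h g) ∂gam ι = c i ^ 2 := fun i => by
    rw [integral_const_mul, sq]
  simp only [e1, e2] at h0
  show ∑ i, c i ^ 2 ≤ _
  linarith

end Crest.Agent.R285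

end
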