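import Crest.Agent.R285.Poin

/-!
The Hamilton-Jacobi-Bellman calculus: the algebra `HH`, the generator formula.
-/

set_option autoImplicit false

open MeasureTheory ProbabilityTheory Matrix Filter
open scoped ENNReal

noncomputable section

namespace Crest.Agent.R285

variable {d : ℕ} {δ G : ℝ} {W : E d → ℝ}

/-- the algebra generated by the derivatives of `u` and by `1/u` -/
inductive HH (W : E d → ℝ) : (ℝ → E d → ℝ) → Prop
  | gen (l : List (Fin d)) : HH W fun η y => pdl l (uu W η) y
  | inv : HH W fun η y => (uu W η y)⁻¹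
  | const (c : ℝ) : HH W fun _ _ => c
  | add {h h' : ℝ → E d → ℝ} : HH W h → HH W h' → HH W fun η y => h η y + h' η y
  | mul {h h' : ℝ → E d → ℝ} : HH W h → HH W h' → HH W fun η y => h η y * h' η y

namespace HJB

open TenB

/-- smooth with all derivatives bounded -/
def Bd (f : E d → ℝ) : Prop :=
  ContDiff ℝ (⊤ : ℕ∞) f ∧ ∀ m : ℕ, ∃ C, ∀ y, ‖iteratedFDeriv ℝ m f y‖ ≤ C

theorem Bd.pd {f : E d → ℝ} (hf : Bd f) (i : Fin d) : Bd (pd i f) := by
  refine ⟨contDiff_pd hf.1 i, fun m => ?_⟩
  obtain ⟨C, hC⟩ := hf.2 (m + 1)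
  let L : (E d →L[ℝ] ℝ) →L[ℝ] ℝ := ContinuousLinearMap.apply ℝ ℝ (Pi.single i 1)
  refine ⟨‖L‖ * C, fun y => ?_⟩
  have h1 : ContDiff ℝ (⊤ : ℕ∞) (fderiv ℝ f) := hf.1.fderiv_right (by simp)
  have h2 : R285.pd i f = L ∘ fderiv ℝ f := rfl
  rw [h2, L.iteratedFDeriv_comp_left h1.contDiffAt (by exact_mod_cast le_top)]
  refine (L.norm_compContinuousMultilinearMap_le _).trans ?_
  rw [norm_iteratedFDeriv_fderiv]
  exact mul_le_mul_of_nonneg_left (hC y) (norm_nonneg _)

theorem Bd.pdl {f : E d → ℝ} (hf : Bd f) (l : List (Fin d)) : Bd (pdl l f) := by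
  induction l with
  | nil => exact hf
  | cons i l ih => exact ih.pd i

theorem Bd.abs_le {f : E d → ℝ} (hf : Bd f) : ∃ C, ∀ y, |f y| ≤ C := by
  obtain ⟨C, hC⟩ := hf.2 0
  exact ⟨C, fun y => by simpa using hC y⟩

/-- the algebra generated by the derivatives of `W` and by `e^{-W}` -/
inductive BB (W : E d → ℝ) : (E d → ℝ) → Prop
  | gen (l : List (Fin d)) : BB W (pdl l W)
  | exp : BB W fun x => Real.exp (-W x)
  | neg {h : E d → ℝ} : BB W h → BB W fun y => -h y
  | add {h h' : E d → ℝ} : BB W h → BB W h' → BB W fun y => h y + h' y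
  | mul {h h' : E d → ℝ} : BB W h → BB W h' → BB W fun y => h y * h' y

theorem BB.smooth (hW : Adm δ G W) {h : E d → ℝ} (hh : BB W h) : ContDiff ℝ (⊤ : ℕ∞) h := by
  induction hh with
  | gen l => exact contDiff_pdl hW.smooth l
  | exp => exact hW.smooth.neg.exp
  | neg _ ih => exact ih.neg
  | add _ _ ih ih' => exact ih.add ih'
  | mul _ _ ih ih' => exact ih.mul ih'

theorem pd_neg {f : E d → ℝ} (x : E d) (i : Fin d) : pd i (fun y => -f y) x = -pd i f x := by
  unfold R285.pd
  rw [fderiv_fun_neg]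
  rfl

theorem pd_of_hasDerivAt {f : E d → ℝ} {x : E d} (hf : DifferentiableAt ℝ f x) {φ : ℝ → ℝ} {φ' : ℝ}
    (hφ : HasDerivAt φ φ' (f x)) (i : Fin d) : pd i (fun y => φ (f y)) x = φ' * pd i f x := by
  unfold R285.pd
  have := (hφ.comp_hasFDerivAt x hf.hasFDerivAt).fderiv
  change fderiv ℝ (φ ∘ f) x _ = _
  rw [this]
  rfl

theorem BB.pd (hW : Adm δ G W) {h : E d → ℝ} (hh : BB W h) (i : Fin d) : BB W (pd i h) := by
  induction hh with
  | gen l => exact BB.gen (i :: l)
  | exp =>
    have : R285.pd i (fun x => Real.exp (-W x)) =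
        fun y => -(Real.exp (-W y) * pdl [i] W y) := by
      funext y
      have h1 : HasDerivAt (fun t : ℝ => Real.exp (-t)) (-Real.exp (-W y)) (W y) := by
        simpa using (hasDerivAt_neg (W y)).exp
      rw [pd_of_hasDerivAt (hW.smooth.differentiable (by simp) y) h1]
      simp [pdl]
    rw [this]
    exact (BB.exp.mul (BB.gen [i])).neg
  | @neg h _ ih =>
    have : R285.pd i (fun y => -h y) = fun y => -R285.pd i h y := funext fun y => pd_neg y i
    rw [this]
    exact ih.neg
  | @add h h' h1 h2 ih ih' =>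
    have : R285.pd i (fun y => h y + h' y) = fun y => R285.pd i h y + R285.pd i h' y :=
      funext fun y => pd_add ((h1.smooth hW).differentiable (by simp) y)
        ((h2.smooth hW).differentiable (by simp) y) i
    rw [this]
    exact ih.add ih'
  | @mul h h' h1 h2 ih ih' =>
    have : R285.pd i (fun y => h y * h' y) =
        fun y => R285.pd i h y * h' y + h y * R285.pd i h' y :=
      funext fun y => pd_mul ((h1.smooth hW).differentiable (by simp) y)
        ((h2.smooth hW).differentiable (by simp) y) i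
    rw [this]
    exact (ih.mul h2).add (h1.mul ih')

theorem BB.bdd (hW : Adm δ G W) {h : E d → ℝ} (hh : BB W h) : ∃ C, ∀ y, |h y| ≤ C := by
  induction hh with
  | gen l => exact (Bd.pdl ⟨hW.smooth, hW.bdd⟩ l).abs_le
  | exp =>
    obtain ⟨C, hC⟩ := hW.abs_le
    refine ⟨Real.exp C, fun y => ?_⟩
    rw [abs_of_pos (Real.exp_pos _)]
    exact Real.exp_le_exp.2 ((neg_le_abs _).trans (hC y))
  | neg _ ih =>
    obtain ⟨C, hC⟩ := ih
    exact ⟨C, fun y => by rw [abs_neg]; exact hC y⟩
  | add _ _ ih ih' =>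
    obtain ⟨C, hC⟩ := ih
    obtain ⟨C', hC'⟩ := ih'
    exact ⟨C + C', fun y => (abs_add_le _ _).trans (add_le_add (hC y) (hC' y))⟩
  | mul _ _ ih ih' =>
    obtain ⟨C, hC⟩ := ih
    obtain ⟨C', hC'⟩ := ih'
    refine ⟨C * C', fun y => ?_⟩
    rw [abs_mul]
    exact mul_le_mul (hC y) (hC' y) (abs_nonneg _) ((abs_nonneg _).trans (hC y))

theorem bb_pdl (hW : Adm δ G W) (l : List (Fin d)) :
    BB W (pdl l fun x => Real.exp (-W x)) := by
  induction l with
  | nil => exact BB.exp
  | cons i l ih => exact ih.pd hW i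

theorem pdl_heat {f : E d → ℝ} (hf : f.HasTemperateGrowth) (ρ : ℝ) (l : List (Fin d)) :
    pdl l (heat ρ f) = heat ρ (pdl l f) := by
  induction l with
  | nil => rfl
  | cons i l ih =>
    change pd i (pdl l (heat ρ f)) = heat ρ (pd i (pdl l f))
    rw [ih, pd_heat (temp_pdl hf l)]

theorem pdl_uu (hW : Adm δ G W) (η : ℝ) (l : List (Fin d)) :
    pdl l (uu W η) = heat η (pdl l fun x => Real.exp (-W x)) :=
  pdl_heat hW.temp_exp η l

theorem lap_heat {f : E d → ℝ} (hf : f.HasTemperateGrowth) (ρ : ℝ) (y : E d) :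
    heat ρ (lap f) y = lap (heat ρ f) y := by
  unfold lap
  have : ∀ i, pd i (pd i (heat ρ f)) y = heat ρ (pd i (pd i f)) y := fun i => by
    rw [pd_heat hf, pd_heat (temp_pd hf i)]
  simp only [this]
  unfold heat
  exact integral_finsetSum _ fun i _ =>
    (PG.of_temp (temp_pd (temp_pd hf i) i)).integrable_heat ρ y

theorem abs_heat_le {f : E d → ℝ} {C : ℝ} (hC : ∀ y, |f y| ≤ C) (ρ : ℝ) (y : E d) :
    |heat ρ f y| ≤ C := by
  have := norm_integral_le_of_norm_le_const (μ := gam (Fin d))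
    (f := fun g => f (y + √ρ • g)) (C := C) (Eventually.of_forall fun g => hC _)
  simpa [heat] using this

/-- continuity of parametric heat averages -/
theorem continuous_heat {X : Type} [TopologicalSpace X] [FirstCountableTopology X]
    {f : X → E d → ℝ} (hf : Continuous fun z : X × E d => f z.1 z.2) {C : ℝ}
    (hC : ∀ x y, |f x y| ≤ C) {ρ : X → ℝ} (hρ : Continuous ρ) {b : X → E d} (hb : Continuous b) :
    Continuous fun x => heat (ρ x) (f x) (b x) := by
  unfold heat
  refine continuous_of_dominated (bound := fun _ => C) (fun x => ?_)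
    (fun x => Eventually.of_forall fun g => hC _ _) (integrable_const C)
    (Eventually.of_forall fun g => ?_)
  · exact (hf.comp (f := fun g : E d => (x, b x + √(ρ x) • g))
      (by fun_prop)).aestronglyMeasurable
  · exact hf.comp (f := fun x => (x, b x + √(ρ x) • g)) (by fun_prop)

end HJB

open HJB TenB

theorem HH.congr {h h' : ℝ → E d → ℝ} (hh : HH W h) (e : ∀ η y, h η y = h' η y) : HH W h' := by
  have : h = h' := funext fun η => funext (e η)
  exact this ▸ hh

theorem HH.uu : HH W fun η y => uu W η y := HH.gen []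

theorem HH.neg {h : ℝ → E d → ℝ} (hh : HH W h) : HH W fun η y => -h η y :=
  ((HH.const (-1)).mul hh).congr fun _ _ => neg_one_mul _

theorem HH.sum {κ : Type} (s : Finset κ) {h : κ → ℝ → E d → ℝ} (hh : ∀ k ∈ s, HH W (h k)) :
    HH W fun η y => ∑ k ∈ s, h k η y := by
  classical
  induction s using Finset.induction_on with
  | empty => exact (HH.const 0).congr fun _ _ => by simp
  | insert a s ha ih =>
    exact ((hh a (Finset.mem_insert_self _ _)).add
      (ih fun k hk => hh k (Finset.mem_insert_of_mem hk))).congr fun _ _ => by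
        rw [Finset.sum_insert ha]

theorem HH.bdd (hW : Adm δ G W) {h : ℝ → E d → ℝ} (hh : HH W h) : ∃ C, ∀ η y, |h η y| ≤ C := by
  induction hh with
  | gen l =>
    obtain ⟨C, hC⟩ := (bb_pdl hW l).bdd hW
    exact ⟨C, fun η y => by simp only [pdl_uu hW]; exact abs_heat_le hC η y⟩
  | inv =>
    obtain ⟨c, C, hc, h⟩ := uu_bounds hW
    refine ⟨c⁻¹, fun η y => ?_⟩
    rw [abs_of_pos (inv_pos.2 (uu_pos hW η y))]
    exact inv_anti₀ hc (h η y).1
  | const c => exact ⟨|c|, fun _ _ => le_rfl⟩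
  | add _ _ ih ih' =>
    obtain ⟨C, hC⟩ := ih
    obtain ⟨C', hC'⟩ := ih'
    exact ⟨C + C', fun η y => (abs_add_le _ _).trans (add_le_add (hC η y) (hC' η y))⟩
  | mul _ _ ih ih' =>
    obtain ⟨C, hC⟩ := ih
    obtain ⟨C', hC'⟩ := ih'
    refine ⟨C * C', fun η y => ?_⟩
    rw [abs_mul]
    exact mul_le_mul (hC η y) (hC' η y) (abs_nonneg _) ((abs_nonneg _).trans (hC η y))

theorem HH.temp (hW : Adm δ G W) {h : ℝ → E d → ℝ} (hh : HH W h) (η : ℝ) :
    (h η).HasTemperateGrowth := by
  induction hh with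
  | gen l => exact temp_pdl (temp_uu hW η) l
  | inv => exact temp_uu_inv hW η
  | const c => exact Function.HasTemperateGrowth.const c
  | add _ _ ih ih' => exact ih.add ih'
  | mul _ _ ih ih' => exact ih.mul ih'

theorem HH.smooth (hW : Adm δ G W) {h : ℝ → E d → ℝ} (hh : HH W h) (η : ℝ) :
    ContDiff ℝ (⊤ : ℕ∞) (h η) := (hh.temp hW η).1

theorem HH.diff (hW : Adm δ G W) {h : ℝ → E d → ℝ} (hh : HH W h) (η : ℝ) (y : E d) :
    DifferentiableAt ℝ (h η) y := (hh.smooth hW η).differentiable (by simp) y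

theorem HH.continuous (hW : Adm δ G W) {h : ℝ → E d → ℝ} (hh : HH W h) :
    Continuous fun z : ℝ × E d => h z.1 z.2 := by
  have key : ∀ l, Continuous fun z : ℝ × E d => pdl l (R285.uu W z.1) z.2 := fun l => by
    obtain ⟨C, hC⟩ := (bb_pdl hW l).bdd hW
    simp only [pdl_uu hW]
    exact continuous_heat (f := fun _ : ℝ × E d => pdl l fun x => Real.exp (-W x))
      (((bb_pdl hW l).smooth hW).continuous.comp continuous_snd) (fun _ y => hC y)
      continuous_fst continuous_snd
  induction hh with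
  | gen l => exact key l
  | inv => exact (key []).inv₀ fun z => (uu_pos hW z.1 z.2).ne'
  | const c => exact continuous_const
  | add _ _ ih ih' => exact ih.add ih'
  | mul _ _ ih ih' => exact ih.mul ih'

theorem HJB.pd_uu_inv (hW : Adm δ G W) (η : ℝ) (y : E d) (i : Fin d) :
    pd i (fun y => (uu W η y)⁻¹) y = -(pd i (uu W η) y * (uu W η y)⁻¹ * (uu W η y)⁻¹) := by
  rw [pd_of_hasDerivAt (HH.uu.diff hW η y) (hasDerivAt_inv (uu_pos hW η y).ne')]
  have := (uu_pos hW η y).ne'
  field_simp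

theorem HJB.pd_Phi (hW : Adm δ G W) (η : ℝ) (y : E d) (i : Fin d) :
    pd i (Phi W η) y = -(pd i (uu W η) y * (uu W η y)⁻¹) := by
  have h1 : HasDerivAt (fun t : ℝ => -Real.log t) (-(uu W η y)⁻¹) (uu W η y) :=
    (Real.hasDerivAt_log (uu_pos hW η y).ne').neg
  have := pd_of_hasDerivAt (HH.uu.diff hW η y) h1 i
  unfold Phi
  rw [this]
  ring

theorem HJB.pd_uu (hW : Adm δ G W) (η : ℝ) (y : E d) (i : Fin d) :
    pd i (uu W η) y = -(uu W η y * tau1 W η y i) := by
  change _ = -(uu W η y * pd i (Phi W η) y)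
  rw [pd_Phi hW]
  have := (uu_pos hW η y).ne'
  field_simp

theorem HH.pd (hW : Adm δ G W) {h : ℝ → E d → ℝ} (hh : HH W h) (i : Fin d) :
    HH W fun η y => pd i (h η) y := by
  induction hh with
  | gen l => exact HH.gen (i :: l)
  | inv => exact (((HH.gen [i]).mul HH.inv).mul HH.inv).neg.congr fun η y =>
      (pd_uu_inv hW η y i).symm
  | const c => exact (HH.const 0).congr fun η y => (pd_const c y i).symm
  | add h1 h2 ih ih' => exact (ih.add ih').congr fun η y =>
      (pd_add (h1.diff hW η y) (h2.diff hW η y) i).symm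
  | mul h1 h2 ih ih' => exact ((ih.mul h2).add (h1.mul ih')).congr fun η y =>
      (pd_mul (h1.diff hW η y) (h2.diff hW η y) i).symm

theorem HH.lap (hW : Adm δ G W) {h : ℝ → E d → ℝ} (hh : HH W h) :
    HH W fun η y => lap (h η) y :=
  HH.sum Finset.univ fun i _ => (hh.pd hW i).pd hW i

theorem HJB.hasDerivAt_gen (hW : Adm δ G W) (l : List (Fin d)) {η : ℝ} (hη : 0 < η) (y : E d) :
    HasDerivAt (fun s => pdl l (uu W s) y) (2⁻¹ * lap (pdl l (uu W η)) y) η := by
  have h := hasDerivAt_heat (temp_pdl hW.temp_exp l) hη y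
  rw [lap_heat (temp_pdl hW.temp_exp l)] at h
  simp only [pdl_uu hW]
  convert h using 1
  ring

theorem HJB.pd_lap {f : E d → ℝ} (hf : ContDiff ℝ (⊤ : ℕ∞) f) (i : Fin d) (y : E d) :
    pd i (lap f) y = lap (pd i f) y := by
  unfold R285.lap
  rw [pd_sum Finset.univ fun k _ =>
    (contDiff_pd (contDiff_pd hf k) k).differentiable (by simp) y]
  refine Finset.sum_congr rfl fun k _ => ?_
  rw [pd_comm (contDiff_pd hf k) i k, pd_comm hf i k]

/-- the time derivative exists for `η > 0`, lies in the algebra and commutes with `pd`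
(`∂_η pdl l u = (1/2) ∑ i, pdl (i :: i :: l) u`) -/
theorem HH.exists_deriv (hW : Adm δ G W) {h : ℝ → E d → ℝ} (hh : HH W h) :
    ∃ h', HH W h' ∧ (∀ η, 0 < η → ∀ y, HasDerivAt (fun s => h s y) (h' η y) η) ∧
      ∀ η, 0 < η → ∀ y i, HasDerivAt (fun s => R285.pd i (h s) y) (R285.pd i (h' η) y) η := by
  have key : ∀ l η, 0 < η → ∀ y i, HasDerivAt (fun s => R285.pd i (pdl l (R285.uu W s)) y)
      (R285.pd i (fun y => 2⁻¹ * R285.lap (pdl l (R285.uu W η)) y) y) η := by
    intro l η hη y i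
    have h := hasDerivAt_gen hW (i :: l) hη y
    rw [pd_const_mul (((HH.gen l).lap hW).diff hW η y), pd_lap ((HH.gen l).smooth hW η)]
    exact h
  induction hh with
  | gen l =>
    exact ⟨fun η y => 2⁻¹ * R285.lap (pdl l (R285.uu W η)) y, (HH.const _).mul ((HH.gen l).lap hW),
      fun η hη y => hasDerivAt_gen hW l hη y, key l⟩
  | inv =>
    have hu : HH W fun η y => 2⁻¹ * R285.lap (R285.uu W η) y := (HH.const _).mul (HH.uu.lap hW)
    have hi : ∀ η, 0 < η → ∀ y, HasDerivAt (fun s => (R285.uu W s y)⁻¹)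
        (-(2⁻¹ * R285.lap (R285.uu W η) y * (R285.uu W η y)⁻¹ * (R285.uu W η y)⁻¹)) η := by
      intro η hη y
      refine ((hasDerivAt_gen hW [] hη y).inv (uu_pos hW η y).ne').congr_deriv ?_
      have := (uu_pos hW η y).ne'
      simp only [pdl, List.foldr_nil]
      field_simp
    refine ⟨fun η y => -(2⁻¹ * R285.lap (R285.uu W η) y * (R285.uu W η y)⁻¹ * (R285.uu W η y)⁻¹),
      ((hu.mul HH.inv).mul HH.inv).neg, hi, fun η hη y i => ?_⟩
    simp only [pd_uu_inv hW]
    refine (((key [] η hη y i).mul (hi η hη y)).mul (hi η hη y)).neg.congr_deriv ?_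
    rw [pd_neg, pd_mul ((hu.mul HH.inv).diff hW η y) (HH.inv.diff hW η y),
      pd_mul (hu.diff hW η y) (HH.inv.diff hW η y), pd_uu_inv hW]
    simp only [pdl, List.foldr_nil, Pi.mul_apply]
    ring
  | const c =>
    refine ⟨fun _ _ => 0, HH.const 0, fun η _ y => hasDerivAt_const η c, fun η _ y i => ?_⟩
    simp only [pd_const]
    exact hasDerivAt_const η 0
  | add h1 h2 ih ih' =>
    obtain ⟨k, hk, a, b⟩ := ih
    obtain ⟨k', hk', a', b'⟩ := ih'
    refine ⟨fun η y => k η y + k' η y, hk.add hk', fun η hη y => (a η hη y).add (a' η hη y),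
      fun η hη y i => ?_⟩
    simp only [pd_add (h1.diff hW _ _) (h2.diff hW _ _), pd_add (hk.diff hW _ _) (hk'.diff hW _ _)]
    exact (b η hη y i).add (b' η hη y i)
  | @mul h h' h1 h2 ih ih' =>
    obtain ⟨k, hk, a, b⟩ := ih
    obtain ⟨k', hk', a', b'⟩ := ih'
    refine ⟨fun η y => k η y * h' η y + h η y * k' η y, (hk.mul h2).add (h1.mul hk'),
      fun η hη y => (a η hη y).mul (a' η hη y), fun η hη y i => ?_⟩
    simp only [pd_mul (h1.diff hW _ _) (h2.diff hW _ _)]
    refine (((b η hη y i).mul (a' η hη y)).add ((a η hη y).mul (b' η hη y i))).congr_deriv ?_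
    rw [pd_add ((hk.mul h2).diff hW η y) ((h1.mul hk').diff hW η y),
      pd_mul (hk.diff hW η y) (h2.diff hW η y), pd_mul (h1.diff hW η y) (hk'.diff hW η y)]
    ring

theorem HJB.hh_pdl_Phi (hW : Adm δ G W) (i : Fin d) (l : List (Fin d)) :
    HH W fun η y => pdl (i :: l) (Phi W η) y := by
  induction l generalizing i with
  | nil => exact ((HH.gen [i]).mul HH.inv).neg.congr fun η y => (pd_Phi hW η y i).symm
  | cons j l ih => exact (ih j).pd hW i

theorem HH.tau (hW : Adm δ G W) {S : Type} [Fintype S] [Nonempty S] (i : S → Fin d) :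
    HH W fun η y => (tau W η y : Ten d S) i := by
  change HH W fun η y => pdl ((Finset.univ : Finset S).toList.map i) (Phi W η) y
  have hne : (Finset.univ : Finset S).toList.map i ≠ [] := by
    simp [Finset.univ_nonempty.ne_empty]
  obtain ⟨j, l, e⟩ := List.exists_cons_of_ne_nil hne
  rw [e]
  exact hh_pdl_Phi hW j l

theorem HH.tau1 (hW : Adm δ G W) (i : Fin d) : HH W fun η y => tau1 W η y i := by
  exact hh_pdl_Phi hW i []

theorem HJB.DD_eq {h : ℝ → E d → ℝ} {η a : ℝ} {y : E d} (ha : HasDerivAt (fun s => h s y) a η) :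
    DD W h η y = -a + lap (h η) y / 2 - ∑ k, tau1 W η y k * pd k (h η) y := by
  unfold DD
  rw [ha.deriv]
  rfl

theorem HH.exists_DD (hW : Adm δ G W) {h : ℝ → E d → ℝ} (hh : HH W h) :
    ∃ h', HH W h' ∧ ∀ η, 0 < η → ∀ y, DD W h η y = h' η y := by
  obtain ⟨k, hk, a, -⟩ := hh.exists_deriv hW
  refine ⟨_, (hk.neg.add ((hh.lap hW).mul (HH.const 2⁻¹))).add
    (HH.sum Finset.univ fun i _ => (HH.tau1 hW i).mul (hh.pd hW i)).neg, fun η hη y => ?_⟩
  rw [DD_eq (a η hη y)]
  ring

theorem DD_congr {h h' : ℝ → E d → ℝ} (e : ∀ η, 0 < η → ∀ y, h η y = h' η y) {η : ℝ} (hη : 0 < η)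
    (y : E d) : DD W h η y = DD W h' η y := by
  have h1 : h η = h' η := funext (e η hη)
  have h2 : (fun s => h s y) =ᶠ[nhds η] fun s => h' s y :=
    (lt_mem_nhds hη).mono fun s hs => e s hs y
  unfold DD
  rw [h1, h2.deriv_eq]

theorem HJB.lap_add {f g : E d → ℝ} (hf : ContDiff ℝ (⊤ : ℕ∞) f) (hg : ContDiff ℝ (⊤ : ℕ∞) g)
    (y : E d) : lap (fun y => f y + g y) y = lap f y + lap g y := by
  unfold lap
  rw [← Finset.sum_add_distrib]
  refine Finset.sum_congr rfl fun i _ => ?_
  have : pd i (fun y => f y + g y) = fun y => pd i f y + pd i g y := funext fun y =>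
    pd_add (hf.differentiable (by simp) y) (hg.differentiable (by simp) y) i
  rw [this, pd_add ((contDiff_pd hf i).differentiable (by simp) y)
    ((contDiff_pd hg i).differentiable (by simp) y)]

theorem HJB.lap_mul {f g : E d → ℝ} (hf : ContDiff ℝ (⊤ : ℕ∞) f) (hg : ContDiff ℝ (⊤ : ℕ∞) g)
    (y : E d) : lap (fun y => f y * g y) y =
      lap f y * g y + f y * lap g y + 2 * ∑ i, pd i f y * pd i g y := by
  unfold lap
  rw [Finset.sum_mul, Finset.mul_sum, Finset.mul_sum, ← Finset.sum_add_distrib,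
    ← Finset.sum_add_distrib]
  refine Finset.sum_congr rfl fun i _ => ?_
  have hf' := hf.differentiable (by simp)
  have hg' := hg.differentiable (by simp)
  have hf'' := (contDiff_pd hf i).differentiable (by simp)
  have hg'' := (contDiff_pd hg i).differentiable (by simp)
  have : pd i (fun y => f y * g y) = fun y => pd i f y * g y + f y * pd i g y := funext fun y =>
    pd_mul (hf' y) (hg' y) i
  rw [this, pd_add ((hf'' y).fun_mul (hg' y)) ((hf' y).fun_mul (hg'' y)), pd_mul (hf'' y) (hg' y),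
    pd_mul (hf' y) (hg'' y)]
  ring

theorem HJB.DD_const (c η : ℝ) (y : E d) : DD W (fun _ _ => c) η y = 0 := by
  rw [DD_eq (hasDerivAt_const η c)]
  have : ∀ i : Fin d, pd i (fun _ : E d => c) = fun _ => 0 := fun i => funext fun y => pd_const c y i
  simp [lap, this, pd_const]

theorem DD_add (hW : Adm δ G W) {h h' : ℝ → E d → ℝ} (hh : HH W h) (hh' : HH W h') {η : ℝ}
    (hη : 0 < η) (y : E d) :
    DD W (fun η y => h η y + h' η y) η y = DD W h η y + DD W h' η y := by
  obtain ⟨k, -, a, -⟩ := hh.exists_deriv hW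
  obtain ⟨k', -, a', -⟩ := hh'.exists_deriv hW
  rw [DD_eq (h := fun η y => h η y + h' η y) ((a η hη y).add (a' η hη y)), DD_eq (a η hη y),
    DD_eq (a' η hη y), lap_add (hh.smooth hW η) (hh'.smooth hW η)]
  simp only [pd_add (hh.diff hW η y) (hh'.diff hW η y), mul_add, Finset.sum_add_distrib]
  ring

theorem DD_sum (hW : Adm δ G W) {κ : Type} (s : Finset κ) {h : κ → ℝ → E d → ℝ}
    (hh : ∀ k ∈ s, HH W (h k)) {η : ℝ} (hη : 0 < η) (y : E d) :
    DD W (fun η y => ∑ k ∈ s, h k η y) η y = ∑ k ∈ s, DD W (h k) η y := by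
  classical
  induction s using Finset.induction_on with
  | empty => simpa using DD_const (W := W) 0 η y
  | insert a s ha ih =>
    have hs : ∀ k ∈ s, HH W (h k) := fun k hk => hh k (Finset.mem_insert_of_mem hk)
    simp only [Finset.sum_insert ha]
    rw [DD_add hW (hh a (Finset.mem_insert_self _ _)) (HH.sum s hs) hη, ih hs]

theorem HJB.DD_mul' (hW : Adm δ G W) {h h' : ℝ → E d → ℝ} (hh : HH W h) (hh' : HH W h') {η : ℝ}
    (hη : 0 < η) (y : E d) : DD W (fun η y => h η y * h' η y) η y =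
      DD W h η y * h' η y + h η y * DD W h' η y + ∑ i, pd i (h η) y * pd i (h' η) y := by
  obtain ⟨k, -, a, -⟩ := hh.exists_deriv hW
  obtain ⟨k', -, a', -⟩ := hh'.exists_deriv hW
  rw [DD_eq (h := fun η y => h η y * h' η y) ((a η hη y).mul (a' η hη y)), DD_eq (a η hη y),
    DD_eq (a' η hη y), lap_mul (hh.smooth hW η) (hh'.smooth hW η)]
  have : ∑ i, tau1 W η y i * pd i (fun y => h η y * h' η y) y =
      (∑ i, tau1 W η y i * pd i (h η) y) * h' η y + h η y * ∑ i, tau1 W η y i * pd i (h' η) y := by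
    rw [Finset.sum_mul, Finset.mul_sum, ← Finset.sum_add_distrib]
    refine Finset.sum_congr rfl fun i _ => ?_
    rw [pd_mul (hh.diff hW η y) (hh'.diff hW η y)]
    ring
  rw [this]
  ring

theorem DD_const_mul (hW : Adm δ G W) (c : ℝ) {h : ℝ → E d → ℝ} (hh : HH W h) {η : ℝ}
    (hη : 0 < η) (y : E d) : DD W (fun η y => c * h η y) η y = c * DD W h η y := by
  rw [DD_mul' hW (HH.const c) hh hη, DD_const]
  simp [pd_const]

theorem DD_mul (hW : Adm δ G W) {h h' : ℝ → E d → ℝ} (hh : HH W h) (hh' : HH W h') {η : ℝ}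
    (hη : 0 < η) (y : E d) : DD W (fun η y => h η y * h' η y) η y =
      DD W h η y * h' η y + h η y * DD W h' η y + grad (h η) y ⬝ᵥ grad (h' η) y := by
  exact DD_mul' hW hh hh' hη y

theorem HJB.DD_gen (hW : Adm δ G W) (l : List (Fin d)) {η : ℝ} (hη : 0 < η) (y : E d) :
    DD W (fun η y => pdl l (uu W η) y) η y = -∑ k, tau1 W η y k * pd k (pdl l (uu W η)) y := by
  rw [DD_eq (h := fun η y => pdl l (uu W η) y) (hasDerivAt_gen hW l hη y)]
  ring

theorem DD_tau1 (hW : Adm δ G W) (i : Fin d) {η : ℝ} (hη : 0 < η) (y : E d) :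
    DD W (fun η y => tau1 W η y i) η y = 0 := by
  have h1 := DD_mul' hW HH.uu (HH.tau1 hW i) hη y
  have e : (fun η y => uu W η y * tau1 W η y i) = fun η y => -1 * pdl [i] (uu W η) y := by
    funext η y
    have := pd_uu hW η y i
    simp only [pdl, List.foldr_cons, List.foldr_nil]
    linarith
  have h2 := DD_gen hW [] hη y
  simp only [pdl, List.foldr_nil] at h2
  rw [e, DD_const_mul hW (-1) (HH.gen [i]) hη, DD_gen hW [i] hη, h2] at h1
  have e2 : pdl [i] (uu W η) = fun y => -(uu W η y * tau1 W η y i) :=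
    funext fun y => pd_uu hW η y i
  have h3 : ∑ k, tau1 W η y k * pd k (pdl [i] (uu W η)) y =
      -(∑ k, tau1 W η y k * pd k (uu W η) y) * tau1 W η y i +
        ∑ k, pd k (uu W η) y * pd k (fun y => tau1 W η y i) y := by
    rw [neg_mul, Finset.sum_mul, ← Finset.sum_neg_distrib, ← Finset.sum_add_distrib]
    refine Finset.sum_congr rfl fun k _ => ?_
    rw [e2, pd_neg, pd_mul (HH.uu.diff hW η y) ((HH.tau1 hW i).diff hW η y), pd_uu hW η y k]
    ring
  rw [h3] at h1
  have h4 : uu W η y * DD W (fun η y => tau1 W η y i) η y = 0 := by linarith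
  exact (mul_eq_zero.1 h4).resolve_left (uu_pos hW η y).ne'

theorem DD_pd (hW : Adm δ G W) {h : ℝ → E d → ℝ} (hh : HH W h) (i : Fin d) {η : ℝ} (hη : 0 < η)
    (y : E d) : DD W (fun η y => pd i (h η) y) η y =
      pd i (DD W h η) y + ∑ k, pd i (fun y => tau1 W η y k) y * pd k (h η) y := by
  obtain ⟨k, hk, a, b⟩ := hh.exists_deriv hW
  have e : DD W h η = fun y => (-k η y + lap (h η) y * 2⁻¹) +
      -∑ j, tau1 W η y j * pd j (h η) y := by
    funext y
    rw [DD_eq (a η hη y)]
    ring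
  have hs : HH W fun η y => ∑ j, tau1 W η y j * pd j (h η) y :=
    HH.sum Finset.univ fun j _ => (HH.tau1 hW j).mul (hh.pd hW j)
  rw [DD_eq (h := fun η y => pd i (h η) y) (b η hη y i), e,
    pd_add ((hk.neg.add ((hh.lap hW).mul (HH.const 2⁻¹))).diff hW η y) (hs.neg.diff hW η y),
    pd_add (hk.neg.diff hW η y) (((hh.lap hW).mul (HH.const 2⁻¹)).diff hW η y), pd_neg, pd_neg,
    pd_mul_const ((hh.lap hW).diff hW η y), pd_lap (hh.smooth hW η),
    pd_sum Finset.univ fun j _ => ((HH.tau1 hW j).mul (hh.pd hW j)).diff hW η y]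
  have : ∑ j, pd i (fun y => tau1 W η y j * pd j (h η) y) y =
      ∑ j, pd i (fun y => tau1 W η y j) y * pd j (h η) y +
        ∑ j, tau1 W η y j * pd j (pd i (h η)) y := by
    rw [← Finset.sum_add_distrib]
    refine Finset.sum_congr rfl fun j _ => ?_
    rw [pd_mul ((HH.tau1 hW j).diff hW η y) ((hh.pd hW j).diff hW η y),
      pd_comm (hh.smooth hW η) j i]
  rw [this]
  ring

theorem HJB.hasDerivAt_sub_mul {K : ℝ → ℝ} {t : ℝ} (hK : ContinuousAt K t) :
    HasDerivAt (fun s => (s - t) * K s) (K t) t := by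
  rw [hasDerivAt_iff_tendsto_slope]
  refine (hK.tendsto.mono_left nhdsWithin_le_nhds).congr' ?_
  filter_upwards [self_mem_nhdsWithin] with s hs
  have : s - t ≠ 0 := sub_ne_zero.2 hs
  rw [slope_def_field]
  field_simp
  ring

/-- derivative of `s ↦ P_s H_{η - s}` -/
theorem HJB.hasDerivAt_heat_time (hW : Adm δ G W) {H K : ℝ → E d → ℝ} (hH : HH W H) (hK : HH W K)
    (a : ∀ η, 0 < η → ∀ y, HasDerivAt (fun s => H s y) (K η y) η) {η t : ℝ} (ht : 0 < t)
    (htη : t < η) (b : E d) :
    HasDerivAt (fun s => heat s (H (η - s)) b)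
      (heat t (fun y => -K (η - t) y + lap (H (η - t)) y / 2) b) t := by
  obtain ⟨C, hC⟩ := hK.bdd hW
  have hKc := hK.continuous hW
  let k : ℝ → E d → ℝ := fun s y => ∫ θ in (0 : ℝ)..1, -K (η - t + θ * (t - s)) y
  have hkc : Continuous fun z : ℝ × E d => k z.1 z.2 := by
    refine intervalIntegral.continuous_parametric_intervalIntegral_of_continuous'
      (f := fun (z : ℝ × E d) (θ : ℝ) => -K (η - t + θ * (t - z.1)) z.2) ?_ 0 1
    exact (hKc.comp (f := fun p : (ℝ × E d) × ℝ => (η - t + p.2 * (t - p.1.1), p.1.2))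
      (by fun_prop)).neg
  have hkb : ∀ s y, |k s y| ≤ C := fun s y => by
    have := intervalIntegral.norm_integral_le_of_norm_le_const (a := 0) (b := 1) (C := C)
      (f := fun θ => -K (η - t + θ * (t - s)) y) fun θ _ => by
        rw [Real.norm_eq_abs, abs_neg]; exact hC _ _
    rw [sub_zero, abs_one, mul_one] at this
    exact this
  have hk : ∀ s, s < η → ∀ y, H (η - s) y = (s - t) * k s y + H (η - t) y := by
    intro s hs y
    have h1 : ∀ θ ∈ Set.uIcc (0 : ℝ) 1, HasDerivAt (fun θ => H (η - t + θ * (t - s)) y)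
        ((s - t) * -K (η - t + θ * (t - s)) y) θ := by
      intro θ hθ
      rw [Set.uIcc_of_le zero_le_one] at hθ
      have hpos : 0 < η - t + θ * (t - s) := by
        rcases le_total s t with h | h
        · nlinarith [mul_nonneg hθ.1 (sub_nonneg.2 h)]
        · nlinarith [mul_nonneg (sub_nonneg.2 hθ.2) (sub_nonneg.2 h)]
      have h2 : HasDerivAt (fun θ : ℝ => η - t + θ * (t - s)) (t - s) θ := by
        simpa using ((hasDerivAt_id θ).mul_const (t - s)).const_add (η - t)
      refine ((a _ hpos y).comp θ h2).congr_deriv ?_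
      ring
    have h4 : Continuous fun θ : ℝ => (s - t) * -K (η - t + θ * (t - s)) y :=
      continuous_const.mul (hKc.comp (f := fun θ : ℝ => (η - t + θ * (t - s), y))
        (by fun_prop)).neg
    have h5 := intervalIntegral.integral_eq_sub_of_hasDerivAt h1 (h4.intervalIntegrable 0 1)
    rw [intervalIntegral.integral_const_mul] at h5
    have e1 : η - t + 1 * (t - s) = η - s := by ring
    have e0 : η - t + 0 * (t - s) = η - t := by ring
    rw [e1, e0] at h5
    change _ = (s - t) * (∫ θ in (0 : ℝ)..1, -K (η - t + θ * (t - s)) y) + _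
    linarith
  have hpg : ∀ s, PG (k s) := fun s => PG.of_bdd
    (hkc.comp (f := fun y : E d => (s, y)) (by fun_prop)).stronglyMeasurable (C := C) (hkb s)
  have hcont : Continuous fun s => heat s (k s) b :=
    continuous_heat hkc hkb continuous_id continuous_const
  have h1 := (hasDerivAt_sub_mul hcont.continuousAt (t := t)).add
    (hasDerivAt_heat (hH.temp hW (η - t)) ht b)
  have e : k t = fun y => -K (η - t) y := by
    funext y
    simp [k]
  have h2 : heat t (fun y => -K (η - t) y + lap (H (η - t)) y / 2) b =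
      heat t (k t) b + heat t (lap (H (η - t))) b / 2 := by
    rw [heat_add (PG.of_temp (hK.neg.temp hW (η - t)))
      (PG.of_temp ((((hH.lap hW).mul (HH.const 2⁻¹)).congr
        (h' := fun η y => lap (H η) y / 2) fun _ _ => by ring).temp hW (η - t))), e]
    congr 1
    have := heat_smul (2⁻¹ : ℝ) (lap (H (η - t))) t b
    simp only [smul_eq_mul] at this
    rw [div_eq_inv_mul, ← this]
    simp only [div_eq_inv_mul]
  rw [h2]
  refine h1.congr_of_eventuallyEq ?_
  filter_upwards [gt_mem_nhds htη] with s hs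
  have e1 : H (η - s) = fun y => (s - t) • k s y + H (η - t) y := funext (hk s hs)
  have hpg' : PG fun y => (s - t) • k s y := PG.of_bdd
    ((hpg s).meas.const_smul (s - t)) (C := |s - t| * C) fun y => by
      rw [norm_smul]
      exact mul_le_mul_of_nonneg_left (hkb s y) (norm_nonneg _)
  rw [e1, heat_add hpg' (PG.of_temp (hH.temp hW (η - t))), heat_smul]
  rfl

/-- The generator formula. With `H s y = u (η - s) y * h (η - s) y`, differentiate
`s ↦ heat s (H s) b` (split the difference quotient: mean value theorem and dominated convergence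
for the time variable, `hasDerivAt_heat` for the rest) and use `∂_η u = Δu/2`. -/
theorem hasDerivAt_stepE (hW : Adm δ G W) {h : ℝ → E d → ℝ} (hh : HH W h) {η t : ℝ} (ht : 0 < t)
    (htη : t < η) (b : E d) :
    HasDerivAt (fun s => stepE W η s b (h (η - s))) (stepE W η t b (DD W h (η - t))) t := by
  have hH : HH W fun η y => uu W η y * h η y := HH.uu.mul hh
  obtain ⟨K, hK, a, -⟩ := hH.exists_deriv hW
  have h1 := (hasDerivAt_heat_time hW hH hK a ht htη b).const_mul (uu W η b)⁻¹
  have hpos : 0 < η - t := sub_pos.2 htη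
  have e : (fun y => -K (η - t) y + lap (fun y => uu W (η - t) y * h (η - t) y) y / 2) =
      fun y => uu W (η - t) y • DD W h (η - t) y := by
    funext y
    have h2 := DD_mul' hW HH.uu hh hpos y
    have h3 := DD_gen hW [] hpos y
    simp only [pdl, List.foldr_nil] at h3
    rw [DD_eq (h := fun η y => uu W η y * h η y) (a _ hpos y), h3] at h2
    have h4 : ∑ k, tau1 W (η - t) y k * pd k (fun y => uu W (η - t) y * h (η - t) y) y =
        (∑ k, tau1 W (η - t) y k * pd k (uu W (η - t)) y) * h (η - t) y -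
          ∑ k, pd k (uu W (η - t)) y * pd k (h (η - t)) y := by
      rw [Finset.sum_mul, ← Finset.sum_sub_distrib]
      refine Finset.sum_congr rfl fun k _ => ?_
      rw [pd_mul (HH.uu.diff hW _ y) (hh.diff hW _ y), pd_uu hW _ y k]
      ring
    rw [h4] at h2
    rw [smul_eq_mul]
    linarith
  rw [e] at h1
  exact h1

theorem continuous_stepE (hW : Adm δ G W) {h : ℝ → E d → ℝ} (hh : HH W h) (η : ℝ) (b : E d) :
    Continuous fun s => stepE W η s b (h (η - s)) := by
  have hH : HH W fun η y => uu W η y * h η y := HH.uu.mul hh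
  obtain ⟨C, hC⟩ := hH.bdd hW
  have h1 : Continuous fun s => heat s (fun y => uu W (η - s) y * h (η - s) y) b :=
    continuous_heat (f := fun s y => uu W (η - s) y * h (η - s) y)
      ((hH.continuous hW).comp (f := fun z : ℝ × E d => (η - z.1, z.2)) (by fun_prop))
      (fun s y => hC _ _) continuous_id continuous_const
  exact continuous_const.mul h1

end Crest.Agent.R285

end
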