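import Crest.Agent.R285.Ten

/-!
The heat semigroup.
-/

set_option autoImplicit false

open MeasureTheory ProbabilityTheory Matrix Filter
open scoped ENNReal

set_option linter.unusedSectionVars false

noncomputable section

namespace Crest.Agent.R285

variable {d : ℕ} {F : Type} [NormedAddCommGroup F] [NormedSpace ℝ F] [CompleteSpace F]

/-! ### basic properties -/

/-- composition of functions of polynomial growth -/
theorem PG.comp_pg {X Y G : Type} [NormedAddCommGroup X] [MeasurableSpace X] [NormedAddCommGroup Y]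
    [MeasurableSpace Y] [NormedAddCommGroup G] {f : Y → G} (hf : PG f) {g : X → Y}
    (hm : Measurable g) (hg : ∃ (C : ℝ) (k : ℕ), ∀ x, ‖g x‖ ≤ C * (1 + ‖x‖) ^ k) :
    PG (fun x => f (g x)) := by
  refine ⟨hf.meas.comp_measurable hm, ?_⟩
  obtain ⟨C, k, hC⟩ := hf.bd
  obtain ⟨C', k', hC'⟩ := hg
  refine ⟨|C| * (1 + |C'|) ^ k, k' * k, fun x => ?_⟩
  have h1 : (1 : ℝ) ≤ (1 + ‖x‖) ^ k' := one_le_pow₀ (by linarith [norm_nonneg x])
  have h2 : 1 + ‖g x‖ ≤ (1 + |C'|) * (1 + ‖x‖) ^ k' := by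
    have h3 : C' * (1 + ‖x‖) ^ k' ≤ |C'| * (1 + ‖x‖) ^ k' :=
      mul_le_mul_of_nonneg_right (le_abs_self _) (by linarith)
    have := hC' x
    nlinarith
  calc ‖f (g x)‖ ≤ C * (1 + ‖g x‖) ^ k := hC _
    _ ≤ |C| * (1 + ‖g x‖) ^ k := mul_le_mul_of_nonneg_right (le_abs_self _) (by positivity)
    _ ≤ |C| * ((1 + |C'|) * (1 + ‖x‖) ^ k') ^ k :=
      mul_le_mul_of_nonneg_left (pow_le_pow_left₀ (by positivity) h2 _) (abs_nonneg _)
    _ = |C| * (1 + |C'|) ^ k * (1 + ‖x‖) ^ (k' * k) := by rw [mul_pow, pow_mul, mul_assoc]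

/-- composition of a function of polynomial growth with a temperate map -/
theorem PG.comp_temp {X Y G : Type} [NormedAddCommGroup X] [NormedSpace ℝ X] [MeasurableSpace X]
    [OpensMeasurableSpace X] [SecondCountableTopology X] [NormedAddCommGroup Y] [NormedSpace ℝ Y]
    [MeasurableSpace Y] [BorelSpace Y] [NormedAddCommGroup G] {f : Y → G} (hf : PG f) {g : X → Y}
    (hg : g.HasTemperateGrowth) : PG (fun x => f (g x)) :=
  hf.comp_pg hg.1.continuous.measurable (PG.of_temp hg).bd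

private theorem temp_aff (y : E d) (σ : ℝ) : (fun g : E d => y + σ • g).HasTemperateGrowth :=
  (Function.HasTemperateGrowth.const y).add
    (σ • ContinuousLinearMap.id ℝ (E d)).hasTemperateGrowth

private theorem temp_aff2 (σ : ℝ) : (fun z : E d × E d => z.1 + σ • z.2).HasTemperateGrowth :=
  (ContinuousLinearMap.fst ℝ (E d) (E d) +
    σ • ContinuousLinearMap.snd ℝ (E d) (E d)).hasTemperateGrowth

private theorem temp_aff3 :
    (fun z : (E d × ℝ) × E d => z.1.1 + z.1.2 • z.2).HasTemperateGrowth :=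
  ((ContinuousLinearMap.fst ℝ (E d) ℝ).comp
    (ContinuousLinearMap.fst ℝ (E d × ℝ) (E d))).hasTemperateGrowth.add
    (((ContinuousLinearMap.snd ℝ (E d) ℝ).comp
      (ContinuousLinearMap.fst ℝ (E d × ℝ) (E d))).hasTemperateGrowth.smul
      (ContinuousLinearMap.snd ℝ (E d × ℝ) (E d)).hasTemperateGrowth)

theorem heat_of_nonpos {ρ : ℝ} (hρ : ρ ≤ 0) (f : E d → F) : heat ρ f = f := by
  funext y
  simp [heat, Real.sqrt_eq_zero'.2 hρ]

theorem heat_zero (f : E d → F) : heat 0 f = f := heat_of_nonpos le_rfl f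

theorem heat_const (ρ : ℝ) (c : F) (y : E d) : heat ρ (fun _ => c) y = c := by
  simp [heat]

theorem PG.integrable_heat {f : E d → F} (hf : PG f) (ρ : ℝ) (y : E d) :
    Integrable (fun g => f (y + √ρ • g)) (gam (Fin d)) := by
  exact (hf.comp_temp (temp_aff y √ρ)).integrable

theorem PG.heat {f : E d → F} (hf : PG f) (ρ : ℝ) : PG (heat ρ f) := by
  have h2 : PG (fun z : E d × E d => f (z.1 + √ρ • z.2)) := hf.comp_temp (temp_aff2 √ρ)
  refine ⟨h2.meas.integral_prod_right', ?_⟩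
  obtain ⟨C, k, hC⟩ := h2.bd
  have hb : PG (fun g : E d => (1 + ‖g‖) ^ k) := by
    refine ⟨(by fun_prop : Continuous fun g : E d => (1 + ‖g‖) ^ k).stronglyMeasurable,
      1, k, fun g => ?_⟩
    rw [one_mul, Real.norm_of_nonneg (by positivity)]
  refine ⟨|C| * ∫ g, (1 + ‖g‖) ^ k ∂gam (Fin d), k, fun y => ?_⟩
  have h3 : ∀ g : E d, ‖f (y + √ρ • g)‖ ≤ |C| * (1 + ‖y‖) ^ k * (1 + ‖g‖) ^ k := by
    intro g
    have h4 : 1 + ‖((y, g) : E d × E d)‖ ≤ (1 + ‖y‖) * (1 + ‖g‖) := by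
      rw [Prod.norm_mk]
      have := norm_nonneg y
      have := norm_nonneg g
      rcases le_total ‖y‖ ‖g‖ with h | h
      · rw [max_eq_right h]; nlinarith
      · rw [max_eq_left h]; nlinarith
    calc ‖f (y + √ρ • g)‖ ≤ C * (1 + ‖((y, g) : E d × E d)‖) ^ k := hC (y, g)
      _ ≤ |C| * (1 + ‖((y, g) : E d × E d)‖) ^ k :=
        mul_le_mul_of_nonneg_right (le_abs_self _) (by positivity)
      _ ≤ |C| * ((1 + ‖y‖) * (1 + ‖g‖)) ^ k :=
        mul_le_mul_of_nonneg_left (pow_le_pow_left₀ (by positivity) h4 _) (abs_nonneg _)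
      _ = _ := by rw [mul_pow, mul_assoc]
  calc ‖R285.heat ρ f y‖ ≤ ∫ g, |C| * (1 + ‖y‖) ^ k * (1 + ‖g‖) ^ k ∂gam (Fin d) :=
        norm_integral_le_of_norm_le (hb.integrable.const_mul _) (Eventually.of_forall h3)
    _ = _ := by rw [integral_const_mul]; ring

omit [CompleteSpace F] in
/-- a Gaussian linear combination has the law of the heat kernel -/
theorem integral_lin {V : Type} [Fintype V] {f : E d → F} (hf : StronglyMeasurable f)
    (α : V → ℝ) (y : E d) :
    ∫ ξ, f (y + lin α ξ) ∂gam (V × Fin d) = heat (α ⬝ᵥ α) f y := by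
  have hm : StronglyMeasurable fun x : E d => f (y + x) :=
    hf.comp_measurable (by fun_prop)
  have h1 := integral_map (μ := gam (V × Fin d)) (φ := lin (d := d) α)
    (temp_lin α).1.continuous.measurable.aemeasurable hm.aestronglyMeasurable
  have h2 := integral_map (μ := gam (Fin d)) (φ := fun g : E d => √(α ⬝ᵥ α) • g)
    (by fun_prop : Measurable fun g : E d => √(α ⬝ᵥ α) • g).aemeasurable hm.aestronglyMeasurable
  rw [← h1, map_lin, h2]
  rfl

omit [CompleteSpace F] in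
private theorem heat_eq_lin {f : E d → F} (hf : PG f) {ρ : ℝ} (hρ : 0 ≤ ρ) (y : E d) :
    heat ρ f y = ∫ ξ, f (y + lin (fun _ : Unit => √ρ) ξ) ∂gam (Unit × Fin d) := by
  rw [integral_lin hf.meas]
  congr 1
  simp [dotProduct, Real.mul_self_sqrt hρ]

private theorem heat_lin_aux {V : Type} [Fintype V] {f : E d → F} (hf : PG f) {ρ : ℝ} (hρ : 0 ≤ ρ)
    (α : V → ℝ) (y : E d) :
    ∫ ξ, heat ρ f (y + lin α ξ) ∂gam (V × Fin d) = heat (ρ + α ⬝ᵥ α) f y := by
  have h1 : PG fun z : Om d (V ⊕ Unit) => f (y + lin (Sum.elim α fun _ : Unit => √ρ) z) :=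
    hf.comp_temp ((Function.HasTemperateGrowth.const y).add (temp_lin _))
  have h2 := integral_join h1
  rw [integral_lin hf.meas] at h2
  have h3 : (Sum.elim α fun _ : Unit => √ρ) ⬝ᵥ (Sum.elim α fun _ : Unit => √ρ) = ρ + α ⬝ᵥ α := by
    simp [dotProduct, Real.mul_self_sqrt hρ, add_comm]
  rw [h3] at h2
  rw [h2]
  refine integral_congr_ae (Eventually.of_forall fun ξ => ?_)
  simp only [lin_join, ← add_assoc]
  exact heat_eq_lin hf hρ _

theorem heat_heat {f : E d → F} (hf : PG f) {ρ ρ' : ℝ} (hρ : 0 ≤ ρ) (hρ' : 0 ≤ ρ') :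
    heat ρ (heat ρ' f) = heat (ρ + ρ') f := by
  funext y
  rw [heat_eq_lin (hf.heat ρ') hρ y, heat_lin_aux hf hρ']
  congr 1
  simp [dotProduct, Real.mul_self_sqrt hρ, add_comm]

omit [CompleteSpace F] in
theorem heat_shift (ρ : ℝ) (f : E d → F) (y₀ y : E d) :
    heat ρ (fun x => f (y₀ + x)) y = heat ρ f (y₀ + y) := by
  simp only [heat, add_assoc]

omit [CompleteSpace F] in
theorem heat_scale (ρ r : ℝ) (hr : 0 ≤ r) (f : E d → F) (y : E d) :
    heat ρ (fun x => f (r • x)) y = heat (r ^ 2 * ρ) f (r • y) := by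
  simp only [heat, smul_add, smul_smul]
  rw [Real.sqrt_mul (sq_nonneg r), Real.sqrt_sq hr]

theorem heat_lin {V : Type} [Fintype V] {f : E d → F} (hf : PG f) {ρ : ℝ} (hρ : 0 ≤ ρ)
    (α : V → ℝ) (y : E d) :
    ∫ ξ, heat ρ f (y + lin α ξ) ∂gam (V × Fin d) = heat (ρ + α ⬝ᵥ α) f y := by
  exact heat_lin_aux hf hρ α y

theorem heat_apply {κ : Type} [Fintype κ] {f : E d → κ → ℝ} (hf : PG f) (ρ : ℝ) (y : E d) (k : κ) :
    heat ρ f y k = heat ρ (fun x => f x k) y := by
  exact ((ContinuousLinearMap.proj (R := ℝ) (φ := fun _ : κ => ℝ) k).integral_comp_comm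
    (hf.integrable_heat ρ y)).symm

theorem heat_add {f g : E d → F} (hf : PG f) (hg : PG g) (ρ : ℝ) (y : E d) :
    heat ρ (fun x => f x + g x) y = heat ρ f y + heat ρ g y := by
  exact integral_add (hf.integrable_heat ρ y) (hg.integrable_heat ρ y)

omit [CompleteSpace F] in
theorem heat_smul (c : ℝ) (f : E d → F) (ρ : ℝ) (y : E d) :
    heat ρ (fun x => c • f x) y = c • heat ρ f y := by
  exact integral_smul c _

theorem temp_heat {f : E d → F} (hf : f.HasTemperateGrowth) (ρ : ℝ) :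
    (heat ρ f).HasTemperateGrowth := by
  exact temp_integral (Ψ := fun z : E d × E d => f (z.1 + √ρ • z.2)) (hf.comp (temp_aff2 √ρ))

theorem fderiv_heat {f : E d → F} (hf : f.HasTemperateGrowth) (ρ : ℝ) (y v : E d) :
    fderiv ℝ (heat ρ f) y v = heat ρ (fun x => fderiv ℝ f x v) y := by
  have h := fderiv_integral (Ψ := fun z : E d × E d => f (z.1 + √ρ • z.2))
    (hf.comp (temp_aff2 √ρ)) y v
  refine h.trans (integral_congr_ae (Eventually.of_forall fun g => ?_))
  have hd : DifferentiableAt ℝ f (y + √ρ • g) := hf.1.differentiable (by simp) _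
  have h2 := hd.hasFDerivAt.comp ((y, g) : E d × E d) (ContinuousLinearMap.fst ℝ (E d) (E d) +
    √ρ • ContinuousLinearMap.snd ℝ (E d) (E d)).hasFDerivAt
  have h3 := h2.fderiv
  change fderiv ℝ (fun z : E d × E d => f (z.1 + √ρ • z.2)) (y, g) = _ at h3
  simp only [h3]
  simp

theorem pd_heat {f : E d → ℝ} (hf : f.HasTemperateGrowth) (ρ : ℝ) (i : Fin d) :
    pd i (heat ρ f) = heat ρ (pd i f) := by
  funext y
  exact fderiv_heat hf ρ y _

theorem grad_heat {f : E d → ℝ} (hf : f.HasTemperateGrowth) (ρ : ℝ) :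
    grad (heat ρ f) = heat ρ (grad f) := by
  funext y i
  rw [heat_apply (PG.of_temp (temp_grad hf))]
  exact congrFun (pd_heat hf ρ i) y

theorem pdl_heat {f : E d → ℝ} (hf : f.HasTemperateGrowth) (ρ : ℝ) (l : List (Fin d)) :
    pdl l (heat ρ f) = heat ρ (pdl l f) := by
  induction l with
  | nil => rfl
  | cons i l ih =>
    change pd i (pdl l (heat ρ f)) = heat ρ (pd i (pdl l f))
    rw [ih, pd_heat (temp_pdl hf l)]

theorem jet_heat {S : Type} [Fintype S] [DecidableEq S] {f : E d → ℝ} (hf : f.HasTemperateGrowth)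
    (ρ : ℝ) (y : E d) : (jet (heat ρ f) y : Ten d S) = heat ρ (fun x => (jet f x : Ten d S)) y := by
  funext i
  rw [heat_apply (PG.of_temp (temp_jet hf))]
  exact congrFun (pdl_heat hf ρ _) y

theorem temp_lap {f : E d → ℝ} (hf : f.HasTemperateGrowth) : (lap f).HasTemperateGrowth := by
  have h := Function.HasTemperateGrowth.sum (s := Finset.univ)
    (f := fun i : Fin d => pd i (pd i f)) fun i _ => temp_pd (temp_pd hf i) i
  exact h

theorem lap_heat {f : E d → ℝ} (hf : f.HasTemperateGrowth) (ρ : ℝ) :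
    lap (heat ρ f) = heat ρ (lap f) := by
  funext y
  simp only [lap, pd_heat hf, pd_heat (temp_pd hf _)]
  exact (integral_finsetSum _ fun i _ =>
    (PG.of_temp (temp_pd (temp_pd hf i) i)).integrable_heat ρ y).symm

private theorem pd_aff {f : E d → ℝ} (hf : f.HasTemperateGrowth) (y : E d) (σ : ℝ) (i : Fin d)
    (g : E d) : pd i (fun g => f (y + σ • g)) g = σ * pd i f (y + σ • g) := by
  have hd : DifferentiableAt ℝ f (y + σ • g) := hf.1.differentiable (by simp) _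
  have h2 := hd.hasFDerivAt.comp g
    ((σ • ContinuousLinearMap.id ℝ (E d)).hasFDerivAt.const_add y)
  have h3 := h2.fderiv
  change fderiv ℝ (fun g : E d => f (y + σ • g)) g = _ at h3
  simp only [pd, h3]
  simp

/-- Stein's identity for the radial derivative -/
theorem stein_radial {f : E d → ℝ} (hf : f.HasTemperateGrowth) (y : E d) (σ : ℝ) :
    ∫ g, fderiv ℝ f (y + σ • g) g ∂gam (Fin d) = σ * ∫ g, lap f (y + σ • g) ∂gam (Fin d) := by
  have ht : ∀ i, (fun g : E d => pd i f (y + σ • g)).HasTemperateGrowth := fun i =>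
    (temp_pd hf i).comp (temp_aff y σ)
  have ht2 : ∀ i, (fun g : E d => pd i (pd i f) (y + σ • g)).HasTemperateGrowth := fun i =>
    (temp_pd (temp_pd hf i) i).comp (temp_aff y σ)
  have h1 : ∀ g : E d, fderiv ℝ f (y + σ • g) g = ∑ i, g i * pd i f (y + σ • g) := by
    intro g
    rw [fderiv_eq_dot]
    simp [dotProduct, grad, mul_comm]
  simp only [h1, lap]
  have ht3 : ∀ i, (fun g : E d => g i * pd i f (y + σ • g)).HasTemperateGrowth := fun i =>
    (ContinuousLinearMap.proj (R := ℝ) (φ := fun _ : Fin d => ℝ) i).hasTemperateGrowth.mul (ht i)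
  rw [integral_finsetSum _ fun i _ => temp_integrable (ht3 i),
    integral_finsetSum _ fun i _ => temp_integrable (ht2 i), Finset.mul_sum]
  refine Finset.sum_congr rfl fun i _ => ?_
  rw [stein (ht i) i, ← integral_const_mul]
  exact integral_congr_ae (Eventually.of_forall fun g => pd_aff (temp_pd hf i) y σ i g)

/-- the heat semigroup as a function of the point and of the standard deviation -/
private def HH (f : E d → ℝ) (z : E d × ℝ) : ℝ := ∫ g, f (z.1 + z.2 • g) ∂gam (Fin d)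

private theorem temp_HH {f : E d → ℝ} (hf : f.HasTemperateGrowth) : (HH f).HasTemperateGrowth :=
  temp_integral (Ψ := fun z : (E d × ℝ) × E d => f (z.1.1 + z.1.2 • z.2)) (hf.comp temp_aff3)

private theorem fderiv_HH {f : E d → ℝ} (hf : f.HasTemperateGrowth) (ρ : ℝ) (y v : E d) (τ : ℝ) :
    fderiv ℝ (HH f) (y, √ρ) (v, τ) =
      grad (heat ρ f) y ⬝ᵥ v + τ * √ρ * lap (heat ρ f) y := by
  have h := fderiv_integral (Ψ := fun z : (E d × ℝ) × E d => f (z.1.1 + z.1.2 • z.2))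
    (hf.comp temp_aff3) (y, √ρ) (v, τ)
  have h1 : ∀ g : E d, fderiv ℝ (fun z : (E d × ℝ) × E d => f (z.1.1 + z.1.2 • z.2))
      ((y, √ρ), g) ((v, τ), 0) =
      fderiv ℝ f (y + √ρ • g) v + τ * fderiv ℝ f (y + √ρ • g) g := by
    intro g
    have hd : DifferentiableAt ℝ f (y + √ρ • g) := hf.1.differentiable (by simp) _
    have ha := ((ContinuousLinearMap.fst ℝ (E d) ℝ).comp
      (ContinuousLinearMap.fst ℝ (E d × ℝ) (E d))).hasFDerivAt (x := ((y, √ρ), g))
    have hb := ((ContinuousLinearMap.snd ℝ (E d) ℝ).comp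
      (ContinuousLinearMap.fst ℝ (E d × ℝ) (E d))).hasFDerivAt (x := ((y, √ρ), g))
    have hc := (ContinuousLinearMap.snd ℝ (E d × ℝ) (E d)).hasFDerivAt (x := ((y, √ρ), g))
    have h2 := hd.hasFDerivAt.comp (((y, √ρ), g) : (E d × ℝ) × E d) (ha.add (hb.smul hc))
    have h3 := h2.fderiv
    change fderiv ℝ (fun z : (E d × ℝ) × E d => f (z.1.1 + z.1.2 • z.2)) ((y, √ρ), g) = _ at h3
    rw [h3]
    simp
  have hfd := (temp_fderiv hf).comp (temp_aff y √ρ)
  have i1 : Integrable (fun g : E d => fderiv ℝ f (y + √ρ • g) v) (gam (Fin d)) :=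
    temp_integrable ((ContinuousLinearMap.apply ℝ ℝ v).hasTemperateGrowth.comp hfd)
  have i2 : Integrable (fun g : E d => fderiv ℝ f (y + √ρ • g) g) (gam (Fin d)) := by
    have h5 : (fun g : E d => grad f (y + √ρ • g) ⬝ᵥ g).HasTemperateGrowth :=
      temp_dot ((temp_grad hf).comp (temp_aff y √ρ)) Function.HasTemperateGrowth.id'
    simpa only [fderiv_eq_dot] using temp_integrable h5
  refine h.trans ?_
  simp only [h1]
  rw [integral_add i1 (i2.const_mul τ), integral_const_mul, stein_radial hf, lap_heat hf,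
    ← fderiv_eq_dot, fderiv_heat hf, mul_assoc]
  rfl

private theorem hasDerivAt_HH {f : E d → ℝ} (hf : f.HasTemperateGrowth) {x : ℝ → E d} {x' : E d}
    {ρ : ℝ → ℝ} {ρ' t : ℝ} (hx : HasDerivAt x x' t) (hρ : HasDerivAt ρ ρ' t) (h0 : 0 < ρ t) :
    HasDerivAt (fun s => heat (ρ s) f (x s))
      (grad (heat (ρ t) f) (x t) ⬝ᵥ x' + ρ' / 2 * lap (heat (ρ t) f) (x t)) t := by
  have hd : DifferentiableAt ℝ (HH f) (x t, √(ρ t)) := (temp_HH hf).1.differentiable (by simp) _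
  have h1 := hd.hasFDerivAt.comp_hasDerivAt t (hx.prodMk (hρ.sqrt h0.ne'))
  rw [fderiv_HH hf] at h1
  have hs : √(ρ t) ≠ 0 := (Real.sqrt_pos.2 h0).ne'
  have h2 : ρ' / (2 * √(ρ t)) * √(ρ t) = ρ' / 2 := by field_simp
  rw [h2] at h1
  exact h1

/-- derivative of the heat semigroup along a path of points and variances -/
theorem hasDerivAt_heat_curve {f : E d → ℝ} (hf : f.HasTemperateGrowth) {x : ℝ → E d} {x' : E d}
    {ρ : ℝ → ℝ} {ρ' t : ℝ} (hx : HasDerivAt x x' t) (hρ : HasDerivAt ρ ρ' t) (h0 : 0 < ρ t) :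
    HasDerivAt (fun s => heat (ρ s) f (x s))
      (grad (heat (ρ t) f) (x t) ⬝ᵥ x' + ρ' / 2 * lap (heat (ρ t) f) (x t)) t :=
  hasDerivAt_HH hf hx hρ h0

/-- the heat equation -/
theorem hasDerivAt_heat {f : E d → ℝ} (hf : f.HasTemperateGrowth) {ρ : ℝ} (hρ : 0 < ρ) (y : E d) :
    HasDerivAt (fun s => heat s f y) (heat ρ (lap f) y / 2) ρ := by
  have h := hasDerivAt_HH hf (hasDerivAt_const ρ y) (hasDerivAt_id' ρ) hρ
  refine h.congr_deriv ?_
  rw [dotProduct_zero, zero_add, lap_heat hf]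
  ring

/-- derivative along a path: the point is a combination `∑ c k t • Y k ζ`, the variance moves -/
theorem hasDerivAt_heat_path {ι κ : Type} [Fintype ι] [Fintype κ] {f : E d → ℝ}
    (hf : f.HasTemperateGrowth) {Y : κ → (ι → ℝ) → E d} (hY : ∀ k, (Y k).HasTemperateGrowth)
    {w : (ι → ℝ) → ℝ} (hw : w.HasTemperateGrowth)
    {c : κ → ℝ → ℝ} {c' : κ → ℝ} {ρ : ℝ → ℝ} {ρ' t : ℝ} (hc : ∀ k, HasDerivAt (c k) (c' k) t)
    (hρ : HasDerivAt ρ ρ' t) (h0 : 0 < ρ t) :
    HasDerivAt (fun s => ∫ ζ, w ζ * heat (ρ s) f (∑ k, c k s • Y k ζ) ∂gam ι)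
      (∫ ζ, w ζ * (grad (heat (ρ t) f) (∑ k, c k t • Y k ζ) ⬝ᵥ (∑ k, c' k • Y k ζ) +
        ρ' / 2 * lap (heat (ρ t) f) (∑ k, c k t • Y k ζ)) ∂gam ι) t := by
  let Ψ : ((κ → ℝ) × ℝ) × (ι → ℝ) → ℝ := fun z => w z.2 * HH f (∑ k, z.1.1 k • Y k z.2, z.1.2)
  have tsnd := (ContinuousLinearMap.snd ℝ ((κ → ℝ) × ℝ) (ι → ℝ)).hasTemperateGrowth
  have hΨ : Ψ.HasTemperateGrowth := by
    refine (hw.comp tsnd).mul ((temp_HH hf).comp (temp_prodMk ?_ ?_))
    · refine Function.HasTemperateGrowth.sum (s := Finset.univ)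
        (f := fun k (z : ((κ → ℝ) × ℝ) × (ι → ℝ)) => z.1.1 k • Y k z.2) fun k _ => ?_
      exact ((ContinuousLinearMap.proj (R := ℝ) (φ := fun _ : κ => ℝ) k).comp
        ((ContinuousLinearMap.fst ℝ (κ → ℝ) ℝ).comp
          (ContinuousLinearMap.fst ℝ ((κ → ℝ) × ℝ) (ι → ℝ)))).hasTemperateGrowth.smul
          ((hY k).comp tsnd)
    · exact ((ContinuousLinearMap.snd ℝ (κ → ℝ) ℝ).comp
          (ContinuousLinearMap.fst ℝ ((κ → ℝ) × ℝ) (ι → ℝ))).hasTemperateGrowth
  have hγ : HasDerivAt (fun s => ((fun k => c k s, √(ρ s)) : (κ → ℝ) × ℝ))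
      (c', ρ' / (2 * √(ρ t))) t := (hasDerivAt_pi.2 hc).prodMk (hρ.sqrt h0.ne')
  have h := hasDerivAt_integral_path hΨ hγ
  refine HasDerivAt.congr_deriv h (integral_congr_ae (Eventually.of_forall fun ζ => ?_))
  have hd : DifferentiableAt ℝ Ψ ((fun k => c k t, √(ρ t)), ζ) := hΨ.1.differentiable (by simp) _
  have h1 := hd.hasFDerivAt.comp_hasDerivAt t (hγ.prodMk (hasDerivAt_const t ζ))
  have hx : HasDerivAt (fun s => ∑ k, c k s • Y k ζ) (∑ k, c' k • Y k ζ) t :=
    HasDerivAt.fun_sum fun k _ => (hc k).smul_const (Y k ζ)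
  have h2 := (hasDerivAt_HH hf hx hρ h0).const_mul (w ζ)
  exact h1.unique h2

end Crest.Agent.R285

end
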