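import Crest.Agent.R285.HeatBAux

/-!
Test functions and the `W₁` distance.
-/

set_option autoImplicit false

open MeasureTheory ProbabilityTheory Matrix Filter
open scoped ENNReal Convolution

noncomputable section

namespace Crest.Agent.R285

variable {d : ℕ} {F : Type} [NormedAddCommGroup F] [NormedSpace ℝ F] [CompleteSpace F]

/-! ### test functions -/

theorem BL.continuous {f : E d → ℝ} (hf : BL f) : Continuous f := by
  refine (LipschitzWith.of_dist_le_mul (K := ⟨√(Fintype.card (Fin d)), Real.sqrt_nonneg _⟩)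
    fun y y' => ?_).continuous
  rw [Real.dist_eq, dist_eq_norm]
  exact (hf.lip y y').trans (nrm_le_norm _)

theorem BL.pg {f : E d → ℝ} (hf : BL f) : PG f := by
  obtain ⟨C, hC⟩ := hf.bdd
  exact PG.of_bdd hf.continuous.stronglyMeasurable (C := C) hC

theorem abs_avg_sub_le {Ω : Type} [MeasurableSpace Ω] (ν : Measure Ω) [IsProbabilityMeasure ν]
    {f : E d → ℝ} (hf : ∀ y y', |f y - f y'| ≤ nrm (y - y')) {Y : Ω → E d}
    (hi : ∀ y, Integrable (fun ω => f (Y ω + y)) ν) (y y' : E d) :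
    |∫ ω, f (Y ω + y) ∂ν - ∫ ω, f (Y ω + y') ∂ν| ≤ nrm (y - y') := by
  rw [← integral_sub (hi y) (hi y')]
  have h := norm_integral_le_of_norm_le_const (μ := ν) (C := nrm (y - y'))
    (f := fun ω => f (Y ω + y) - f (Y ω + y')) (ae_of_all _ fun ω => by
      simpa using hf (Y ω + y) (Y ω + y'))
  simpa using h

theorem BL.avg' {Ω : Type} [MeasurableSpace Ω] (ν : Measure Ω) [IsProbabilityMeasure ν]
    {f : E d → ℝ} (hf : BL f) {Y : Ω → E d} (hY : Measurable Y) :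
    BL fun y => ∫ ω, f (Y ω + y) ∂ν := by
  obtain ⟨C, hC⟩ := hf.bdd
  refine ⟨⟨C, fun y => ?_⟩, abs_avg_sub_le ν hf.lip fun y => ?_⟩
  · simpa using norm_integral_le_of_norm_le_const (μ := ν) (C := C)
      (f := fun ω => f (Y ω + y)) (ae_of_all _ fun ω => hC _)
  · exact Integrable.of_bound
      (hf.continuous.measurable.comp (hY.add_const y)).aestronglyMeasurable C
      (ae_of_all _ fun ω => hC _)

theorem BL.heat {f : E d → ℝ} (hf : BL f) (ρ : ℝ) : BL (heat ρ f) := by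
  have h := hf.avg' (gam (Fin d)) (Y := fun g => √ρ • g) (by fun_prop)
  have e : R285.heat ρ f = fun y => ∫ g, f (√ρ • g + y) ∂gam (Fin d) := by
    funext y
    simp only [R285.heat, add_comm]
  rwa [e]

theorem BL.shift {f : E d → ℝ} (hf : BL f) (y₀ : E d) : BL fun y => f (y₀ + y) := by
  obtain ⟨C, hC⟩ := hf.bdd
  exact ⟨⟨C, fun y => hC _⟩, fun y y' => by simpa using hf.lip (y₀ + y) (y₀ + y')⟩

theorem BL.avg {Ω : Type} [MeasurableSpace Ω] (ν : Measure Ω) [IsProbabilityMeasure ν]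
    {f : E d → ℝ} (hf : BL f) {Y : Ω → E d} (hY : Measurable Y) :
    BL fun y => ∫ ω, f (Y ω + y) ∂ν := by
  exact hf.avg' ν hY

theorem TF.lip' {f : E d → ℝ} (hf : TF f) (y y' : E d) : |f y - f y'| ≤ nrm (y - y') := by
  simpa using abs_sub_le_of_grad (hf.temp.1.differentiable (by simp)) hf.lip y y'

theorem temp_add_const {ι : Type} [Fintype ι] {G : Type} [NormedAddCommGroup G] [NormedSpace ℝ G]
    {f : E d → G} (hf : f.HasTemperateGrowth) {Y : (ι → ℝ) → E d} (hY : Y.HasTemperateGrowth)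
    (y : E d) : (fun ζ => f (Y ζ + y)).HasTemperateGrowth :=
  hf.comp (hY.add (Function.HasTemperateGrowth.const y))

theorem temp_add_prod {ι : Type} [Fintype ι] {f : E d → ℝ} (hf : f.HasTemperateGrowth)
    {Y : (ι → ℝ) → E d} (hY : Y.HasTemperateGrowth) :
    (fun q : E d × (ι → ℝ) => f (Y q.2 + q.1)).HasTemperateGrowth :=
  hf.comp ((hY.comp (ContinuousLinearMap.snd ℝ (E d) (ι → ℝ)).hasTemperateGrowth).add
    (ContinuousLinearMap.fst ℝ (E d) (ι → ℝ)).hasTemperateGrowth)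

theorem TF.avg' {ι : Type} [Fintype ι] {f : E d → ℝ} (hf : TF f) {Y : (ι → ℝ) → E d}
    (hY : Y.HasTemperateGrowth) : TF fun y => ∫ ζ, f (Y ζ + y) ∂gam ι := by
  refine ⟨temp_integral (temp_add_prod hf.temp hY), nrm_grad_le_of_lip zero_le_one fun y y' => ?_⟩
  rw [one_mul]
  exact abs_avg_sub_le _ hf.lip' (fun y => temp_integrable (temp_add_const hf.temp hY y)) y y'

theorem TF.heat {f : E d → ℝ} (hf : TF f) (ρ : ℝ) : TF (heat ρ f) := by
  have h := hf.avg' (ι := Fin d) (Y := fun g => √ρ • g)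
    (√ρ • ContinuousLinearMap.id ℝ (E d)).hasTemperateGrowth
  have e : R285.heat ρ f = fun y => ∫ g, f (√ρ • g + y) ∂gam (Fin d) := by
    funext y
    simp only [R285.heat, add_comm]
  rwa [e]

theorem TF.shift {f : E d → ℝ} (hf : TF f) (y₀ : E d) : TF fun y => f (y₀ + y) := by
  refine ⟨hf.temp.comp ((Function.HasTemperateGrowth.const y₀).add Function.HasTemperateGrowth.id),
    nrm_grad_le_of_lip zero_le_one fun y y' => ?_⟩
  simpa using hf.lip' (y₀ + y) (y₀ + y')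

theorem TF.avg {ι : Type} [Fintype ι] {f : E d → ℝ} (hf : TF f) {Y : (ι → ℝ) → E d}
    (hY : Y.HasTemperateGrowth) : TF fun y => ∫ ζ, f (Y ζ + y) ∂gam ι := by
  exact hf.avg' hY

theorem grad_avg {ι : Type} [Fintype ι] {f : E d → ℝ} (hf : f.HasTemperateGrowth)
    {Y : (ι → ℝ) → E d} (hY : Y.HasTemperateGrowth) (y : E d) :
    grad (fun y => ∫ ζ, f (Y ζ + y) ∂gam ι) y = ∫ ζ, grad f (Y ζ + y) ∂gam ι := by
  funext i
  rw [eval_integral (f := fun ζ => grad f (Y ζ + y))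
    fun j => temp_integrable (temp_add_const (temp_pd hf j) hY y)]
  refine (fderiv_integral (temp_add_prod hf hY) y (Pi.single i 1)).trans ?_
  refine integral_congr_ae (ae_of_all _ fun ζ => ?_)
  have h1 : HasFDerivAt (fun q : E d × (ι → ℝ) => Y q.2 + q.1)
      ((fderiv ℝ Y ζ).comp (ContinuousLinearMap.snd ℝ (E d) (ι → ℝ)) +
        ContinuousLinearMap.fst ℝ (E d) (ι → ℝ)) (y, ζ) :=
    (HasFDerivAt.comp (y, ζ) (hY.1.differentiable (by simp) ζ).hasFDerivAt hasFDerivAt_snd).add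
      hasFDerivAt_fst
  have h2 := (hf.1.differentiable (by simp) (Y ζ + y)).hasFDerivAt.comp (y, ζ) h1
  have h3 : fderiv ℝ (fun q : E d × (ι → ℝ) => f (Y q.2 + q.1)) (y, ζ) = _ := h2.fderiv
  simp only [h3]
  simp [grad, pd]

/-- averaging the test function commutes with `grad (heat ρ ·)` -/
theorem grad_heat_avg {ι : Type} [Fintype ι] {f : E d → ℝ} (hf : f.HasTemperateGrowth)
    {Y : (ι → ℝ) → E d} (hY : Y.HasTemperateGrowth) (ρ : ℝ) (y : E d) :
    grad (heat ρ fun y => ∫ ζ, f (Y ζ + y) ∂gam ι) y =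
      ∫ ζ, grad (heat ρ f) (Y ζ + y) ∂gam ι := by
  have e : (heat ρ fun y => ∫ ζ, f (Y ζ + y) ∂gam ι) =
      fun y => ∫ ζ, heat ρ f (Y ζ + y) ∂gam ι := by
    funext y
    simp only [heat, add_assoc]
    refine integral_integral_swap (PG.integrable_prod (PG.of_temp ?_))
    exact (temp_add_prod hf hY).comp (temp_prodMk ((Function.HasTemperateGrowth.const y).add
      (√ρ • ContinuousLinearMap.fst ℝ (E d) (ι → ℝ)).hasTemperateGrowth)
      (ContinuousLinearMap.snd ℝ (E d) (ι → ℝ)).hasTemperateGrowth)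
  rw [e, grad_avg (temp_heat hf ρ) hY]

/-- mollification (convolve with a normalised `ContDiffBump`) -/
theorem BL.exists_TF {f : E d → ℝ} (hf : BL f) {ε : ℝ} (hε : 0 < ε) :
    ∃ g, TF g ∧ BL g ∧ ∀ y, |f y - g y| ≤ ε := by
  obtain ⟨C, hC⟩ := hf.bdd
  have hs : (0 : ℝ) ≤ √(Fintype.card (Fin d)) := Real.sqrt_nonneg _
  set r : ℝ := ε / (√(Fintype.card (Fin d)) + 1) with hr
  have hr0 : 0 < r := by positivity
  let φ : ContDiffBump (0 : E d) := ⟨r / 2, r, by positivity, by linarith⟩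
  have hφi : Integrable (φ.normed volume) volume := φ.integrable_normed
  have hi : ∀ y, Integrable (fun t => φ.normed volume t * f (y - t)) volume := fun y =>
    hφi.mul_bdd (hf.continuous.comp (continuous_const.sub continuous_id)).aestronglyMeasurable
      (ae_of_all _ fun t => hC _)
  have hdef : ∀ y, (φ.normed volume ⋆[ContinuousLinearMap.lsmul ℝ ℝ, volume] f) y =
      ∫ t, φ.normed volume t * f (y - t) := fun y => rfl
  have hbd : ∀ (k : E d → ℝ) (c : ℝ), (∀ t, |k t| ≤ c) → |∫ t, φ.normed volume t * k t| ≤ c := by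
    intro k c hk
    have h := norm_integral_le_of_norm_le (f := fun t => φ.normed volume t * k t) (hφi.mul_const c)
      (ae_of_all _ fun t => by
        rw [Real.norm_eq_abs, abs_mul, abs_of_nonneg (φ.nonneg_normed t)]
        exact mul_le_mul_of_nonneg_left (hk t) (φ.nonneg_normed t))
    rwa [integral_mul_const, φ.integral_normed, one_mul] at h
  have hlip : ∀ y y', |(φ.normed volume ⋆[ContinuousLinearMap.lsmul ℝ ℝ, volume] f) y -
      (φ.normed volume ⋆[ContinuousLinearMap.lsmul ℝ ℝ, volume] f) y'| ≤ nrm (y - y') := by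
    intro y y'
    rw [hdef, hdef, ← integral_sub (hi y) (hi y')]
    simp only [← mul_sub]
    exact hbd _ _ fun t => by simpa using hf.lip (y - t) (y' - t)
  refine ⟨φ.normed volume ⋆[ContinuousLinearMap.lsmul ℝ ℝ, volume] f,
    ⟨⟨φ.hasCompactSupport_normed.contDiff_convolution_left _ φ.contDiff_normed
      hf.continuous.locallyIntegrable, fun n => ?_⟩,
      nrm_grad_le_of_lip zero_le_one fun y y' => by simpa using hlip y y'⟩,
    ⟨⟨C, fun y => hbd _ _ fun t => hC _⟩, hlip⟩, fun y => ?_⟩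
  · obtain ⟨B, hB⟩ := HeatB.iteratedFDeriv_conv_bdd hf.continuous hC n ℝ ℝ
      (ContinuousLinearMap.lsmul ℝ ℝ) (φ.normed volume) φ.contDiff_normed
      φ.hasCompactSupport_normed
    exact ⟨0, B, fun x => by simpa using hB x⟩
  · rw [abs_sub_comm, ← Real.dist_eq]
    refine φ.dist_normed_convolution_le hf.continuous.aestronglyMeasurable fun x hx => ?_
    rw [Real.dist_eq]
    refine (hf.lip x y).trans ((nrm_le_norm _).trans ?_)
    have h1 : ‖x - y‖ ≤ r := (mem_ball_iff_norm.1 hx).le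
    calc √(Fintype.card (Fin d)) * ‖x - y‖ ≤ (√(Fintype.card (Fin d)) + 1) * r := by
          gcongr
          linarith
      _ = ε := by rw [hr]; field_simp

/-- it suffices to test against smooth functions -/
theorem near_of_TF {Λ₁ Λ₂ : (E d → ℝ) → ℝ} {ε : ℝ≥0∞}
    (h₁ : ∀ f g c, BL f → BL g → (∀ y, |f y - g y| ≤ c) → |Λ₁ f - Λ₁ g| ≤ c)
    (h₂ : ∀ f g c, BL f → BL g → (∀ y, |f y - g y| ≤ c) → |Λ₂ f - Λ₂ g| ≤ c)
    (h : ∀ f, TF f → BL f → ENNReal.ofReal |Λ₁ f - Λ₂ f| ≤ ε) : Near Λ₁ Λ₂ ε := by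
  intro f hf
  refine ENNReal.le_of_forall_pos_le_add fun c hc _ => ?_
  obtain ⟨g, hg, hg', hfg⟩ := hf.exists_TF (ε := c / 2) (by positivity)
  have a1 := h₁ f g _ hf hg' hfg
  have a2 := h₂ f g _ hf hg' hfg
  have a3 : |Λ₁ f - Λ₂ f| ≤ |Λ₁ g - Λ₂ g| + c := by
    rw [abs_le] at a1 a2 ⊢
    constructor <;> linarith [le_abs_self (Λ₁ g - Λ₂ g), neg_abs_le (Λ₁ g - Λ₂ g)]
  refine (ENNReal.ofReal_le_ofReal a3).trans (ENNReal.ofReal_add_le.trans ?_)
  rw [ENNReal.ofReal_coe_nnreal]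
  gcongr
  exact h g hg hg'

/-- bounded Lipschitz functions with any constant, for laws that are homogeneous in the test
function -/
theorem Near.lip {Λ₁ Λ₂ : (E d → ℝ) → ℝ} {ε : ℝ≥0∞} (h : Near Λ₁ Λ₂ ε)
    (h₁ : ∀ c f, Λ₁ (fun y => c * f y) = c * Λ₁ f) (h₂ : ∀ c f, Λ₂ (fun y => c * f y) = c * Λ₂ f)
    {f : E d → ℝ} {L : ℝ} (hL : 0 < L) (hb : ∃ C, ∀ y, |f y| ≤ C)
    (hf : ∀ y y', |f y - f y'| ≤ L * nrm (y - y')) :
    ENNReal.ofReal |Λ₁ f - Λ₂ f| ≤ ENNReal.ofReal L * ε := by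
  obtain ⟨C, hC⟩ := hb
  have hg : BL fun y => L⁻¹ * f y := by
    refine ⟨⟨L⁻¹ * C, fun y => ?_⟩, fun y y' => ?_⟩
    · rw [abs_mul, abs_of_pos (inv_pos.2 hL)]
      gcongr
      exact hC y
    · rw [← mul_sub, abs_mul, abs_of_pos (inv_pos.2 hL), inv_mul_le_iff₀ hL]
      exact hf y y'
  have e : f = fun y => L * (L⁻¹ * f y) := by
    funext y
    rw [mul_inv_cancel_left₀ hL.ne']
  rw [e, h₁, h₂, ← mul_sub, abs_mul, abs_of_pos hL, ENNReal.ofReal_mul hL.le]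
  gcongr
  exact h _ hg

theorem Near.refl (Λ : (E d → ℝ) → ℝ) (ε : ℝ≥0∞) : Near Λ Λ ε := by
  intro f _
  simp

theorem Near.symm {Λ₁ Λ₂ : (E d → ℝ) → ℝ} {ε : ℝ≥0∞} (h : Near Λ₁ Λ₂ ε) : Near Λ₂ Λ₁ ε := by
  intro f hf
  rw [abs_sub_comm]
  exact h f hf

theorem Near.trans {Λ₁ Λ₂ Λ₃ : (E d → ℝ) → ℝ} {ε ε' : ℝ≥0∞} (h : Near Λ₁ Λ₂ ε)
    (h' : Near Λ₂ Λ₃ ε') : Near Λ₁ Λ₃ (ε + ε') := by
  intro f hf
  exact (ENNReal.ofReal_le_ofReal (abs_sub_le _ (Λ₂ f) _)).trans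
    (ENNReal.ofReal_add_le.trans (add_le_add (h f hf) (h' f hf)))

theorem Near.mono {Λ₁ Λ₂ : (E d → ℝ) → ℝ} {ε ε' : ℝ≥0∞} (h : Near Λ₁ Λ₂ ε) (hε : ε ≤ ε') :
    Near Λ₁ Λ₂ ε' := fun f hf => (h f hf).trans hε

theorem near_heat (ρ : ℝ) (y y' : E d) :
    Near (fun f => heat ρ f y) (fun f => heat ρ f y') (ENNReal.ofReal (nrm (y - y'))) := by
  exact fun f hf => ENNReal.ofReal_le_ofReal ((hf.heat ρ).lip y y')

section CNear
variable {V : Type} [Fintype V] {Λ₁ Λ₂ Λ₃ : Om d V → (E d → ℝ) → ℝ} {ε ε' : ℝ}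

theorem CNear.refl (Λ : Om d V → (E d → ℝ) → ℝ) (ε : ℝ) : CNear Λ Λ ε := by
  exact ⟨fun _ => 0, measurable_const, by simp, fun x => Near.refl _ _⟩

theorem CNear.symm (h : CNear Λ₁ Λ₂ ε) : CNear Λ₂ Λ₁ ε := by
  obtain ⟨r, h1, h2, h3⟩ := h
  exact ⟨r, h1, h2, fun x => (h3 x).symm⟩

theorem CNear.trans (h : CNear Λ₁ Λ₂ ε) (h' : CNear Λ₂ Λ₃ ε') (hε : 0 ≤ ε) (hε' : 0 ≤ ε') :
    CNear Λ₁ Λ₃ (ε + ε') := by
  obtain ⟨r, h1, h2, h3⟩ := h
  obtain ⟨r', h1', h2', h3'⟩ := h'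
  refine ⟨fun x => r x + r' x, h1.add h1', ?_, fun x => (h3 x).trans (h3' x)⟩
  rw [lintegral_add_left h1, ENNReal.ofReal_add hε hε']
  exact add_le_add h2 h2'

theorem CNear.mono (h : CNear Λ₁ Λ₂ ε) (hε : ε ≤ ε') : CNear Λ₁ Λ₂ ε' := by
  obtain ⟨r, h1, h2, h3⟩ := h
  exact ⟨r, h1, h2.trans (ENNReal.ofReal_le_ofReal hε), h3⟩

theorem CNear.congr {Λ₁' Λ₂' : Om d V → (E d → ℝ) → ℝ} (h : CNear Λ₁ Λ₂ ε)
    (h₁ : ∀ x f, BL f → Λ₁ x f = Λ₁' x f) (h₂ : ∀ x f, BL f → Λ₂ x f = Λ₂' x f) :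
    CNear Λ₁' Λ₂' ε := by
  obtain ⟨r, a1, a2, a3⟩ := h
  refine ⟨r, a1, a2, fun x f hf => ?_⟩
  rw [← h₁ x f hf, ← h₂ x f hf]
  exact a3 x f hf

theorem cnear_heat (ρ : ℝ) {m m' : Om d V → E d} (hm : Measurable m) (hm' : Measurable m')
    (h : ∫⁻ x, ENNReal.ofReal (nrm (m x - m' x)) ∂gam (V × Fin d) ≤ ENNReal.ofReal ε) :
    CNear (fun x f => heat ρ f (m x)) (fun x f => heat ρ f (m' x)) ε := by
  exact ⟨_, (measurable_nrm.comp (hm.sub hm')).ennreal_ofReal, h, fun x => near_heat ρ _ _⟩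

theorem cnear_empty {Λ₁ Λ₂ : Om d Empty → (E d → ℝ) → ℝ} :
    CNear Λ₁ Λ₂ ε ↔ ∀ x, Near (Λ₁ x) (Λ₂ x) (ENNReal.ofReal ε) := by
  constructor
  · rintro ⟨r, -, h2, h3⟩ x
    have e : r = fun _ => r x := funext fun y => congrArg r (Subsingleton.elim _ _)
    rw [e, lintegral_const, measure_univ, mul_one] at h2
    exact (h3 x).mono h2
  · exact fun h => ⟨fun _ => ENNReal.ofReal ε, measurable_const, by simp, h⟩

end CNear

/-- total variation from `W₁` after adding noise -/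
theorem abs_heat_sub_le {h : E d → ℝ} (hm : Measurable h) (h0 : ∀ y, 0 ≤ h y) (h1 : ∀ y, h y ≤ 1)
    {ρ : ℝ} (hρ : 0 < ρ) (y y' : E d) : |heat ρ h y - heat ρ h y'| ≤ nrm (y - y') / √ρ := by
  have hs : 0 < √ρ := Real.sqrt_pos.2 hρ
  have h2 := HeatB.abs_integral_add_sub_le ((√ρ)⁻¹ • (y - y')) (k := fun g => h (y' + √ρ • g))
    (hm.comp (by fun_prop)) (fun _ => h0 _) fun _ => h1 _
  have e : ∀ g : E d, y' + √ρ • (g + (√ρ)⁻¹ • (y - y')) = y + √ρ • g := fun g => by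
    rw [smul_add, smul_inv_smul₀ hs.ne']
    abel
  simp only [e] at h2
  rwa [nrm_smul, abs_of_pos (inv_pos.2 hs), ← div_eq_inv_mul] at h2

end Crest.Agent.R285

end
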