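import Crest.Agent.R285.HeatA

/-!
Auxiliary results for `HeatB`: Cameron-Martin formula, derivatives of convolutions.
-/

set_option autoImplicit false

open MeasureTheory ProbabilityTheory Matrix Filter
open scoped ENNReal Convolution

noncomputable section

namespace Crest.Agent.R285.HeatB

/-- the one-dimensional Cameron-Martin density -/
def dens (a x : ℝ) : ℝ := Real.exp (a * x - a ^ 2 / 2)

theorem dens_nonneg (a x : ℝ) : 0 ≤ dens a x := (Real.exp_pos _).le

theorem measurable_dens (a : ℝ) : Measurable (dens a) := by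
  unfold dens
  fun_prop

theorem integrable_dens (a : ℝ) : Integrable (dens a) (gaussianReal 0 1) := by
  have h := (integrable_exp_mul_gaussianReal (μ := 0) (v := 1) a).mul_const (Real.exp (-(a ^ 2 / 2)))
  refine h.congr (ae_of_all _ fun x => ?_)
  simp only [dens, sub_eq_add_neg, Real.exp_add]

theorem gaussianReal_eq_withDensity (a : ℝ) :
    gaussianReal a 1 = (gaussianReal 0 1).withDensity fun x => ENNReal.ofReal (dens a x) := by
  rw [gaussianReal_of_var_ne_zero _ one_ne_zero, gaussianReal_of_var_ne_zero _ one_ne_zero,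
    ← withDensity_mul _ (measurable_gaussianPDF _ _) (measurable_dens a).ennreal_ofReal]
  congr 1
  funext x
  simp only [gaussianPDF, Pi.mul_apply]
  rw [← ENNReal.ofReal_mul (gaussianPDFReal_nonneg _ _ _)]
  congr 1
  simp only [gaussianPDFReal, dens, mul_assoc, ← Real.exp_add]
  congr 2
  simp
  ring

variable {ι : Type} [Fintype ι]

/-- the Cameron-Martin density -/
def Dens (m x : ι → ℝ) : ℝ := ∏ i, dens (m i) (x i)

theorem Dens_nonneg (m x : ι → ℝ) : 0 ≤ Dens m x :=
  Finset.prod_nonneg fun _ _ => (Real.exp_pos _).le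

theorem measurable_Dens (m : ι → ℝ) : Measurable (Dens m) :=
  Finset.measurable_prod _ fun i _ => (measurable_dens _).comp (measurable_pi_apply i)

theorem integrable_Dens (m : ι → ℝ) : Integrable (Dens m) (gam ι) :=
  Integrable.fintype_prod (f := fun i => dens (m i)) fun i => integrable_dens (m i)

theorem map_add_gam (m : ι → ℝ) :
    (gam ι).map (fun x => x + m) = (gam ι).withDensity fun x => ENNReal.ofReal (Dens m x) := by
  have h1 : (gam ι).map (fun x => x + m) = Measure.pi fun i => gaussianReal (m i) 1 := by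
    refine (measurePreserving_pi (fun _ => gaussianReal 0 1) (fun i => gaussianReal (m i) 1)
      (f := fun i x => x + m i) fun i => ⟨by fun_prop, ?_⟩).map_eq
    rw [gaussianReal_map_add_const, zero_add]
  rw [h1]
  refine Measure.pi_eq fun s hs => ?_
  rw [withDensity_apply _ (MeasurableSet.univ_pi hs), ← ofReal_integral_eq_lintegral_ofReal
    (integrable_Dens m).integrableOn (ae_of_all _ (Dens_nonneg m)), gam, Measure.restrict_pi_pi]
  unfold Dens
  rw [integral_fintype_prod_eq_prod (fun i => dens (m i)), ENNReal.ofReal_prod_of_nonneg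
    fun i _ => integral_nonneg (dens_nonneg (m i))]
  refine Finset.prod_congr rfl fun i _ => ?_
  rw [gaussianReal_eq_withDensity (m i), withDensity_apply _ (hs i),
    ofReal_integral_eq_lintegral_ofReal (integrable_dens _).integrableOn
      (ae_of_all _ (dens_nonneg _))]

theorem integral_add_gam (m : ι → ℝ) {k : (ι → ℝ) → ℝ} (hk : Measurable k) :
    ∫ x, k (x + m) ∂gam ι = ∫ x, Dens m x * k x ∂gam ι := by
  rw [← integral_map (φ := fun x => x + m) (by fun_prop) hk.aestronglyMeasurable, map_add_gam,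
    integral_withDensity_eq_integral_toReal_smul (measurable_Dens m).ennreal_ofReal
      (ae_of_all _ fun _ => ENNReal.ofReal_lt_top)]
  simp only [ENNReal.toReal_ofReal (Dens_nonneg m _), smul_eq_mul]

theorem integral_Dens (m : ι → ℝ) : ∫ x, Dens m x ∂gam ι = 1 := by
  simpa using (integral_add_gam m (k := fun _ => 1) measurable_const).symm

theorem Dens_sq (m x : ι → ℝ) : Dens m x ^ 2 = Real.exp (nrm m ^ 2) * Dens ((2 : ℝ) • m) x := by
  simp only [Dens, dens, ← Real.exp_sum, nrm_sq, ← Real.exp_add, ← Real.exp_nat_mul,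
    ← Finset.sum_add_distrib, Finset.mul_sum, Pi.smul_apply, smul_eq_mul]
  congr 1
  refine Finset.sum_congr rfl fun i _ => ?_
  push_cast
  ring

/-- total variation between shifted Gaussians -/
theorem abs_integral_add_sub_le (m : ι → ℝ) {k : (ι → ℝ) → ℝ} (hk : Measurable k)
    (h0 : ∀ x, 0 ≤ k x) (h1 : ∀ x, k x ≤ 1) :
    |∫ x, k (x + m) ∂gam ι - ∫ x, k x ∂gam ι| ≤ nrm m := by
  have hb : ∀ x, ‖k x‖ ≤ 1 := fun x => by rw [Real.norm_eq_abs, abs_of_nonneg (h0 x)]; exact h1 x
  have hki : Integrable k (gam ι) :=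
    Integrable.of_bound hk.aestronglyMeasurable 1 (ae_of_all _ hb)
  rcases le_total 1 (nrm m) with ht | ht
  · have a1 : 0 ≤ ∫ x, k (x + m) ∂gam ι := integral_nonneg fun x => h0 _
    have a2 : 0 ≤ ∫ x, k x ∂gam ι := integral_nonneg h0
    have a3 := norm_integral_le_of_norm_le_const (μ := gam ι) (ae_of_all _ fun x => hb (x + m))
    have a4 := norm_integral_le_of_norm_le_const (μ := gam ι) (ae_of_all _ hb)
    simp only [Real.norm_eq_abs, abs_of_nonneg a1, abs_of_nonneg a2, probReal_univ,
      mul_one] at a3 a4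
    rw [abs_le]
    constructor <;> linarith
  rcases (nrm_nonneg m).eq_or_lt with ht0 | ht0
  · have : m = 0 := norm_le_zero_iff.1 (ht0 ▸ norm_le_nrm m)
    simp [this, nrm_zero]
  set t := nrm m with ht_def
  have hD := integrable_Dens m
  have hDk : Integrable (fun x => Dens m x * k x) (gam ι) :=
    hD.mul_bdd hk.aestronglyMeasurable (ae_of_all _ hb)
  have e1 : ∫ x, k (x + m) ∂gam ι - ∫ x, k x ∂gam ι =
      ∫ x, (Dens m x * k x - k x - (Dens m x - 1) / 2) ∂gam ι := by
    rw [integral_sub, integral_sub hDk hki,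
      integral_div, integral_sub hD (integrable_const 1), integral_Dens, integral_add_gam m hk]
    · simp
    · exact hDk.sub hki
    · exact (hD.sub (integrable_const 1)).div_const 2
  have hD2 := (integrable_Dens ((2 : ℝ) • m)).const_mul (Real.exp (t ^ 2))
  have hbi : Integrable (fun x => (Real.exp (t ^ 2) * Dens ((2 : ℝ) • m) x - 2 * Dens m x + 1) /
      (8 * t) + t / 2) (gam ι) :=
    (((hD2.sub (hD.const_mul 2)).add (integrable_const 1)).div_const _).add (integrable_const _)
  rw [e1, ← Real.norm_eq_abs]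
  refine (norm_integral_le_of_norm_le hbi (ae_of_all _ fun x => ?_)).trans ?_
  · rw [← Dens_sq, Real.norm_eq_abs]
    have e2 : Dens m x * k x - k x - (Dens m x - 1) / 2 = (k x - 1 / 2) * (Dens m x - 1) := by ring
    have e3 : Dens m x ^ 2 - 2 * Dens m x + 1 = |Dens m x - 1| ^ 2 := by
      rw [sq_abs]
      ring
    have e4 : |k x - 1 / 2| ≤ 1 / 2 := by
      rw [abs_le]
      constructor <;> linarith [h0 x, h1 x]
    rw [e2, e3, abs_mul, div_add' _ _ _ (by positivity), le_div_iff₀ (by positivity)]
    have e5 := mul_le_mul_of_nonneg_right e4 (abs_nonneg (Dens m x - 1))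
    nlinarith [sq_nonneg (|Dens m x - 1| - 2 * t), mul_le_mul_of_nonneg_right e5 ht0.le]
  · have i1 : Integrable (fun x => Real.exp (t ^ 2) * Dens ((2 : ℝ) • m) x - 2 * Dens m x)
        (gam ι) := hD2.sub (hD.const_mul 2)
    have i2 : Integrable (fun x => Real.exp (t ^ 2) * Dens ((2 : ℝ) • m) x - 2 * Dens m x + 1)
        (gam ι) := i1.add (integrable_const 1)
    rw [integral_add (i2.div_const _) (integrable_const _), integral_div, integral_add i1
      (integrable_const 1), integral_sub hD2 (hD.const_mul 2), integral_const_mul,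
      integral_const_mul, integral_Dens, integral_Dens]
    simp only [integral_const, probReal_univ, smul_eq_mul, one_mul, mul_one]
    have e6 := Real.abs_exp_sub_one_le (x := t ^ 2) (by rw [abs_of_nonneg (sq_nonneg t)]; nlinarith)
    rw [abs_of_nonneg (sq_nonneg t)] at e6
    have e7 := (le_abs_self _).trans e6
    rw [div_add' _ _ _ (by positivity), div_le_iff₀ (by positivity)]
    nlinarith

/-- all derivatives of the convolution of a test function with a bounded function are bounded -/
theorem iteratedFDeriv_conv_bdd {f : (ι → ℝ) → ℝ} (hf : Continuous f) {C : ℝ} (hC : ∀ y, |f y| ≤ C)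
    (n : ℕ) : ∀ (G H : Type) [NormedAddCommGroup G] [NormedSpace ℝ G] [NormedAddCommGroup H]
      [NormedSpace ℝ H] [CompleteSpace H] (L : G →L[ℝ] ℝ →L[ℝ] H) (φ : (ι → ℝ) → G),
      ContDiff ℝ (⊤ : ℕ∞) φ → HasCompactSupport φ →
      ∃ B, ∀ x, ‖iteratedFDeriv ℝ n (φ ⋆[L, volume] f) x‖ ≤ B := by
  induction n with
  | zero =>
    intro G H _ _ _ _ _ L φ hφ hc
    refine ⟨∫ t, ‖L‖ * ‖φ t‖ * C, fun x => ?_⟩
    rw [norm_iteratedFDeriv_zero, convolution_def]
    refine norm_integral_le_of_norm_le (((hφ.continuous.integrable_of_hasCompactSupport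
      hc).norm.const_mul _).mul_const _) (ae_of_all _ fun t => ?_)
    refine (L.le_opNorm₂ _ _).trans ?_
    gcongr
    exact hC _
  | succ n ih =>
    intro G H _ _ _ _ _ L φ hφ hc
    obtain ⟨B, hB⟩ := ih _ _ (L.precompL (ι → ℝ)) (fderiv ℝ φ)
      (hφ.fderiv_right (by simp)) (hc.fderiv ℝ)
    refine ⟨B, fun x => ?_⟩
    have e : fderiv ℝ (φ ⋆[L, volume] f) = fderiv ℝ φ ⋆[L.precompL (ι → ℝ), volume] f :=
      funext fun y => (hc.hasFDerivAt_convolution_left L (hφ.of_le (by exact_mod_cast le_top))
        hf.locallyIntegrable y).fderiv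
    rw [← norm_iteratedFDeriv_fderiv, e]
    exact hB x

end Crest.Agent.R285.HeatB

end
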