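import Crest.Agent.R285.HeatCAux

/-!
Smoothing estimates and first-order symbols.
-/

set_option autoImplicit false

open MeasureTheory ProbabilityTheory Matrix Filter
open scoped ENNReal

noncomputable section

namespace Crest.Agent.R285

variable {d : ℕ} {F : Type} [NormedAddCommGroup F] [NormedSpace ℝ F] [CompleteSpace F]

/-! ### smoothing estimates

Split the Gaussian into independent pieces \`g = (g₁ + ⋯ + g_r)/√r\` (\`heat_lin\`) and integrate by
parts once in each piece (\`heat_app\`). -/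

/-- integration by parts in `r` independent visible leaves -/
theorem heat_app {S : Type} [Fintype S] [DecidableEq S] {f : E d → ℝ} (hf : f.HasTemperateGrowth)
    {ρ : ℝ} (hρ : 0 ≤ ρ) (c : ℝ) (T : Ten d (Option S)) (y : E d) :
    ∫ Z, grad (heat ρ f) (y + lin (fun _ => c) Z) ⬝ᵥ app T (fun s i => Z (s, i)) ∂gam (S × Fin d) =
      c ^ Fintype.card S * (jet (heat (ρ + c ^ 2 * Fintype.card S) f) y ⬝ᵥ T) := by
  have hint : ∀ (k : Fin d) (i : S → Fin d), Integrable (fun Z : Om d S =>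
      T (oc k i) * (heat ρ (pd k f) (y + lin (fun _ => c) Z) * ∏ s, Z (s, i s)))
      (gam (S × Fin d)) := fun k i =>
    (temp_integrable ((HC.temp_aff (temp_heat (temp_pd hf k) ρ) y _).fun_mul
      (HC.temp_finprod _ fun s _ => HC.temp_coord _))).const_mul _
  have h2 : ∀ Z : Om d S,
      grad (heat ρ f) (y + lin (fun _ => c) Z) ⬝ᵥ app T (fun s i => Z (s, i)) =
      ∑ k, ∑ i : S → Fin d,
        T (oc k i) * (heat ρ (pd k f) (y + lin (fun _ => c) Z) * ∏ s, Z (s, i s)) := by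
    intro Z
    refine Finset.sum_congr rfl fun k _ => ?_
    simp only [grad, pd_heat hf, app, Finset.mul_sum]
    exact Finset.sum_congr rfl fun i _ => by ring
  simp only [h2]
  rw [integral_finsetSum _ fun k _ => integrable_finsetSum _ fun i _ => hint k i, dotProduct,
    sum_option, Finset.mul_sum]
  refine Finset.sum_congr rfl fun k _ => ?_
  rw [integral_finsetSum _ fun i _ => hint k i, Finset.mul_sum]
  refine Finset.sum_congr rfl fun i _ => ?_
  rw [integral_const_mul, HC.stein_heat (temp_pd hf k) hρ, ← pd_heat hf, jet_pd (temp_heat hf _).1]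
  ring

theorem HC.key_one {S : Type} [Fintype S] [DecidableEq S] {f : E d → ℝ} (hf : TF f)
    {ρ : ℝ} (hρ : 0 ≤ ρ) (c : ℝ) (T : Ten d (Option S)) (y : E d) :
    |c ^ Fintype.card S * (jet (heat (ρ + c ^ 2 * Fintype.card S) f) y ⬝ᵥ T)| ≤ nrm T := by
  rw [← heat_app hf.temp hρ]
  have h1 := temp_integrable (HC.temp_nrm_sq (HC.temp_app_ren T fun s => s))
  have h2 := integral_nrm_app_sq T
  have h3 : ∀ Z : Om d S,
      |grad (heat ρ f) (y + lin (fun _ => c) Z) ⬝ᵥ app T (fun s i => Z (s, i))| ≤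
        1 * 1 * nrm (app T fun s i => Z (s, i)) := by
    intro Z
    refine (abs_dot_le _ _).trans ?_
    rw [one_mul]
    exact mul_le_mul_of_nonneg_right ((hf.heat _).lip _) (nrm_nonneg _)
  have h4 := HC.abs_integral_le (μ := gam (S × Fin d)) (U := fun _ => 1) (a := 1) zero_le_one
    zero_le_one (nrm_nonneg T) h3 (integrable_const _) h1 (by simp) h2
  rwa [one_mul, one_mul] at h4

theorem nrm_jet_heat_le (r : ℕ) : ∃ C : ℝ, 1 ≤ C ∧ ∀ (d : ℕ) (S : Type) [Fintype S] [DecidableEq S]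
    [Nonempty S], Fintype.card S ≤ r → ∀ f : E d → ℝ, TF f → ∀ ρ : ℝ, 1 ≤ ρ → ∀ y,
      nrm (jet (heat ρ f) y : Ten d S) ≤ C := by
  have hr : (1 : ℝ) ≤ r + 1 := by linarith [Nat.cast_nonneg (α := ℝ) r]
  refine ⟨(r + 1) ^ r, one_le_pow₀ hr, ?_⟩
  intro d S _ _ _ hS f hf ρ hρ y
  obtain ⟨s₀⟩ := ‹Nonempty S›
  have hm : Fintype.card {s // s ≠ s₀} ≤ r := (Fintype.card_subtype_le _).trans hS
  rw [← jet_reix (temp_heat hf.temp ρ).1 (Equiv.optionSubtypeNe s₀), nrm_reix]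
  refine nrm_le_of_dot (by positivity) fun T => ?_
  set m := Fintype.card {s // s ≠ s₀} with hm0
  have hm' : (m : ℝ) ≤ r := by exact_mod_cast hm
  set c : ℝ := 1 / (r + 1) with hc
  have hc0 : 0 < c := by positivity
  have hcm : c ^ 2 * m ≤ 1 := by
    rw [hc, div_pow, one_pow, div_mul_eq_mul_div, div_le_one (by positivity)]
    nlinarith
  have h2 := HC.key_one hf (ρ := ρ - c ^ 2 * m) (by linarith) c T y
  rw [← hm0, sub_add_cancel] at h2
  have h3 := (le_abs_self _).trans h2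
  have h4 : (r + 1 : ℝ) ^ m * c ^ m = 1 := by
    rw [← mul_pow, hc, mul_one_div_cancel (by positivity), one_pow]
  have h5 : (r + 1 : ℝ) ^ m ≤ (r + 1) ^ r := pow_le_pow_right₀ hr hm
  have h6 := mul_le_mul_of_nonneg_left h3 (show (0 : ℝ) ≤ (r + 1) ^ m by positivity)
  rw [← mul_assoc, h4, one_mul, dotProduct_comm] at h6
  exact h6.trans (mul_le_mul_of_nonneg_right h5 (nrm_nonneg T))

/-- A Hessian bound gives all flattenings after smoothing: for a bipartition \`A ⊕ B\` pick one slot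
on each side for the Hessian and integrate by parts in the others. -/
theorem opN_jet_heat_le (r : ℕ) : ∃ C : ℝ, 1 ≤ C ∧ ∀ (d : ℕ) (S : Type) [Fintype S],
    Fintype.card S ≤ r → ∀ f : E d → ℝ, f.HasTemperateGrowth → ∀ δ : ℝ, 0 ≤ δ →
      (∀ y, opN (jet f y : Ten d (Option Unit)) ≤ δ) → ∀ ρ : ℝ, 0 < ρ → ∀ y,
      opN (jet (heat ρ f) y : Ten d S) ≤ C * δ / √ρ ^ (Fintype.card S - 2) := by
  have hr : (1 : ℝ) ≤ r + 1 := by linarith [Nat.cast_nonneg (α := ℝ) r]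
  refine ⟨(r + 1) ^ r, one_le_pow₀ hr, ?_⟩
  intro d S _ hS f hf δ hδ h ρ hρ y
  have hsq : 0 < √ρ := Real.sqrt_pos.2 hρ
  refine opN_le (by positivity) ?_
  intro A B _ _ _ _ _ _ e u w
  obtain ⟨a₀⟩ := ‹Nonempty A›
  obtain ⟨b₀⟩ := ‹Nonempty B›
  let A' := {s // s ≠ a₀}
  let B' := {s // s ≠ b₀}
  let eA : A ≃ Option A' := (Equiv.optionSubtypeNe a₀).symm
  let eB : B ≃ Option B' := (Equiv.optionSubtypeNe b₀).symm
  have hcard : Fintype.card S - 2 = Fintype.card (A' ⊕ B') := by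
    rw [Fintype.card_congr (e.trans (eA.sumCongr eB))]
    simp only [Fintype.card_sum, Fintype.card_option]
    omega
  rw [hcard]
  set m := Fintype.card (A' ⊕ B') with hm0
  have hm : m ≤ r := by omega
  have hm' : (m : ℝ) ≤ r := by exact_mod_cast hm
  set c : ℝ := √ρ / (r + 1) with hc
  have hcm : c ^ 2 * m ≤ ρ := by
    rw [hc, div_pow, Real.sq_sqrt hρ.le, div_mul_eq_mul_div, div_le_iff₀ (by positivity)]
    exact mul_le_mul_of_nonneg_left (by nlinarith) hρ.le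
  have h1 := HC.key_two hf hδ h (ρ := ρ - c ^ 2 * m) (by linarith) c y (reix eA u) (reix eB w)
  rw [← hm0, sub_add_cancel, nrm_reix, nrm_reix] at h1
  have h2 : ∑ i : A → Fin d, ∑ j : B → Fin d,
      (jet (heat ρ f) y : Ten d S) (fun s => Sum.elim i j (e s)) * u i * w j =
      ∑ i, ∑ j, (jet (heat ρ f) y : Ten d (Option A' ⊕ Option B')) (Sum.elim i j) *
        reix eA u i * reix eB w j := by
    rw [HC.sum_reix eA]
    refine Finset.sum_congr rfl fun i _ => ?_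
    rw [HC.sum_reix eB]
    refine Finset.sum_congr rfl fun j _ => ?_
    rw [← jet_reix (temp_heat hf ρ).1 (e.trans (eA.sumCongr eB)) y]
    unfold reix
    congr 3
    funext s
    simp only [Equiv.trans_apply]
    rcases e s with a | b <;> rfl
  rw [h2]
  rw [abs_mul, abs_of_nonneg (by positivity : (0 : ℝ) ≤ c ^ m)] at h1
  have h4 : (r + 1 : ℝ) ^ m / √ρ ^ m * c ^ m = 1 := by
    rw [← div_pow, ← mul_pow, hc]
    have : (r + 1 : ℝ) / √ρ * (√ρ / (r + 1)) = 1 := by field_simp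
    rw [this, one_pow]
  have h5 : (r + 1 : ℝ) ^ m ≤ (r + 1) ^ r := pow_le_pow_right₀ hr hm
  have h6 := mul_le_mul_of_nonneg_left h1 (show (0 : ℝ) ≤ (r + 1) ^ m / √ρ ^ m by positivity)
  rw [← mul_assoc, h4, one_mul] at h6
  refine h6.trans ?_
  have h7 : 0 ≤ δ * nrm u * nrm w / √ρ ^ m :=
    div_nonneg (mul_nonneg (mul_nonneg hδ (nrm_nonneg u)) (nrm_nonneg w)) (by positivity)
  calc (r + 1 : ℝ) ^ m / √ρ ^ m * (δ * nrm u * nrm w)
      = (r + 1 : ℝ) ^ m * (δ * nrm u * nrm w / √ρ ^ m) := by ring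
    _ ≤ (r + 1 : ℝ) ^ r * (δ * nrm u * nrm w / √ρ ^ m) := mul_le_mul_of_nonneg_right h5 h7
    _ = _ := by ring

/-! ### first-order symbols -/

section Sym
variable {V V' : Type} [Fintype V] [Fintype V']

theorem abs_sym_le {f : E d → ℝ} (hf : TF f) (ρ : ℝ) (α : V → ℝ) (Λ : Om d V → E d) :
    ENNReal.ofReal |sym ρ f α Λ| ≤ ∫⁻ ξ, ENNReal.ofReal (nrm (Λ ξ)) ∂gam (V × Fin d) := by
  rw [← Real.enorm_eq_ofReal_abs]
  refine (enorm_integral_le_lintegral_enorm _).trans (lintegral_mono fun ξ => ?_)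
  rw [Real.enorm_eq_ofReal_abs]
  refine ENNReal.ofReal_le_ofReal ((abs_dot_le _ _).trans ?_)
  exact mul_le_of_le_one_left (nrm_nonneg _) ((hf.heat _).lip _)

theorem sym_sum {κ : Type} (s : Finset κ) {f : E d → ℝ} (hf : f.HasTemperateGrowth) (ρ : ℝ)
    (α : V → ℝ) (c : κ → ℝ) {Λ : κ → Om d V → E d} (hΛ : ∀ k ∈ s, (Λ k).HasTemperateGrowth) :
    sym ρ f α (fun ξ => ∑ k ∈ s, c k • Λ k ξ) = ∑ k ∈ s, c k * sym ρ f α (Λ k) := by
  unfold sym
  simp only [dotProduct_sum, dotProduct_smul, smul_eq_mul]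
  have h1 : ∀ k ∈ s, Integrable (fun ξ : Om d V =>
      c k * grad (heat (ρ - α ⬝ᵥ α) f) (lin α ξ) ⬝ᵥ Λ k ξ) (gam (V × Fin d)) := fun k hk =>
    (temp_integrable (temp_dot
      ((temp_grad (temp_heat hf _)).comp (temp_lin α)) (hΛ k hk))).const_mul _
  rw [integral_finsetSum _ h1]
  simp only [integral_const_mul]

/-- unused visible seeds can be returned to the reservoir -/
theorem sym_pad {f : E d → ℝ} (hf : f.HasTemperateGrowth) {ρ : ℝ} (α : V → ℝ) (α' : V' → ℝ)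
    (hρ : α ⬝ᵥ α + α' ⬝ᵥ α' ≤ ρ) {Λ : Om d V → E d} (hΛ : Λ.HasTemperateGrowth) :
    sym ρ f (Sum.elim α α') (fun ξ => Λ (ren Sum.inl ξ)) = sym ρ f α Λ := by
  unfold sym
  have hαα : Sum.elim α α' ⬝ᵥ Sum.elim α α' = α ⬝ᵥ α + α' ⬝ᵥ α' := by
    simp [dotProduct]
  have h1 : (fun ξ : Om d (V ⊕ V') => grad (heat (ρ - (α ⬝ᵥ α + α' ⬝ᵥ α')) f)
      (lin (Sum.elim α α') ξ) ⬝ᵥ Λ (ren Sum.inl ξ)).HasTemperateGrowth :=
    temp_dot ((temp_grad (temp_heat hf _)).comp (temp_lin _)) (hΛ.comp (temp_ren _))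
  rw [hαα, integral_join (PG.of_temp h1)]
  refine integral_congr_ae (Eventually.of_forall fun x => ?_)
  simp only [lin_join, ren_inl_join]
  rw [HC.integral_dot_right (temp_integrable (HC.temp_aff (temp_grad (temp_heat hf _)) _ _)),
    grad_heat hf, heat_lin (PG.of_temp (temp_grad hf)) (by linarith), grad_heat hf]
  congr 2
  ring

theorem sym_equiv (e : V ≃ V') (ρ : ℝ) (f : E d → ℝ) (α : V' → ℝ) (Λ : Om d V → E d) :
    sym ρ f α (fun ξ => Λ (ren e ξ)) = sym ρ f (fun v => α (e v)) Λ := by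
  unfold sym
  have h1 : (fun v => α (e v)) ⬝ᵥ (fun v => α (e v)) = α ⬝ᵥ α :=
    Equiv.sum_comp e fun v => α v * α v
  rw [h1, ← (mp_ren (d := d) e e.injective).integral_comp (HC.renE e).measurableEmbedding]
  refine integral_congr_ae (Eventually.of_forall fun ξ => ?_)
  have h2 : lin α ξ = lin (fun v => α (e v)) (ren e ξ) := by
    funext i
    exact (Equiv.sum_comp e fun v => α v * ξ (v, i)).symm
  simp only [h2]

theorem sym_pad' {f : E d → ℝ} (hf : f.HasTemperateGrowth) {ρ : ℝ} (α : V → ℝ) (α' : V' → ℝ)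
    (hρ : α ⬝ᵥ α + α' ⬝ᵥ α' ≤ ρ) {Λ : Om d V' → E d} (hΛ : Λ.HasTemperateGrowth) :
    sym ρ f (Sum.elim α α') (fun ξ => Λ (ren Sum.inr ξ)) = sym ρ f α' Λ := by
  have h1 := sym_equiv (Equiv.sumComm V' V) ρ f (Sum.elim α α') (fun ξ => Λ (ren Sum.inl ξ))
  have h2 : (fun v => Sum.elim α α' (Equiv.sumComm V' V v)) = Sum.elim α' α := by
    funext v
    cases v <;> rfl
  rw [h2, sym_pad hf α' α (by linarith) hΛ] at h1
  exact h1

theorem sym_avg {ι : Type} [Fintype ι] {f : E d → ℝ} (hf : f.HasTemperateGrowth)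
    {Y : (ι → ℝ) → E d} (hY : Y.HasTemperateGrowth) (ρ : ℝ) (α : V → ℝ) {Λ : Om d V → E d}
    (hΛ : Λ.HasTemperateGrowth) :
    sym ρ (fun y => ∫ ζ, f (Y ζ + y) ∂gam ι) α Λ =
      ∫ ζ, sym ρ (fun y => f (Y ζ + y)) α Λ ∂gam ι := by
  unfold sym
  have h1 : ∀ ζ, heat (ρ - α ⬝ᵥ α) (fun y => f (Y ζ + y)) =
      fun y => heat (ρ - α ⬝ᵥ α) f (Y ζ + y) := fun ζ => funext fun y => heat_shift _ _ _ _
  simp only [grad_heat_avg hf hY, h1, HC.grad_shift]
  have hg := temp_grad (temp_heat hf (ρ - α ⬝ᵥ α))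
  have hfst : (Prod.fst : Om d V × (ι → ℝ) → Om d V).HasTemperateGrowth :=
    (ContinuousLinearMap.fst ℝ (Om d V) (ι → ℝ)).hasTemperateGrowth
  have hsnd : (Prod.snd : Om d V × (ι → ℝ) → ι → ℝ).HasTemperateGrowth :=
    (ContinuousLinearMap.snd ℝ (Om d V) (ι → ℝ)).hasTemperateGrowth
  have h2 : (fun z : Om d V × (ι → ℝ) =>
      grad (heat (ρ - α ⬝ᵥ α) f) (Y z.2 + lin α z.1) ⬝ᵥ Λ z.1).HasTemperateGrowth :=
    temp_dot (hg.comp ((hY.comp hsnd).fun_add ((temp_lin α).comp hfst))) (hΛ.comp hfst)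
  rw [← integral_integral_swap (PG.integrable_prod (PG.of_temp h2))]
  refine integral_congr_ae (Eventually.of_forall fun ξ => ?_)
  exact (HC.integral_dot_right (temp_integrable
    (hg.comp (hY.fun_add (Function.HasTemperateGrowth.const _)))) _).symm

theorem sym_zero {f : E d → ℝ} (hf : f.HasTemperateGrowth) (ρ : ℝ) {Λ : Om d V → E d}
    (hΛ : Λ.HasTemperateGrowth) :
    sym ρ f (fun _ => 0) Λ = grad (heat ρ f) 0 ⬝ᵥ ∫ ξ, Λ ξ ∂gam (V × Fin d) := by
  unfold sym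
  have h1 : (fun _ : V => (0 : ℝ)) ⬝ᵥ (fun _ : V => (0 : ℝ)) = 0 := by simp [dotProduct]
  have h2 : ∀ ξ : Om d V, lin (fun _ : V => (0 : ℝ)) ξ = 0 := fun ξ => by
    funext i
    simp [lin]
  simp only [h1, h2, sub_zero]
  exact HC.integral_dot_left (temp_integrable hΛ) _

theorem sym_app {S : Type} [Fintype S] [DecidableEq S] {f : E d → ℝ} (hf : f.HasTemperateGrowth)
    {ρ : ℝ} (hρ : (Fintype.card S : ℝ) ≤ ρ) (T : Ten d (Option S)) :
    sym ρ f (fun _ : S => 1) (fun Z => app T fun s i => Z (s, i)) = jet (heat ρ f) 0 ⬝ᵥ T := by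
  unfold sym
  have h1 : (fun _ : S => (1 : ℝ)) ⬝ᵥ (fun _ : S => (1 : ℝ)) = Fintype.card S := by
    simp [dotProduct]
  have h2 := heat_app hf (ρ := ρ - Fintype.card S) (by linarith) 1 T 0
  simp only [zero_add, one_pow, one_mul, sub_add_cancel] at h2
  rw [h1, h2]

end Sym

end Crest.Agent.R285

end
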