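import Crest.Agent.R285.HeatB

/-!
Auxiliary lemmas for `HeatC`: repeated Stein identity, Cauchy-Schwarz, integrals of dot products.
-/

set_option autoImplicit false

open MeasureTheory ProbabilityTheory Matrix Filter
open scoped ENNReal

noncomputable section

namespace Crest.Agent.R285

namespace HC

variable {d : ℕ}

theorem temp_coord {ι : Type} [Fintype ι] (i : ι) :
    (fun x : ι → ℝ => x i).HasTemperateGrowth :=
  (ContinuousLinearMap.proj (R := ℝ) (φ := fun _ : ι => ℝ) i).hasTemperateGrowth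

theorem temp_listprod {ι : Type} [Fintype ι] (l : List ι) :
    (fun x : ι → ℝ => (l.map x).prod).HasTemperateGrowth := by
  induction l with
  | nil => simp
  | cons a l ih =>
    simp only [List.map_cons, List.prod_cons]
    exact (temp_coord a).fun_mul ih

theorem temp_finprod {X κ : Type} [NormedAddCommGroup X] [NormedSpace ℝ X] (s : Finset κ)
    {f : κ → X → ℝ} (hf : ∀ k ∈ s, (f k).HasTemperateGrowth) :
    (fun x => ∏ k ∈ s, f k x).HasTemperateGrowth := by
  classical
  induction s using Finset.induction_on with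
  | empty => simp
  | insert a s ha ih =>
    simp only [Finset.prod_insert ha]
    exact (hf a (Finset.mem_insert_self _ _)).fun_mul
      (ih fun k hk => hf k (Finset.mem_insert_of_mem hk))

theorem temp_aff {V F : Type} [Fintype V] [NormedAddCommGroup F] [NormedSpace ℝ F] {g : E d → F}
    (hg : g.HasTemperateGrowth) (y : E d) (a : V → ℝ) :
    (fun Z : Om d V => g (y + lin a Z)).HasTemperateGrowth :=
  hg.comp ((Function.HasTemperateGrowth.const y).fun_add (temp_lin a))

theorem lin_add_single {S : Type} [Fintype S] [DecidableEq S] (c : ℝ) (Z : Om d S) (t : ℝ) (a : S)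
    (k : Fin d) :
    lin (fun _ => c) (Z + t • (Pi.single (a, k) 1 : Om d S)) =
      lin (fun _ => c) Z + t • (c • (Pi.single k 1 : E d)) := by
  funext j
  simp only [lin, Pi.add_apply, Pi.smul_apply, smul_eq_mul, mul_add, Finset.sum_add_distrib,
    Pi.single_apply, Prod.mk.injEq]
  congr 1
  by_cases hj : j = k
  · simp [hj, mul_comm]
  · simp [hj]

theorem pd_aff_mul {S : Type} [Fintype S] [DecidableEq S] {g : E d → ℝ}
    (hg : g.HasTemperateGrowth) (c : ℝ) (y : E d) (l : List (S × Fin d)) (a : S) (k : Fin d)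
    (ha : (a, k) ∉ l) (Z : Om d S) :
    pd (a, k) (fun Z : Om d S => g (y + lin (fun _ => c) Z) * (l.map Z).prod) Z =
      c * (pd k g (y + lin (fun _ => c) Z) * (l.map Z).prod) := by
  have hF : (fun Z : Om d S => g (y + lin (fun _ => c) Z) * (l.map Z).prod).HasTemperateGrowth :=
    (temp_aff hg y _).fun_mul (temp_listprod l)
  have hgd : Differentiable ℝ g := hg.1.differentiable (by simp)
  unfold pd
  rw [← (hF.1.differentiable (by simp) Z).lineDeriv_eq_fderiv]
  have h1 : HasDerivAt (fun t : ℝ => g (y + lin (fun _ => c) Z + t • (c • (Pi.single k 1 : E d))))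
      (fderiv ℝ g (y + lin (fun _ => c) Z) (c • (Pi.single k 1 : E d))) 0 :=
    (hgd _).hasFDerivAt.hasLineDerivAt _
  have h2 := h1.mul_const (l.map Z).prod
  have h3 : (fun t : ℝ => g (y + lin (fun _ => c) (Z + t • (Pi.single (a, k) 1 : Om d S))) *
      (l.map (Z + t • (Pi.single (a, k) 1 : Om d S))).prod) =
      fun t : ℝ => g (y + lin (fun _ => c) Z + t • (c • (Pi.single k 1 : E d))) *
        (l.map Z).prod := by
    funext t
    rw [lin_add_single, add_assoc]
    congr 2
    refine List.map_congr_left fun q hq => ?_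
    have : q ≠ (a, k) := fun h => ha (h ▸ hq)
    simp [this]
  unfold lineDeriv
  rw [h3, h2.deriv, map_smul, smul_eq_mul, mul_assoc]

theorem stein_list {S : Type} [Fintype S] [DecidableEq S] (c : ℝ) (y : E d) (i : S → Fin d)
    (l : List S) (hl : l.Nodup) : ∀ g : E d → ℝ, g.HasTemperateGrowth →
    ∫ Z, g (y + lin (fun _ => c) Z) * ((l.map fun s => (s, i s)).map Z).prod ∂gam (S × Fin d) =
      c ^ l.length * ∫ Z, pdl (l.map i) g (y + lin (fun _ => c) Z) ∂gam (S × Fin d) := by
  induction l using List.reverseRecOn with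
  | nil => intro g _; simp [pdl]
  | append_singleton l a ih =>
    intro g hg
    rw [List.nodup_append] at hl
    have ha : (a, i a) ∉ l.map fun s => (s, i s) := by
      intro h
      obtain ⟨s, hs, h'⟩ := List.mem_map.1 h
      exact hl.2.2 s hs a (List.mem_singleton_self a) (Prod.ext_iff.1 h').1
    have h1 := stein ((temp_aff hg y fun _ : S => c).fun_mul
      (temp_listprod (l.map fun s => (s, i s)))) (a, i a)
    simp only [pd_aff_mul hg c y _ a (i a) ha] at h1
    rw [integral_const_mul, ih hl.1 _ (temp_pd hg (i a))] at h1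
    simp only [List.map_append, List.map_cons, List.map_nil, List.prod_append, List.prod_cons,
      List.prod_nil, mul_one, List.length_append, List.length_singleton, pdl, List.foldr_append,
      List.foldr_cons, List.foldr_nil] at h1 ⊢
    rw [pow_succ, mul_comm _ c, mul_assoc, ← h1]
    refine integral_congr_ae (Eventually.of_forall fun Z => ?_)
    simp only
    ring

theorem jet_heat_apply {S : Type} [Fintype S] [DecidableEq S] {f : E d → ℝ}
    (hf : f.HasTemperateGrowth) (ρ : ℝ) (y : E d) (i : S → Fin d) :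
    (jet (heat ρ f) y : Ten d S) i = heat ρ (fun x => (jet f x : Ten d S) i) y := by
  rw [jet_heat hf, heat_apply (PG.of_temp (temp_jet hf))]

theorem stein_heat {S : Type} [Fintype S] [DecidableEq S] {g : E d → ℝ} (hg : g.HasTemperateGrowth)
    {ρ : ℝ} (hρ : 0 ≤ ρ) (c : ℝ) (y : E d) (i : S → Fin d) :
    ∫ Z, heat ρ g (y + lin (fun _ => c) Z) * ∏ s, Z (s, i s) ∂gam (S × Fin d) =
      c ^ Fintype.card S * (jet (heat (ρ + c ^ 2 * Fintype.card S) g) y : Ten d S) i := by
  have h1 := stein_list c y i Finset.univ.toList (Finset.nodup_toList _) _ (temp_heat hg ρ)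
  simp only [List.map_map, Function.comp_def, Finset.prod_map_toList, Finset.length_toList,
    Finset.card_univ] at h1
  rw [h1]
  congr 1
  have h2 : ∀ Z : Om d S, pdl (Finset.univ.toList.map fun s => i s) (heat ρ g)
      (y + lin (fun _ => c) Z) =
      heat ρ (fun x => (jet g x : Ten d S) i) (y + lin (fun _ => c) Z) :=
    fun Z => jet_heat_apply hg ρ _ i
  simp only [h2]
  rw [heat_lin (PG.of_temp (temp_pi.1 (temp_jet hg) i)) hρ, jet_heat_apply hg]
  congr 2
  simp [dotProduct, sq, mul_comm]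

theorem real_cs {v δ a b : ℝ} (hδ : 0 ≤ δ) (ha : 0 ≤ a) (hb : 0 ≤ b)
    (h : ∀ t : ℝ, 0 < t → v ≤ δ * (t * a ^ 2 + b ^ 2 / t) / 2) : v ≤ δ * a * b := by
  have key : ∀ ε : ℝ, 0 < ε → v ≤ δ * (a + ε) * (b + ε) := by
    intro ε hε
    have ha' : 0 < a + ε := by linarith
    have hb' : 0 < b + ε := by linarith
    refine (h ((b + ε) / (a + ε)) (div_pos hb' ha')).trans ?_
    have h1 : (b + ε) / (a + ε) * a ^ 2 ≤ (a + ε) * (b + ε) := by
      rw [div_mul_eq_mul_div, div_le_iff₀ ha']
      nlinarith [mul_nonneg hb'.le (mul_nonneg ha hε.le), mul_nonneg hb'.le (sq_nonneg ε)]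
    have h2 : b ^ 2 / ((b + ε) / (a + ε)) ≤ (a + ε) * (b + ε) := by
      rw [div_div_eq_mul_div, div_le_iff₀ hb']
      nlinarith [mul_nonneg ha'.le (mul_nonneg hb hε.le), mul_nonneg ha'.le (sq_nonneg ε)]
    nlinarith [mul_le_mul_of_nonneg_left (add_le_add h1 h2) hδ]
  have hc : ContinuousWithinAt (fun ε : ℝ => δ * (a + ε) * (b + ε)) (Set.Ioi 0) 0 := by
    fun_prop
  have := ge_of_tendsto hc.tendsto (eventually_mem_nhdsWithin.mono fun ε hε => key ε hε)
  simpa using this

/-- Cauchy-Schwarz -/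
theorem abs_integral_le {Ω : Type} [MeasurableSpace Ω] {μ : Measure Ω} {H U W : Ω → ℝ} {δ a b : ℝ}
    (hδ : 0 ≤ δ) (ha : 0 ≤ a) (hb : 0 ≤ b) (h : ∀ x, |H x| ≤ δ * U x * W x)
    (hU : Integrable (fun x => U x ^ 2) μ) (hW : Integrable (fun x => W x ^ 2) μ)
    (hUa : ∫ x, U x ^ 2 ∂μ = a ^ 2) (hWb : ∫ x, W x ^ 2 ∂μ = b ^ 2) :
    |∫ x, H x ∂μ| ≤ δ * a * b := by
  refine real_cs hδ ha hb fun t ht => ?_
  have h1 : ‖∫ x, H x ∂μ‖ ≤ ∫ x, δ * (t * U x ^ 2 + W x ^ 2 / t) / 2 ∂μ := by
    refine norm_integral_le_of_norm_le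
      ((((hU.const_mul t).add (hW.div_const t)).const_mul δ).div_const 2)
      (Eventually.of_forall fun x => (h x).trans ?_)
    have h2 : U x * W x ≤ (t * U x ^ 2 + W x ^ 2 / t) / 2 := by
      have : t * U x ^ 2 + W x ^ 2 / t - 2 * (U x * W x) = (t * U x - W x) ^ 2 / t := by
        field_simp
        ring
      have h3 : 0 ≤ (t * U x - W x) ^ 2 / t := by positivity
      linarith
    nlinarith [mul_le_mul_of_nonneg_left h2 hδ]
  rw [integral_div, integral_const_mul, integral_add (hU.const_mul t) (hW.div_const t),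
    integral_const_mul, integral_div, hUa, hWb] at h1
  exact h1

theorem integral_dot_left {Ω ι : Type} [MeasurableSpace Ω] [Fintype ι] {μ : Measure Ω}
    {v : Ω → ι → ℝ} (hv : Integrable v μ) (w : ι → ℝ) :
    ∫ x, w ⬝ᵥ v x ∂μ = w ⬝ᵥ ∫ x, v x ∂μ :=
  (LinearMap.toContinuousLinearMap (dotProductBilin ℝ ℝ w)).integral_comp_comm hv

theorem integral_dot_right {Ω ι : Type} [MeasurableSpace Ω] [Fintype ι] {μ : Measure Ω}
    {v : Ω → ι → ℝ} (hv : Integrable v μ) (w : ι → ℝ) :
    ∫ x, v x ⬝ᵥ w ∂μ = (∫ x, v x ∂μ) ⬝ᵥ w := by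
  simp only [dotProduct_comm _ w]
  exact integral_dot_left hv w

theorem temp_nrm_sq {X ι : Type} [NormedAddCommGroup X] [NormedSpace ℝ X] [Fintype ι]
    {v : X → ι → ℝ} (hv : v.HasTemperateGrowth) : (fun x => nrm (v x) ^ 2).HasTemperateGrowth := by
  simp only [← dot_self]
  exact temp_dot hv hv

theorem temp_app_ren {A V : Type} [Fintype A] [DecidableEq A] [Fintype V] (u : Ten d (Option A))
    (e : A → V) : (fun Z : Om d V => app u fun s i => Z (e s, i)).HasTemperateGrowth :=
  temp_app (Function.HasTemperateGrowth.const u)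
    (ContinuousLinearMap.pi fun s : A => ContinuousLinearMap.pi fun i : Fin d =>
      ContinuousLinearMap.proj (R := ℝ) (φ := fun _ : V × Fin d => ℝ) (e s, i)).hasTemperateGrowth

theorem integral_nrm_app_ren {A V : Type} [Fintype A] [DecidableEq A] [Fintype V]
    (u : Ten d (Option A)) {e : A → V} (he : Function.Injective e) :
    ∫ Z, nrm (app u fun s i => Z (e s, i)) ^ 2 ∂gam (V × Fin d) = nrm u ^ 2 := by
  rw [← integral_nrm_app_sq u, ← (mp_ren (d := d) e he).map_eq, integral_map
    (mp_ren (d := d) e he).measurable.aemeasurable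
    (temp_nrm_sq (temp_app_ren u fun s => s)).1.continuous.aestronglyMeasurable]
  rfl

theorem opN_jet_heat {S : Type} [Fintype S] [DecidableEq S] {f : E d → ℝ}
    (hf : f.HasTemperateGrowth) {δ : ℝ} (hδ : 0 ≤ δ) (h : ∀ y, opN (jet f y : Ten d S) ≤ δ)
    (ρ : ℝ) (y : E d) : opN (jet (heat ρ f) y : Ten d S) ≤ δ := by
  rw [jet_heat hf, ← ENNReal.ofReal_le_ofReal_iff hδ]
  refine (opN_integral_le _ _).trans ?_
  refine (lintegral_mono fun g => ENNReal.ofReal_le_ofReal (h _)).trans ?_
  simp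

theorem abs_hess_le {h : E d → ℝ} (hh : h.HasTemperateGrowth) {δ : ℝ} (y : E d)
    (hδ : opN (jet h y : Ten d (Option Unit)) ≤ δ) (U W : E d) :
    |∑ k, ∑ l, pd k (pd l h) y * U k * W l| ≤ δ * nrm U * nrm W := by
  have h1 : ∑ k, ∑ l, pd k (pd l h) y * U k * W l = U ⬝ᵥ (mat (jet h y) *ᵥ W) := by
    simp only [dotProduct, mulVec, mat_jet hh.1, Finset.mul_sum]
    exact Finset.sum_congr rfl fun k _ => Finset.sum_congr rfl fun l _ => by ring
  rw [h1]
  refine (abs_dot_le _ _).trans ?_
  have h2 := nrm_mat_mulVec_le (jet h y) W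
  have h3 := mul_le_mul_of_nonneg_right hδ (nrm_nonneg W)
  nlinarith [mul_le_mul_of_nonneg_left (h2.trans h3) (nrm_nonneg U)]

theorem jet_two {A B : Type} [Fintype A] [Fintype B] {h : E d → ℝ} (hh : h.HasTemperateGrowth)
    (y : E d) (k l : Fin d) (i : A → Fin d) (j : B → Fin d) :
    (jet (pd k (pd l h)) y : Ten d (A ⊕ B)) (Sum.elim i j) =
      (jet h y : Ten d (Option A ⊕ Option B)) (Sum.elim (oc k i) (oc l j)) := by
  rw [jet_pd (temp_pd hh l).1, jet_pd hh.1,
    ← jet_reix hh.1 ((optR (Option A) B).trans (optL A B).optionCongr) y]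
  unfold reix
  congr 1
  funext s
  rcases s with (_ | _) | (_ | _) <;> rfl

theorem key_two {A B : Type} [Fintype A] [DecidableEq A] [Fintype B] [DecidableEq B]
    {f : E d → ℝ} (hf : f.HasTemperateGrowth) {δ : ℝ} (hδ : 0 ≤ δ)
    (h : ∀ y, opN (jet f y : Ten d (Option Unit)) ≤ δ) {ρ : ℝ} (hρ : 0 ≤ ρ) (c : ℝ) (y : E d)
    (u : Ten d (Option A)) (w : Ten d (Option B)) :
    |c ^ Fintype.card (A ⊕ B) * ∑ i, ∑ j, (jet (heat (ρ + c ^ 2 * Fintype.card (A ⊕ B)) f) y :
      Ten d (Option A ⊕ Option B)) (Sum.elim i j) * u i * w j| ≤ δ * nrm u * nrm w := by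
  have hh := temp_heat hf ρ
  have hint : ∀ (k l : Fin d) (i : A → Fin d) (j : B → Fin d), Integrable (fun Z : Om d (A ⊕ B) =>
      u (oc k i) * w (oc l j) * (heat ρ (pd k (pd l f)) (y + lin (fun _ => c) Z) *
        ∏ s, Z (s, Sum.elim i j s))) (gam ((A ⊕ B) × Fin d)) := fun k l i j =>
    (temp_integrable ((temp_aff (temp_heat (temp_pd (temp_pd hf l) k) ρ) y _).fun_mul
      (temp_finprod _ fun s _ => temp_coord _))).const_mul _
  have h1 : c ^ Fintype.card (A ⊕ B) * ∑ i, ∑ j,
      (jet (heat (ρ + c ^ 2 * Fintype.card (A ⊕ B)) f) y :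
        Ten d (Option A ⊕ Option B)) (Sum.elim i j) * u i * w j =
      ∫ Z, ∑ k, ∑ l, pd k (pd l (heat ρ f)) (y + lin (fun _ => c) Z) *
        app u (fun s i => Z (Sum.inl s, i)) k * app w (fun s i => Z (Sum.inr s, i)) l
        ∂gam ((A ⊕ B) × Fin d) := by
    have h2 : ∀ Z : Om d (A ⊕ B), ∑ k, ∑ l, pd k (pd l (heat ρ f)) (y + lin (fun _ => c) Z) *
        app u (fun s i => Z (Sum.inl s, i)) k * app w (fun s i => Z (Sum.inr s, i)) l =
        ∑ k, ∑ i : A → Fin d, ∑ l, ∑ j : B → Fin d, u (oc k i) * w (oc l j) *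
          (heat ρ (pd k (pd l f)) (y + lin (fun _ => c) Z) * ∏ s, Z (s, Sum.elim i j s)) := by
      intro Z
      refine Finset.sum_congr rfl fun k _ => ?_
      rw [Finset.sum_comm]
      refine Finset.sum_congr rfl fun l _ => ?_
      rw [pd_heat hf, pd_heat (temp_pd hf l)]
      simp only [app, Finset.mul_sum, Finset.sum_mul, Fintype.prod_sum_type, Sum.elim_inl,
        Sum.elim_inr]
      rw [Finset.sum_comm]
      exact Finset.sum_congr rfl fun i _ => Finset.sum_congr rfl fun j _ => by ring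
    simp only [h2]
    rw [integral_finsetSum _ fun k _ => integrable_finsetSum _ fun i _ =>
      integrable_finsetSum _ fun l _ => integrable_finsetSum _ fun j _ => hint k l i j,
      sum_option, Finset.mul_sum]
    refine Finset.sum_congr rfl fun k _ => ?_
    rw [integral_finsetSum _ fun i _ =>
      integrable_finsetSum _ fun l _ => integrable_finsetSum _ fun j _ => hint k l i j,
      Finset.mul_sum]
    refine Finset.sum_congr rfl fun i _ => ?_
    rw [integral_finsetSum _ fun l _ => integrable_finsetSum _ fun j _ => hint k l i j,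
      sum_option, Finset.mul_sum]
    refine Finset.sum_congr rfl fun l _ => ?_
    rw [integral_finsetSum _ fun j _ => hint k l i j, Finset.mul_sum]
    refine Finset.sum_congr rfl fun j _ => ?_
    rw [integral_const_mul, stein_heat (temp_pd (temp_pd hf l) k) hρ, ← pd_heat (temp_pd hf l),
      ← pd_heat hf, jet_two (temp_heat hf _)]
    ring
  rw [h1]
  exact abs_integral_le hδ (nrm_nonneg u) (nrm_nonneg w)
    (fun Z => abs_hess_le hh _ (opN_jet_heat hf hδ h ρ _) _ _)
    (temp_integrable (temp_nrm_sq (temp_app_ren u Sum.inl)))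
    (temp_integrable (temp_nrm_sq (temp_app_ren w Sum.inr)))
    (integral_nrm_app_ren u Sum.inl_injective) (integral_nrm_app_ren w Sum.inr_injective)

theorem sum_reix {A A' : Type} [Fintype A] [DecidableEq A] [Fintype A'] [DecidableEq A']
    (e : A ≃ A') (F : (A → Fin d) → ℝ) : ∑ i, F i = ∑ i : A' → Fin d, F (fun s => i (e s)) :=
  (Fintype.sum_equiv (Equiv.arrowCongr e.symm (Equiv.refl _)) _ _ fun _ => rfl).symm

theorem grad_shift (h : E d → ℝ) (y₀ y : E d) : grad (fun x => h (y₀ + x)) y = grad h (y₀ + y) := by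
  funext k
  simp only [grad, pd]
  rw [fderiv_comp_add_left]

/-- renaming along an equivalence -/
def renE {V V' : Type} (e : V ≃ V') : Om d V' ≃ᵐ Om d V where
  toFun := ren e
  invFun := ren e.symm
  left_inv x := by funext q; simp [ren]
  right_inv x := by funext q; simp [ren]
  measurable_toFun := measurable_pi_lambda _ fun _ => measurable_pi_apply _
  measurable_invFun := measurable_pi_lambda _ fun _ => measurable_pi_apply _

end HC

end Crest.Agent.R285

end
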