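import Crest.Agent.R285.Ten

/-!
The J-trick: completing small legs to exactly standard vectors.

`exists_sqrt`: `Sq M = ∑' k, c k • (M Mᵀ)^k` with `√(1 - x) = ∑ c k x^k` (`c 0 = 1`, `|c k| ≤ 1`,
`∑_{i+j=k} c i c j = [k=0] - [k=1]`; e.g. `c (k+1) = -catalan k / 2^(2k+1)`, or
`c k = (-1)^k Ring.choose (1/2) k` with `Ring.add_choose_eq`). The series converges entrywise because
`|(M Mᵀ)^k v| ≤ 4^(-k) |v|`; measurability as a limit of continuous partial sums (set `Sq M = 1` or
anything when `opN M > 1/2`).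

`lintegral_legs`: induction on `m`, removing the LAST leg: nothing but the last leg depends on the
direction `z last`; resample it (`mp_resample`), and use that `(g, g') ↦ A g + S g'` maps standard
to standard when `A Aᵀ + S Sᵀ = 1` (`mp_mulVec` with `fromCols A S`). It is convenient to generalise
`b` to a measurable map with values in an arbitrary measurable space.
-/

set_option autoImplicit false

open MeasureTheory ProbabilityTheory Matrix Filter
open scoped ENNReal

noncomputable section

namespace Crest.Agent.R285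

namespace JLemAux

/-- the coefficients of `√(1 - x)` -/
def cf : ℕ → ℝ
  | 0 => 1
  | k + 1 => -(catalan k : ℝ) / 2 ^ (2 * k + 1)

theorem abs_cf_le (k : ℕ) : |cf k| ≤ 1 := by
  cases k with
  | zero => simp [cf]
  | succ k =>
    have h1 : catalan k ≤ 2 ^ (2 * k + 1) := by
      rw [catalan_eq_centralBinom_div, Nat.centralBinom_eq_two_mul_choose]
      exact (Nat.div_le_self _ _).trans ((Nat.choose_le_two_pow _ _).trans
        (Nat.pow_le_pow_right two_pos (Nat.le_succ _)))
    rw [cf, abs_div, abs_neg, Nat.abs_cast, abs_of_pos (by positivity),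
      div_le_one (by positivity)]
    exact_mod_cast h1

theorem cf_conv (k : ℕ) : ∑ p ∈ Finset.HasAntidiagonal.antidiagonal (k + 2), cf p.1 * cf p.2 = 0 := by
  rw [Finset.Nat.sum_antidiagonal_succ, Finset.Nat.sum_antidiagonal_succ']
  have : ∑ p ∈ Finset.HasAntidiagonal.antidiagonal k, cf (p.1 + 1) * cf (p.2 + 1) =
      (catalan (k + 1) : ℝ) / 2 ^ (2 * k + 2) := by
    rw [catalan_succ', Nat.cast_sum, Finset.sum_div]
    refine Finset.sum_congr rfl fun p hp => ?_
    rw [← Finset.HasAntidiagonal.mem_antidiagonal.1 hp]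
    simp only [cf, Nat.cast_mul]
    field_simp
    ring
  simp only [this]
  simp only [cf]
  field_simp
  ring

open scoped Matrix.Norms.L2Operator in
theorem sqrt_series {d : ℕ} (N : Matrix (Fin d) (Fin d) ℝ) (hN : Nᵀ = N) {r : ℝ} (hr : 0 ≤ r)
    (hr' : r ≤ 1 / 4) (h : ∀ v, nrm (N *ᵥ v) ≤ r * nrm v) :
    ∃ S : Matrix (Fin d) (Fin d) ℝ, HasSum (fun k => cf k • N ^ k) S ∧ N + S * Sᵀ = 1 ∧
      ∀ (k₀ : ℕ) (g : E d), nrm (S *ᵥ g - ∑ k ∈ Finset.range (k₀ + 1), cf k • (N ^ k *ᵥ g)) ≤
        2 * r ^ (k₀ + 1) * nrm g := by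
  have h1 : ‖N‖ ≤ r := by
    rw [Matrix.l2_opNorm_def]
    refine ContinuousLinearMap.opNorm_le_bound _ hr fun v => ?_
    have := h v.ofLp
    rwa [nrm_eq_norm, nrm_eq_norm] at this
  have h2 : ∀ k, ‖cf (k + 1) • N ^ (k + 1)‖ ≤ r ^ (k + 1) := fun k => by
    rw [norm_smul]
    exact (mul_le_of_le_one_left (norm_nonneg _) (abs_cf_le _)).trans
      ((norm_pow_le' N k.succ_pos).trans (pow_le_pow_left₀ (norm_nonneg _) h1 _))
  have hg := summable_geometric_of_lt_one hr (by linarith)
  have h3 : Summable fun k => ‖cf k • N ^ k‖ := (summable_nat_add_iff 1).1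
    (((summable_nat_add_iff 1).2 hg).of_nonneg_of_le (fun _ => norm_nonneg _) h2)
  have h4 := h3.of_norm.hasSum
  refine ⟨_, h4, ?_, fun k₀ g => ?_⟩
  · have h5 : (∑' k, cf k • N ^ k)ᵀ = ∑' k, cf k • N ^ k := by
      rw [Matrix.transpose_tsum]
      simp only [Matrix.transpose_smul, Matrix.transpose_pow, hN]
    rw [h5, tsum_mul_tsum_eq_tsum_sum_antidiagonal_of_summable_norm h3 h3]
    have h6 : ∀ k, ∑ p ∈ Finset.HasAntidiagonal.antidiagonal k, cf p.1 • N ^ p.1 * cf p.2 • N ^ p.2 =
        (∑ p ∈ Finset.HasAntidiagonal.antidiagonal k, cf p.1 * cf p.2) • N ^ k := fun k => by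
      rw [Finset.sum_smul]
      refine Finset.sum_congr rfl fun p hp => ?_
      rw [smul_mul_smul_comm, ← pow_add, Finset.HasAntidiagonal.mem_antidiagonal.1 hp]
    simp only [h6]
    rw [tsum_eq_sum (s := Finset.range 2) fun k hk => by
      obtain ⟨j, rfl⟩ := Nat.exists_eq_add_of_le' (not_lt.1 (mt Finset.mem_range.2 hk))
      rw [cf_conv, zero_smul]]
    simp [Finset.sum_range_succ, Finset.Nat.sum_antidiagonal_succ, cf]
  · have h5 : ‖∑' k, cf (k + (k₀ + 1)) • N ^ (k + (k₀ + 1))‖ ≤ 2 * r ^ (k₀ + 1) := by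
      refine (tsum_of_norm_bounded ((hasSum_geometric_of_lt_one hr (by linarith)).mul_right
        (r ^ (k₀ + 1))) fun k => ?_).trans
        (mul_le_mul_of_nonneg_right (inv_le_of_inv_le₀ two_pos (by linarith)) (by positivity))
      rw [← pow_add]
      exact h2 (k + k₀)
    rw [← h3.of_norm.sum_add_tsum_nat_add (k₀ + 1), Matrix.add_mulVec, Matrix.sum_mulVec]
    simp only [Matrix.smul_mulVec, add_sub_cancel_left]
    rw [nrm_eq_norm, nrm_eq_norm]
    exact (Matrix.l2_opNorm_mulVec _ (WithLp.toLp 2 g)).trans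
      (mul_le_mul_of_nonneg_right h5 (norm_nonneg _))

theorem resample {d : ℕ} {V : Type} [Fintype V] {a : V → ℝ} (ha : a ⬝ᵥ a = 1)
    {H : Om d V × E d → ℝ≥0∞} (hH : Measurable H)
    (hi : ∀ x w y, H (x + dir a w, y) = H (x, y)) :
    ∫⁻ x, H (x, lin a x) ∂gam (V × Fin d) =
      ∫⁻ x, ∫⁻ g, H (x, g) ∂gam (Fin d) ∂gam (V × Fin d) := by
  rw [← (mp_resample (d := d) a ha).lintegral_comp (f := fun x => H (x, lin a x))
    (hH.comp (measurable_id.prodMk (temp_lin a).1.continuous.measurable)),
    ← lintegral_prod _ hH.aemeasurable]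
  simp only [hi, lin_dir, ha, one_smul, add_sub_cancel]

theorem lintegral_two {d : ℕ} {A S : Matrix (Fin d) (Fin d) ℝ} (h : A * Aᵀ + S * Sᵀ = 1)
    {H : E d → ℝ≥0∞} (hH : Measurable H) :
    ∫⁻ g, ∫⁻ g', H (A *ᵥ g + S *ᵥ g') ∂gam (Fin d) ∂gam (Fin d) = ∫⁻ y, H y ∂gam (Fin d) := by
  have h1 := (mp_mulVec (fromCols A S) (by rw [transpose_fromCols, fromCols_mul_fromRows, h])).comp
    (measurePreserving_sumPiEquivProdPi_symm fun _ : Fin d ⊕ Fin d => gaussianReal 0 1)
  rw [← (lintegral_prod _ (hH.comp h1.measurable).aemeasurable).symm.trans (h1.lintegral_comp hH)]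
  refine lintegral_congr fun g => lintegral_congr fun g' => congrArg H ?_
  exact (fromCols_mulVec_sumElim A S g g').symm

end JLemAux

open JLemAux

theorem exists_sqrt : ∃ c : ℕ → ℝ, c 0 = 1 ∧ (∀ k, |c k| ≤ 1) ∧ ∀ d : ℕ,
    ∃ Sq : Ten d (Option Unit) → Matrix (Fin d) (Fin d) ℝ, (∀ i j, Measurable fun M => Sq M i j) ∧
      ∀ M, opN M ≤ 1 / 2 → mat M * (mat M)ᵀ + Sq M * (Sq M)ᵀ = 1 ∧ ∀ (k₀ : ℕ) (g : E d),
        nrm (Sq M *ᵥ g - ∑ k ∈ Finset.range (k₀ + 1), c k • ((mat M * (mat M)ᵀ) ^ k *ᵥ g)) ≤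
          2 * opN M ^ (2 * k₀ + 2) * nrm g := by
  refine ⟨cf, rfl, abs_cf_le, fun d => ?_⟩
  have key := fun (M : Ten d (Option Unit)) (hM : opN M ≤ 1 / 2) =>
    sqrt_series (mat M * (mat M)ᵀ) (by simp) (r := opN M ^ 2) (sq_nonneg _)
      (by nlinarith [opN_nonneg M]) fun v => by
        rw [← mulVec_mulVec, sq, mul_assoc]
        exact (nrm_mat_mulVec_le M _).trans
          (mul_le_mul_of_nonneg_left (nrm_mat_transpose_mulVec_le M v) (opN_nonneg M))
  choose! S hS using key
  refine ⟨fun M i j => limUnder atTop fun n =>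
    (∑ k ∈ Finset.range n, cf k • (mat M * (mat M)ᵀ) ^ k) i j, fun i j => ?_, fun M hM => ?_⟩
  · refine (StronglyMeasurable.limUnder fun n => Continuous.stronglyMeasurable ?_).measurable
    have : Continuous (mat : Ten d (Option Unit) → _) := by unfold mat; fun_prop
    fun_prop
  · have : (fun i j => limUnder atTop fun n =>
        (∑ k ∈ Finset.range n, cf k • (mat M * (mat M)ᵀ) ^ k) i j) = S M := by
      funext i j
      exact (((continuous_apply_apply i j).tendsto _).comp
        (hS M hM).1.tendsto_sum_nat).limUnder_eq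
    simp only [this]
    refine ⟨(hS M hM).2.1, fun k₀ g => ((hS M hM).2.2 k₀ g).trans_eq ?_⟩
    rw [← pow_mul, mul_add]

theorem lintegral_legs {d : ℕ} {V : Type} [Fintype V] {X : Type} [MeasurableSpace X] (m : ℕ)
    (z : Fin m → V → ℝ) (hz : ∀ i j, z i ⬝ᵥ z j = if i = j then 1 else 0)
    (A S : Fin m → Om d V → Matrix (Fin d) (Fin d) ℝ)
    (hA : ∀ i k l, Measurable fun x => A i x k l) (hS : ∀ i k l, Measurable fun x => S i x k l)
    (hAS : ∀ i x, A i x * (A i x)ᵀ + S i x * (S i x)ᵀ = 1)
    (hAz : ∀ i j, i ≤ j → ∀ x w, A i (x + dir (z j) w) = A i x)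
    (hSz : ∀ i j, i ≤ j → ∀ x w, S i (x + dir (z j) w) = S i x)
    (b : Om d V → X) (hb : Measurable b) (hbz : ∀ j x w, b (x + dir (z j) w) = b x)
    (h : X × Om d (Fin m) → ℝ≥0∞) (hh : Measurable h) :
    ∫⁻ x, ∫⁻ ξ, h (b x, fun q => (A q.1 x *ᵥ lin (z q.1) x + S q.1 x *ᵥ fun k => ξ (q.1, k)) q.2)
        ∂gam (Fin m × Fin d) ∂gam (V × Fin d) =
      ∫⁻ x, ∫⁻ Z, h (b x, Z) ∂gam (Fin m × Fin d) ∂gam (V × Fin d) := by
  have hl : ∀ a : V → ℝ, Measurable (lin (d := d) a) := fun a =>
    (temp_lin a).1.continuous.measurable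
  have hlk : ∀ (a : V → ℝ) (k : Fin d), Measurable fun x : Om d V => lin a x k := fun a k =>
    (measurable_pi_apply k).comp (hl a)
  let leg : Om d V → Om d (Fin m) → Om d (Fin m) := fun x ξ q =>
    (A q.1 x *ᵥ lin (z q.1) x + S q.1 x *ᵥ fun k => ξ (q.1, k)) q.2
  have hleg : ∀ q, Measurable fun p : Om d V × Om d (Fin m) => leg p.1 p.2 q := fun q => by
    simp only [leg, Pi.add_apply, mulVec, dotProduct]
    fun_prop
  have key : ∀ k ≤ m, ∫⁻ x, ∫⁻ ξ, h (b x, fun q => if (q.1 : ℕ) < k then leg x ξ q else ξ q)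
      ∂gam (Fin m × Fin d) ∂gam (V × Fin d) =
      ∫⁻ x, ∫⁻ Z, h (b x, Z) ∂gam (Fin m × Fin d) ∂gam (V × Fin d) := by
    intro k hk
    induction k with
    | zero => simp
    | succ k ih =>
      rw [← ih (by omega)]
      let κ : Fin m := ⟨k, hk⟩
      let G : (Om d V × Om d (Fin m)) × E d → ℝ≥0∞ := fun p => h (b p.1.1, fun q =>
        if (q.1 : ℕ) < k then leg p.1.1 p.1.2 q else if q.1 = κ then p.2 q.2 else p.1.2 q)
      have hG : Measurable G := hh.comp ((hb.comp (by fun_prop)).prodMk
        (measurable_pi_lambda _ fun q => by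
          split_ifs
          · exact (hleg q).comp measurable_fst
          · fun_prop
          · fun_prop))
      have he : (Pi.single κ 1 : Fin m → ℝ) ⬝ᵥ Pi.single κ 1 = 1 := by simp
      have hG1 : ∀ x w ξ y, G ((x + dir (z κ) w, ξ), y) = G ((x, ξ), y) := fun x w ξ y => by
        simp only [G, hbz]
        congr 2
        funext q
        split_ifs with h1
        · have h2 : q.1 < κ := h1
          simp only [leg, hAz _ _ h2.le, hSz _ _ h2.le, lin_dir, hz, if_neg h2.ne, zero_smul,
            add_zero]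
        · rfl
        · rfl
      have hG2 : ∀ x w ξ y, G ((x, ξ + dir (Pi.single κ 1) w), y) = G ((x, ξ), y) :=
        fun x w ξ y => by
        simp only [G]
        congr 2
        funext q
        split_ifs with h1 h2
        · have h2 : q.1 < κ := h1
          simp [leg, dir, h2.ne]
        · rfl
        · simp [dir, h2]
      have hm : Measurable fun p : ((Om d V × E d) × Om d (Fin m)) × E d =>
          G ((p.1.1.1, p.1.2), A κ p.1.1.1 *ᵥ p.1.1.2 + S κ p.1.1.1 *ᵥ p.2) :=
        hG.comp ((by fun_prop : Measurable _).prodMk (measurable_pi_lambda _ fun i => by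
          simp only [Pi.add_apply, mulVec, dotProduct]
          fun_prop))
      have hlin : Measurable (lin (d := d) (Pi.single κ 1 : Fin m → ℝ)) :=
        (temp_lin _).1.continuous.measurable
      calc _ = ∫⁻ x, ∫⁻ ξ, G ((x, ξ), A κ x *ᵥ lin (z κ) x + S κ x *ᵥ lin (Pi.single κ 1) ξ)
            ∂gam (Fin m × Fin d) ∂gam (V × Fin d) := by
            refine lintegral_congr fun x => lintegral_congr fun ξ => ?_
            simp only [G, lin_single]
            congr 2
            funext q
            by_cases h1 : q.1 = κ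
            · simp [leg, h1, κ]
            · have h2 : (q.1 : ℕ) ≠ k := fun h => h1 (Fin.ext h)
              simp only [h1, if_false, show (q.1 : ℕ) < k + 1 ↔ (q.1 : ℕ) < k by omega]
        _ = ∫⁻ x, ∫⁻ g, ∫⁻ ξ, G ((x, ξ), A κ x *ᵥ g + S κ x *ᵥ lin (Pi.single κ 1) ξ)
            ∂gam (Fin m × Fin d) ∂gam (Fin d) ∂gam (V × Fin d) :=
            resample (H := fun p => ∫⁻ ξ, G ((p.1, ξ), A κ p.1 *ᵥ p.2 +
              S κ p.1 *ᵥ lin (Pi.single κ 1) ξ) ∂gam (Fin m × Fin d)) (by simp [hz])
              (Measurable.lintegral_prod_right'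
                (hm.comp (measurable_id.prodMk (hlin.comp measurable_snd))))
              fun x w y => by simp only [hG1, hAz _ _ le_rfl, hSz _ _ le_rfl]
        _ = ∫⁻ x, ∫⁻ ξ, ∫⁻ y, G ((x, ξ), y) ∂gam (Fin d) ∂gam (Fin m × Fin d)
            ∂gam (V × Fin d) := by
            refine lintegral_congr fun x => ?_
            have h1 : ∀ g, ∫⁻ ξ, G ((x, ξ), A κ x *ᵥ g + S κ x *ᵥ lin (Pi.single κ 1) ξ)
                ∂gam (Fin m × Fin d) = ∫⁻ ξ, ∫⁻ g', G ((x, ξ), A κ x *ᵥ g + S κ x *ᵥ g')
                ∂gam (Fin d) ∂gam (Fin m × Fin d) := fun g =>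
              resample (H := fun p => G ((x, p.1), A κ x *ᵥ g + S κ x *ᵥ p.2)) he
                (hm.comp (f := fun p : Om d (Fin m) × E d => (((x, g), p.1), p.2)) (by fun_prop))
                fun ξ w y => hG2 _ _ _ _
            simp only [h1]
            rw [lintegral_lintegral_swap (Measurable.lintegral_prod_right' (hm.comp
              (f := fun p : (E d × Om d (Fin m)) × E d => (((x, p.1.1), p.1.2), p.2))
              (by fun_prop))).aemeasurable]
            exact lintegral_congr fun ξ => lintegral_two (hAS κ x)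
              (H := fun y => G ((x, ξ), y)) (hG.comp (by fun_prop))
        _ = _ := by
            refine lintegral_congr fun x => ?_
            rw [← resample (H := fun p => G ((x, p.1), p.2)) he (hG.comp (by fun_prop))
              fun ξ w y => hG2 _ _ _ _]
            refine lintegral_congr fun ξ => ?_
            simp only [G, lin_single]
            congr 2
            funext q
            split_ifs with h1 h2
            · rfl
            · rw [← h2]
            · rfl
  simpa only [Fin.is_lt, if_true] using key m le_rfl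

/-- multilinearity: independent centred perturbations of the legs average out -/
theorem integral_app_add {d m : ℕ} (T : Ten d (Option (Fin m))) (v : Fin m → E d)
    (S : Fin m → Matrix (Fin d) (Fin d) ℝ) :
    ∫ ξ, app T (fun i => v i + S i *ᵥ fun k => ξ (i, k)) ∂gam (Fin m × Fin d) = app T v := by
  have ht : ∀ s j, (fun ξ : Om d (Fin m) => (S s *ᵥ fun k => ξ (s, k)) j).HasTemperateGrowth :=
    fun s j => temp_linear _ (fun x y => by simp [mulVec, dotProduct, mul_add,
      Finset.sum_add_distrib]) fun c x => by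
        simp [mulVec, dotProduct, Finset.mul_sum, mul_left_comm]
  have ht2 : ∀ (i : Fin m → Fin d) (t : Finset (Fin m)), (fun ξ : Om d (Fin m) =>
      ∏ s ∈ t, (v s + S s *ᵥ fun k => ξ (s, k)) (i s)).HasTemperateGrowth := fun i t =>
    TenB.temp_prod t fun s _ => (Function.HasTemperateGrowth.const _).add (ht s (i s))
  have key : ∀ (i : Fin m → Fin d) (t : Finset (Fin m)),
      ∫ ξ, ∏ s ∈ t, (v s + S s *ᵥ fun k => ξ (s, k)) (i s) ∂gam (Fin m × Fin d) =
        ∏ s ∈ t, v s (i s) := by
    intro i t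
    induction t using Finset.induction_on with
    | empty => simp
    | insert s t hs ih =>
      have h1 := temp_integrable (TenB.temp_mul (ht s (i s)) (ht2 i t))
      have h2 := mp_sub (d := d) (diagonal fun r : Fin m => if r = s then (-1 : ℝ) else 1) (by
        rw [diagonal_transpose, diagonal_mul_diagonal, ← diagonal_one]
        congr 1
        funext r
        split_ifs <;> simp)
      have h3 := integral_map (μ := gam (Fin m × Fin d)) h2.measurable.aemeasurable
        (h2.map_eq.symm ▸ h1.aestronglyMeasurable)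
      have h4 : ∀ (ξ : Om d (Fin m)) r k, sub (diagonal fun r : Fin m =>
          if r = s then (-1 : ℝ) else 1) ξ (r, k) = if r = s then -ξ (r, k) else ξ (r, k) := by
        intro ξ r k
        simp [sub, diagonal_apply]
      have h5 : ∀ ξ : Om d (Fin m), ∏ r ∈ t, (v r + S r *ᵥ fun k =>
          if r = s then -ξ (r, k) else ξ (r, k)) (i r) =
          ∏ r ∈ t, (v r + S r *ᵥ fun k => ξ (r, k)) (i r) := fun ξ =>
        Finset.prod_congr rfl fun r hr => by simp only [if_neg (ne_of_mem_of_not_mem hr hs)]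
      have h6 : ∀ ξ : Om d (Fin m), (S s *ᵥ fun k => -ξ (s, k)) (i s) =
          -(S s *ᵥ fun k => ξ (s, k)) (i s) := fun ξ => by simp [mulVec, dotProduct]
      simp only [h2.map_eq, h4, h5, if_true, h6, neg_mul, integral_neg] at h3
      simp only [Finset.prod_insert hs, Pi.add_apply (v s), add_mul]
      rw [integral_add ((temp_integrable (ht2 i t)).const_mul _) h1, integral_const_mul, ih]
      linarith
  have hi : ∀ k, Integrable (fun ξ : Om d (Fin m) =>
      app T (fun i => v i + S i *ᵥ fun k => ξ (i, k)) k) (gam (Fin m × Fin d)) := fun k =>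
    integrable_finsetSum _ fun i _ => (temp_integrable (ht2 i _)).const_mul _
  funext k
  rw [eval_integral hi]
  simp only [app]
  rw [integral_finsetSum _ fun i _ => (temp_integrable (ht2 i _)).const_mul _]
  simp only [integral_const_mul, key]

end Crest.Agent.R285

end
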