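import Crest.Agent.R285.KhinAux

/-!
Matrix Khintchine inequality for flattening norms.

Proof: `opN` is the maximum over the at most `2^s` nontrivial bipartitions `σ : S → Bool` of the
operator norm of a matrix `X = ∑ k, g k • A k`. For the symmetric dilation `H = ∑ g k • H k` of size
`n ≤ 2 d^s`, Stein's identity and `tr (A H^l A H^(m-l)) ≤ tr (A^2 H^m)` (`m` even, `A, H` symmetric)
give `E tr H^(2p) ≤ (2p-1) v E tr H^(2p-2)` with `v = ‖∑ (H k)^2‖ ≤ (opN T)^2` (the two flattenings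
of `T` with the slot `none` on either side), and `‖X‖^(2p) ≤ tr H^(2p)`.
-/

set_option autoImplicit false

open MeasureTheory ProbabilityTheory Matrix Filter
open scoped ENNReal

noncomputable section

namespace Crest.Agent.R285

namespace Khin

variable {d : ℕ} {S A B A' B' : Type} [Fintype A] [DecidableEq A] [Fintype B] [DecidableEq B]
  [Fintype A'] [DecidableEq A'] [Fintype B'] [DecidableEq B']

/-- a flattening as a matrix -/
def fl (T : Ten d S) (e : S ≃ A ⊕ B) : Matrix (A → Fin d) (B → Fin d) ℝ :=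
  fun i j => T fun s => Sum.elim i j (e s)

theorem sum_eq_dot (T : Ten d S) (e : S ≃ A ⊕ B) (u : Ten d A) (w : Ten d B) :
    ∑ i : A → Fin d, ∑ j : B → Fin d, T (fun s => Sum.elim i j (e s)) * u i * w j =
      u ⬝ᵥ fl T e *ᵥ w := by
  simp only [dotProduct, mulVec, Finset.mul_sum, fl]
  exact Finset.sum_congr rfl fun i _ => Finset.sum_congr rfl fun j _ => by ring

theorem dot_reix (T : Ten d S) (e : S ≃ A ⊕ B) (a : A ≃ A') (b : B ≃ B') (u : Ten d A)
    (w : Ten d B) :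
    reix a u ⬝ᵥ fl T (e.trans (a.sumCongr b)) *ᵥ reix b w = u ⬝ᵥ fl T e *ᵥ w := by
  rw [← sum_eq_dot, ← sum_eq_dot, ← (a.arrowCongr (Equiv.refl (Fin d))).symm.sum_comp]
  refine Finset.sum_congr rfl fun i _ => ?_
  rw [← (b.arrowCongr (Equiv.refl (Fin d))).symm.sum_comp]
  refine Finset.sum_congr rfl fun j _ => congrArg (fun z => T z * _ * _) (funext fun s => ?_)
  rw [Equiv.trans_apply]
  cases e s <;> rfl

omit [Fintype A] [DecidableEq A] [Fintype B] [DecidableEq B] in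
theorem fl_transpose (T : Ten d S) (e : S ≃ A ⊕ B) :
    (fl T e)ᵀ = fl T (e.trans (Equiv.sumComm A B)) := by
  ext j i
  refine congrArg T (funext fun s => ?_)
  rw [Equiv.trans_apply]
  cases e s <;> rfl

/-- put the slot `none` on the left -/
def optL (A B : Type) : Option (A ⊕ B) ≃ Option A ⊕ B where
  toFun o := o.elim (.inl none) (Sum.map some id)
  invFun := Sum.elim (Option.map .inl) fun b => some (.inr b)
  left_inv := by rintro (_ | _ | _) <;> rfl
  right_inv := by rintro ((_ | _) | _) <;> rfl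

theorem sum_fl_le [Finite S] [Nonempty B] (T : Ten d (Option S)) (e : S ≃ A ⊕ B) (w : Ten d B) :
    ∑ k, (fl (fun i => T (oc k i)) e *ᵥ w) ⬝ᵥ (fl (fun i => T (oc k i)) e *ᵥ w) ≤
      opN T ^ 2 * (w ⬝ᵥ w) := by
  have h1 : nrm (fl T (e.optionCongr.trans (optL A B)) *ᵥ w) ≤ opN T * nrm w :=
    nrm_le_of_dot (mul_nonneg (opN_nonneg T) (nrm_nonneg w)) fun u => by
      have := opLe_opN T (Option A) B (e.optionCongr.trans (optL A B)) u w
      rw [sum_eq_dot] at this
      exact (le_abs_self _).trans (this.trans_eq (mul_right_comm ..))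
  have h2 := pow_le_pow_left₀ (nrm_nonneg _) h1 2
  rw [mul_pow, ← dot_self, ← dot_self, dotProduct, sum_option] at h2
  refine le_of_eq_of_le (Finset.sum_congr rfl fun k _ => Finset.sum_congr rfl fun i _ => ?_) h2
  have : fl (fun i => T (oc k i)) e i = fl T (e.optionCongr.trans (optL A B)) (oc k i) := by
    funext j
    refine congrArg T (funext fun s => ?_)
    cases s with
    | none => rfl
    | some s =>
      change Sum.elim i j (e s) = Sum.elim (oc k i) j (Sum.map some id (e s))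
      cases e s <;> rfl
  simp only [mulVec, this]

/-- the symmetric dilations -/
def dil (T : Ten d (Option S)) (e : S ≃ A ⊕ B) (k : Fin d) :
    Matrix ((A → Fin d) ⊕ (B → Fin d)) ((A → Fin d) ⊕ (B → Fin d)) ℝ :=
  fromBlocks 0 (fl (fun i => T (oc k i)) e) (fl (fun i => T (oc k i)) e)ᵀ 0

omit [Fintype A] [DecidableEq A] [Fintype B] [DecidableEq B] in
theorem dil_symm (T : Ten d (Option S)) (e : S ≃ A ⊕ B) (k : Fin d) :
    (dil T e k)ᵀ = dil T e k := by
  simp [dil, fromBlocks_transpose]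

theorem sum_dil_le [Finite S] [Nonempty A] [Nonempty B] (T : Ten d (Option S)) (e : S ≃ A ⊕ B)
    (x : (A → Fin d) ⊕ (B → Fin d) → ℝ) :
    ∑ k, (dil T e k *ᵥ x) ⬝ᵥ (dil T e k *ᵥ x) ≤ opN T ^ 2 * (x ⬝ᵥ x) := by
  have h1 := sum_fl_le T e (x ∘ Sum.inr)
  have h2 := sum_fl_le T (e.trans (Equiv.sumComm A B)) (x ∘ Sum.inl)
  have h3 : x ⬝ᵥ x = x ∘ Sum.inl ⬝ᵥ x ∘ Sum.inl + x ∘ Sum.inr ⬝ᵥ x ∘ Sum.inr :=
    Fintype.sum_sum_type _
  simp only [dil, fromBlocks_mulVec, zero_mulVec, zero_add, add_zero, sumElim_dotProduct_sumElim,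
    Finset.sum_add_distrib, fl_transpose, h3]
  linarith

theorem dot_leaf_le (T : Ten d (Option S)) (e : S ≃ A ⊕ B) (g : E d) {p : ℕ} (hp : p ≠ 0) {a : ℝ}
    (ha : 0 ≤ a) (h : trace (gs (dil T e) g ^ (2 * p)) ≤ a ^ (2 * p)) (u : Ten d A)
    (w : Ten d B) : |u ⬝ᵥ fl (leaf T g) e *ᵥ w| ≤ a * nrm u * nrm w := by
  have h1 := abs_dot_le_of_trace (gs_symm _ (dil_symm T e) g) hp ha h (Sum.elim u 0)
    (Sum.elim 0 w)
  convert h1 using 2
  · simp [dotProduct, mulVec, gs_apply, dil, fl, leaf, mul_comm]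
  · simp [nrm]
  · simp [nrm]

end Khin

open Khin in
theorem khintchine (p s : ℕ) : ∃ C : ℝ, 1 ≤ C ∧ ∀ (d N : ℕ) (K : ℝ), 1 ≤ K → (d : ℝ) ≤ K ^ N →
    s * N ≤ p → ∀ (S : Type) [Fintype S], Fintype.card S ≤ s → ∀ T : Ten d (Option S),
      LpLe (gam (Fin d)) (2 * p) (fun g => opN (leaf T g)) (C * K * opN T) := by
  classical
  obtain ⟨c, hc, h⟩ := Khin.moment p
  have hC : 1 ≤ 2 ^ s * (c * 2) :=
    one_le_mul_of_one_le_of_one_le (one_le_pow₀ one_le_two) (by linarith)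
  refine ⟨_, hC, fun d N K hK hd hs S _ hS T => ?_⟩
  rcases eq_or_ne p 0 with rfl | hp
  · simp [LpLe]
  let Q : Type := {σ : S → Prop // Nonempty {s // σ s} ∧ Nonempty {s // ¬σ s}}
  let F : Q → E d → ℝ := fun σ g => trace (gs (dil T (Equiv.sumCompl σ.1).symm) g ^ (2 * p))
  have h0 : ∀ σ g, 0 ≤ F σ g := fun σ g => trace_nonneg (gs_symm _ (dil_symm T _) g) p
  have h1 : ∀ g, 0 ≤ ∑ σ, F σ g := fun g => Finset.sum_nonneg fun σ _ => h0 σ g
  have h2 : ∀ g, opN (leaf T g) ^ (2 * p) ≤ ∑ σ, F σ g := fun g => by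
    obtain ⟨a, ha, h3⟩ : ∃ a : ℝ, 0 ≤ a ∧ a ^ (2 * p) = ∑ σ, F σ g :=
      ⟨_, Real.rpow_nonneg (h1 g) _, Real.rpow_inv_natCast_pow (h1 g) (by omega)⟩
    rw [← h3]
    refine pow_le_pow_left₀ (opN_nonneg _) (opN_le ha fun A B _ _ _ _ _ _ e u w => ?_) _
    obtain ⟨σ, hσ⟩ : ∃ σ : S → Prop, ∀ s, σ s ↔ (e s).isLeft = true := ⟨_, fun _ => Iff.rfl⟩
    let a' : A ≃ {s // σ s} := Equiv.sumIsLeft.symm.trans (e.subtypeEquiv hσ).symm
    let b' : B ≃ {s // ¬σ s} := Equiv.sumIsRight.symm.trans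
      (e.subtypeEquiv fun s => (hσ s).not.trans Sum.not_isLeft).symm
    have h4 : e.trans (a'.sumCongr b') = (Equiv.sumCompl σ).symm := by
      ext s
      obtain ⟨z, rfl⟩ := e.symm.surjective s
      rw [Equiv.eq_symm_apply, Equiv.trans_apply, Equiv.apply_symm_apply]
      cases z <;> rfl
    rw [sum_eq_dot, ← dot_reix _ e a' b', ← nrm_reix a', ← nrm_reix b', h4]
    exact dot_leaf_le T _ g hp ha ((Finset.single_le_sum (fun σ _ => h0 σ g) (Finset.mem_univ
      (⟨σ, a'.nonempty_congr.1 ‹_›, b'.nonempty_congr.1 ‹_›⟩ : Q))).trans_eq h3.symm) _ _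
  have h3 : ∀ σ, Integrable (F σ) (gam (Fin d)) := fun σ => temp_integrable (temp_trace' _ _)
  have h4 : ∀ (σ : S → Prop) [DecidablePred σ],
      (Fintype.card ({s // σ s} → Fin d) : ℝ) ≤ K ^ (2 * p) := fun σ _ => by
    rw [Fintype.card_fun, Fintype.card_fin, Nat.cast_pow]
    refine (pow_le_pow_left₀ d.cast_nonneg hd _).trans ?_
    rw [← pow_mul, mul_comm]
    exact pow_le_pow_right₀ hK ((Nat.mul_le_mul_right _
      ((Fintype.card_subtype_le σ).trans hS)).trans (by omega))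
  have h5 : ∀ σ, ∫ g, F σ g ∂gam (Fin d) ≤ c * 2 * (K * opN T) ^ (2 * p) := fun σ => by
    have := σ.2.1
    have := σ.2.2
    refine (h _ _ (dil T (Equiv.sumCompl σ.1).symm) (dil_symm T _) _ (sq_nonneg _)
      (sum_dil_le T _)).trans ?_
    rw [Fintype.card_sum, Nat.cast_add, ← pow_mul]
    refine (mul_le_mul_of_nonneg_left (add_le_add (h4 _) (h4 _))
      (mul_nonneg (by linarith) ((even_two_mul p).pow_nonneg _))).trans_eq ?_
    ring
  have h6 : (Fintype.card Q : ℝ) ≤ 2 ^ s := by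
    have := (Fintype.card_subtype_le fun σ : S → Prop =>
      Nonempty {s // σ s} ∧ Nonempty {s // ¬σ s}).trans_eq Fintype.card_fun
    rw [Fintype.card_prop] at this
    exact_mod_cast this.trans (Nat.pow_le_pow_right two_pos hS)
  have h7 : 0 ≤ K * opN T := mul_nonneg (by linarith) (opN_nonneg T)
  calc _ ≤ ∫⁻ g, ENNReal.ofReal (∑ σ, F σ g) ∂gam (Fin d) := lintegral_mono fun g => by
        rw [← ENNReal.ofReal_pow (opN_nonneg _)]
        exact ENNReal.ofReal_le_ofReal (h2 g)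
    _ = ENNReal.ofReal (∑ σ, ∫ g, F σ g ∂gam (Fin d)) := by
        rw [← ofReal_integral_eq_lintegral_ofReal (integrable_finsetSum _ fun σ _ => h3 σ)
          (ae_of_all _ h1), integral_finsetSum _ fun σ _ => h3 σ]
    _ ≤ _ := by
        rw [mul_assoc, ← ENNReal.ofReal_pow (mul_nonneg (by linarith) h7), mul_pow]
        refine ENNReal.ofReal_le_ofReal ((Finset.sum_le_card_nsmul _ _ _ fun σ _ => h5 σ).trans ?_)
        rw [nsmul_eq_mul, ← mul_assoc]
        exact mul_le_mul_of_nonneg_right ((mul_le_mul_of_nonneg_right h6 (by linarith)).trans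
          (le_self_pow₀ hC (by omega))) (pow_nonneg h7 _)

end Crest.Agent.R285

end
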