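import Crest.Agent.R285.Ten

/-!
Trace moments of Gaussian sums of symmetric matrices.
-/

set_option autoImplicit false

open MeasureTheory ProbabilityTheory Matrix Filter
open scoped ENNReal

noncomputable section

namespace Crest.Agent.R285.Khin

open TenB

variable {ι κ : Type} [Fintype ι] [DecidableEq ι] [Fintype κ] [DecidableEq κ]

theorem spec {H : Matrix ι ι ℝ} (hH : Hᵀ = H) : ∃ (U : Matrix ι ι ℝ) (l : ι → ℝ),
    Uᵀ * U = 1 ∧ U * Uᵀ = 1 ∧ ∀ m, H ^ m = U * diagonal (fun i => l i ^ m) * Uᵀ := by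
  have h : H.IsHermitian := by rw [IsHermitian, conjTranspose_eq_transpose_of_trivial, hH]
  have h1 : (h.eigenvectorUnitary : Matrix ι ι ℝ)ᵀ * h.eigenvectorUnitary = 1 := by
    rw [← conjTranspose_eq_transpose_of_trivial]
    exact h.eigenvectorUnitary.2.1
  refine ⟨h.eigenvectorUnitary, h.eigenvalues, h1, mul_eq_one_comm.1 h1, fun m => ?_⟩
  conv_lhs => rw [h.spectral_theorem, ← map_pow, diagonal_pow, Unitary.conjStarAlgAut_apply]
  rw [← conjTranspose_eq_transpose_of_trivial]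
  rfl

theorem trace_conj {U : Matrix ι ι ℝ} (h : Uᵀ * U = 1) (l : ι → ℝ) :
    trace (U * diagonal l * Uᵀ) = ∑ i, l i := by
  rw [trace_mul_cycle, h, Matrix.one_mul, trace_diagonal]

theorem trace_nonneg {H : Matrix ι ι ℝ} (hH : Hᵀ = H) (p : ℕ) : 0 ≤ trace (H ^ (2 * p)) := by
  obtain ⟨U, l, h1, -, h⟩ := spec hH
  rw [h, trace_conj h1]
  exact Finset.sum_nonneg fun i _ => (even_two_mul p).pow_nonneg _

theorem abs_dot_le_of_trace {H : Matrix ι ι ℝ} (hH : Hᵀ = H) {p : ℕ} (hp : p ≠ 0) {a : ℝ}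
    (ha : 0 ≤ a) (h : trace (H ^ (2 * p)) ≤ a ^ (2 * p)) (x y : ι → ℝ) :
    |x ⬝ᵥ H *ᵥ y| ≤ a * nrm x * nrm y := by
  obtain ⟨U, l, h1, h2, h3⟩ := spec hH
  rw [h3, trace_conj h1] at h
  have h4 : ∀ i, l i ^ 2 ≤ a ^ 2 := fun i => by
    have := (Finset.single_le_sum (f := fun i => l i ^ (2 * p))
      (fun i _ => (even_two_mul p).pow_nonneg _) (Finset.mem_univ i)).trans h
    rw [pow_mul, pow_mul] at this
    exact (pow_le_pow_iff_left₀ (sq_nonneg _) (sq_nonneg _) hp).1 this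
  have h5 : ∀ z : ι → ℝ, nrm (Uᵀ *ᵥ z) = nrm z := fun z => by
    rw [← sq_eq_sq₀ (nrm_nonneg _) (nrm_nonneg _), ← dot_self, ← dot_self, dotProduct_mulVec,
      vecMul_transpose, mulVec_mulVec, h2, one_mulVec]
  have h6 : ∀ z : ι → ℝ, nrm (diagonal l *ᵥ z) ≤ a * nrm z := fun z => by
    rw [← sq_le_sq₀ (nrm_nonneg _) (mul_nonneg ha (nrm_nonneg _)), mul_pow, nrm_sq, nrm_sq,
      Finset.mul_sum]
    refine Finset.sum_le_sum fun i _ => ?_
    rw [mulVec_diagonal, mul_pow]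
    exact mul_le_mul_of_nonneg_right (h4 i) (sq_nonneg _)
  have h7 := h3 1
  simp only [pow_one] at h7
  rw [h7, ← mulVec_mulVec, ← mulVec_mulVec, dotProduct_mulVec, ← mulVec_transpose]
  refine (abs_dot_le _ _).trans ?_
  rw [h5, ← h5 y, mul_comm a, mul_assoc]
  exact mul_le_mul_of_nonneg_left (h6 _) (nrm_nonneg _)

theorem pow_mul_pow_le (x y : ℝ) {a b : ℕ} (h : Even (a + b)) :
    x ^ a * y ^ b ≤ x ^ (a + b) + y ^ (a + b) := by
  have h1 := h.pow_nonneg x
  have h2 := h.pow_nonneg y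
  refine (le_abs_self _).trans ?_
  rw [abs_mul, abs_pow, abs_pow]
  rcases le_total |x| |y| with h3 | h3
  · have : |x| ^ a * |y| ^ b ≤ |y| ^ a * |y| ^ b := by gcongr
    rw [← pow_add, h.pow_abs] at this
    linarith
  · have : |x| ^ a * |y| ^ b ≤ |x| ^ a * |x| ^ b := by gcongr
    rw [← pow_add, h.pow_abs] at this
    linarith

omit [DecidableEq κ] in
theorem sum_trace_le {H : Matrix ι ι ℝ} (hH : Hᵀ = H) {A : κ → Matrix ι ι ℝ}
    (hA : ∀ k, (A k)ᵀ = A k) {v : ℝ}
    (hv : ∀ x, ∑ k, (A k *ᵥ x) ⬝ᵥ (A k *ᵥ x) ≤ v * (x ⬝ᵥ x)) {a b : ℕ} (h : Even (a + b)) :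
    ∑ k, trace (A k * (H ^ a * A k * H ^ b)) ≤ 2 * v * trace (H ^ (a + b)) := by
  obtain ⟨U, l, h1, h2, h3⟩ := spec hH
  obtain ⟨B, hB⟩ : ∃ B : κ → Matrix ι ι ℝ, ∀ k, B k = Uᵀ * A k * U := ⟨_, fun _ => rfl⟩
  have h4 : ∀ k i j, B k j i = B k i j := fun k i j => by
    rw [← transpose_apply (B k), hB, transpose_mul, transpose_mul, hA, transpose_transpose,
      Matrix.mul_assoc]
  have h5 : ∀ k, trace (A k * (H ^ a * A k * H ^ b)) =
      ∑ i, ∑ j, B k i j ^ 2 * (l j ^ a * l i ^ b) := fun k => by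
    have : trace (A k * (H ^ a * A k * H ^ b)) =
        trace (B k * diagonal (fun i => l i ^ a) * (B k * diagonal fun i => l i ^ b)) := by
      rw [h3, h3, hB]
      simp only [← Matrix.mul_assoc]
      rw [trace_mul_comm]
      simp only [← Matrix.mul_assoc]
    rw [this, trace]
    refine Finset.sum_congr rfl fun i _ => ?_
    rw [diag_apply, mul_apply]
    refine Finset.sum_congr rfl fun j _ => ?_
    rw [mul_diagonal, mul_diagonal, h4 k i j]
    ring
  have h6 : ∀ i, ∑ k, ∑ j, B k i j ^ 2 ≤ v := fun i => by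
    have h7 : (Uᵀ i) ⬝ᵥ (Uᵀ i) = 1 := by
      simpa [mul_apply, dotProduct] using congrFun (congrFun h1 i) i
    refine le_of_eq_of_le (Finset.sum_congr rfl fun k _ => ?_) ((hv (Uᵀ i)).trans_eq ?_)
    · have : B k * B k = (A k * U)ᵀ * (A k * U) := by
        rw [hB, transpose_mul, hA]
        simp only [Matrix.mul_assoc]
        rw [← Matrix.mul_assoc U, h2, Matrix.one_mul]
      have := congrFun (congrFun this i) i
      rw [mul_apply] at this
      simp only [h4 k i, ← sq] at this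
      rw [this]
      rfl
    · rw [h7, mul_one]
  have h7 : ∑ k, ∑ i, ∑ j, B k i j ^ 2 * l i ^ (a + b) ≤ v * ∑ i, l i ^ (a + b) := by
    rw [Finset.sum_comm, Finset.mul_sum]
    refine Finset.sum_le_sum fun i _ => ?_
    simp only [← Finset.sum_mul]
    exact mul_le_mul_of_nonneg_right (h6 i) (h.pow_nonneg _)
  have h8 : ∑ k, ∑ i, ∑ j, B k i j ^ 2 * l j ^ (a + b) =
      ∑ k, ∑ i, ∑ j, B k i j ^ 2 * l i ^ (a + b) :=
    Finset.sum_congr rfl fun k _ => Finset.sum_comm.trans (by simp only [h4 k])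
  rw [h3 (a + b), trace_conj h1]
  simp only [h5]
  calc _ ≤ ∑ k, ∑ i, ∑ j, (B k i j ^ 2 * l j ^ (a + b) + B k i j ^ 2 * l i ^ (a + b)) := by
        refine Finset.sum_le_sum fun k _ => Finset.sum_le_sum fun i _ =>
          Finset.sum_le_sum fun j _ => ?_
        rw [← mul_add]
        exact mul_le_mul_of_nonneg_left (pow_mul_pow_le _ _ h) (sq_nonneg _)
    _ ≤ _ := by
        simp only [Finset.sum_add_distrib]
        linarith

/-- the Gaussian sum -/
def gs (A : κ → Matrix ι ι ℝ) (g : κ → ℝ) : Matrix ι ι ℝ := ∑ k, g k • A k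

variable (A : κ → Matrix ι ι ℝ)

omit [Fintype ι] [DecidableEq ι] [DecidableEq κ] in
theorem gs_apply (g : κ → ℝ) (i j : ι) : gs A g i j = ∑ k, g k * A k i j := by
  simp [gs, Matrix.sum_apply]

omit [Fintype ι] [DecidableEq ι] [DecidableEq κ] in
theorem gs_symm (hA : ∀ k, (A k)ᵀ = A k) (g : κ → ℝ) : (gs A g)ᵀ = gs A g := by
  simp [gs, transpose_sum, hA]

omit [Fintype ι] [DecidableEq ι] [DecidableEq κ] in
theorem temp_gs (i j : ι) : (fun g => gs A g i j).HasTemperateGrowth :=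
  temp_linear _ (fun x y => by simp [gs_apply, add_mul, Finset.sum_add_distrib])
    fun c x => by simp [gs_apply, Finset.mul_sum, mul_assoc]

omit [DecidableEq κ] in
theorem temp_pow (m : ℕ) : ∀ i j, (fun g => (gs A g ^ m) i j).HasTemperateGrowth := by
  induction m with
  | zero => intro i j; simp
  | succ m ih =>
    intro i j
    simp only [pow_succ, mul_apply]
    exact temp_sum _ fun l _ => temp_mul (ih _ _) (temp_gs A _ _)

omit [DecidableEq κ] in
theorem temp_trace (B : Matrix ι ι ℝ) (m : ℕ) :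
    (fun g => trace (B * gs A g ^ m)).HasTemperateGrowth := by
  simp only [trace, diag_apply, mul_apply]
  exact temp_sum _ fun i _ => temp_sum _ fun j _ => temp_mul (.const _) (temp_pow A m _ _)

omit [DecidableEq κ] in
theorem diff_of_temp {f : (κ → ℝ) → ℝ} (hf : f.HasTemperateGrowth) (x : κ → ℝ) :
    DifferentiableAt ℝ f x := hf.1.differentiable (by simp) x

omit [Fintype ι] [DecidableEq ι] in
theorem pd_gs (k : κ) (x : κ → ℝ) (i j : ι) : pd k (fun g => gs A g i j) x = A k i j := by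
  simp only [gs_apply]
  rw [pd_sum _ fun _ _ => by fun_prop]
  simp only [pd_mul_const (differentiableAt_apply _ x), pd_coord]
  simp

theorem pd_pow (k : κ) (x : κ → ℝ) (m : ℕ) : ∀ i j, pd k (fun g => (gs A g ^ (m + 1)) i j) x =
    (∑ q ∈ Finset.HasAntidiagonal.antidiagonal m, gs A x ^ q.1 * A k * gs A x ^ q.2) i j := by
  induction m with
  | zero => intro i j; simp [pd_gs]
  | succ m ih =>
    intro i j
    rw [Finset.Nat.sum_antidiagonal_succ']
    simp only [pow_succ _ (m + 1), mul_apply (M := _ ^ (m + 1))]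
    rw [pd_sum _ fun l _ => (diff_of_temp (temp_pow A _ _ _) x).fun_mul
      (diff_of_temp (temp_gs A _ _) x)]
    simp only [pd_mul (diff_of_temp (temp_pow A _ _ _) x) (diff_of_temp (temp_gs A _ _) x), ih,
      pd_gs, Finset.sum_add_distrib, ← mul_apply, pow_zero, Matrix.mul_one, pow_succ _ (Prod.snd _),
      ← Matrix.mul_assoc, ← Finset.sum_mul, Matrix.add_apply]
    rw [add_comm]

theorem pd_trace (B : Matrix ι ι ℝ) (k : κ) (x : κ → ℝ) (m : ℕ) :
    pd k (fun g => trace (B * gs A g ^ (m + 1))) x =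
      ∑ q ∈ Finset.HasAntidiagonal.antidiagonal m, trace (B * (gs A x ^ q.1 * A k * gs A x ^ q.2)) := by
  rw [← trace_sum, ← Finset.mul_sum]
  simp only [trace, diag_apply, mul_apply (M := B)]
  rw [pd_sum _ fun i _ => diff_of_temp
    (temp_sum _ fun j _ => temp_mul (.const _) (temp_pow A _ _ _)) x]
  refine Finset.sum_congr rfl fun i _ => ?_
  rw [pd_sum _ fun j _ => diff_of_temp (temp_mul (.const _) (temp_pow A _ _ _)) x]
  refine Finset.sum_congr rfl fun j _ => ?_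
  rw [pd_const_mul (diff_of_temp (temp_pow A _ _ _) x), pd_pow]

omit [DecidableEq κ] in
theorem temp_trace' (m : ℕ) : (fun g => trace (gs A g ^ m)).HasTemperateGrowth := by
  simpa using temp_trace A 1 m

theorem moment_step (hA : ∀ k, (A k)ᵀ = A k) {v : ℝ}
    (hv : ∀ x, ∑ k, (A k *ᵥ x) ⬝ᵥ (A k *ᵥ x) ≤ v * (x ⬝ᵥ x)) {m : ℕ} (hm : Even m) :
    ∫ g, trace (gs A g ^ (m + 2)) ∂gam κ ≤
      (m + 1) * (2 * v) * ∫ g, trace (gs A g ^ m) ∂gam κ := by
  have h1 : ∀ g, trace (gs A g ^ (m + 2)) = ∑ k, g k * trace (A k * gs A g ^ (m + 1)) := fun g => by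
    rw [pow_succ', gs, Finset.sum_mul, trace_sum]
    simp
  simp only [h1]
  rw [integral_finsetSum _ fun k _ => temp_integrable
    (temp_mul (temp_coord (f := fun g : κ → ℝ => g) (temp_linear _ (fun _ _ => rfl) fun _ _ => rfl)
      k) (temp_trace A _ _))]
  simp only [stein (temp_trace A _ _)]
  rw [← integral_finsetSum _ fun k _ => temp_integrable (temp_pd (temp_trace A _ _) k),
    ← integral_const_mul]
  refine integral_mono (integrable_finsetSum _ fun k _ =>
    temp_integrable (temp_pd (temp_trace A _ _) k))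
    ((temp_integrable (temp_trace' A m)).const_mul _) fun g => ?_
  simp only [pd_trace]
  rw [Finset.sum_comm]
  refine (Finset.sum_le_card_nsmul _ _ (2 * v * trace (gs A g ^ m)) fun q hq => ?_).trans_eq ?_
  · rw [Finset.HasAntidiagonal.mem_antidiagonal] at hq
    subst hq
    exact sum_trace_le (gs_symm A hA g) hA hv hm
  · simp [mul_assoc]

theorem moment (p : ℕ) : ∃ c : ℝ, 1 ≤ c ∧ ∀ (ι κ : Type) [Fintype ι] [DecidableEq ι] [Fintype κ]
    (A : κ → Matrix ι ι ℝ), (∀ k, (A k)ᵀ = A k) → ∀ v : ℝ, 0 ≤ v →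
    (∀ x, ∑ k, (A k *ᵥ x) ⬝ᵥ (A k *ᵥ x) ≤ v * (x ⬝ᵥ x)) →
    ∫ g, trace (gs A g ^ (2 * p)) ∂gam κ ≤ c * v ^ p * Fintype.card ι := by
  classical
  induction p with
  | zero => exact ⟨1, le_rfl, fun ι κ _ _ _ A _ v _ _ => by simp⟩
  | succ p ih =>
    obtain ⟨c, hc, h⟩ := ih
    refine ⟨((2 * p : ℕ) + 1) * 2 * c, one_le_mul_of_one_le_of_one_le
      (by linarith [Nat.cast_nonneg (α := ℝ) (2 * p)]) hc, fun ι κ _ _ _ A hA v hv0 hv => ?_⟩
    refine (moment_step A hA hv (even_two_mul p)).trans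
      ((mul_le_mul_of_nonneg_left (h ι κ A hA v hv0 hv) (by positivity)).trans_eq ?_)
    ring

end Crest.Agent.R285.Khin

end
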