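import Crest.Agent.R285.MemA

/-!
The class `Mem` is closed under differentiation (induction on `n`, using `dT_jet`, `dT_con1`,
`dT_leaf`, `dT_reix`; the factor `l v` is paid by `SMem.smul_count`).
-/

set_option autoImplicit false

open MeasureTheory ProbabilityTheory Matrix Filter
open scoped ENNReal

noncomputable section

namespace Crest.Agent.R285

/-! ### differentiation -/

namespace MemB

variable {P : Par} {β δ G : ℝ} {V : Type} [Fintype V] {n : ℕ} {S S' : Type}
  {a : ℝ} {F : Submodule ℝ (V → ℝ)} {T : Fam P δ G V S}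

theorem up (hP : P.Base) (hβ : 0 < β) (h : SMem P β δ G V n S a F T) (ha : a ≤ β) {n' : ℕ}
    (hn : n ≤ n') : SMem P β δ G V n' S a F T :=
  h.mono hP hβ hn le_rfl ha le_rfl le_rfl

theorem rx (hP : P.Base) (e : S ≃ S') (h : SMem P β δ G V n S a F T) (ha : 0 < a) (ha' : a ≤ β) :
    SMem P β δ G V (n + 1) S' a F fun W p x => reix e (T W p x) :=
  (h.sc hP e (c := 1) (by simp) ha ha').congr fun _ _ _ => one_smul _ _

theorem abs_coord_le (hP : P.Base) {l : V → ℝ} (hl : l ⬝ᵥ l ≤ n) (v : V) : |l v| ≤ P.K ^ n := by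
  have h1 : l v * l v ≤ l ⬝ᵥ l :=
    Finset.single_le_sum (f := fun i => l i * l i) (fun i _ => mul_self_nonneg _)
      (Finset.mem_univ v)
  have h2 : (n : ℝ) ≤ 2 ^ n := by exact_mod_cast (Nat.lt_two_pow_self (n := n)).le
  have h3 : (2 : ℝ) ^ n ≤ P.K ^ n := pow_le_pow_left₀ (by norm_num) hP.two_le n
  have h4 : 1 ≤ P.K ^ n := one_le_pow₀ hP.one_le_K
  exact abs_le_of_sq_le_sq (by nlinarith) (by linarith)

theorem reix_con1_smul {d : ℕ} {S₁ S₂ : Type} (e : S₁ ⊕ S₂ ≃ S') (c : ℝ) (A : Ten d (Option S₁))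
    (B : Ten d (Option S₂)) : reix e (con1 (c • A) B) = c • reix e (con1 A B) := by
  funext i
  simp only [reix, con1, Pi.smul_apply, smul_eq_mul, Finset.mul_sum, mul_assoc]

theorem dT_sum' [DecidableEq V] {κ : Type} [Fintype κ] {U : κ → Fam P δ G V S}
    (h : ∀ k, Mem P β δ G V n S a F (U k)) (v : V) (W : Pot P.d δ G) (p : E P.d) (x : Om P.d V) :
    dT v (fun x => ∑ k, U k W p x) x = ∑ k, dT v (U k W p) x := by
  funext i
  simp only [dT, Finset.sum_apply]
  exact TenB.pd_sum _ (fun k _ => ((h k).temp_coord W p _).1.differentiable (by simp) x) _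

end MemB

open MemB

theorem mem_dT (n : ℕ) : ∃ n' : ℕ, ∀ (P : Par), P.Base → ∀ (β δ G : ℝ), 0 < β →
    ∀ (V : Type) [Fintype V] [DecidableEq V] (S : Type) (a : ℝ) (F : Submodule ℝ (V → ℝ))
      (T : Fam P δ G V S), Mem P β δ G V n S a F T → ∀ v,
      SMem P β δ G V n' (Option S) a F fun W p => dT v (T W p) := by
  induction n with
  | zero =>
    refine ⟨0, fun P hP β δ G hβ V _ _ S a F T h => ?_⟩
    cases h
  | succ n ih =>
    obtain ⟨n', ih⟩ := ih
    refine ⟨2 * n' + 4 * n + 10, fun P hP β δ G hβ V _ _ S a F T h v => ?_⟩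
    have hK := hP.one_le_K
    obtain ⟨ha0, haβ⟩ := h.amp hβ
    cases h with
    | node _ _ _ _ c η b0 hb0 l κ T hT hκ hl hF hS hη hη' ha ha' hc hc' =>
      classical
      have hN : SMem P β δ G V (n + 2) (Option S) a F
          (fun W p x => c • tau W.1 η (b0 p + lin l x + ∑ k, vec (T k W p x))) :=
        (Mem.node (n + 1) (Option S) a F c η b0 hb0 l κ T
          (fun k => (hT k).mono_n hK (Nat.le_succ n))
          (hκ.trans (pow_le_pow_right₀ hK (Nat.le_succ n))) (by push_cast; linarith) hF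
          (by rw [Fintype.card_option]; omega) (by push_cast; linarith) hη' ha ha' hc hc').smem hK
      have h1 := hN.smul_count hP hβ (abs_coord_le hP hl v)
      have h2 := rx hP swapU
        (SMem.sum hP hβ hκ fun k => ih P hP β δ G hβ V Unit β F (T k) (hT k) v) hβ le_rfl
      have h3 := rx hP (sumU S) ((up hP hβ hN ha' (n' := n' + n + 2) (by omega)).con hP hβ
        (up hP hβ h2 le_rfl (n' := n' + n + 2) (by omega)) (a := a)
        (by rw [mul_div_assoc, div_self hβ.ne', mul_one]) ha') ha ha'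
      have h4 := (up hP hβ h1 ha' (n' := 2 * n' + 4 * n + 9) (by omega)).add hP hβ
        (up hP hβ h3 ha' (n' := 2 * n' + 4 * n + 9) (by omega))
      refine h4.congr fun W p x => ?_
      have hU : (fun x => ∑ k, T k W p x).HasTemperateGrowth :=
        Function.HasTemperateGrowth.sum fun k _ => (hT k).temp W p
      have hJ : (fun x => (jet (Phi W.1 η) (b0 p + lin l x + vec (∑ k, T k W p x)) :
          Ten P.d S)).HasTemperateGrowth := by
        refine (temp_tau W.2 η).comp ?_
        exact ((Function.HasTemperateGrowth.const _).fun_add (temp_lin l)).fun_add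
          (temp_pi.2 fun i => temp_pi.1 hU _)
      simp only [← vec_sum, tau]
      rw [dT_smul hJ, dT_jet (temp_Phi W.2 η) _ _ hU, dT_sum' hT, reix_con1_smul, smul_add,
        smul_comm]
    | con _ S₁ S₂ a₁ a₂ _ _ T₁ T₂ h₁ h₂ ha ha' =>
      classical
      have : Finite S₁ := by
        have := h₁.finite.1
        exact Finite.of_injective _ (Option.some_injective S₁)
      have : Finite S₂ := by
        have := h₂.finite.1
        exact Finite.of_injective _ (Option.some_injective S₂)
      have := Fintype.ofFinite S₁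
      have := Fintype.ofFinite S₂
      obtain ⟨p₁, q₁⟩ := h₁.amp hβ
      obtain ⟨p₂, q₂⟩ := h₂.amp hβ
      have d₁ := rx hP (swapO S₁) (ih P hP β δ G hβ V _ _ _ _ h₁ v) p₁ q₁
      have d₂ := rx hP (swapO S₂) (ih P hP β δ G hβ V _ _ _ _ h₂ v) p₂ q₂
      have e₁ := rx hP (optL S₁ S₂) ((up hP hβ d₁ q₁ (n' := n' + n + 1) (by omega)).con hP hβ
        (up hP hβ (h₂.smem hK) q₂ (n' := n' + n + 1) (by omega)) ha ha') ha0 ha'
      have e₂ := rx hP (optR S₁ S₂)
        ((up hP hβ (h₁.smem hK) q₁ (n' := n' + n + 1) (by omega)).con hP hβ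
        (up hP hβ d₂ q₂ (n' := n' + n + 1) (by omega)) ha ha') ha0 ha'
      refine (up hP hβ (e₁.add hP hβ e₂) ha' (by omega)).congr fun W p x => ?_
      exact (dT_con1 (h₁.temp W p) (h₂.temp W p) v x).symm
    | leaf _ _ _ F' _ T h z hz hz1 hF hFz =>
      classical
      have : Finite S := by
        have := h.finite.1
        exact Finite.of_injective _ (Option.some_injective S)
      have := Fintype.ofFinite S
      have d₁ := (rx hP (swapO S) (ih P hP β δ G hβ V _ _ _ _ h v) ha0 haβ).leaf hP hz hz1 hF hFz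
      have d₂ := ((h.mono_F hF).smem hK).smul_count hP hβ
        (abs_coord_le hP (n := 1) (l := z) (by simp [hz1]) v)
      refine (up hP hβ ((up hP hβ d₁ haβ (n' := n' + n + 3) (by omega)).add hP hβ
        (up hP hβ d₂ haβ (n' := n' + n + 3) (by omega))) haβ (by omega)).congr fun W p x => ?_
      exact (dT_leaf (h.temp W p) z v x).symm
    | sc _ S₀ _ e a₀ _ c F₀ _ T h hc ha ha' hF =>
      classical
      have : Finite S := by have := h.finite.1; exact Finite.of_equiv _ e
      have := Fintype.ofFinite S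
      have d₁ := (ih P hP β δ G hβ V _ _ _ _ h v).sc hP e.optionCongr hc ha ha'
      refine (d₁.mono hP hβ (by omega) le_rfl ha' le_rfl hF).congr fun W p x => ?_
      have hT : (fun x => reix e (T W p x)).HasTemperateGrowth :=
        temp_pi.2 fun i => h.temp_coord W p _
      exact (dT_smul hT c v x).symm

theorem smem_dT (n : ℕ) : ∃ n' : ℕ, ∀ (P : Par), P.Base → ∀ (β δ G : ℝ), 0 < β →
    ∀ (V : Type) [Fintype V] [DecidableEq V] (S : Type) (a : ℝ) (F : Submodule ℝ (V → ℝ))
      (T : Fam P δ G V S), SMem P β δ G V n S a F T → ∀ v,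
      SMem P β δ G V n' (Option S) a F fun W p => dT v (T W p) := by
  obtain ⟨n', h⟩ := mem_dT n
  refine ⟨n' + n, fun P hP β δ G hβ V _ _ S a F T hT v => ?_⟩
  obtain ⟨κ, _, U, hκ, hU, e⟩ := hT
  refine (SMem.sum hP hβ hκ fun k => h P hP β δ G hβ V S a F (U k) (hU k) v).congr
    fun W p x => ?_
  rw [← dT_sum' hU, funext (e W p)]

end Crest.Agent.R285

end
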