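import Crest.Agent.R285.PPolyA

/-!
Graph polynomials: flattening bounds for the tower, Taylor formula.
-/

set_option autoImplicit false

open MeasureTheory ProbabilityTheory Matrix Filter
open scoped ENNReal

noncomputable section

namespace Crest.Agent.R285

namespace PPolyX

variable {d : ℕ} {δ G : ℝ} {W : E d → ℝ}

/-- mean value inequality for the flattening norm -/
theorem opN_mvt {S : Type} [Fintype S] [DecidableEq S] {g g' : ℝ → Ten d S} {t M : ℝ}
    (ht : 0 ≤ t) (hM : 0 ≤ M) (hc : Continuous g)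
    (hd : ∀ s ∈ Set.Ioo 0 t, HasDerivAt g (g' s) s) (hb : ∀ s ∈ Set.Ioo 0 t, opN (g' s) ≤ M) :
    opN (g t - g 0) ≤ t * M := by
  rcases ht.eq_or_lt with rfl | ht'
  · simp [opN_zero]
  refine opN_le (by positivity) ?_
  intro A B _ _ _ _ _ _ e u w
  let φ : Ten d S → ℝ := fun T =>
    ∑ i : A → Fin d, ∑ j : B → Fin d, T (fun s => Sum.elim i j (e s)) * u i * w j
  have hφc : Continuous fun s => φ (g s) := by
    refine continuous_finsetSum _ fun i _ => continuous_finsetSum _ fun j _ => ?_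
    exact (((continuous_apply _).comp hc).mul continuous_const).mul continuous_const
  have hφd : ∀ s ∈ Set.Ioo 0 t, HasDerivAt (fun s => φ (g s)) (φ (g' s)) s := by
    intro s hs
    refine HasDerivAt.fun_sum fun i _ => HasDerivAt.fun_sum fun j _ => ?_
    exact (((hasDerivAt_pi.1 (hd s hs)) _).mul_const _).mul_const _
  obtain ⟨c, hc1, hc2⟩ := exists_hasDerivAt_eq_slope (fun s => φ (g s)) (fun s => φ (g' s)) ht'
    hφc.continuousOn hφd
  have h1 : φ (g t - g 0) = t * φ (g' c) := by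
    rw [hc2, sub_zero, mul_div_cancel₀ _ ht'.ne']
    simp only [φ, Pi.sub_apply, sub_mul, Finset.sum_sub_distrib]
  have h2 : |φ (g' c)| ≤ opN (g' c) * nrm u * nrm w := opLe_opN (g' c) A B e u w
  change |φ (g t - g 0)| ≤ _
  rw [h1, abs_mul, abs_of_pos ht']
  have h3 := hb c hc1
  have hu := nrm_nonneg u
  have hw := nrm_nonneg w
  calc t * |φ (g' c)| ≤ t * (M * nrm u * nrm w) := by
        refine mul_le_mul_of_nonneg_left (h2.trans ?_) ht'.le
        gcongr
    _ = _ := by ring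

theorem temp_hh (hW : Adm δ G W) {S : Type} [Fintype S] [DecidableEq S] {H : ℝ → E d → Ten d S}
    (hH : ∀ i, HH W fun η y => H η y i) (η : ℝ) : (H η).HasTemperateGrowth :=
  temp_pi.2 fun i => HH.temp hW (hH i) η

theorem pg_hh (hW : Adm δ G W) {S : Type} [Fintype S] [DecidableEq S] {H : ℝ → E d → Ten d S}
    (hH : ∀ i, HH W fun η y => H η y i) (η : ℝ) : PG (H η) :=
  PG.of_temp (temp_hh hW hH η)

theorem pg_DDT (hW : Adm δ G W) {S : Type} [Fintype S] [DecidableEq S] {H : ℝ → E d → Ten d S}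
    (hH : ∀ i, HH W fun η y => H η y i) {η : ℝ} (hη : 0 < η) : PG (DDT W H η) := by
  refine PG.of_temp (temp_pi.2 fun i => ?_)
  obtain ⟨h', h1, h2⟩ := HH.exists_DD hW (hH i)
  have : (fun y => DDT W H η y i) = h' η := funext fun y => h2 η hη y
  rw [this]
  exact HH.temp hW h1 η

theorem hasDerivAt_stepT (hW : Adm δ G W) {S : Type} [Fintype S] [DecidableEq S]
    {H : ℝ → E d → Ten d S} (hH : ∀ i, HH W fun η y => H η y i) {η t : ℝ} (ht : 0 < t)
    (htη : t < η) (b : E d) :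
    HasDerivAt (fun s => stepE W η s b (H (η - s))) (stepE W η t b (DDT W H (η - t))) t := by
  refine hasDerivAt_pi.2 fun i => ?_
  have h := hasDerivAt_stepE hW (hH i) ht htη b
  rw [stepE_apply hW η t b (pg_DDT hW hH (sub_pos.2 htη)) i]
  have e : (fun s => stepE W η s b (H (η - s)) i) =
      fun s => stepE W η s b (fun y => H (η - s) y i) :=
    funext fun s => stepE_apply hW η s b (pg_hh hW hH _) i
  rw [e]
  exact h

theorem continuous_stepT (hW : Adm δ G W) {S : Type} [Fintype S] [DecidableEq S]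
    {H : ℝ → E d → Ten d S} (hH : ∀ i, HH W fun η y => H η y i) (η : ℝ) (b : E d) :
    Continuous fun s => stepE W η s b (H (η - s)) := by
  refine continuous_pi fun i => ?_
  have e : (fun s => stepE W η s b (H (η - s)) i) =
      fun s => stepE W η s b (fun y => H (η - s) y i) :=
    funext fun s => stepE_apply hW η s b (pg_hh hW hH _) i
  rw [e]
  exact continuous_stepE hW (hH i) η b

theorem opN_neg {S : Type} [Finite S] (T : Ten d S) : opN (-T) ≤ opN T := by
  have := opN_smul_le (-1) T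
  simpa using this

theorem opN_sub_le {S : Type} [Finite S] (T T' : Ten d S) : opN (T - T') ≤ opN T + opN T' := by
  rw [sub_eq_add_neg]
  exact (opN_add_le _ _).trans (add_le_add_right (opN_neg _) _)

theorem opN_tau_congr (hW : Adm δ G W) {S S' : Type} [Fintype S] [Fintype S']
    (h : Fintype.card S = Fintype.card S') (η : ℝ) (y : E d) :
    opN (tau W η y : Ten d S) = opN (tau W η y : Ten d S') := by
  have e : S ≃ S' := Fintype.equivOfCardEq h
  have := jet_reix (contDiff_Phi hW η) e y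
  unfold tau
  rw [← this, opN_reix]

theorem opN_tau_two (hW : Adm δ G W) (hδ : 0 ≤ δ) {η : ℝ} (hη : 0 ≤ η) (h : 2 * η * δ ≤ 1)
    (y : E d) : opN (jet (Phi W η) y : Ten d (Option Unit)) ≤ 2 * δ := by
  have h1 := (adm_Phi hW hδ hη h).opN_le (by positivity) y
  refine h1.trans ?_
  nlinarith

/-- absorption -/
theorem absorb {ι : Type} {f : ι → ℝ} {A : ℝ} (hb : ∃ M, ∀ i, f i ≤ M) (h0 : ∀ i, 0 ≤ f i)
    (h : ∀ M, 0 ≤ M → (∀ i, f i ≤ M) → ∀ i, f i ≤ A + M / 2) (i : ι) : f i ≤ 2 * A := by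
  obtain ⟨M, hM⟩ := hb
  have hbd : BddAbove (Set.range f) := ⟨M, by rintro _ ⟨i, rfl⟩; exact hM i⟩
  have : Nonempty ι := ⟨i⟩
  have h1 : ∀ i, f i ≤ ⨆ i, f i := fun i => le_ciSup hbd i
  have h2 := ciSup_le (h _ ((h0 i).trans (h1 i)) h1)
  linarith [h1 i]

theorem tau_bdd (hW : Adm δ G W) (S : Type) [Fintype S] [Nonempty S] :
    ∃ K, ∀ η y, opN (tau W η y : Ten d S) ≤ K := by
  classical
  choose K hK using fun i : S → Fin d => HH.bdd hW (HH.tau hW i)
  refine ⟨√(∑ i, K i ^ 2), fun η y => (opN_le_nrm _).trans ?_⟩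
  unfold nrm
  refine Real.sqrt_le_sqrt (Finset.sum_le_sum fun i _ => ?_)
  exact sq_le_sq' (by linarith [neg_abs_le ((tau W η y : Ten d S) i), hK i η y])
    ((le_abs_self _).trans (hK i η y))

/-- the smoothed main term -/
theorem main_term {m : ℕ} {C₁ : ℝ} (h₁ : ∀ (d : ℕ) (S : Type) [Fintype S],
    Fintype.card S ≤ m → ∀ f : E d → ℝ, f.HasTemperateGrowth → ∀ δ : ℝ, 0 ≤ δ →
      (∀ y, opN (jet f y : Ten d (Option Unit)) ≤ δ) → ∀ ρ : ℝ, 0 < ρ → ∀ y,
      opN (jet (heat ρ f) y : Ten d S) ≤ C₁ * δ / √ρ ^ (Fintype.card S - 2))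
    (hW : Adm δ G W) (hδ : 0 ≤ δ) {η : ℝ} (hη : 0 < η) (h : η * δ ≤ 1)
    (S : Type) [Fintype S] [DecidableEq S] (hS : Fintype.card S ≤ m) (b : E d) :
    opN (stepE W η (η / 2) b fun y => (tau W (η - η / 2) y : Ten d S)) ≤
      2 * 2 ^ (Fintype.card S - 2) * C₁ * δ / √η ^ (Fintype.card S - 2) := by
  have ht := temp_tau (S := S) hW (η - η / 2)
  rw [stepE_bridge hW hη (by positivity) (by linarith) b (PG.of_temp ht)]
  have haff : (fun x : E d => b + (η / 2 / η) • (x - b)).HasTemperateGrowth := by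
    have : (fun x : E d => b + (η / 2 / η) • (x - b)) =
        fun x => (b - (η / 2 / η) • b) + (η / 2 / η) • x := by
      funext x; rw [smul_sub]; abel
    rw [this]
    exact (Function.HasTemperateGrowth.const _).add
      ((η / 2 / η) • ContinuousLinearMap.id ℝ (E d)).hasTemperateGrowth
  refine opN_stepE_le hW hη.le le_rfl b (((PG.of_temp ht).heat _).comp_temp haff) fun y => ?_
  have hρ : η / 2 * (1 - η / 2 / η) = η / 4 := by field_simp; ring
  rw [hρ]
  unfold tau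
  rw [← jet_heat (temp_Phi hW _)]
  have h2 := h₁ d S hS _ (temp_Phi hW (η - η / 2)) (2 * δ) (by positivity)
    (opN_tau_two hW hδ (by linarith) (by linarith)) (η / 4) (by positivity)
    (b + (η / 2 / η) • (y - b))
  refine h2.trans (le_of_eq ?_)
  have h4 : √(η / 4) = √η / 2 := by
    rw [Real.sqrt_div hη.le, show (4 : ℝ) = 2 ^ 2 by norm_num, Real.sqrt_sq (by norm_num)]
  have h5 : 0 < √η := Real.sqrt_pos.2 hη
  rw [h4, div_pow]
  field_simp

/-- the statement of `tau_op` -/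
def TauOp (j : ℕ) (C : ℝ) : Prop :=
  ∀ (d : ℕ) (δ G : ℝ) (W : E d → ℝ), Adm δ G W → 0 ≤ δ →
    ∀ η, 0 < η → C * η * δ ≤ 1 → ∀ (S : Type) [Fintype S], Fintype.card S ≤ j → ∀ y,
      opN (tau W η y : Ten d S) ≤ C * δ / √η ^ (Fintype.card S - 2)

theorem tauOp_two : TauOp 2 2 := by
  intro d δ G W hW hδ η hη hC S _ hS y
  rcases hS.lt_or_eq with h | h
  · have : Subsingleton S := Fintype.card_le_one_iff_subsingleton.1 (by omega)
    rw [opN_eq_zero]
    positivity
  · rw [opN_tau_congr hW (S' := Option Unit) (by simp [h]), h]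
    simpa [tau] using opN_tau_two hW hδ hη.le hC y

/-- the bound for one product -/
theorem prod_bound {j : ℕ} {C₀ : ℝ} (hC₀ : 1 ≤ C₀) (h₀ : TauOp j C₀) (hj : 2 ≤ j) (hW : Adm δ G W)
    (hδ : 0 ≤ δ) {η M : ℝ} (hη : 0 < η) (h : C₀ * η * δ ≤ 1) (hM : 0 ≤ M) (S : Type) [Fintype S]
    (hS : Fintype.card S = j + 1) (y : E d)
    (hb : √η ^ (j - 1) * opN (tau W η y : Ten d S) ≤ M)
    (A B : Type) [Fintype A] [Fintype B] [Nonempty A] [Nonempty B]
    (hAB : Fintype.card A + Fintype.card B = j + 1) :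
    opN (tau W η y : Ten d (Option A)) * opN (tau W η y : Ten d (Option B)) ≤
      C₀ * δ * (C₀ * δ + M) / √η ^ (j - 1) := by
  have hA : 0 < Fintype.card A := Fintype.card_pos
  have hB : 0 < Fintype.card B := Fintype.card_pos
  have h5 : 0 < √η := Real.sqrt_pos.2 hη
  have hb' : opN (tau W η y : Ten d S) ≤ M / √η ^ (j - 1) := by
    rw [le_div_iff₀ (by positivity)]; linarith
  have hc : 0 ≤ C₀ * δ := by positivity
  have nA := opN_nonneg (tau W η y : Ten d (Option A))
  have nB := opN_nonneg (tau W η y : Ten d (Option B))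
  have small : ∀ (T : Type) [Fintype T], Fintype.card T + 1 ≤ j →
      opN (tau W η y : Ten d (Option T)) ≤ C₀ * δ / √η ^ (Fintype.card T - 1) := by
    intro T _ hT
    have := h₀ d δ G W hW hδ η hη h (Option T) (by simpa using hT) y
    rwa [Fintype.card_option, show Fintype.card T + 1 - 2 = Fintype.card T - 1 by omega] at this
  have big : ∀ (T : Type) [Fintype T], Fintype.card T = j →
      opN (tau W η y : Ten d (Option T)) ≤ M / √η ^ (j - 1) := by
    intro T _ hT
    rwa [opN_tau_congr hW (S' := S) (by simp [hT, hS])]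
  by_cases h1 : Fintype.card A = j
  · have h2 := small B (by omega)
    rw [show Fintype.card B - 1 = 0 by omega, pow_zero, div_one] at h2
    calc _ ≤ M / √η ^ (j - 1) * (C₀ * δ) := mul_le_mul (big A h1) h2 nB (by positivity)
      _ = C₀ * δ * M / √η ^ (j - 1) := by ring
      _ ≤ _ := by gcongr; linarith
  by_cases h1' : Fintype.card B = j
  · have h2 := small A (by omega)
    rw [show Fintype.card A - 1 = 0 by omega, pow_zero, div_one] at h2
    calc _ ≤ (C₀ * δ) * (M / √η ^ (j - 1)) := mul_le_mul h2 (big B h1') nB (by positivity)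
      _ = C₀ * δ * M / √η ^ (j - 1) := by ring
      _ ≤ _ := by gcongr; linarith
  have h2 := small A (by omega)
  have h3 := small B (by omega)
  calc _ ≤ (C₀ * δ / √η ^ (Fintype.card A - 1)) * (C₀ * δ / √η ^ (Fintype.card B - 1)) :=
        mul_le_mul h2 h3 nB (by positivity)
    _ = C₀ * δ * (C₀ * δ) / √η ^ (j - 1) := by
        rw [div_mul_div_comm, ← pow_add,
          show Fintype.card A - 1 + (Fintype.card B - 1) = j - 1 by omega]
    _ ≤ _ := by gcongr; linarith

theorem tauOp_succ {j : ℕ} {C₀ : ℝ} (hC₀ : 1 ≤ C₀) (h₀ : TauOp j C₀) (hj : 2 ≤ j) :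
    ∃ C, 1 ≤ C ∧ TauOp (j + 1) C := by
  classical
  obtain ⟨n, hn⟩ := DDT_tau (j + 1)
  obtain ⟨C₁, hC₁, h₁⟩ := opN_jet_heat_le (j + 1)
  have hp : (0 : ℝ) < 2 ^ (j - 1) := by positivity
  have e1 : 0 ≤ n * 2 ^ (j - 1) * C₀ := by positivity
  have e2 : 0 ≤ 2 ^ (j - 1) * C₁ := by positivity
  refine ⟨2 * (n * 2 ^ (j - 1) * C₀) + 4 * (2 ^ (j - 1) * C₁) + C₀, by linarith, ?_⟩
  intro d δ G W hW hδ η₀ hη₀ hC S _ hS y₀
  have h50 : 0 < √η₀ := Real.sqrt_pos.2 hη₀
  have hηδ : 0 ≤ η₀ * δ := by positivity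
  have hC0 : C₀ * η₀ * δ ≤ 1 := by nlinarith
  rcases hS.lt_or_eq with hlt | hS
  · refine (h₀ d δ G W hW hδ η₀ hη₀ hC0 S (by omega) y₀).trans ?_
    gcongr
    linarith
  have : Nonempty S := Fintype.card_pos_iff.1 (by omega)
  obtain ⟨κ, _, A, B, _, _, _, _, e, hκ, hDD⟩ := hn S hS.le
  have hH : ∀ i : S → Fin d, HH W fun η y => (tau W η y : Ten d S) i := fun i => HH.tau hW i
  have key := absorb (ι := Set.Ioc 0 η₀ × E d)
    (f := fun z => √z.1.1 ^ (j - 1) * opN (tau W z.1.1 z.2 : Ten d S))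
    (A := (2 * (2 ^ (j - 1) * C₁) + C₀ / 2) * δ) ?_ ?_ ?_ (⟨η₀, hη₀, le_rfl⟩, y₀)
  · rw [hS, show j + 1 - 2 = j - 1 by omega, le_div_iff₀ (by positivity)]
    have : 0 ≤ n * 2 ^ (j - 1) * C₀ * δ := by positivity
    simp only at key
    nlinarith
  · obtain ⟨K, hK⟩ := tau_bdd hW S
    refine ⟨√η₀ ^ (j - 1) * K, fun z => ?_⟩
    exact mul_le_mul (pow_le_pow_left₀ (Real.sqrt_nonneg _) (Real.sqrt_le_sqrt z.1.2.2) _)
      (hK _ _) (opN_nonneg _) (by positivity)
  · exact fun z => mul_nonneg (by positivity) (opN_nonneg _)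
  rintro M hM hb ⟨⟨η, hη, hη'⟩, b⟩
  simp only
  have h5 : 0 < √η := Real.sqrt_pos.2 hη
  have hηδ' : η * δ ≤ η₀ * δ := by gcongr
  have hmain := main_term h₁ hW hδ hη (by nlinarith) S hS.le b
  rw [hS, show j + 1 - 2 = j - 1 by omega] at hmain
  have hc : 0 ≤ C₀ * δ := by positivity
  have hrem := opN_mvt (g := fun s => stepE W η s b fun y => (tau W (η - s) y : Ten d S))
    (g' := fun s => stepE W η s b (DDT W (fun η y => (tau W η y : Ten d S)) (η - s)))
    (t := η / 2) (M := n * (C₀ * δ * (C₀ * δ + M) * 2 ^ (j - 1) / √η ^ (j - 1)))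
    (by positivity) (by positivity)
    (continuous_stepT hW (H := fun η y => (tau W η y : Ten d S)) hH η b)
    (fun s hs => hasDerivAt_stepT hW (H := fun η y => (tau W η y : Ten d S)) hH hs.1
      (by linarith [hs.2]) b) ?_
  · simp only [stepE_zero hW, sub_zero] at hrem
    have h6 : (tau W η b : Ten d S) =
        (stepE W η (η / 2) b fun y => (tau W (η - η / 2) y : Ten d S)) -
        ((stepE W η (η / 2) b fun y => (tau W (η - η / 2) y : Ten d S)) - tau W η b) := by abel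
    have h7 := (congrArg opN h6).trans_le ((opN_sub_le _ _).trans (add_le_add hmain hrem))
    have h8 : √η ^ (j - 1) * opN (tau W η b : Ten d S) ≤ 2 * 2 ^ (j - 1) * C₁ * δ +
        η / 2 * (n * (C₀ * δ * (C₀ * δ + M) * 2 ^ (j - 1))) := by
      refine (mul_le_mul_of_nonneg_left h7 (by positivity)).trans (le_of_eq ?_)
      field_simp
    have h9 : n * 2 ^ (j - 1) * C₀ * (η * δ) ≤ 1 / 2 := by
      have : n * 2 ^ (j - 1) * C₀ * (η * δ) ≤ n * 2 ^ (j - 1) * C₀ * (η₀ * δ) := by gcongr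
      nlinarith
    have h10 : n * 2 ^ (j - 1) * C₀ * (η * δ) * (C₀ * δ + M) ≤ 1 / 2 * (C₀ * δ + M) := by gcongr
    nlinarith
  intro s hs
  have hs1 : 0 < η - s := by linarith [hs.2]
  refine opN_stepE_le hW hs.1.le (by linarith) b (pg_DDT hW hH hs1) fun y => ?_
  rw [hDD d δ G W hW _ hs1 y]
  refine (opN_sum_le _ _).trans ?_
  have hsq : √η / 2 ≤ √(η - s) := by
    refine Real.le_sqrt_of_sq_le ?_
    rw [div_pow, Real.sq_sqrt hη.le]
    linarith [hs.2]
  have hterm : ∀ k, opN (reix (e k) (con1 (tau W (η - s) y : Ten d (Option (A k)))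
      (tau W (η - s) y))) ≤ C₀ * δ * (C₀ * δ + M) * 2 ^ (j - 1) / √η ^ (j - 1) := by
    intro k
    rw [opN_reix]
    refine (opN_con1_le _ _).trans ?_
    have hle : η - s ≤ η₀ := by linarith [hs.1]
    have h11 : C₀ * (η - s) * δ ≤ 1 := le_trans (by gcongr) hC0
    refine (prod_bound hC₀ h₀ hj hW hδ hs1 h11 hM S hS y (hb (⟨η - s, hs1, hle⟩, y)) (A k) (B k)
      (by rw [← Fintype.card_sum, Fintype.card_congr (e k), hS])).trans ?_
    calc C₀ * δ * (C₀ * δ + M) / √(η - s) ^ (j - 1)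
        ≤ C₀ * δ * (C₀ * δ + M) / (√η / 2) ^ (j - 1) := by gcongr
      _ = _ := by rw [div_pow]; field_simp
  refine (Finset.sum_le_sum fun k _ => hterm k).trans ?_
  rw [Finset.sum_const, Finset.card_univ, nsmul_eq_mul]
  gcongr

theorem tauOp (j : ℕ) : ∃ C, 1 ≤ C ∧ TauOp (j + 2) C := by
  induction j with
  | zero => exact ⟨2, by norm_num, tauOp_two⟩
  | succ j ih =>
    obtain ⟨C, hC, h⟩ := ih
    exact tauOp_succ hC h (by omega)

end PPolyX

/-- Flattening bounds. For `|S| = 2` use `adm_Phi`. In general integrate the generator formula over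
`t ∈ [0, η/2]`; the main term is smoothed by the bridge noise (`stepE_bridge`, `jet_heat`,
`opN_jet_heat_le` applied to `Φ_{η/2}`); in the integral the terms `τ_2 · τ_S` are absorbed in
`sup_{0 < η' ≤ η} √η'^(j-2) sup_y opN`, which is finite by `HH.bdd`. -/
theorem tau_op (j : ℕ) : ∃ C : ℝ, 1 ≤ C ∧ ∀ (d : ℕ) (δ G : ℝ) (W : E d → ℝ), Adm δ G W → 0 ≤ δ →
    ∀ η, 0 < η → C * η * δ ≤ 1 → ∀ (S : Type) [Fintype S], Fintype.card S ≤ j → ∀ y,
      opN (tau W η y : Ten d S) ≤ C * δ / √η ^ (Fintype.card S - 2) := by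
  obtain ⟨C, hC, h⟩ := PPolyX.tauOp j
  exact ⟨C, hC, fun d δ G W hW hδ η hη hC S _ hS y =>
    h d δ G W hW hδ η hη hC S (by omega) y⟩

theorem pp_op (n : ℕ) : ∃ C : ℝ, 1 ≤ C ∧ ∀ (d : ℕ) (δ G : ℝ) (W : E d → ℝ), Adm δ G W → 0 ≤ δ →
    ∀ η, 0 < η → C * η * δ ≤ 1 → ∀ (k w : ℕ) (S : Type) (H : (E d → ℝ) → ℝ → E d → Ten d S),
      PP d n k w S H → ∀ y, opN (H W η y) ≤ C * δ / √η ^ (w - 2) := by
  obtain ⟨C, hC, h⟩ := tau_op n
  refine ⟨C, hC, fun d δ G W hW hδ η hη hCη k w S H hH y => ?_⟩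
  have h5 : 0 < √η := Real.sqrt_pos.2 hη
  have key : ∀ (n' k w : ℕ) (S : Type) (H : (E d → ℝ) → ℝ → E d → Ten d S),
      PP d n' k w S H → n' ≤ n → opN (H W η y) ≤ C * δ / √η ^ (w - 2) := by
    intro n' k w S H hH
    induction hH with
    | node n' S h2 hn => exact fun hn' => h d δ G W hW hδ η hη hCη S (hn.trans hn') y
    | con n' k₁ k₂ w₁ w₂ S₁ S₂ J hJ G₁ G₂ h₁ h₂ ih₁ ih₂ =>
      intro hn'
      obtain ⟨f₁, -, hk₁, hw₁, -⟩ := h₁.finite
      obtain ⟨f₂, -, hk₂, hw₂, -⟩ := h₂.finite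
      have : Finite S₁ := Finite.sum_left J
      have : Finite S₂ := Finite.sum_right J
      refine (opN_con_le _ _).trans ?_
      have hc : 0 ≤ C * δ := by positivity
      calc opN (G₁ W η y) * opN (G₂ W η y)
          ≤ (C * δ / √η ^ (w₁ - 2)) * (C * δ / √η ^ (w₂ - 2)) :=
            mul_le_mul (ih₁ (by omega)) (ih₂ (by omega)) (opN_nonneg _) (by positivity)
        _ = C * δ * (C * η * δ) / √η ^ (w₁ + w₂ - 2) := by
            rw [show w₁ + w₂ - 2 = (w₁ - 2) + (w₂ - 2) + 2 by omega, pow_add, pow_add,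
              Real.sq_sqrt hη.le]
            field_simp
        _ ≤ C * δ * 1 / √η ^ (w₁ + w₂ - 2) := by gcongr
        _ = _ := by rw [mul_one]
    | sc n' k w S S' e c hc G₁ h₁ ih =>
      intro hn'
      obtain ⟨f₁, -⟩ := h₁.finite
      have : Finite S' := Finite.of_equiv _ e
      refine (opN_smul_le _ _).trans ?_
      rw [opN_reix]
      exact (mul_le_of_le_one_left (opN_nonneg _) hc).trans (ih (by omega))
  exact key n k w S H hH le_rfl

namespace PPolyX

/-- Taylor formula with `N` terms, for graph polynomials of weight `≥ 2 + 2 (M - N)` -/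
theorem taylor (M N : ℕ) : ∀ n : ℕ, ∃ (n' : ℕ) (C : ℝ), 1 ≤ C ∧ ∀ (d k w : ℕ) (S : Type) [Fintype S]
    [DecidableEq S] (H : (E d → ℝ) → ℝ → E d → Ten d S), PP d n k w S H → 2 + 2 * M ≤ w + 2 * N →
    ∃ (κ : Type) (_ : Fintype κ) (k' w' m : κ → ℕ) (a : κ → ℝ)
      (H' : κ → (E d → ℝ) → ℝ → E d → Ten d S),
      Fintype.card κ ≤ n' ∧ (∀ i, 2 ≤ k' i ∧ PP d n' (k' i) (w' i) S (H' i)) ∧ (∀ i, |a i| ≤ 1) ∧
      ∀ (δ G : ℝ) (W : E d → ℝ), Adm δ G W → 0 ≤ δ → ∀ η, 2 ≤ η → C * η * δ ≤ 1 → ∀ t, 0 ≤ t →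
        t ≤ 1 → ∀ y, opN (stepE W η t y (H W (η - t)) - H W η y -
          ∑ i, (a i * t ^ (m i + 1)) • H' i W η y) ≤ C * δ / η ^ M := by
  induction N with
  | zero =>
    intro n
    obtain ⟨C, hC, h⟩ := pp_op n
    have hp : (1 : ℝ) ≤ 2 ^ M := one_le_pow₀ (by norm_num)
    refine ⟨0, 2 * 2 ^ M * C, by nlinarith, fun d k w S _ _ H hH hw =>
      ⟨Empty, inferInstance, fun _ => 0, fun _ => 0, fun _ => 0, fun _ => 0, fun _ => H, by simp,
        fun i => i.elim, fun i => i.elim, ?_⟩⟩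
    intro δ G W hW hδ η hη hCη t ht ht1 y
    have hc : 0 ≤ C * δ := by positivity
    have hb : ∀ η', η / 2 ≤ η' → η' ≤ η → ∀ y, opN (H W η' y) ≤ 2 ^ M * C * δ / η ^ M := by
      intro η' h1 h2 y
      have h3 : C * η' * δ ≤ 1 := by
        have : C * η' * δ ≤ C * η * δ := by gcongr
        have h4 : 0 ≤ C * η * δ := by positivity
        nlinarith
      refine (h d δ G W hW hδ η' (by linarith) h3 k w S H hH y).trans ?_
      have h5 : (η / 2) ^ M ≤ √η' ^ (w - 2) := by
        calc (η / 2) ^ M ≤ η' ^ M := by gcongr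
          _ = √η' ^ (2 * M) := by rw [pow_mul, Real.sq_sqrt (by linarith)]
          _ ≤ _ := pow_le_pow_right₀ (Real.one_le_sqrt.2 (by linarith)) (by omega)
      calc C * δ / √η' ^ (w - 2) ≤ C * δ / (η / 2) ^ M := by gcongr
        _ = _ := by rw [div_pow]; field_simp
    have h6 := opN_stepE_le hW ht (by linarith : t ≤ η) y (pg_hh hW (hH.hh hW) (η - t))
      (hb (η - t) (by linarith) (by linarith))
    have h7 := hb η (by linarith) le_rfl y
    rw [Finset.univ_eq_empty, Finset.sum_empty, sub_zero]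
    refine (opN_sub_le _ _).trans ((add_le_add h6 h7).trans (le_of_eq ?_))
    ring
  | succ N ih =>
    intro n
    obtain ⟨n₁, h₁⟩ := pp_DDT n
    obtain ⟨n₂, C, hC, h₂⟩ := ih n₁
    have hn₁ : (0 : ℝ) ≤ n₁ := Nat.cast_nonneg _
    refine ⟨n₁ + n₁ * n₂ + n₂, (n₁ + 1) * C, by nlinarith, fun d k w S _ _ H hH hw => ?_⟩
    obtain ⟨κ, _, k₁, H₁, hκ, hP, hDD⟩ := h₁ d k w S H hH
    choose κ' fκ' k' w' m a H' hκ' hP' ha hT using
      fun j : κ => h₂ d (k₁ j) (w + 2) S (H₁ j) (hP j).2 (by omega)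
    refine ⟨κ ⊕ (Σ j, κ' j), inferInstance, Sum.elim k₁ fun z => k' z.1 z.2,
      Sum.elim (fun _ => w + 2) fun z => w' z.1 z.2, Sum.elim (fun _ => 0) fun z => m z.1 z.2 + 1,
      Sum.elim (fun _ => 1) fun z => a z.1 z.2 / (m z.1 z.2 + 2),
      Sum.elim H₁ fun z => H' z.1 z.2, ?_, ?_, ?_, ?_⟩
    · rw [Fintype.card_sum, Fintype.card_sigma]
      have : ∑ j, Fintype.card (κ' j) ≤ n₁ * n₂ := by
        refine (Finset.sum_le_sum fun j _ => hκ' j).trans ?_
        rw [Finset.sum_const, Finset.card_univ, smul_eq_mul]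
        exact Nat.mul_le_mul_right _ hκ
      omega
    · rintro (j | ⟨j, i⟩)
      · exact ⟨(hP j).1, (hP j).2.mono (by omega)⟩
      · exact ⟨(hP' j i).1, (hP' j i).2.mono (by omega)⟩
    · rintro (j | ⟨j, i⟩)
      · simp
      · have h0 : (0 : ℝ) ≤ m j i := Nat.cast_nonneg _
        simp only [Sum.elim_inr]
        rw [abs_div, abs_of_pos (by positivity : (0 : ℝ) < m j i + 2), div_le_one (by positivity)]
        linarith [ha j i]
    intro δ G W hW hδ η hη hCη t ht ht1 y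
    have hCη' : C * η * δ ≤ 1 := by
      have h4 : 0 ≤ C * η * δ := by positivity
      nlinarith
    have hη0 : 0 < η := by linarith
    have hrem := opN_mvt (g := fun s => stepE W η s y (H W (η - s)) - ∑ j, s • H₁ j W η y -
        ∑ j, ∑ i, (a j i / (m j i + 2) * s ^ (m j i + 2)) • H' j i W η y)
      (g' := fun s => ∑ j, (stepE W η s y (H₁ j W (η - s)) - H₁ j W η y -
        ∑ i, (a j i * s ^ (m j i + 1)) • H' j i W η y))
      (t := t) (M := n₁ * (C * δ / η ^ M)) ht (by positivity) ?_ ?_ ?_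
    · refine le_trans (le_of_eq ?_) (hrem.trans ?_)
      · congr 1
        rw [Fintype.sum_sum_type, Fintype.sum_sigma]
        simp only [stepE_zero hW, Sum.elim_inl, Sum.elim_inr, sub_zero, zero_smul,
          Finset.sum_const_zero, zero_add, pow_one, one_mul, zero_pow (Nat.succ_ne_zero _),
          mul_zero]
        abel
      · calc t * (n₁ * (C * δ / η ^ M)) ≤ 1 * ((n₁ + 1) * (C * δ / η ^ M)) := by
              gcongr; linarith
          _ = _ := by ring
    · refine ((continuous_stepT hW (hH.hh hW) η y).sub (by fun_prop)).sub (by fun_prop)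
    · intro s hs
      have hs1 : s < η := by linarith [hs.2]
      have d1 := hasDerivAt_stepT hW (hH.hh hW) hs.1 hs1 y
      have e1 : DDT W (H W) (η - s) = fun y => ∑ j, H₁ j W (η - s) y :=
        funext fun y => hDD δ G W hW _ (sub_pos.2 hs1) y
      rw [e1, stepE_sum hW η s y _ fun j _ => pg_hh hW ((hP j).2.hh hW) (η - s)] at d1
      have d2 : HasDerivAt (fun s : ℝ => ∑ j, s • H₁ j W η y) (∑ j, H₁ j W η y) s :=
        HasDerivAt.fun_sum fun j _ => by simpa using (hasDerivAt_id' s).smul_const (H₁ j W η y)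
      have d3 : HasDerivAt
          (fun s : ℝ => ∑ j, ∑ i, (a j i / (m j i + 2) * s ^ (m j i + 2)) • H' j i W η y)
          (∑ j, ∑ i, (a j i * s ^ (m j i + 1)) • H' j i W η y) s := by
        refine HasDerivAt.fun_sum fun j _ => HasDerivAt.fun_sum fun i _ => ?_
        refine HasDerivAt.smul_const ?_ _
        refine ((hasDerivAt_pow (m j i + 2) s).const_mul (a j i / (m j i + 2))).congr_deriv ?_
        have h0 : (0 : ℝ) ≤ m j i := Nat.cast_nonneg _
        rw [show m j i + 2 - 1 = m j i + 1 by omega]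
        push_cast
        field_simp
      refine ((d1.sub d2).sub d3).congr_deriv ?_
      simp only [Finset.sum_sub_distrib]
    · intro s hs
      refine (opN_sum_le _ _).trans ?_
      refine (Finset.sum_le_sum fun j _ =>
        hT j δ G W hW hδ η hη hCη' s hs.1.le (by linarith [hs.2]) y).trans ?_
      rw [Finset.sum_const, Finset.card_univ, nsmul_eq_mul]
      gcongr

end PPolyX

/-- `τ_S(η, b) = E τ_S(η - 1, b') - ∑_{1 ≤ k ≤ N} DD^k τ_S(η, b)/k! - remainder`
(for `|S| = 1` this is `tau1_step`, with no graph polynomials) -/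
theorem tau_taylor (j N : ℕ) : ∃ (n : ℕ) (C : ℝ), 1 ≤ C ∧ ∀ (d : ℕ) (S : Type) [Fintype S]
    [DecidableEq S] [Nonempty S], Fintype.card S ≤ j →
    ∃ (κ : Type) (_ : Fintype κ) (k w : κ → ℕ) (H : κ → (E d → ℝ) → ℝ → E d → Ten d S),
      Fintype.card κ ≤ n ∧ (∀ i, 2 ≤ k i ∧ PP d n (k i) (w i) S (H i)) ∧
      ∀ (δ G : ℝ) (W : E d → ℝ), Adm δ G W → 0 ≤ δ → ∀ η, 2 ≤ η → C * η * δ ≤ 1 → ∀ y,
        nrm ((tau W η y : Ten d S) - stepE W η 1 y (fun y => tau W (η - 1) y) - ∑ i, H i W η y)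
          ≤ C * δ * √d / η ^ N := by
  obtain ⟨n, C, hC, h⟩ := PPolyX.taylor N N j
  refine ⟨n + 1, C, hC, fun d S _ _ _ hS => ?_⟩
  by_cases h2 : 2 ≤ Fintype.card S
  · obtain ⟨κ, _, k', w', m, a, H', hκ, hP, ha, hT⟩ :=
      h d 1 _ S _ (PP.node j S h2 hS) (by omega)
    have : Nontrivial S := Fintype.one_lt_card_iff_nontrivial.1 h2
    refine ⟨κ, inferInstance, k', w', fun i W η y => (-a i) • reix (Equiv.refl S) (H' i W η y),
      by omega, fun i => ⟨(hP i).1, PP.sc _ _ _ _ _ _ _ (by simpa using ha i) _ (hP i).2⟩, ?_⟩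
    intro δ G W hW hδ η hη hCη y
    have h3 := hT δ G W hW hδ η hη hCη 1 zero_le_one le_rfl y
    rw [← nrm_neg]
    refine (nrm_le_sqrt_mul_opN _).trans ?_
    have e : -((tau W η y : Ten d S) - stepE W η 1 y (fun y => tau W (η - 1) y) -
        ∑ i, (-a i) • reix (Equiv.refl S) (H' i W η y)) =
        stepE W η 1 y (fun y => tau W (η - 1) y) - tau W η y -
          ∑ i, (a i * 1 ^ (m i + 1)) • H' i W η y := by
      simp only [reix_refl, one_pow, mul_one, neg_smul, Finset.sum_neg_distrib]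
      abel
    rw [e]
    refine (mul_le_mul_of_nonneg_left h3 (Real.sqrt_nonneg _)).trans (le_of_eq ?_)
    ring
  · have : Subsingleton S := Fintype.card_le_one_iff_subsingleton.1 (by omega)
    have hu : Unique S := uniqueOfSubsingleton (Classical.arbitrary S)
    refine ⟨Empty, inferInstance, fun _ => 0, fun _ => 0, fun i => i.elim, by simp,
      fun i => i.elim, ?_⟩
    intro δ G W hW hδ η hη hCη y
    have e : (tau W η y : Ten d S) = stepE W η 1 y (fun y => tau W (η - 1) y) := by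
      funext i
      rw [stepE_apply hW η 1 y (PG.of_temp (temp_tau hW (η - 1))) i]
      have h3 := congrFun (tau1_step hW zero_le_one (by linarith : 1 ≤ η) y) (i default)
      rw [stepE_apply hW η 1 y (PG.of_temp (temp_tau1 hW (η - 1)))] at h3
      simp only [tau, jet_unique]
      exact h3
    rw [Finset.univ_eq_empty, Finset.sum_empty, sub_zero, ← e, sub_self, nrm_zero]
    have : 0 < η := by linarith
    positivity

end Crest.Agent.R285

end
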