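import Crest.Agent.R285.NW
import Crest.Agent.R285.Khin
import Crest.Agent.R285.PPoly
import Crest.Agent.R285.MemB

/-!
Auxiliary graded bounds: the node step and the leaf step of `mem_NG`.
-/

set_option autoImplicit false

open MeasureTheory ProbabilityTheory Matrix Filter
open scoped ENNReal

noncomputable section

namespace Crest.Agent.R285

namespace NormAux

theorem NG_zero_iff {d : ℕ} {V : Type} [Fintype V] [DecidableEq V] (p : ℕ) (L : ℝ) (S : Type)
    (T : Om d V → Ten d S) (a : ℝ) :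
    NG p L 0 S T a ↔ LpLe (gam (V × Fin d)) p (fun x => opN (T x)) a := Iff.rfl

theorem NG_succ_iff {d : ℕ} {V : Type} [Fintype V] [DecidableEq V] (p : ℕ) (L : ℝ) (m : ℕ)
    (S : Type) (T : Om d V → Ten d S) (a : ℝ) :
    NG p L (m + 1) S T a ↔ LpLe (gam (V × Fin d)) p (fun x => opN (T x)) a ∧
      ∀ v, NG p L m (Option S) (dT v T) (L * a) := Iff.rfl

theorem tau_le (s : ℕ) : ∃ C : ℝ, 1 ≤ C ∧ ∀ (d : ℕ) (δ G : ℝ) (W : E d → ℝ), Adm δ G W → 0 ≤ δ →
    ∀ η, 1 ≤ η → C * η * δ ≤ 1 → ∀ (S : Type) [Fintype S], Fintype.card S ≤ s → ∀ y,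
      opN (tau W η y : Ten d S) ≤ C * δ := by
  obtain ⟨C, hC, h⟩ := tau_op s
  refine ⟨C, hC, fun d δ G W hW hδ η hη hCη S _ hS y => ?_⟩
  refine (h d δ G W hW hδ η (by linarith) hCη S hS y).trans ?_
  exact div_le_self (mul_nonneg (by linarith) hδ) (one_le_pow₀ (Real.one_le_sqrt.2 hη))

/-- the node step -/
theorem node_NG (m : ℕ) : ∀ s : ℕ, ∃ C : ℝ, 1 ≤ C ∧ ∀ (d : ℕ) (δ G : ℝ) (W : E d → ℝ),
    Adm δ G W → 0 ≤ δ → ∀ η, 1 ≤ η → C * η * δ ≤ 1 →
    ∀ (V : Type) [Fintype V] [DecidableEq V] (y₀ : E d) (l : V → ℝ) (U : Om d V → Ten d Unit),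
      U.HasTemperateGrowth → ∀ (p : ℕ) (L : ℝ), 1 ≤ p → 1 ≤ L → (∀ v, |l v| ≤ L) →
      (∀ v, NG (2 ^ m * p) L m (Option Unit) (dT v U) L) →
      ∀ (S : Type) [Fintype S] [Nonempty S], Fintype.card S ≤ s →
        NG p (C * L) m S (fun x => (tau W η (y₀ + lin l x + vec (U x)) : Ten d S)) (C * δ) := by
  induction m with
  | zero =>
    intro s
    obtain ⟨C, hC, h⟩ := tau_le s
    refine ⟨C, hC, fun d δ G W hW hδ η hη hCη V _ _ y₀ l U _ p L _ _ _ _ S _ _ hS => ?_⟩
    exact (NG_zero_iff ..).2 (LpLe.const fun x => h d δ G W hW hδ η hη hCη S hS _)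
  | succ m ih =>
    intro s
    obtain ⟨C, hC, h⟩ := tau_le s
    obtain ⟨C', hC', h'⟩ := ih (s + 1)
    refine ⟨2 * C' + C, by linarith,
      fun d δ G W hW hδ η hη hCη V _ _ y₀ l U hU p L hp hL hl hUN S _ _ hS => ?_⟩
    classical
    have hηδ : 0 ≤ η * δ := mul_nonneg (by linarith) hδ
    have hCη1 : C * η * δ ≤ 1 := by nlinarith
    have hCη2 : C' * η * δ ≤ 1 := by nlinarith
    refine (NG_succ_iff ..).2 ⟨LpLe.const fun x => (h d δ G W hW hδ η hη hCη1 S hS _).trans
      (mul_le_mul_of_nonneg_right (by linarith) hδ), fun v => ?_⟩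
    have hy : (fun x => y₀ + lin l x + vec (U x)).HasTemperateGrowth :=
      ((Function.HasTemperateGrowth.const y₀).add (temp_lin l)).add (temp_vec hU)
    have hJ : (fun x => (tau W η (y₀ + lin l x + vec (U x)) : Ten d (Option S))).HasTemperateGrowth :=
      (temp_tau hW η).comp hy
    have hL0 : 0 ≤ L := by linarith
    have hCL : L ≤ C' * L := le_mul_of_one_le_left hL0 hC'
    have hCδ : 0 ≤ C' * δ := mul_nonneg (by linarith) hδ
    have h1 : NG (2 * p) (C' * L) m (Option S)
        (fun x => (tau W η (y₀ + lin l x + vec (U x)) : Ten d (Option S))) (C' * δ) := by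
      refine h' d δ G W hW hδ η hη hCη2 V y₀ l U hU (2 * p) L (by omega) hL hl (fun w => ?_)
        (Option S) (by rw [Fintype.card_option]; omega)
      exact (hUN w).mono (temp_dT hU w) (le_of_eq (by ring)) (by omega) hL0 le_rfl hL0 le_rfl
    have h2 : NG (2 * p) (C' * L) m (Option Unit) (fun x => reix swapU (dT v U x)) L := by
      refine NG.reix ?_ swapU
      refine (hUN v).mono (temp_dT hU v) ?_ (by omega) hL0 hCL hL0 le_rfl
      exact Nat.mul_le_mul_right _ (by
        calc 2 = 2 ^ 1 := rfl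
          _ ≤ 2 ^ (m + 1) := Nat.pow_le_pow_right two_pos (by omega))
    have hR : (fun x => reix swapU (dT v U x)).HasTemperateGrowth := temp_reix _ (temp_dT hU v)
    have h3 := (NG.con1 hJ hR h1 h2 hp (by linarith) hCδ hL0).reix (sumU S)
    have h4 := (h1.mono hJ (p' := p) (m' := m) (L' := 2 * (C' * L)) (by omega) le_rfl
      (by linarith) (by linarith) hCδ le_rfl).smul hJ (l v)
    have hc := temp_con1 hJ hR
    have h5 := NG.add ((Function.HasTemperateGrowth.const (l v)).smul hJ) (temp_reix (sumU S) hc)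
      h4 h3 hp (by linarith) (mul_nonneg (abs_nonneg _) hCδ) (mul_nonneg hCδ hL0)
    have e : dT v (fun x => (tau W η (y₀ + lin l x + vec (U x)) : Ten d S)) = fun x =>
        l v • (tau W η (y₀ + lin l x + vec (U x)) : Ten d (Option S)) +
          reix (sumU S) (con1 (tau W η (y₀ + lin l x + vec (U x))) (reix swapU (dT v U x))) :=
      funext fun x => dT_jet (temp_Phi hW η) y₀ l hU v x
    rw [e]
    refine h5.mono (((Function.HasTemperateGrowth.const (l v)).smul hJ).add
      (temp_reix (sumU S) hc)) le_rfl le_rfl (by linarith) (by nlinarith)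
      (add_nonneg (mul_nonneg (abs_nonneg _) hCδ) (mul_nonneg hCδ hL0)) ?_
    have h6 : |l v| * (C' * δ) ≤ L * (C' * δ) := mul_le_mul_of_nonneg_right (hl v) hCδ
    have h7 : 0 ≤ L * δ := mul_nonneg hL0 hδ
    calc |l v| * (C' * δ) + C' * δ * L ≤ 2 * C' * (L * δ) := by linarith
      _ ≤ (2 * C' + C) * (2 * C' + C) * (L * δ) :=
          mul_le_mul_of_nonneg_right (by nlinarith) h7
      _ = _ := by ring

theorem abs_le_one_of_dot {V : Type} [Fintype V] {z : V → ℝ} (hz : z ⬝ᵥ z = 1) (v : V) :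
    |z v| ≤ 1 := by
  have h1 := abs_le_nrm z v
  have h2 := dot_self z
  have h3 := nrm_nonneg z
  nlinarith

/-- order zero of the leaf step -/
theorem leaf_zero {d : ℕ} {V : Type} [Fintype V] {S : Type} [Fintype S] [DecidableEq S]
    {T : Om d V → Ten d (Option S)} (hT : T.HasTemperateGrowth) {z : V → ℝ} (hz : z ⬝ᵥ z = 1)
    (hinv : ∀ x w, T (x + dir z w) = T x) {p : ℕ} {c A : ℝ} (hc : 0 ≤ c)
    (hk : ∀ T : Ten d (Option S), LpLe (gam (Fin d)) p (fun g => opN (leaf T g)) (c * opN T))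
    (h : LpLe (gam (V × Fin d)) p (fun x => opN (T x)) A) :
    LpLe (gam (V × Fin d)) p (fun x => opN (leaf (T x) (lin z x))) (c * A) := by
  have hm : Measurable fun x => opN (leaf (T x) (lin z x)) :=
    measurable_opN.comp (temp_leaf hT (temp_lin z)).1.continuous.measurable
  have hk' : Measurable fun w : Om d V × E d => opN (leaf (T w.1) w.2) := by
    refine measurable_opN.comp (Continuous.measurable ?_)
    have h1 : Continuous T := hT.1.continuous
    refine continuous_pi fun i => ?_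
    exact continuous_finsetSum _ fun k _ =>
      ((continuous_apply _).comp (h1.comp continuous_fst)).mul
        ((continuous_apply k).comp continuous_snd)
  have h1 := LpLe.prod (μ := gam (V × Fin d)) (ν := gam (Fin d)) hk' (fun x => hk (T x))
    (h.const_mul hc)
  have h2 := (mp_resample (d := d) z hz).lintegral_comp
    (f := fun x => ENNReal.ofReal (opN (leaf (T x) (lin z x))) ^ p)
    ((ENNReal.measurable_ofReal.comp hm).pow_const p)
  refine le_of_eq_of_le (h2.symm.trans (lintegral_congr fun w => ?_)) h1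
  simp only [hinv, lin_dir, hz, one_smul, add_sub_cancel]

/-- the leaf step -/
theorem leaf_NG (p s : ℕ) (hp : 1 ≤ p) : ∃ C : ℝ, 1 ≤ C ∧ ∀ (d N : ℕ) (K : ℝ), 1 ≤ K →
    (d : ℝ) ≤ K ^ N → s * N ≤ p → ∀ (V : Type) [Fintype V] [DecidableEq V] (z : V → ℝ),
    z ⬝ᵥ z = 1 → ∀ (L : ℝ), 1 ≤ L → ∀ (m : ℕ) (S : Type) [Fintype S] [DecidableEq S],
      Fintype.card S + m ≤ s → ∀ (T : Om d V → Ten d (Option S)), T.HasTemperateGrowth →
      (∀ x w, T (x + dir z w) = T x) → ∀ A : ℝ, 0 ≤ A → NG (2 * p) L m (Option S) T A →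
      NG (2 * p) L m S (fun x => leaf (T x) (lin z x)) ((m + 1) * (C * K) * A) := by
  obtain ⟨C, hC, h⟩ := khintchine p s
  refine ⟨C, hC, fun d N K hK hd hs V _ _ z hz L hL m => ?_⟩
  have hCK : 1 ≤ C * K := one_le_mul_of_one_le_of_one_le hC hK
  induction m with
  | zero =>
    intro S _ _ hS T hT hinv A hA hN
    refine (NG_zero_iff ..).2 ?_
    have := leaf_zero hT hz hinv (by linarith) (h d N K hK hd hs S (by omega)) hN.zero
    simpa using this
  | succ m ih =>
    intro S _ _ hS T hT hinv A hA hN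
    have hm0 : (0 : ℝ) ≤ m := Nat.cast_nonneg m
    have hL0 : 0 ≤ L := by linarith
    have hCA : 0 ≤ C * K * A := mul_nonneg (by linarith) hA
    refine (NG_succ_iff ..).2 ⟨?_, fun v => ?_⟩
    · refine (leaf_zero hT hz hinv (by linarith) (h d N K hK hd hs S (by omega)) hN.zero).mono
        (fun _ => le_rfl) ?_
      push_cast
      nlinarith
    · have hT' : (fun x => reix (swapO S) (dT v T x)).HasTemperateGrowth :=
        temp_reix _ (temp_dT hT v)
      have h1 := ih (Option S) (by rw [Fintype.card_option]; omega) _ hT'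
        (fun x w => by rw [dT_inv (fun x => hinv x w)]) (L * A) (mul_nonneg hL0 hA)
        ((((NG_succ_iff ..).1 hN).2 v).reix (swapO S))
      have h2 := (hN.mono hT (m' := m) le_rfl (by omega) hL0 le_rfl hA le_rfl).smul hT (z v)
      have ht1 := temp_leaf hT' (temp_lin z)
      have ht2 := (Function.HasTemperateGrowth.const (z v)).smul hT
      have hA1 : 0 ≤ ((m : ℝ) + 1) * (C * K) * (L * A) := by positivity
      have h3 := NG.add ht1 ht2 h1 h2 (by omega) hL0 hA1 (mul_nonneg (abs_nonneg _) hA)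
      have e : dT v (fun x => leaf (T x) (lin z x)) = fun x =>
          leaf (reix (swapO S) (dT v T x)) (lin z x) + z v • T x :=
        funext fun x => dT_leaf hT z v x
      rw [e]
      refine h3.mono (ht1.add ht2) le_rfl le_rfl hL0 le_rfl
        (add_nonneg hA1 (mul_nonneg (abs_nonneg _) hA)) ?_
      have h4 : |z v| * A ≤ 1 * A := mul_le_mul_of_nonneg_right (abs_le_one_of_dot hz v) hA
      have h5 : 1 * A ≤ L * (C * K) * A :=
        mul_le_mul_of_nonneg_right (one_le_mul_of_one_le_of_one_le hL hCK) hA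
      push_cast
      nlinarith

theorem nat_le_pow {K : ℝ} (hK : 2 ≤ K) (n : ℕ) : (n : ℝ) ≤ K ^ n := by
  calc (n : ℝ) ≤ 2 ^ n := by exact_mod_cast (Nat.lt_two_pow_self).le
    _ ≤ K ^ n := pow_le_pow_left₀ (by norm_num) hK n

theorem sqrt_le_D {P : Par} (hP : P.Base) : √(P.d : ℝ) ≤ P.D := by
  have h1 : (1 : ℝ) ≤ P.d := by exact_mod_cast hP.d_pos
  refine le_trans ?_ hP.d_le
  rw [Real.sqrt_le_left (by linarith)]
  nlinarith

theorem temp_pi' {X F : Type} [NormedAddCommGroup X] [NormedSpace ℝ X] [NormedAddCommGroup F]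
    [NormedSpace ℝ F] {κ : Type} [Fintype κ] {f : X → κ → F}
    (h : ∀ k, (fun x => f x k).HasTemperateGrowth) : f.HasTemperateGrowth := by
  classical
  have e : f = fun x => ∑ k ∈ Finset.univ,
      ContinuousLinearMap.single ℝ (fun _ : κ => F) k (f x k) := by
    funext x j
    simp [Finset.sum_apply, Pi.single_apply]
  rw [e]
  exact Function.HasTemperateGrowth.sum fun k _ =>
    (ContinuousLinearMap.single ℝ (fun _ : κ => F) k).hasTemperateGrowth.comp (h k)

/-- moments of a unit linear form -/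
theorem lp_lin (p : ℕ) : ∃ C : ℝ, 1 ≤ C ∧ ∀ (d : ℕ) (V : Type) [Fintype V] (z : V → ℝ),
    z ⬝ᵥ z = 1 → LpLe (gam (V × Fin d)) p (fun x => nrm (lin z x)) (C * √d) := by
  obtain ⟨C, hC, h⟩ := lp_nrm p
  refine ⟨C, hC, fun d V _ z hz => ?_⟩
  have := (h (Fin d)).comp measurable_nrm (mp_lin (d := d) z hz)
  rwa [Fintype.card_fin] at this

end NormAux

end Crest.Agent.R285

end
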