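import Crest.Agent.R285.NW
import Crest.Agent.R285.Khin
import Crest.Agent.R285.PPoly
import Crest.Agent.R285.MemB
import Crest.Agent.R285.NormAux

/-!
Norm bounds for the class `Mem`.

`mem_NG`: induction on `n` (for all `m p` at once; the exponent `Ex` depends on `n` only, every
constant depending on `m, p, N` is absorbed by one factor `K ≥ C`).
* node: for `U = ∑ k, T k` with graded bounds, prove by induction on `m` (for all slot types of
  bounded size and all `p`) that `x ↦ tau W η (y₀ + lin l x + vec (U x))` satisfies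
  `NG p (C_m L') m S _ (C_m δ)`: order zero is `tau_op` (`η ≥ Q - n ≥ 1`, `C η δ ≤ C th ≤ C/K ≤ 1`),
  the derivative is `dT_jet`, `NG.con1`.
* leaf: `T` and its derivatives are invariant in the direction `z` (`Mem.inv`, `dT_inv`), so by
  `mp_resample` the leaf is an independent standard vector; `khintchine` fibrewise (`LpLe.prod`),
  with an exponent `2p' ≥ p`, `p' ≥ s N`; induction on `m` with `dT_leaf`.
-/

set_option autoImplicit false

open MeasureTheory ProbabilityTheory Matrix Filter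
open scoped ENNReal

noncomputable section

namespace Crest.Agent.R285

open NormAux

theorem mem_NG (n : ℕ) : ∃ Ex : ℕ, ∀ m p N : ℕ, ∃ C : ℝ, ∀ P : Par, P.Base → C ≤ P.K →
    (P.d : ℝ) ≤ P.K ^ N → ∀ β δ G : ℝ, Cl P β δ G → ∀ (V : Type) [Fintype V] [DecidableEq V]
      (S : Type) (a : ℝ) (F : Submodule ℝ (V → ℝ)) (T : Fam P δ G V S), Mem P β δ G V n S a F T →
      ∀ W q, NG p (P.K ^ Ex) m S (T W q) (P.K ^ Ex * a) := by
  induction n with
  | zero => exact ⟨0, fun _ _ _ => ⟨0, fun _ _ _ _ _ _ _ _ _ _ _ _ _ _ _ h => by cases h⟩⟩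
  | succ n ih =>
    obtain ⟨Ex, ih⟩ := ih
    refine ⟨2 * Ex + n + 2, fun m p N => ?_⟩
    obtain ⟨p1, hp1, hpp, hpN⟩ : ∃ p1 : ℕ, 1 ≤ p1 ∧ p ≤ p1 ∧ (2 ^ n + m) * N ≤ p1 :=
      ⟨p + 1 + (2 ^ n + m) * N, by omega, by omega, by omega⟩
    obtain ⟨C₀, h₀⟩ := ih (m + 1) (2 ^ (m + 1) * p1) N
    obtain ⟨C₁, hC₁, h₁⟩ := node_NG m (n + 1)
    obtain ⟨C₂, hC₂, h₂⟩ := leaf_NG p1 (2 ^ n + m) hp1
    refine ⟨max (max C₀ C₁) (max ((m + 1) * C₂) (n + 1)),
      fun P hP hC hd β δ G hcl V _ _ S a F T h W q => ?_⟩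
    classical
    have hC0 : C₀ ≤ P.K := ((le_max_left _ _).trans (le_max_left _ _)).trans hC
    have hC1 : C₁ ≤ P.K := ((le_max_right _ _).trans (le_max_left _ _)).trans hC
    have hC2 : (m + 1) * C₂ ≤ P.K := ((le_max_left _ _).trans (le_max_right _ _)).trans hC
    have hCn : (n : ℝ) + 1 ≤ P.K := ((le_max_right _ _).trans (le_max_right _ _)).trans hC
    have hK := hP.one_le_K
    have hK0 : 0 ≤ P.K := by linarith
    have hβ := hcl.β_pos
    have hpw : ∀ {i j : ℕ}, i ≤ j → P.K ^ i ≤ P.K ^ j := fun h => pow_le_pow_right₀ hK h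
    have hpn : ∀ i : ℕ, 0 ≤ P.K ^ i := fun i => pow_nonneg hK0 i
    have hp2 : 2 * p1 ≤ 2 ^ (m + 1) * p1 := Nat.mul_le_mul_right _ (by
      calc 2 = 2 ^ 1 := rfl
        _ ≤ 2 ^ (m + 1) := Nat.pow_le_pow_right two_pos (by omega))
    have hpm : 2 ^ m * p1 ≤ 2 ^ (m + 1) * p1 :=
      Nat.mul_le_mul_right _ (Nat.pow_le_pow_right two_pos (by omega))
    have IH := h₀ P hP hC0 hd β δ G hcl V
    have ha0 := (h.amp hβ).1.le
    cases h with
    | node _ _ _ _ c η b0 hb0 l κ T hT hκ hl hF hS hη hη' ha ha' hc hc' =>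
      have hTt : ∀ k, (T k W q).HasTemperateGrowth := fun k => (hT k).temp W q
      have hU : (fun x => ∑ k, T k W q x).HasTemperateGrowth :=
        Function.HasTemperateGrowth.sum (s := Finset.univ) fun k _ => hTt k
      have hUN := NG.sum Finset.univ (fun k _ => hTt k) (fun k _ => IH _ _ _ _ (hT k) W q)
        (by omega) (hpn _) (mul_nonneg (hpn _) hβ.le)
      have hη1 : 1 ≤ η := by linarith [hP.K_le]
      have hδ := hcl.δ_pos.le
      have hCη : C₁ * η * δ ≤ 1 := by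
        have h1 : η * δ ≤ P.th := (mul_le_mul_of_nonneg_right hη' hδ).trans hcl.δ_le
        calc C₁ * η * δ = C₁ * (η * δ) := by ring
          _ ≤ P.Q * P.th := mul_le_mul (hC1.trans hP.K_le) h1 (mul_nonneg (by linarith) hδ)
              (by linarith [hP.one_le_Q])
          _ ≤ 1 := hP.Q_th
      have hL : 1 ≤ P.K ^ (2 * Ex + n) := one_le_pow₀ hK
      have h3 := h₁ P.d δ G W.1 W.2 hδ η hη1 hCη V (b0 q) l _ hU p1 (P.K ^ (2 * Ex + n)) hp1 hL
        (fun v => ?_) (fun v => ?_) S hS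
      · simp only [vec_sum] at h3
        have hJ : (fun x => (tau W.1 η (b0 q + lin l x + ∑ k, vec (T k W q x)) :
            Ten P.d S)).HasTemperateGrowth := by
          refine (temp_tau W.2 η).comp (((Function.HasTemperateGrowth.const (b0 q)).add
            (temp_lin l)).add ?_)
          exact Function.HasTemperateGrowth.sum (s := Finset.univ) fun k _ => temp_vec (hTt k)
        refine (h3.smul hJ c).mono ((Function.HasTemperateGrowth.const c).smul hJ) hpp le_rfl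
          (mul_nonneg (by linarith) (hpn _)) ?_ (mul_nonneg (abs_nonneg _)
            (mul_nonneg (by linarith) hδ)) ?_
        · calc C₁ * P.K ^ (2 * Ex + n) ≤ P.K * P.K ^ (2 * Ex + n) :=
              mul_le_mul_of_nonneg_right hC1 (hpn _)
            _ = P.K ^ (2 * Ex + n + 1) := by ring
            _ ≤ _ := hpw (by omega)
        · calc |c| * (C₁ * δ) = C₁ * (|c| * δ) := by ring
            _ ≤ P.K ^ 1 * a := mul_le_mul (by rwa [pow_one]) hc
                (mul_nonneg (abs_nonneg _) hδ) (hpn _)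
            _ ≤ _ := mul_le_mul_of_nonneg_right (hpw (by omega)) ha0
      · have h4 := abs_le_nrm l v
        have h5 := dot_self l
        have h6 := nrm_nonneg l
        have h7 : (n : ℝ) ≤ P.K ^ (2 * Ex + n) := (nat_le_pow hP.two_le n).trans (hpw (by omega))
        nlinarith [abs_nonneg (l v)]
      · refine (((NG_succ_iff ..).1 hUN).2 v).mono (temp_dT hU v) hpm le_rfl (hpn _)
          (hpw (by omega)) (mul_nonneg (hpn _) (mul_nonneg (Nat.cast_nonneg _)
            (mul_nonneg (hpn _) hβ.le))) ?_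
        rw [Finset.card_univ]
        calc P.K ^ Ex * (Fintype.card κ * (P.K ^ Ex * β)) ≤ P.K ^ Ex * (P.K ^ n * (P.K ^ Ex * 1)) :=
            mul_le_mul_of_nonneg_left (mul_le_mul hκ (mul_le_mul_of_nonneg_left hcl.β_le (hpn _))
              (mul_nonneg (hpn _) hβ.le) (hpn _)) (hpn _)
          _ = _ := by ring
    | con _ S₁ S₂ a₁ a₂ _ _ T₁ T₂ hT₁ hT₂ ha ha' =>
      have := hT₁.finite.1
      have := hT₂.finite.1
      have : Finite S₁ := Finite.of_injective _ (Option.some_injective S₁)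
      have : Finite S₂ := Finite.of_injective _ (Option.some_injective S₂)
      let _ := Fintype.ofFinite S₁
      let _ := Fintype.ofFinite S₂
      have ha₁ := (hT₁.amp hβ).1.le
      have ha₂ := (hT₂.amp hβ).1.le
      have t₁ := hT₁.temp W q
      have t₂ := hT₂.temp W q
      have g₁ := (IH _ _ _ _ hT₁ W q).mono t₁ hp2 (Nat.le_succ m) (hpn _) le_rfl
        (mul_nonneg (hpn _) ha₁) le_rfl
      have g₂ := (IH _ _ _ _ hT₂ W q).mono t₂ hp2 (Nat.le_succ m) (hpn _) le_rfl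
        (mul_nonneg (hpn _) ha₂) le_rfl
      refine (NG.con1 t₁ t₂ g₁ g₂ hp1 (hpn _) (mul_nonneg (hpn _) ha₁)
        (mul_nonneg (hpn _) ha₂)).mono (temp_con1 t₁ t₂) hpp le_rfl
        (mul_nonneg zero_le_two (hpn _)) ?_
        (mul_nonneg (mul_nonneg (hpn _) ha₁) (mul_nonneg (hpn _) ha₂)) ?_
      · calc 2 * P.K ^ Ex ≤ P.K * P.K ^ Ex := mul_le_mul_of_nonneg_right hP.two_le (hpn _)
          _ = P.K ^ (Ex + 1) := by ring
          _ ≤ _ := hpw (by omega)
      · have h4 : a₁ * a₂ ≤ a := by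
          rw [div_le_iff₀ hβ] at ha
          exact ha.trans (mul_le_of_le_one_right ha0 hcl.β_le)
        calc P.K ^ Ex * a₁ * (P.K ^ Ex * a₂) = P.K ^ (2 * Ex) * (a₁ * a₂) := by ring
          _ ≤ _ := mul_le_mul (hpw (by omega)) h4 (mul_nonneg ha₁ ha₂) (hpn _)
    | leaf _ _ _ F' _ T hT z hz hz1 hF hFz =>
      have := hT.finite.1
      have : Finite S := Finite.of_injective _ (Option.some_injective S)
      let _ := Fintype.ofFinite S
      have t := hT.temp W q
      have g := (IH _ _ _ _ hT W q).mono t hp2 (Nat.le_succ m) (hpn _) le_rfl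
        (mul_nonneg (hpn _) ha0) le_rfl
      have hc := hT.card_le
      rw [Fintype.card_option] at hc
      have h3 := h₂ P.d N P.K hK hd hpN V z hz1 (P.K ^ Ex) (one_le_pow₀ hK) m S (by omega) _ t
        (fun x w => hT.inv hz W q x w) _ (mul_nonneg (hpn _) ha0) g
      have hm : (0 : ℝ) ≤ (m + 1) * C₂ := by positivity
      refine h3.mono (temp_leaf t (temp_lin z)) (by omega) le_rfl (hpn _) (hpw (by omega))
        (by positivity) ?_
      calc (m + 1) * (C₂ * P.K) * (P.K ^ Ex * a) = (m + 1) * C₂ * (P.K ^ (Ex + 1) * a) := by ring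
        _ ≤ P.K * (P.K ^ (Ex + 1) * a) := mul_le_mul_of_nonneg_right hC2 (mul_nonneg (hpn _) ha0)
        _ = P.K ^ (Ex + 2) * a := by ring
        _ ≤ _ := mul_le_mul_of_nonneg_right (hpw (by omega)) ha0
    | sc _ S₀ _ e a₀ _ c F₀ _ T hT hc ha ha' hF =>
      have := hT.finite.1
      have : Finite S := Finite.of_equiv _ e
      let _ := Fintype.ofFinite S₀
      let _ := Fintype.ofFinite S
      have t := temp_reix e (hT.temp W q)
      have ha₀ := (hT.amp hβ).1.le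
      refine (((IH _ _ _ _ hT W q).reix e).smul t c).mono
        ((Function.HasTemperateGrowth.const c).smul t) (by omega) (Nat.le_succ m) (hpn _)
        (hpw (by omega)) (mul_nonneg (abs_nonneg _) (mul_nonneg (hpn _) ha₀)) ?_
      calc |c| * (P.K ^ Ex * a₀) = P.K ^ Ex * (|c| * a₀) := by ring
        _ ≤ _ := mul_le_mul (hpw (by omega)) hc (mul_nonneg (abs_nonneg _) ha₀) (hpn _)

theorem smem_NG (n : ℕ) : ∃ Ex : ℕ, ∀ m p N : ℕ, ∃ C : ℝ, ∀ P : Par, P.Base → C ≤ P.K →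
    (P.d : ℝ) ≤ P.K ^ N → ∀ β δ G : ℝ, Cl P β δ G → ∀ (V : Type) [Fintype V] [DecidableEq V]
      (S : Type) [Fintype S] (a : ℝ) (F : Submodule ℝ (V → ℝ)) (T : Fam P δ G V S), 0 ≤ a →
      SMem P β δ G V n S a F T → ∀ W q, NG p (P.K ^ Ex) m S (T W q) (P.K ^ Ex * a) := by
  obtain ⟨Ex, h⟩ := mem_NG n
  refine ⟨Ex + n, fun m p N => ?_⟩
  obtain ⟨C, h⟩ := h m (p + 1) N
  refine ⟨C, fun P hP hC hd β δ G hcl V _ _ S _ a F T ha hT W q => ?_⟩
  classical
  obtain ⟨κ, _, U, hκ, hU, e⟩ := hT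
  have hK := hP.one_le_K
  have hpn : ∀ i : ℕ, 0 ≤ P.K ^ i := fun i => pow_nonneg (by linarith) i
  have e' : T W q = fun x => ∑ k, U k W q x := funext (e W q)
  rw [e']
  have ht : ∀ k, (U k W q).HasTemperateGrowth := fun k => (hU k).temp W q
  refine (NG.sum Finset.univ (fun k _ => ht k)
    (fun k _ => h P hP hC hd β δ G hcl V S a F _ (hU k) W q) (by omega) (hpn _)
    (mul_nonneg (hpn _) ha)).mono (Function.HasTemperateGrowth.sum fun k _ => ht k)
    (Nat.le_succ p) le_rfl (hpn _) (pow_le_pow_right₀ hK (by omega))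
    (mul_nonneg (Nat.cast_nonneg _) (mul_nonneg (hpn _) ha)) ?_
  rw [Finset.card_univ]
  calc (Fintype.card κ : ℝ) * (P.K ^ Ex * a) ≤ P.K ^ n * (P.K ^ Ex * a) :=
      mul_le_mul_of_nonneg_right hκ (mul_nonneg (hpn _) ha)
    _ = _ := by ring

theorem ev_mem_opN (J Ms n : ℕ) : ∃ Ex : ℕ, ∀ p : ℕ, ∀ᶠ P in LL J Ms, ∀ β δ G : ℝ, Cl P β δ G →
    ∀ (V : Type) [Fintype V] (S : Type) (a : ℝ) (F : Submodule ℝ (V → ℝ)) (T : Fam P δ G V S),
      Mem P β δ G V n S a F T → ∀ W q,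
      LpLe (gam (V × Fin P.d)) p (fun x => opN (T W q x)) (P.K ^ Ex * a) := by
  obtain ⟨Ex, h⟩ := mem_NG n
  refine ⟨Ex, fun p => ?_⟩
  choose C h using h 0 p
  filter_upwards [ev_base, ev_big 0 C] with P hP hN β δ G hcl V _ S a F T hT W q
  classical
  obtain ⟨N, -, -, hD, hC⟩ := hN
  exact (h N P hP hC (hP.d_le.trans hD) β δ G hcl V S a F T hT W q).zero

/-- Frobenius bound. With at least two slots use `nrm_le_sqrt_mul_opN`; with one slot use
`nrm_tau1_le` (node), `nrm_leaf_le'` (leaf), induction (`sc`). -/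
theorem ev_mem_nrm (J Ms n : ℕ) : ∃ Ex : ℕ, ∀ p : ℕ, ∀ᶠ P in LL J Ms, ∀ β δ G : ℝ, Cl P β δ G →
    ∀ (V : Type) [Fintype V] (S : Type) [Fintype S] [DecidableEq S] (a : ℝ)
      (F : Submodule ℝ (V → ℝ)) (T : Fam P δ G V S), Mem P β δ G V n S a F T → ∀ W q,
      LpLe (gam (V × Fin P.d)) p (fun x => nrm (T W q x)) (P.K ^ Ex * a * P.D) := by
  induction n with
  | zero => exact ⟨0, fun _ => Eventually.of_forall fun _ _ _ _ _ _ _ _ _ _ _ _ _ h => by cases h⟩
  | succ n ih =>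
    obtain ⟨E₀, ih⟩ := ih
    obtain ⟨E₁, h₁⟩ := ev_mem_opN J Ms (n + 1)
    obtain ⟨E₂, h₂⟩ := ev_mem_opN J Ms n
    refine ⟨E₀ + E₁ + E₂ + 1, fun p => ?_⟩
    obtain ⟨C, hC, hl⟩ := lp_lin (2 * p)
    filter_upwards [ev_base, ih p, h₁ p, h₂ (2 * p), ev_ge C] with P hP ih h₁ h₂ hCK β δ G hcl V _
      S iS _ a F T hT W q
    classical
    have hK := hP.one_le_K
    have hβ := hcl.β_pos
    have hpw : ∀ {i j : ℕ}, i ≤ j → P.K ^ i ≤ P.K ^ j := fun h => pow_le_pow_right₀ hK h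
    have hpn : ∀ i : ℕ, 0 ≤ P.K ^ i := fun i => pow_nonneg (by linarith) i
    have ha0 := (hT.amp hβ).1.le
    have hD : 0 ≤ P.D := by linarith [hP.one_le_D]
    have hsq := sqrt_le_D hP
    rcases subsingleton_or_nontrivial S with hS | hS
    swap
    · refine ((h₁ β δ G hcl V S a F T hT W q).const_mul (Real.sqrt_nonneg P.d)).mono
        (fun x => nrm_le_sqrt_mul_opN _) ?_
      rw [mul_comm]
      exact mul_le_mul (mul_le_mul_of_nonneg_right (hpw (by omega)) ha0) hsq (Real.sqrt_nonneg _)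
        (mul_nonneg (hpn _) ha0)
    cases hT with
    | @node _ _ iS' _ _ _ c η b0 hb0 l κ _ T hT hκ hl hF hS' hη hη' ha ha' hc hc' =>
      obtain rfl : iS = iS' := Subsingleton.elim _ _
      refine LpLe.const fun x => ?_
      obtain ⟨s₀⟩ : Nonempty S := inferInstance
      let e : S ≃ Unit := ⟨fun _ => (), fun _ => s₀, fun _ => Subsingleton.elim _ _, fun _ => rfl⟩
      have h3 : ∀ y, nrm (tau W.1 η y : Ten P.d S) ≤ G := fun y => by
        rw [← nrm_reix e]
        have : reix e (tau W.1 η y : Ten P.d S) = tau W.1 η y := jet_reix (contDiff_Phi W.2 η) e y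
        rw [this, ← nrm_vec, vec_tau]
        exact nrm_tau1_le W.2 η y
      rw [nrm_smul]
      calc _ ≤ |c| * G := mul_le_mul_of_nonneg_left (h3 _) (abs_nonneg _)
        _ ≤ 1 * (a * P.D) := by rwa [one_mul]
        _ ≤ P.K ^ (E₀ + E₁ + E₂ + 1) * (a * P.D) :=
            mul_le_mul_of_nonneg_right (one_le_pow₀ hK) (mul_nonneg ha0 hD)
        _ = _ := by ring
    | con _ S₁ S₂ a₁ a₂ _ _ T₁ T₂ hT₁ hT₂ ha ha' =>
      obtain ⟨s₁⟩ : Nonempty S₁ := inferInstance
      obtain ⟨s₂⟩ : Nonempty S₂ := inferInstance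
      exact absurd (Subsingleton.elim (Sum.inl s₁ : S₁ ⊕ S₂) (Sum.inr s₂)) Sum.inl_ne_inr
    | leaf _ _ _ F' _ T hT z hz hz1 hF hFz =>
      refine ((h₂ β δ G hcl V _ a F' T hT W q).mul (hl P.d V z hz1)
        (measurable_opN.comp (hT.temp W q).1.continuous.measurable)
        (measurable_nrm.comp (temp_lin z).1.continuous.measurable) (fun _ => opN_nonneg _)
        (mul_nonneg (hpn _) ha0)).mono (fun x => nrm_leaf_le' _ _) ?_
      calc P.K ^ E₂ * a * (C * √P.d) ≤ P.K ^ E₂ * a * (P.K * P.D) :=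
          mul_le_mul_of_nonneg_left (mul_le_mul hCK hsq (Real.sqrt_nonneg _) (by linarith))
            (mul_nonneg (hpn _) ha0)
        _ = P.K ^ (E₂ + 1) * (a * P.D) := by ring
        _ ≤ P.K ^ (E₀ + E₁ + E₂ + 1) * (a * P.D) :=
            mul_le_mul_of_nonneg_right (hpw (by omega)) (mul_nonneg ha0 hD)
        _ = _ := by ring
    | sc _ S₀ _ e a₀ _ c F₀ _ T hT hc ha ha' hF =>
      have := hT.finite.1
      let _ := Fintype.ofFinite S₀
      have ha₀ := (hT.amp hβ).1.le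
      refine ((ih β δ G hcl V S₀ a₀ F₀ T hT W q).const_mul (abs_nonneg c)).mono
        (fun x => le_of_eq (by rw [nrm_smul, nrm_reix])) ?_
      calc |c| * (P.K ^ E₀ * a₀ * P.D) = P.K ^ E₀ * (|c| * a₀) * P.D := by ring
        _ ≤ _ := mul_le_mul_of_nonneg_right
            (mul_le_mul (hpw (by omega)) hc (mul_nonneg (abs_nonneg _) ha₀) (hpn _)) hD

theorem ev_smem_nrm (J Ms n : ℕ) : ∃ Ex : ℕ, ∀ p : ℕ, ∀ᶠ P in LL J Ms, ∀ β δ G : ℝ, Cl P β δ G →
    ∀ (V : Type) [Fintype V] (S : Type) [Fintype S] [DecidableEq S] (a : ℝ)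
      (F : Submodule ℝ (V → ℝ)) (T : Fam P δ G V S), 0 ≤ a → SMem P β δ G V n S a F T → ∀ W q,
      LpLe (gam (V × Fin P.d)) p (fun x => nrm (T W q x)) (P.K ^ Ex * a * P.D) := by
  obtain ⟨Ex, h⟩ := ev_mem_nrm J Ms n
  refine ⟨Ex + n, fun p => ?_⟩
  filter_upwards [ev_base, h (p + 1)] with P hP h β δ G hcl V _ S _ _ a F T ha hT W q
  have hm : Measurable fun x => nrm (T W q x) :=
    measurable_nrm.comp (hT.temp W q).1.continuous.measurable
  obtain ⟨κ, _, U, hκ, hU, e⟩ := hT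
  have hK := hP.one_le_K
  have hD : 0 ≤ P.D := by linarith [hP.one_le_D]
  have h0 : 0 ≤ P.K ^ Ex * a * P.D := by positivity
  refine LpLe.anti (q := p + 1) ?_ hm (Nat.le_succ p)
  refine (LpLe.sum Finset.univ (fun k _ => h β δ G hcl V S a F _ (hU k) W q)
    (fun k _ => measurable_nrm.comp ((hU k).temp W q).1.continuous.measurable) (by omega)
    (fun _ _ => h0)).mono (fun x => by rw [e]; exact nrm_sum_le _ _) ?_
  rw [Finset.sum_const, Finset.card_univ, nsmul_eq_mul]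
  calc (Fintype.card κ : ℝ) * (P.K ^ Ex * a * P.D) ≤ P.K ^ n * (P.K ^ Ex * a * P.D) :=
      mul_le_mul_of_nonneg_right hκ h0
    _ = _ := by ring

theorem Legs.temp {P : Par} {β δ G : ℝ} {V : Type} [Fintype V] {n m : ℕ}
    (g : Legs P β δ G V n m) (W : Pot P.d δ G) (q : E P.d) : (g.v W q).HasTemperateGrowth := by
  refine temp_pi' fun i => temp_pi.2 fun k => ?_
  have h1 : ∀ j, (fun x => g.L i W q x k j).HasTemperateGrowth := fun j => by
    rcases g.ok i with h | ⟨M, hM, h⟩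
    · simp only [h]
      exact Function.HasTemperateGrowth.const _
    · simp only [h]
      exact hM.temp_coord W q _
  exact Function.HasTemperateGrowth.sum (s := Finset.univ)
    (f := fun j x => g.L i W q x k j * lin (g.z i) x j)
    fun j _ => (h1 j).mul (temp_pi.1 (temp_lin (g.z i)) j)

/-- sizes of the legs -/
theorem ev_legs_nrm (J Ms n : ℕ) : ∃ Ex : ℕ, ∀ p : ℕ, ∀ᶠ P in LL J Ms, ∀ β δ G : ℝ, Cl P β δ G →
    ∀ (V : Type) [Fintype V] (m : ℕ) (g : Legs P β δ G V n m) (W : Pot P.d δ G) (q : E P.d)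
      (i : Fin m), LpLe (gam (V × Fin P.d)) p (fun x => nrm (g.v W q x i)) (P.K ^ Ex * P.D) := by
  obtain ⟨Ex, h⟩ := ev_mem_opN J Ms n
  refine ⟨Ex + 1, fun p => ?_⟩
  obtain ⟨C, hC, hl⟩ := lp_lin (2 * p)
  filter_upwards [ev_base, h (2 * p), ev_ge C] with P hP h hCK β δ G hcl V _ m g W q i
  have hK := hP.one_le_K
  have hD : 0 ≤ P.D := by linarith [hP.one_le_D]
  have hz : g.z i ⬝ᵥ g.z i = 1 := by simpa using g.orth i i
  have hsq : C * √P.d ≤ P.K * P.D :=
    mul_le_mul hCK (sqrt_le_D hP) (Real.sqrt_nonneg _) (by linarith)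
  have hm : Measurable fun x : Om P.d V => nrm (lin (g.z i) x) :=
    measurable_nrm.comp (temp_lin (g.z i)).1.continuous.measurable
  have hE : 1 ≤ P.K ^ Ex := one_le_pow₀ hK
  rcases g.ok i with h1 | ⟨M, hM, h1⟩
  · refine ((hl P.d V _ hz).anti hm (by omega)).mono (fun x => le_of_eq ?_) ?_
    · change nrm (g.L i W q x *ᵥ lin (g.z i) x) = _
      rw [h1, one_mulVec]
    · calc C * √P.d ≤ 1 * (P.K * P.D) := by rwa [one_mul]
        _ ≤ P.K ^ Ex * (P.K * P.D) := mul_le_mul_of_nonneg_right hE (by positivity)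
        _ = _ := by ring
  · refine ((h β δ G hcl V _ β _ M hM W q).mul (hl P.d V _ hz)
      (measurable_opN.comp (hM.temp W q).1.continuous.measurable) hm (fun _ => opN_nonneg _)
      (mul_nonneg (by linarith) hcl.β_pos.le)).mono (fun x => ?_) ?_
    · change nrm (g.L i W q x *ᵥ lin (g.z i) x) ≤ _
      rw [h1]
      exact nrm_mat_mulVec_le _ _
    · calc P.K ^ Ex * β * (C * √P.d) ≤ P.K ^ Ex * 1 * (P.K * P.D) :=
          mul_le_mul (mul_le_mul_of_nonneg_left hcl.β_le (by linarith)) hsq (by positivity)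
            (by positivity)
        _ = _ := by ring

theorem ev_legs_prod (J Ms n : ℕ) : ∃ Ex : ℕ, ∀ p : ℕ, ∀ᶠ P in LL J Ms, ∀ β δ G : ℝ, Cl P β δ G →
    ∀ (V : Type) [Fintype V] (m : ℕ), m ≤ n → ∀ (g : Legs P β δ G V n m) (W : Pot P.d δ G)
      (q : E P.d), LpLe (gam (V × Fin P.d)) p (fun x => ∏ i, nrm (g.v W q x i))
        (P.K ^ Ex * P.D ^ n) := by
  obtain ⟨Ex, h⟩ := ev_legs_nrm J Ms n
  refine ⟨(Ex + n) * n, fun p => ?_⟩
  filter_upwards [ev_base, h (n * p + 1)] with P hP h β δ G hcl V _ m hm g W q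
  have hK := hP.one_le_K
  have hD := hP.one_le_D
  have hme : ∀ i, Measurable fun x => nrm (g.v W q x i) := fun i =>
    measurable_nrm.comp ((measurable_pi_apply i).comp (g.temp W q).1.continuous.measurable)
  have h0 : 0 ≤ P.K ^ Ex * P.D := by positivity
  have h1 := (LpLe.sum Finset.univ (fun i _ => h β δ G hcl V m g W q i) (fun i _ => hme i)
    (by omega) (fun _ _ => h0)).anti (p := m * p) (Finset.measurable_sum _ fun i _ => hme i)
    ((Nat.mul_le_mul_right p hm).trans (Nat.le_succ _))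
  refine (h1.pow (fun x => Finset.sum_nonneg fun i _ => nrm_nonneg _)
    (Finset.sum_nonneg fun _ _ => h0)).mono (fun x => ?_) ?_
  · calc ∏ i, nrm (g.v W q x i) ≤ ∏ _i : Fin m, ∑ j, nrm (g.v W q x j) :=
        Finset.prod_le_prod (fun i _ => nrm_nonneg _) fun i _ =>
          Finset.single_le_sum (f := fun j => nrm (g.v W q x j)) (fun j _ => nrm_nonneg _)
            (Finset.mem_univ i)
      _ = _ := by rw [Finset.prod_const, Finset.card_univ, Fintype.card_fin]
  · rw [Finset.sum_const, Finset.card_univ, Fintype.card_fin, nsmul_eq_mul]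
    have h2 : (m : ℝ) ≤ P.K ^ n := le_trans (by exact_mod_cast hm) (nat_le_pow hP.two_le n)
    have h3 : (m : ℝ) * (P.K ^ Ex * P.D) ≤ P.K ^ (Ex + n) * P.D := by
      calc (m : ℝ) * (P.K ^ Ex * P.D) ≤ P.K ^ n * (P.K ^ Ex * P.D) :=
          mul_le_mul_of_nonneg_right h2 h0
        _ = _ := by ring
    calc ((m : ℝ) * (P.K ^ Ex * P.D)) ^ m ≤ (P.K ^ (Ex + n) * P.D) ^ m :=
        pow_le_pow_left₀ (by positivity) h3 m
      _ ≤ (P.K ^ (Ex + n) * P.D) ^ n :=
        pow_le_pow_right₀ (one_le_mul_of_one_le_of_one_le (one_le_pow₀ hK) hD) hm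
      _ = _ := by rw [mul_pow, ← pow_mul]

end Crest.Agent.R285

end
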