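import Crest.Agent.R285.Prog
import Crest.Agent.R285.Norm

/-!
Realising sums of members and base points.
-/

set_option autoImplicit false

open MeasureTheory ProbabilityTheory Matrix Filter
open scoped ENNReal

noncomputable section

namespace Crest.Agent.R285

variable {J Ms R B0 a a' b b' B B' c : ℕ}

theorem RA.mono_c (h : RA J Ms R B0 b a B c) {c' : ℕ} (hc : c ≤ c') : RA J Ms R B0 b a B c' := by
  intro n
  obtain ⟨C, h⟩ := h n
  refine ⟨C, ?_⟩
  filter_upwards [ev_base, h] with P hP h δ G hcl V _ F T hT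
  have hK := hP.one_le_K
  have hD := hP.one_le_D
  have hth := hP.th_pos
  have h1 : P.K ^ C * P.Q ^ c ≤ P.K ^ C * P.Q ^ c' :=
    mul_le_mul_of_nonneg_left (pow_le_pow_right₀ hP.one_le_Q hc) (by positivity)
  exact (h δ G hcl V F T hT).mono h1 (by gcongr)

/-- small members are dropped: `Rz.noise`, `Rz.heat_near`, `ev_mem_nrm` -/
theorem RA_drop (hR : 2 ≤ R) (hB : B ≤ a) : RA J Ms R B0 b a B c := by
  intro n
  obtain ⟨C, h⟩ := ev_mem_nrm J Ms n
  refine ⟨C, ?_⟩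
  filter_upwards [ev_base, h 1] with P hP h δ G hcl V _ F T hT
  have hK := hP.one_le_K
  have hQ := hP.one_le_Q
  have hD := hP.one_le_D
  have hth := hP.th_pos
  have h0 : Rz P.d (P.th ^ B0) δ G V (fun _ _ _ f => heat 1 f 0) 0 0 :=
    Rz.noise 1 (m := fun _ => 0) measurable_const
  have h1 := Rz.heat_near (m := fun _ _ _ => 0) (m' := fun W p x => vec (T W p x))
    (ε' := P.K ^ C * P.th ^ a * P.D) h0 (fun _ _ => measurable_const)
    (fun W p => (temp_vec (hT.temp W p)).1.continuous.measurable)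
    (fun W p => by
      have h2 := h _ δ G (hcl.cl hP hR b) V Unit _ F T hT W p
      simpa only [LpLe, pow_one, zero_sub, nrm_neg, nrm_vec] using h2) le_rfl (by positivity)
  refine h1.mono (by positivity) ?_
  have h3 : P.th ^ a ≤ P.Q ^ c * P.th ^ B :=
    (pow_le_pow_of_le_one hth.le (by linarith [hP.th_le]) hB).trans
      (le_mul_of_one_le_left (by positivity) (one_le_pow₀ hQ))
  rw [zero_add, mul_assoc (P.K ^ C) (P.Q ^ c)]
  gcongr

/-- Scale by `s = max 1 √(K^(n+1)/ρ)` (`SMem.mono`, `SMem.sc`), realise each term with unit noise,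
`Rz.heat_sum`, `Rz.heat_more`, scale back with `Rz.heat_smul`. -/
theorem rz_smem (h : RA J Ms R B0 b a B c) (hba : b ≤ a) (n : ℕ) : ∃ C : ℕ, ∀ᶠ P in LL J Ms,
    ∀ δ G, Cl0 P R δ G → ∀ β α : ℝ, 0 < β → β ≤ P.th ^ b → 0 < α → α ≤ P.th ^ a →
    ∀ (V : Type) [Fintype V] (F : Submodule ℝ (V → ℝ)) (T : Fam P δ G V Unit),
      SMem P β δ G V n Unit α F T → ∀ ρ : ℝ, α ^ 2 * P.K ^ (n + 1) ≤ P.th ^ (2 * a) * ρ →
      Rz P.d (P.th ^ B0) δ G V (fun W p x f => heat ρ f (vec (T W p x)))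
        (P.K ^ C * P.Q ^ c) (P.K ^ C * P.Q ^ c * P.th ^ B * P.D) := by
  obtain ⟨C, h⟩ := h (n + 1)
  refine ⟨n + C, ?_⟩
  filter_upwards [ev_base, h] with P hP h δ G hcl β α hβ hβb hα hαa V _ F T hT ρ hρ
  obtain ⟨κ, _, U, hκ, hU, hTU⟩ := hT
  have hK := hP.one_le_K
  have hQ := hP.one_le_Q
  have hD := hP.one_le_D
  have hth := hP.th_pos
  set s : ℝ := P.th ^ a / α with hs
  have hs1 : 1 ≤ s := (one_le_div hα).2 hαa
  have hs0 : 0 < s := by linarith
  have hsα : |s| * α ≤ P.th ^ a := by rw [abs_of_pos hs0, hs, div_mul_cancel₀ _ hα.ne']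
  have hab : P.th ^ a ≤ P.th ^ b := pow_le_pow_of_le_one hth.le (by linarith [hP.th_le]) hba
  have h1 := fun k => h δ G hcl V F _ (Mem.sc n Unit Unit (Equiv.refl _) α (P.th ^ a) s F F (U k)
    ((hU k).mono_β (by linarith) hβ hβb) hsα (by positivity) hab le_rfl)
  have hε : 0 ≤ P.K ^ C * P.Q ^ c * P.th ^ B * P.D := by positivity
  have h2 : (Fintype.card κ : ℝ) * 1 ≤ s ^ 2 * ρ := by
    rw [mul_one, hs, div_pow, div_mul_eq_mul_div, le_div_iff₀ (by positivity), ← pow_mul,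
      mul_comm a 2, mul_comm]
    refine le_trans ?_ hρ
    exact mul_le_mul_of_nonneg_left (hκ.trans (pow_le_pow_right₀ hK n.le_succ)) (by positivity)
  have h3 := ((Rz.heat_sum h1 zero_le_one hε).heat_more (by positivity) h2
    (by positivity)).heat_smul (inv_pos.2 hs0)
  refine (h3.congr fun W p x f _ => ?_).mono ?_ ?_
  · have h4 : s⁻¹ • ∑ k, vec (s • reix (Equiv.refl Unit) (U k W p x)) = vec (T W p x) := by
      rw [hTU, vec_sum, Finset.smul_sum]
      refine Finset.sum_congr rfl fun k _ => funext fun i => ?_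
      simp only [vec, reix, Pi.smul_apply, smul_eq_mul, inv_mul_cancel_left₀ hs0.ne']
    rw [h4, ← mul_assoc, ← mul_pow, inv_mul_cancel₀ hs0.ne', one_pow, one_mul]
  · rw [pow_add, mul_assoc]
    gcongr
  · refine (mul_le_of_le_one_left (by positivity) (inv_le_one_of_one_le₀ hs1)).trans ?_
    rw [pow_add, mul_assoc (P.K ^ n), mul_assoc (P.K ^ n), mul_assoc (P.K ^ n)]
    gcongr

/-- `rz_smem` and `Rz.heat_shift` -/
theorem rz_bas (h : RA J Ms R B0 b a B c) (hba : b ≤ a) (n : ℕ) : ∃ C : ℕ, ∀ᶠ P in LL J Ms,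
    ∀ δ G, Cl0 P R δ G → ∀ β α : ℝ, 0 < β → β ≤ P.th ^ b → 0 < α → α ≤ P.th ^ (a + 1) →
    ∀ (V : Type) [Fintype V] (F : Submodule ℝ (V → ℝ))
      (y : Pot P.d δ G → E P.d → Om P.d V → E P.d), Bas P β δ G V n α F y → ∀ ρ : ℝ, P.th ≤ ρ →
      Rz P.d (P.th ^ B0) δ G V (fun W p x f => heat ρ f (y W p x))
        (P.K ^ C * P.Q ^ c) (P.K ^ C * P.Q ^ c * P.th ^ B * P.D) := by
  obtain ⟨C, h⟩ := rz_smem h hba n
  refine ⟨C, ?_⟩
  filter_upwards [ev_base, ev_pow_th (n + 1), h] with P hP hn h δ G hcl β α hβ hβb hα hαa V _ F y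
    hy ρ hρ
  obtain ⟨b0, l, T, hb0, -, -, hT, e⟩ := hy
  have hK := hP.one_le_K
  have hth := hP.th_pos
  have h1 : α ^ 2 * P.K ^ (n + 1) ≤ P.th ^ (2 * a) * ρ :=
    calc α ^ 2 * P.K ^ (n + 1) ≤ (P.th ^ (a + 1)) ^ 2 * P.K ^ (n + 1) := by gcongr
      _ = P.th ^ (2 * a) * (P.th * (P.K ^ (n + 1) * P.th)) := by ring
      _ ≤ P.th ^ (2 * a) * (ρ * 1) := by gcongr; linarith
      _ = P.th ^ (2 * a) * ρ := by rw [mul_one]
  have h2 := h δ G hcl β α hβ hβb hα
    (hαa.trans (pow_le_pow_of_le_one hth.le (by linarith [hP.th_le]) a.le_succ)) V F T hT ρ h1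
  refine (h2.heat_shift (m₀ := fun z => b0 z.1 + lin l z.2)
    ((hb0.comp measurable_fst).add
      ((temp_lin l).1.continuous.measurable.comp measurable_snd))).congr fun W p x f _ => ?_
  rw [e]

end Crest.Agent.R285

end
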