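import Crest.Agent.R285.Cancel

/-!
The P-lemma.

`plemma`: the block with `α = 0` and velocity `φ`; with `m = ∫ φ` differentiate
`t ↦ ∫∫ heat ρ f (Y t + Y' t + (1 - t) m)` (`hasDerivAt_heat_path`), use `cancel` with the shifted test
function, `sym_zero`, `grad_heat_avg`; mean value inequality; `near_of_TF`; `heat_lin` at `t = 0`,
`Blk.exists_smem` at `t = 1`.
-/

set_option autoImplicit false

open MeasureTheory ProbabilityTheory Matrix Filter
open scoped ENNReal

noncomputable section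

namespace Crest.Agent.R285

namespace PLem

variable {d : ℕ} {V V' κ : Type} [Fintype V] [Fintype V'] [Fintype κ]

theorem abs_integral_sub_le {Ω : Type} [MeasurableSpace Ω] (ν : Measure Ω) [IsProbabilityMeasure ν]
    {F G : Ω → ℝ} (hF : Integrable F ν) (hG : Integrable G ν) {c : ℝ} (h : ∀ ω, |F ω - G ω| ≤ c) :
    |∫ ω, F ω ∂ν - ∫ ω, G ω ∂ν| ≤ c := by
  rw [← integral_sub hF hG]
  have h1 := norm_integral_le_of_norm_le_const (μ := ν) (f := fun ω => F ω - G ω) (C := c)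
    (Eventually.of_forall h)
  simpa using h1

theorem abs_heat_sub_heat_le {f g : E d → ℝ} (hf : BL f) (hg : BL g) {c : ℝ}
    (h : ∀ y, |f y - g y| ≤ c) (ρ : ℝ) (y : E d) : |heat ρ f y - heat ρ g y| ≤ c :=
  abs_integral_sub_le _ (hf.pg.integrable_heat ρ y) (hg.pg.integrable_heat ρ y) fun _ => h _

/-- iterated integrals as integrals over the joint Gaussian space -/
theorem integral_integral_eq {F : Type} [NormedAddCommGroup F] [NormedSpace ℝ F] [CompleteSpace F]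
    {h : Om d V → Om d V' → F}
    (hh : PG fun z : Om d (V ⊕ V') => h (ren Sum.inl z) (ren Sum.inr z)) :
    ∫ ξ, ∫ ζ, h ξ ζ ∂gam (V' × Fin d) ∂gam (V × Fin d) =
      ∫ z, h (ren Sum.inl z) (ren Sum.inr z) ∂gam ((V ⊕ V') × Fin d) := by
  rw [integral_join hh]
  simp only [ren_inl_join, ren_inr_join]

theorem temp_add_ren {A : Om d V → E d} {A' : Om d V' → E d} (hA : A.HasTemperateGrowth)
    (hA' : A'.HasTemperateGrowth) :
    (fun z : Om d (V ⊕ V') => A (ren Sum.inl z) + A' (ren Sum.inr z)).HasTemperateGrowth :=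
  (hA.comp (temp_ren Sum.inl)).add (hA'.comp (temp_ren Sum.inr))

theorem stab {A : Om d V → E d} {A' : Om d V' → E d} (hA : A.HasTemperateGrowth)
    (hA' : A'.HasTemperateGrowth) (ρ : ℝ) (f g : E d → ℝ) (c : ℝ) (hf : BL f) (hg : BL g)
    (h : ∀ y, |f y - g y| ≤ c) :
    |∫ ξ, ∫ ζ, heat ρ f (A ξ + A' ζ) ∂gam (V' × Fin d) ∂gam (V × Fin d) -
      ∫ ξ, ∫ ζ, heat ρ g (A ξ + A' ζ) ∂gam (V' × Fin d) ∂gam (V × Fin d)| ≤ c := by
  have h1 := (hf.heat ρ).pg.comp_temp (temp_add_ren hA hA')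
  have h2 := (hg.heat ρ).pg.comp_temp (temp_add_ren hA hA')
  rw [integral_integral_eq (h := fun ξ ζ => heat ρ f (A ξ + A' ζ)) h1,
    integral_integral_eq (h := fun ξ ζ => heat ρ g (A ξ + A' ζ)) h2]
  exact abs_integral_sub_le _ h1.integrable h2.integrable fun _ => abs_heat_sub_heat_le hf hg h _ _

theorem grad_shift (f : E d → ℝ) (y₀ y : E d) : grad (fun x => f (y₀ + x)) y = grad f (y₀ + y) := by
  funext i
  simp only [grad, pd]
  rw [fderiv_comp_add_left]

theorem temp_comb {ι : Type} [Fintype ι] {Θ : κ → (ι → ℝ) → E d}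
    (hΘ : ∀ i, (Θ i).HasTemperateGrowth) (c : κ → ℝ) :
    (fun ζ => ∑ i, c i • Θ i ζ).HasTemperateGrowth :=
  Function.HasTemperateGrowth.sum (s := Finset.univ) (f := fun i ζ => c i • Θ i ζ)
    fun i _ => (Function.HasTemperateGrowth.const (c i)).smul (hΘ i)

/-- the derivative along the interpolation path -/
theorem hasDerivAt_path {ι : Type} [Fintype ι] {f : E d → ℝ} (hf : f.HasTemperateGrowth)
    {Φ L : (ι → ℝ) → E d} {Θ : κ → (ι → ℝ) → E d} (hΦ : Φ.HasTemperateGrowth)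
    (hL : L.HasTemperateGrowth) (hΘ : ∀ i, (Θ i).HasTemperateGrowth) (m : E d)
    {c : κ → ℝ → ℝ} {c' : κ → ℝ} {t ρ : ℝ} (hc : ∀ i, HasDerivAt (c i) (c' i) t) (hρ : 0 < ρ) :
    HasDerivAt (fun s => ∫ z, heat ρ f ((1 - s) • m + (s • Φ z + (L z + ∑ i, c i s • Θ i z))) ∂gam ι)
      (∫ z, grad (heat ρ f) ((1 - t) • m + (t • Φ z + (L z + ∑ i, c i t • Θ i z))) ⬝ᵥ
        (Φ z + ∑ i, c' i • Θ i z - m) ∂gam ι) t := by
  have h := hasDerivAt_heat_path (κ := Option (Option (Option κ))) (ι := ι) hf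
    (Y := fun k => k.elim (fun _ => m) fun k => k.elim Φ fun k => k.elim L Θ)
    (by
      rintro (_ | _ | _ | i)
      · exact Function.HasTemperateGrowth.const m
      · exact hΦ
      · exact hL
      · exact hΘ i)
    (w := fun _ => 1) (Function.HasTemperateGrowth.const 1)
    (c := fun k => k.elim (fun s => 1 - s) fun k => k.elim (fun s => s) fun k =>
      k.elim (fun _ => 1) c)
    (c' := fun k => k.elim (-1) fun k => k.elim 1 fun k => k.elim 0 c') (ρ := fun _ => ρ) (ρ' := 0)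
    (t := t)
    (by
      rintro (_ | _ | _ | i)
      · exact (hasDerivAt_id' t).const_sub 1
      · exact hasDerivAt_id' t
      · exact hasDerivAt_const t 1
      · exact hc i)
    (hasDerivAt_const t ρ) hρ
  simp only [Fintype.sum_option, Option.elim, one_mul, one_smul, zero_smul, zero_add, zero_div,
    zero_mul, add_zero, neg_smul] at h
  refine h.congr_deriv (integral_congr_ae (Eventually.of_forall fun z => ?_))
  simp only
  congr 1
  abel

theorem core {Φ : Om d V → E d} (hΦ : Φ.HasTemperateGrowth) {L : Om d V' → E d}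
    (hL : L.HasTemperateGrowth) {Θ : κ → Om d V' → E d} (hΘ : ∀ i, (Θ i).HasTemperateGrowth)
    {c c' : κ → ℝ → ℝ} (hc : ∀ i t, HasDerivAt (c i) (c' i t) t) {ρ : ℝ} (hρ : 0 < ρ)
    {f : E d → ℝ} (hf : TF f) {r : ℝ≥0∞}
    (h : ∀ t ∈ Set.Icc (0 : ℝ) 1, ∀ g, TF g → ENNReal.ofReal
      |∫ ξ, ∫ ζ, grad (heat ρ g) (t • Φ ξ + (L ζ + ∑ i, c i t • Θ i ζ)) ⬝ᵥ
          (Φ ξ + ∑ i, c' i t • Θ i ζ) ∂gam (V' × Fin d) ∂gam (V × Fin d) -
        sym ρ (fun y => ∫ ξ, ∫ ζ, g (t • Φ ξ + (L ζ + ∑ i, c i t • Θ i ζ) + y)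
          ∂gam (V' × Fin d) ∂gam (V × Fin d)) (fun _ => 0) Φ| ≤ r) :
    ENNReal.ofReal
      |∫ ξ, ∫ ζ, heat ρ f (Φ ξ + (L ζ + ∑ i, c i 1 • Θ i ζ)) ∂gam (V' × Fin d) ∂gam (V × Fin d) -
        ∫ ζ, heat ρ f (∫ ξ, Φ ξ ∂gam (V × Fin d) + (L ζ + ∑ i, c i 0 • Θ i ζ))
          ∂gam (V' × Fin d)| ≤ r := by
  rcases eq_or_ne r ⊤ with rfl | hr
  · exact le_top
  set m := ∫ ξ, Φ ξ ∂gam (V × Fin d) with hm
  have tl := temp_ren (d := d) (Sum.inl : V → V ⊕ V')
  have tr := temp_ren (d := d) (Sum.inr : V' → V ⊕ V')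
  have hA : ∀ t : ℝ, (fun z : Om d (V ⊕ V') => t • Φ (ren Sum.inl z) +
      (L (ren Sum.inr z) + ∑ i, c i t • Θ i (ren Sum.inr z))).HasTemperateGrowth := fun t =>
    temp_add_ren (A := fun ξ => t • Φ ξ) (A' := fun ζ => L ζ + ∑ i, c i t • Θ i ζ)
      ((Function.HasTemperateGrowth.const t).smul hΦ) (hL.add (temp_comb hΘ fun i => c i t))
  have hB : ∀ t : ℝ, (fun z : Om d (V ⊕ V') => Φ (ren Sum.inl z) +
      ∑ i, c' i t • Θ i (ren Sum.inr z)).HasTemperateGrowth := fun t =>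
    temp_add_ren (A := Φ) (A' := fun ζ => ∑ i, c' i t • Θ i ζ) hΦ (temp_comb hΘ fun i => c' i t)
  have hd := fun t => hasDerivAt_path (ι := (V ⊕ V') × Fin d) hf.temp
    (Φ := fun z => Φ (ren Sum.inl z)) (L := fun z => L (ren Sum.inr z))
    (Θ := fun i z => Θ i (ren Sum.inr z)) (hΦ.comp tl) (hL.comp tr) (fun i => (hΘ i).comp tr) m
    (fun i => hc i t) hρ
  have key := norm_image_sub_le_of_norm_deriv_le_segment_01' (C := r.toReal)
    (fun t _ => (hd t).hasDerivWithinAt) (fun t ht => by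
      have ht' : t ∈ Set.Icc (0 : ℝ) 1 := ⟨ht.1, ht.2.le⟩
      have hg : TF fun y => f ((1 - t) • m + y) := hf.shift _
      have h1 := h t ht' _ hg
      set g : E d → ℝ := fun y => f ((1 - t) • m + y) with hgdef
      have e0 : ∀ y, grad (heat ρ f) ((1 - t) • m + y) = grad (heat ρ g) y := by
        intro y
        rw [← grad_shift]
        congr 1
        funext x
        exact (heat_shift ρ f _ x).symm
      have tG : (fun z : Om d (V ⊕ V') => grad (heat ρ g) (t • Φ (ren Sum.inl z) +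
          (L (ren Sum.inr z) + ∑ i, c i t • Θ i (ren Sum.inr z)))).HasTemperateGrowth :=
        (temp_grad (temp_heat hg.temp ρ)).comp (hA t)
      have e1 := integral_integral_eq (h := fun ξ ζ => grad (heat ρ g)
        (t • Φ ξ + (L ζ + ∑ i, c i t • Θ i ζ)) ⬝ᵥ (Φ ξ + ∑ i, c' i t • Θ i ζ))
        (PG.of_temp (temp_dot tG (hB t)))
      have e2 : (fun y => ∫ ξ, ∫ ζ, g (t • Φ ξ + (L ζ + ∑ i, c i t • Θ i ζ) + y)
          ∂gam (V' × Fin d) ∂gam (V × Fin d)) = fun y => ∫ z : Om d (V ⊕ V'),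
            g (t • Φ (ren Sum.inl z) + (L (ren Sum.inr z) + ∑ i, c i t • Θ i (ren Sum.inr z)) + y)
            ∂gam ((V ⊕ V') × Fin d) := by
        funext y
        exact integral_integral_eq (h := fun ξ ζ => g (t • Φ ξ + (L ζ + ∑ i, c i t • Θ i ζ) + y))
          (PG.of_temp (temp_add_const hg.temp (hA t) y))
      rw [e1, e2, sym_zero (hg.avg (hA t)).temp ρ hΦ, grad_heat_avg hg.temp (hA t), ← hm] at h1
      simp only [add_zero] at h1
      rw [Real.norm_eq_abs, ← ENNReal.ofReal_le_iff_le_toReal hr]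
      refine le_of_eq_of_le ?_ h1
      congr 2
      simp only [e0, dotProduct_sub]
      rw [integral_sub (temp_integrable (temp_dot tG (hB t)))
        (temp_integrable (temp_dot tG (Function.HasTemperateGrowth.const m)))]
      congr 1
      have hi := temp_integrable tG
      simp only [dotProduct]
      rw [integral_finsetSum _ fun i _ => (hi.eval i).mul_const _]
      refine Finset.sum_congr rfl fun i _ => ?_
      rw [integral_mul_const, eval_integral hi.eval])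
  rw [Real.norm_eq_abs, ← ENNReal.ofReal_le_iff_le_toReal hr] at key
  refine le_of_eq_of_le ?_ key
  congr 2
  simp only [sub_self, zero_smul, zero_add, one_smul, sub_zero]
  congr 1
  · exact integral_integral_eq (h := fun ξ ζ => heat ρ f (Φ ξ + (L ζ + ∑ i, c i 1 • Θ i ζ)))
      (PG.of_temp ((temp_heat hf.temp ρ).comp (by simpa using hA 1)))
  · rw [← integral_integral_eq (V := V)
      (h := fun _ ζ => heat ρ f (m + (L ζ + ∑ i, c i 0 • Θ i ζ)))
      (PG.of_temp ((temp_heat hf.temp ρ).comp ((Function.HasTemperateGrowth.const m).add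
        (by simpa using hA 0))))]
    simp

end PLem

theorem plemma (J Ms n B : ℕ) : ∃ n' C : ℕ, ∀ᶠ P in LL J Ms, ∀ β δ G : ℝ, Cl P β δ G →
    ∀ (V0 V : Type) [Fintype V0] [Fintype V] (a : ℝ) (φ : Fam P δ G (V0 ⊕ V) Unit),
      SMem P β δ G (V0 ⊕ V) n Unit a ⊥ φ → 0 < a → a ≤ β * P.th →
      (Fintype.card V : ℝ) ≤ P.K ^ n →
      ∃ (V' : Type) (_ : Fintype V') (α' : V' → ℝ) (Θ' : Fam P δ G (V0 ⊕ V') Unit),
        α' ⬝ᵥ α' ≤ P.K ^ n' ∧ SMem P β δ G (V0 ⊕ V') n' Unit (a ^ 2 / β) ⊥ Θ' ∧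
        ∀ W p ρ, P.K ^ n' ≤ ρ →
          CNear (fun x f => ∫ ξ, ∫ ζ, heat ρ f (vec (φ W p (join x ξ)) +
              (lin α' ζ + vec (Θ' W p (join x ζ)))) ∂gam (V' × Fin P.d) ∂gam (V × Fin P.d))
            (fun x f => heat (ρ + α' ⬝ᵥ α') f (∫ ξ, vec (φ W p (join x ξ)) ∂gam (V × Fin P.d)))
            (P.K ^ C * P.th ^ B * P.D) := by
  obtain ⟨n', C, hc⟩ := cancel J Ms n B
  refine ⟨n' + 1, C, ?_⟩
  filter_upwards [ev_base, hc] with P hP hc β δ G hCl V0 V _ _ a φ hφ ha haβ hV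
  have hφt := hφ.temp
  obtain ⟨κ, _, U, hκ, hU, hsum⟩ := hφ
  have hK := hP.one_le_K
  have hβ := hCl.β_pos
  let Y : Blk P β δ G V0 V n a ⊥ :=
    { ι := κ, fι := inferInstance, hι := hκ, Θ := U
      mem := fun i => by rw [inlF_bot]; exact hU i
      φ := fun _ t => t, φ' := fun _ _ => 1, hd := fun _ t => hasDerivAt_id' t
      cont := fun _ => continuous_const, φ0 := fun _ => rfl, bd := fun _ _ _ => by simp
      α := fun _ => 0, hα := by simp; positivity, hV := hV }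
  obtain ⟨V', _, Y', hY'⟩ := hc β δ G hCl V0 V a ⊥ Y ha haβ
  have haβ' : a ≤ β := haβ.trans (mul_le_of_le_one_right hβ.le (by linarith [hP.th_le]))
  obtain ⟨T, hT, hTN⟩ := Y'.exists_smem hP (by positivity)
    (by rw [div_le_iff₀ hβ]; nlinarith) (t := 1) ⟨zero_le_one, le_rfl⟩
  rw [inlF_bot] at hT
  have hpow : P.K ^ n' ≤ P.K ^ (n' + 1) := pow_le_pow_right₀ hK (Nat.le_succ _)
  refine ⟨V', inferInstance, Y'.α, T, Y'.hα.trans hpow, hT, fun W p ρ hρ => ?_⟩
  obtain ⟨r, hrm, hri, hr⟩ := hY' W p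
  have hρ0 : 0 < ρ := lt_of_lt_of_le (by positivity) hρ
  refine ⟨r, hrm, hri, fun x => ?_⟩
  have hΦ : (fun ξ => vec (φ W p (join x ξ))).HasTemperateGrowth :=
    temp_vec ((hφt W p).comp (temp_join_right x))
  have hΘ : ∀ i, (fun ζ => vec (Y'.Θ i W p (join x ζ))).HasTemperateGrowth := fun i =>
    temp_vec (((Y'.mem i).temp W p).comp (temp_join_right x))
  refine near_of_TF (fun f g c hf hg h => PLem.stab hΦ
    ((temp_lin Y'.α).add (temp_vec ((hT.temp W p).comp (temp_join_right x)))) ρ f g c hf hg h)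
    (fun f g c hf hg h => PLem.abs_heat_sub_heat_le hf hg h _ _) fun f hf hf' => ?_
  have eY' : ∀ t, Y.Y' W p x t = fun ξ => vec (φ W p (join x ξ)) := by
    intro t
    funext ξ
    simp only [Blk.Y', Y, one_smul, hsum, vec_sum]
  have eY : ∀ t ξ, Y.Y W p x t ξ = t • vec (φ W p (join x ξ)) := by
    intro t ξ
    simp only [Blk.Y, Blk.N, Y, hsum, vec_sum, Finset.smul_sum]
    funext i
    simp [lin]
  have h1 := PLem.core hΦ (temp_lin Y'.α) hΘ Y'.hd hρ0 hf (r := r x) fun t ht g hg => by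
    have h2 := hr x t ht ρ (hpow.trans hρ) g hg
    simp only [eY, eY'] at h2
    exact h2
  simp only [Y'.φ0, zero_smul, Finset.sum_const_zero, add_zero] at h1
  rw [heat_lin hf'.pg hρ0.le] at h1
  simp only [hTN]
  exact h1

end Crest.Agent.R285

end
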