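import Crest.Agent.R285.MainA
import Crest.Agent.R285.PLem
import Crest.Agent.R285.Poin

/-!
The P-step: from the law of a field plus noise to the Gaussian centred at its mean.

`pstep`: let `n', C` be given by `plemma (n+1)`, `s² = 2 K^(n'+1) / (τ₁ - τ₂)`, so `1 ≤ s ≤ th^(-3)`. Apply
`plemma` to `s • φ` (amplitude `th^e`) with `ρ = s² τ₁ - α'·α' = s² τ₂ + ρ₂`, `ρ₂ ≥ K^(n'+1)`. Realise
`heat ρ₂` at `lin α' + Θ'` (`rz_smem`, `Rz.heat_shift`, `Rz.mix`), scale the given program by `s` (`Rz.map`),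
`Rz.conv`, `Rz.near`, and scale back by `1/s` (`Rz.heat_smul`): the given error `ε` is reproduced exactly.

`node_mean`: `pstep` for `φ (x, ξ, g) = c₀ • tau η (y (x, ξ) + √σ g)` on `V ⊕ (V2 ⊕ Unit)` (`Bas.extend`,
`Bas.ren`, `Bas.node`), `e = a - 4`; its hypothesis comes from `rz_bas` (for `h2`, noise `σ`), `Rz.bind` with the
given oracle (Lipschitz constant `2 th^(a-1)`: `tau1_lip`, `near_heat`), `Rz.mix`, `integral_join`, `heat_lin`.
-/

set_option autoImplicit false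

open MeasureTheory ProbabilityTheory Matrix Filter
open scoped ENNReal

noncomputable section

namespace Crest.Agent.R285

variable {J Ms R B0 a a' b b' B B' c : ℕ}

namespace MainB

variable {d : ℕ}

theorem heat_avg {Ω : Type} [MeasurableSpace Ω] (ν : Measure Ω) [IsProbabilityMeasure ν]
    {g : E d → ℝ} (hg : BL g) {Y : Ω → E d} (hY : Measurable Y) (ρ : ℝ) (y : E d) :
    heat ρ (fun y => ∫ ω, g (y + Y ω) ∂ν) y = ∫ ω, heat ρ g (y + Y ω) ∂ν := by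
  obtain ⟨C, hC⟩ := hg.bdd
  have hm : Measurable fun z : E d × Ω => g (y + √ρ • z.1 + Y z.2) :=
    hg.continuous.measurable.comp (by fun_prop)
  unfold heat
  rw [integral_integral_swap (f := fun (z : E d) ω => g (y + √ρ • z + Y ω))
    (Integrable.of_bound hm.aestronglyMeasurable C (Eventually.of_forall fun z => hC _))]
  refine integral_congr_ae (Eventually.of_forall fun ω => ?_)
  refine integral_congr_ae (Eventually.of_forall fun z => ?_)
  simp only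
  rw [add_right_comm]

theorem vec_smul_reix (s : ℝ) (T : Ten d Unit) :
    vec (s • reix (Equiv.refl Unit) T) = s • vec T := rfl

theorem int_join_lin {F : Type} [NormedAddCommGroup F] [NormedSpace ℝ F] [CompleteSpace F]
    {V V' : Type} [Fintype V] [Fintype V'] {H : E d → F} (hH : PG H) {Y : Om d V → E d}
    (hY : Y.HasTemperateGrowth) (l : V' → ℝ) :
    ∫ ξ, H (Y (ren Sum.inl ξ) + lin l (ren Sum.inr ξ)) ∂gam ((V ⊕ V') × Fin d) =
      ∫ ξ, heat (l ⬝ᵥ l) H (Y ξ) ∂gam (V × Fin d) := by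
  rw [integral_join (hH.comp_temp (PLem.temp_add_ren hY (temp_lin l)))]
  simp only [ren_inl_join, ren_inr_join, integral_lin hH.meas]

theorem two_pow_le {K : ℝ} (hK : 2 ≤ K) (C₁ C₂ : ℕ) :
    K ^ C₁ + K ^ C₂ ≤ K ^ (max C₁ C₂ + 1) := by
  have h1 : K ^ C₁ ≤ K ^ max C₁ C₂ := pow_le_pow_right₀ (by linarith) (le_max_left _ _)
  have h2 : K ^ C₂ ≤ K ^ max C₁ C₂ := pow_le_pow_right₀ (by linarith) (le_max_right _ _)
  have h3 : 0 ≤ K ^ max C₁ C₂ := by positivity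
  rw [pow_succ]
  nlinarith

end MainB

open MainB

theorem pstep (h : RA J Ms R B0 b (a + 1) B c) (hR : 2 ≤ R) (hba : b ≤ a + 1) {e : ℕ}
    (he : b + 1 ≤ e) (he' : a + 1 + b ≤ 2 * e) (n : ℕ) : ∃ C : ℕ, ∀ᶠ P in LL J Ms,
    ∀ δ G, Cl0 P R δ G → ∀ (V V1 : Type) [Fintype V] [Fintype V1] (φ : Fam P δ G (V ⊕ V1) Unit),
      SMem P (P.th ^ b) δ G (V ⊕ V1) n Unit (P.th ^ (e + 3)) ⊥ φ →
      (Fintype.card V1 : ℝ) ≤ P.K ^ n → ∀ τ₁ τ₂ q ε : ℝ, 0 ≤ τ₂ → τ₂ + P.th ^ 4 ≤ τ₁ → τ₁ ≤ 1 →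
      0 ≤ ε →
      Rz P.d (P.th ^ B0) δ G V
        (fun W p x f => ∫ ξ, heat τ₂ f (vec (φ W p (join x ξ))) ∂gam (V1 × Fin P.d)) q ε →
      Rz P.d (P.th ^ B0) δ G V
        (fun W p x f => heat τ₁ f (∫ ξ, vec (φ W p (join x ξ)) ∂gam (V1 × Fin P.d)))
        (q + P.K ^ C * P.Q ^ c) (ε + P.K ^ C * P.Q ^ c * P.th ^ B * P.D) := by
  obtain ⟨n', C₁, hpl⟩ := plemma J Ms (n + 1) B
  obtain ⟨C₂, hrz⟩ := rz_smem h hba n'
  refine ⟨max C₁ C₂ + 1, ?_⟩
  filter_upwards [ev_base, hpl, hrz, ev_pow_th (n' + 1)] with P hP hpl hrz hKth δ G hCl V V1 _ _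
    φ hφ hV τ₁ τ₂ q ε hτ₂ hτ hτ₁ hε hq
  classical
  have hK := hP.one_le_K
  have hK2 := hP.two_le
  have hQ := hP.one_le_Q
  have hD := hP.one_le_D
  have hth := hP.th_pos
  have hth2 := hP.th_le
  have hth1 : P.th ≤ 1 := by linarith
  have hth4 : 0 < P.th ^ 4 := by positivity
  have hΔ : 0 < τ₁ - τ₂ := by linarith
  have hKn : 1 ≤ P.K ^ (n' + 1) := one_le_pow₀ hK
  set s := √(2 * P.K ^ (n' + 1) / (τ₁ - τ₂)) with hs
  have hs2 : s ^ 2 = 2 * P.K ^ (n' + 1) / (τ₁ - τ₂) := Real.sq_sqrt (by positivity)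
  have hs1 : 1 ≤ s := by
    rw [hs, Real.one_le_sqrt, le_div_iff₀ hΔ]
    linarith
  have hs0 : 0 < s := by linarith
  have hsth : s * P.th ^ 3 ≤ 1 := by
    have h1 : (s * P.th ^ 3) ^ 2 ≤ 1 := by
      rw [mul_pow, hs2, div_mul_eq_mul_div, div_le_one hΔ]
      calc 2 * P.K ^ (n' + 1) * (P.th ^ 3) ^ 2
          = (2 * P.th) * (P.K ^ (n' + 1) * P.th) * P.th ^ 4 := by ring
        _ ≤ 1 * 1 * P.th ^ 4 := by gcongr; linarith
        _ ≤ τ₁ - τ₂ := by linarith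
    exact (sq_le_one_iff₀ (by positivity)).1 h1
  have heb : P.th ^ e ≤ P.th ^ b * P.th := by
    rw [← pow_succ]; exact pow_le_pow_of_le_one hth.le hth1 he
  have hφs := hφ.sc hP (Equiv.refl Unit) (a' := P.th ^ e) (c := s)
    (by
      rw [abs_of_pos hs0, pow_add, mul_left_comm]
      exact mul_le_of_le_one_right (by positivity) hsth)
    (by positivity) (pow_le_pow_of_le_one hth.le hth1 (by omega))
  obtain ⟨V', _, α', Θ', hα', hΘ', hnear⟩ := hpl _ δ G (hCl.cl hP hR b) V V1 (P.th ^ e) _ hφs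
    (by positivity) heb (hV.trans (pow_le_pow_right₀ hK (Nat.le_succ n)))
  have hpow : P.K ^ n' ≤ P.K ^ (n' + 1) := pow_le_pow_right₀ hK (Nat.le_succ _)
  set ρ₂ := 2 * P.K ^ (n' + 1) - α' ⬝ᵥ α' with hρ₂
  have hρ₂K : P.K ^ (n' + 1) ≤ ρ₂ := by linarith
  have hρ₂0 : 0 ≤ ρ₂ := by linarith
  have hamp : (P.th ^ e) ^ 2 / P.th ^ b ≤ P.th ^ (a + 1) := by
    rw [div_le_iff₀ (by positivity), ← pow_mul, ← pow_add]
    exact pow_le_pow_of_le_one hth.le hth1 (by omega)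
  have r1 := hrz δ G hCl (P.th ^ b) ((P.th ^ e) ^ 2 / P.th ^ b) (by positivity) le_rfl
    (by positivity) hamp (V ⊕ V') ⊥ Θ' hΘ' ρ₂ (by
      rw [mul_comm 2, pow_mul]
      gcongr)
  have r2 := r1.heat_shift (m₀ := fun z => lin α' (ren Sum.inr z.2))
    (((temp_lin α').comp (temp_ren Sum.inr)).1.continuous.measurable.comp measurable_snd)
  have hmt : ∀ W p, (fun x : Om P.d (V ⊕ V') =>
      lin α' (ren Sum.inr x) + vec (Θ' W p x)).HasTemperateGrowth := fun W p =>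
    ((temp_lin α').comp (temp_ren Sum.inr)).add (temp_vec (hΘ'.temp W p))
  have r3 := r2.mix (fun W p x => pr_heat _ _)
    (fun W p f hf => measurable_heat _ hf (hmt W p).1.continuous.measurable)
  simp only [ren_inr_join] at r3
  have hφt : ∀ W p (x : Om P.d V), Measurable fun ξ => vec (φ W p (join x ξ)) := fun W p x =>
    (temp_vec ((hφ.temp W p).comp (temp_join_right x))).1.continuous.measurable
  have hΘt : ∀ W p (x : Om P.d V), Measurable fun ζ => lin α' ζ + vec (Θ' W p (join x ζ)) :=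
    fun W p x => ((temp_lin α').add
      (temp_vec ((hΘ'.temp W p).comp (temp_join_right x)))).1.continuous.measurable
  have r4 := hq.map (fun W p x => pr_mix _ (fun ξ => pr_heat _ _)
      fun f hf => measurable_heat _ hf (hφt W p x))
    (ψ := fun z => s • z.2) (by fun_prop) hs0
    (fun z y y' => by rw [← smul_sub, nrm_smul, abs_of_pos hs0])
  simp only [heat_scale _ _ hs0.le] at r4
  have hε₂ : 0 ≤ P.K ^ C₂ * P.Q ^ c * P.th ^ B * P.D := by positivity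
  have hε₁ : 0 ≤ P.K ^ C₁ * P.th ^ B * P.D := by positivity
  have r5 := r4.conv r3
    (fun W p x => pr_mix _ (fun ξ => pr_heat _ _)
      fun f hf => measurable_heat _ hf ((hφt W p x).const_smul s))
    (fun W p x => pr_mix _ (fun ζ => pr_heat _ _) fun f hf => measurable_heat _ hf (hΘt W p x))
    (by positivity) hε₂
  have r6 := r5.congr (Λ' := fun W p x f => ∫ ξ, ∫ ζ, heat (s ^ 2 * τ₂ + ρ₂) f
      (vec (s • reix (Equiv.refl Unit) (φ W p (join x ξ))) + (lin α' ζ + vec (Θ' W p (join x ζ))))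
      ∂gam (V' × Fin P.d) ∂gam (V1 × Fin P.d)) (fun W p x f hf => by
    refine integral_congr_ae (Eventually.of_forall fun ξ => ?_)
    simp only [heat_shift, vec_smul_reix]
    rw [heat_avg _ (hf.heat ρ₂) (hΘt W p x), heat_heat hf.pg (by positivity) hρ₂0])
  have r7 := r6.near (fun W p => hnear W p (s ^ 2 * τ₂ + ρ₂)
    (by have : 0 ≤ s ^ 2 * τ₂ := by positivity
        linarith)) (by positivity) hε₁
  have r8 := r7.heat_smul (s := s⁻¹) (by positivity)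
  have e1 : s⁻¹ ^ 2 * (s ^ 2 * τ₂ + ρ₂ + α' ⬝ᵥ α') = τ₁ := by
    have : s ^ 2 * (τ₁ - τ₂) = 2 * P.K ^ (n' + 1) := by rw [hs2]; field_simp
    rw [hρ₂]
    field_simp
    linarith
  simp only [e1, vec_smul_reix, integral_smul, inv_smul_smul₀ hs0.ne'] at r8
  have h2p := two_pow_le hK2 C₁ C₂
  have hQc : 1 ≤ P.Q ^ c := one_le_pow₀ hQ
  refine r8.mono ?_ ?_
  · gcongr
    omega
  · have hsi : s⁻¹ ≤ 1 := inv_le_one_of_one_le₀ hs1
    calc s⁻¹ * (s * ε + P.K ^ C₂ * P.Q ^ c * P.th ^ B * P.D + P.K ^ C₁ * P.th ^ B * P.D)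
        = ε + s⁻¹ * (P.K ^ C₂ * P.Q ^ c * P.th ^ B * P.D + P.K ^ C₁ * 1 * P.th ^ B * P.D) := by
          field_simp; ring
      _ ≤ ε + 1 * (P.K ^ C₂ * P.Q ^ c * P.th ^ B * P.D +
          P.K ^ C₁ * P.Q ^ c * P.th ^ B * P.D) := by gcongr
      _ = ε + (P.K ^ C₁ + P.K ^ C₂) * P.Q ^ c * P.th ^ B * P.D := by ring
      _ ≤ _ := by gcongr

/-- `pstep` with `e = a + 1`, `τ₂ = ρ / 2`; `rz_smem`, `Rz.mix` -/
theorem mean_rz (h : RA J Ms R B0 b (a + 1) B c) (hR : 2 ≤ R) (hba : b ≤ a) (n : ℕ) :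
    ∃ C : ℕ, ∀ᶠ P in LL J Ms,
    ∀ δ G, Cl0 P R δ G → ∀ (V V1 : Type) [Fintype V] [Fintype V1] (φ : Fam P δ G (V ⊕ V1) Unit),
      SMem P (P.th ^ b) δ G (V ⊕ V1) n Unit (P.th ^ (a + 4)) ⊥ φ →
      (Fintype.card V1 : ℝ) ≤ P.K ^ n → ∀ ρ : ℝ, P.th ≤ ρ → ρ ≤ 1 →
      Rz P.d (P.th ^ B0) δ G V
        (fun W p x f => heat ρ f (∫ ξ, vec (φ W p (join x ξ)) ∂gam (V1 × Fin P.d)))
        (P.K ^ C * P.Q ^ c) (P.K ^ C * P.Q ^ c * P.th ^ B * P.D) := by
  obtain ⟨C₁, hps⟩ := pstep h hR (by omega) (e := a + 1) (by omega) (by omega) n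
  obtain ⟨C₂, hrz⟩ := rz_smem h (by omega) n
  refine ⟨max C₂ C₁ + 1, ?_⟩
  filter_upwards [ev_base, hps, hrz, ev_pow_th (n + 1)] with P hP hps hrz hKth δ G hCl V V1 _ _
    φ hφ hV ρ hρ hρ1
  classical
  have hK2 := hP.two_le
  have hQ := hP.one_le_Q
  have hD := hP.one_le_D
  have hth := hP.th_pos
  have hth2 := hP.th_le
  have hth1 : P.th ≤ 1 := by linarith
  have hρ0 : 0 < ρ := hth.trans_le hρ
  have h3 : P.th ^ 3 ≤ 1 / 2 := by
    calc P.th ^ 3 ≤ P.th ^ 1 := pow_le_pow_of_le_one hth.le hth1 (by omega)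
      _ ≤ 1 / 2 := by simpa using hth2
  have h4 : P.th ^ 4 ≤ ρ / 2 := by
    calc P.th ^ 4 = P.th * P.th ^ 3 := by ring
      _ ≤ ρ * (1 / 2) := by gcongr
      _ = ρ / 2 := by ring
  have r1 := hrz δ G hCl (P.th ^ b) (P.th ^ (a + 4)) (by positivity) le_rfl (by positivity)
    (pow_le_pow_of_le_one hth.le hth1 (by omega)) (V ⊕ V1) ⊥ φ hφ (ρ / 2) (by
      calc (P.th ^ (a + 4)) ^ 2 * P.K ^ (n + 1)
          = P.th ^ (2 * (a + 1)) * (P.K ^ (n + 1) * P.th * P.th * P.th ^ 4) := by ring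
        _ ≤ P.th ^ (2 * (a + 1)) * (1 * 1 * (ρ / 2)) := by gcongr
        _ = _ := by ring)
  have r2 := r1.mix (fun W p x => pr_heat _ _)
    (fun W p f hf => measurable_heat _ hf (temp_vec (hφ.temp W p)).1.continuous.measurable)
  have r3 := hps δ G hCl V V1 φ hφ hV ρ (ρ / 2) _ _ (by linarith) (by linarith) hρ1
    (by positivity) r2
  have h2p := two_pow_le hK2 C₂ C₁
  refine r3.mono ?_ ?_
  · rw [← add_mul]; gcongr
  · rw [← add_mul, ← add_mul, ← add_mul]; gcongr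

theorem node_mean (h1 : RA J Ms R B0 b (a + 1) B c) (h2 : RA J Ms R B0 b' a' B' c) (hb' : b' ≤ a')
    (hb : b = a' + 1) (ha : b + 10 ≤ a) (hB : B ≤ B' + b) (hR : 2 ≤ R) (n : ℕ) :
    ∃ C : ℕ, ∀ᶠ P in LL J Ms, ∀ δ G, Cl0 P R δ G → ∀ (V V2 : Type) [Fintype V] [Fintype V2]
      (y : Pot P.d δ G → E P.d → Om P.d (V ⊕ V2) → E P.d) (c₀ η σ τ₁ τ₂ q ε : ℝ),
      Bas P (P.th ^ b) δ G (V ⊕ V2) n (P.th ^ b) ⊥ y → (Fintype.card V2 : ℝ) ≤ P.K ^ n →
      P.Q - n ≤ η → η ≤ P.Q → |c₀| * δ * P.th ≤ P.th ^ a → |c₀| * G * P.th ≤ P.th ^ a * P.D →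
      1 / 4 ≤ σ → σ ≤ 1 → 0 ≤ τ₂ → τ₂ + P.th ^ 4 ≤ τ₁ → τ₁ ≤ 1 → 0 ≤ ε →
      Rz P.d (P.th ^ B0) δ G Empty (fun W p _ f => heat τ₂ f (c₀ • tau1 W.1 η p)) q ε →
      Rz P.d (P.th ^ B0) δ G V (fun W p x f => heat τ₁ f
          (∫ ξ, c₀ • heat σ (tau1 W.1 η) (y W p (join x ξ)) ∂gam (V2 × Fin P.d)))
        (q + P.K ^ C * P.Q ^ c) (ε + P.K ^ C * P.Q ^ c * P.th ^ B * P.D) := by
  obtain ⟨C₁, hps⟩ := pstep h1 hR (by omega) (e := a - 4) (by omega) (by omega) (n + 2)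
  obtain ⟨C₂, hrz⟩ := rz_bas h2 hb' n
  refine ⟨max C₂ C₁ + 1, ?_⟩
  filter_upwards [ev_base, hps, hrz, ev_pow_th 2] with P hP hps hrz hKth δ G hCl V V2 _ _
    y c₀ η σ τ₁ τ₂ q ε hy hV hη hη' hcδ hcG hσ hσ1 hτ₂ hτ hτ₁ hε hq
  classical
  have hK := hP.one_le_K
  have hK2 := hP.two_le
  have hQ := hP.one_le_Q
  have hD := hP.one_le_D
  have hth := hP.th_pos
  have hth2 := hP.th_le
  have hth1 : P.th ≤ 1 := by linarith
  have hth4 : P.th ≤ 1 / 4 := by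
    have : 2 ^ 2 * P.th ≤ P.K ^ 2 * P.th := by gcongr
    linarith
  have hcl := hCl.cl hP hR b
  have hδ := hcl.δ_pos
  have hβ : 0 < P.th ^ b := by positivity
  have ha1 : P.th ^ a = P.th ^ (a - 4 + 3) * P.th := by
    rw [← pow_succ]; congr 1; omega
  have hcδ' : |c₀| * δ ≤ P.th ^ (a - 4 + 3) := by
    rw [ha1] at hcδ; exact le_of_mul_le_mul_right hcδ hth
  have hcG' : |c₀| * G ≤ P.th ^ (a - 4 + 3) * P.D := by
    rw [ha1, mul_right_comm _ P.th] at hcG; exact le_of_mul_le_mul_right hcG hth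
  have hl : (fun _ : Unit => √σ) ⬝ᵥ (fun _ : Unit => √σ) = σ := by
    simp [dotProduct, Real.mul_self_sqrt (by linarith : 0 ≤ σ)]
  have b1 := hy.extend hP hβ (fun _ : Unit => √σ) (by rw [hl]; exact hσ1)
    (SMem.zero (by linarith))
  have b2 := b1.ren (V' := V ⊕ (V2 ⊕ Unit)) (Equiv.sumAssoc V V2 Unit)
    (Equiv.sumAssoc V V2 Unit).injective (F' := ⊥) (fun z hz => by
      rw [(Submodule.mem_bot ℝ).1 hz]; exact Submodule.zero_mem _)
  have m1 := b2.node (S := Unit) (a := P.th ^ (a - 4 + 3)) (c := c₀) (η := η) (by simp)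
    (by push_cast; linarith) hη' (by positivity)
    (pow_le_pow_of_le_one hth.le hth1 (by omega)) hcδ' hcG'
  have hvec : ∀ (W : Pot P.d δ G) (p : E P.d) (x : Om P.d V) (ξ : Om P.d (V2 ⊕ Unit)),
      vec (c₀ • tau W.1 η (y W p (ren Sum.inl (ren (Equiv.sumAssoc V V2 Unit) (join x ξ))) +
        lin (fun _ : Unit => √σ) (ren Sum.inr (ren (Equiv.sumAssoc V V2 Unit) (join x ξ))) +
          vec (0 : Ten P.d Unit))) =
      c₀ • tau1 W.1 η (y W p (join x (ren Sum.inl ξ)) +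
        lin (fun _ : Unit => √σ) (ren Sum.inr ξ)) := by
    intro W p x ξ
    have e1 : ren Sum.inl (ren (Equiv.sumAssoc V V2 Unit) (join x ξ)) =
        join x (ren Sum.inl ξ) := by
      funext ⟨v, i⟩; cases v <;> rfl
    have e2 : ren Sum.inr (ren (Equiv.sumAssoc V V2 Unit) (join x ξ)) = ren Sum.inr ξ := rfl
    have e3 : vec (0 : Ten P.d Unit) = 0 := rfl
    rw [e1, e2, e3, add_zero, ← vec_tau]
    rfl
  have hyt : ∀ W p (x : Om P.d V), (fun ξ => y W p (join x ξ)).HasTemperateGrowth :=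
    fun W p x => (hy.temp W p).comp (temp_join_right x)
  have hτt : ∀ W : Pot P.d δ G, (fun z => c₀ • tau1 W.1 η z).HasTemperateGrowth := fun W =>
    (Function.HasTemperateGrowth.const c₀).smul (temp_tau1 W.2 η)
  have hpg : ∀ (W : Pot P.d δ G) f, BL f → PG fun z => heat τ₂ f (c₀ • tau1 W.1 η z) :=
    fun W f hf => (hf.heat τ₂).pg.comp_temp (hτt W)
  have r1 := hrz δ G hCl (P.th ^ b) (P.th ^ b) hβ (pow_le_pow_of_le_one hth.le hth1 (by omega))
    hβ (by rw [hb]) (V ⊕ V2) ⊥ y hy σ (by linarith)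
  have hε₂ : 0 ≤ P.K ^ C₂ * P.Q ^ c * P.th ^ B' * P.D := by positivity
  have r2 := r1.bind (Λ' := fun W p f => heat τ₂ f (c₀ • tau1 W.1 η p)) hq
    (fun W p x => pr_heat _ _) (fun W p => pr_heat _ _) (L := 2 * P.th ^ (a - 4 + 3))
    (by positivity) (fun W f hf z z' => by
      refine ((hf.heat τ₂).lip _ _).trans ?_
      rw [← smul_sub, nrm_smul]
      have h3 := tau1_lip W.2 hδ.le (η := η) (by nlinarith [hcl.δ_le]) z z'
      have h4 := nrm_nonneg (z - z')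
      calc |c₀| * nrm (tau1 W.1 η z - tau1 W.1 η z') ≤ |c₀| * (2 * δ * nrm (z - z')) := by gcongr
        _ = 2 * (|c₀| * δ) * nrm (z - z') := by ring
        _ ≤ _ := by gcongr) hε₂ hε
  have r3 := r2.mix
    (fun W p x => pr_mix (gam (Fin P.d)) (Λ := fun g f =>
        heat τ₂ f (c₀ • tau1 W.1 η (y W p x + √σ • g))) (fun g => pr_heat _ _)
      fun f hf => measurable_heat _ hf
        ((hτt W).1.continuous.measurable.comp (by fun_prop)))
    (fun W p f hf => ((hpg W f hf).heat σ).meas.measurable.comp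
      (hy.temp W p).1.continuous.measurable)
  have r4 := hps δ G hCl V (V2 ⊕ Unit) _ (m1.smem hK) (by
      rw [Fintype.card_sum, Fintype.card_unit]
      push_cast
      have h5 : 1 ≤ P.K ^ n := one_le_pow₀ hK
      calc (Fintype.card V2 : ℝ) + 1 ≤ P.K ^ n * (2 * 1) := by linarith
        _ ≤ P.K ^ n * (P.K * P.K) := by gcongr
        _ = _ := by ring) τ₁ τ₂ _ _ hτ₂ hτ hτ₁ (by positivity)
    (r3.congr fun W p x f hf => by
      simp only [hvec]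
      rw [int_join_lin (hpg W f hf) (hyt W p x), hl])
  have h2p := two_pow_le hK2 C₂ C₁
  refine (r4.congr fun W p x f hf => ?_).mono ?_ ?_
  · simp only [hvec]
    rw [int_join_lin (PG.of_temp (hτt W)) (hyt W p x), hl]
    simp only [heat_smul]
  · rw [add_comm (P.K ^ C₂ * P.Q ^ c), add_assoc, ← add_mul]; gcongr
  · have h6 : 2 * P.th ^ (a - 4 + 3) * P.th ^ B' ≤ P.th ^ B := by
      calc 2 * P.th ^ (a - 4 + 3) * P.th ^ B' = (2 * P.th) * P.th ^ (a - 4 + 2 + B') := by ring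
        _ ≤ 1 * P.th ^ B := by
          gcongr ?_ * ?_
          · linarith
          · exact pow_le_pow_of_le_one hth.le hth1 (by omega)
        _ = _ := one_mul _
    calc 2 * P.th ^ (a - 4 + 3) * (P.K ^ C₂ * P.Q ^ c * P.th ^ B' * P.D) + ε +
          P.K ^ C₁ * P.Q ^ c * P.th ^ B * P.D
        = ε + (P.K ^ C₂ * P.Q ^ c * (2 * P.th ^ (a - 4 + 3) * P.th ^ B') * P.D +
          P.K ^ C₁ * P.Q ^ c * P.th ^ B * P.D) := by ring
      _ ≤ ε + (P.K ^ C₂ * P.Q ^ c * P.th ^ B * P.D + P.K ^ C₁ * P.Q ^ c * P.th ^ B * P.D) := by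
          gcongr
      _ = ε + (P.K ^ C₂ + P.K ^ C₁) * P.Q ^ c * P.th ^ B * P.D := by ring
      _ ≤ _ := by gcongr

end Crest.Agent.R285

end
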