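import Crest.Agent.R285.TLemAuxB

/-!
The deterministic part of the T-lemma.
-/

set_option autoImplicit false

open MeasureTheory ProbabilityTheory Matrix Filter
open scoped ENNReal

noncomputable section

namespace Crest.Agent.R285

namespace TL

open TenB Edge

variable {d : ℕ} {δ G : ℝ} {W : E d → ℝ} {η : ℝ} {V : Type} [Fintype V]

theorem grad_heat_shift (ρ : ℝ) (g : E d → ℝ) (u z : E d) :
    grad (heat ρ fun y => g (u + y)) z = grad (heat ρ g) (u + z) := by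
  have e : (heat ρ fun y => g (u + y)) = fun y => heat ρ g (y + u) := by
    funext y; rw [heat_shift, add_comm]
  funext i
  simp only [grad, e, pd_shift]
  rw [add_comm]

theorem jet_heat_shift {S : Type} [Fintype S] (ρ : ℝ) {g : E d → ℝ} (hg : g.HasTemperateGrowth)
    (u : E d) : (jet (heat ρ fun y => g (u + y)) 0 : Ten d S) = jet (heat ρ g) u := by
  have e : (heat ρ fun y => g (u + y)) = fun y => heat ρ g (u + (1 : ℝ) • y) := by
    funext y; rw [heat_shift, one_smul]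
  rw [e, jet_comp_affine (temp_heat hg ρ).1]
  simp

theorem abs_deriv_le (hW : Adm δ G W) (hη : 0 < η) (b : E d) {g : E d → ℝ} (hg : TF g)
    {Yf Yd : Om d V → E d} (hYf : Yf.HasTemperateGrowth) (hYd : Yd.HasTemperateGrowth)
    {ρ s lam R ε : ℝ} (hs : 0 ≤ s) {N : ℕ}
    (hE : |stepE W η η b (fun x => grad (heat ρ fun y => ∫ ζ, g (Yf ζ + y) ∂gam (V × Fin d))
          (0 + (lam / η) • (x - b)) ⬝ᵥ grad W x) -
        ∑ n ∈ Finset.range (N + 1), lam ^ n / n.factorial *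
          stepE W η η b (fun x => (jet (heat ρ fun y => ∫ ζ, g (Yf ζ + y) ∂gam (V × Fin d))
            (0 + (lam / η) • (x - b)) : Ten d (Option (Fin n))) ⬝ᵥ tau W η b)| ≤ ε)
    (hC : ∀ g', TF g' → |∫ ζ, grad (heat ρ g') (Yf ζ) ⬝ᵥ Yd ζ ∂gam (V × Fin d) +
        s * ∑ n ∈ Finset.range (N + 1), lam ^ n / n.factorial *
          ((jet (heat ρ fun y => ∫ ζ, g' (Yf ζ + y) ∂gam (V × Fin d)) 0 :
            Ten d (Option (Fin n))) ⬝ᵥ tau W η b)| ≤ R) :
    |-(s * stepE W η η b fun y => grad (heat ρ fun y => ∫ ζ, g (Yf ζ + y) ∂gam (V × Fin d))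
        ((lam / η) • (y - b)) ⬝ᵥ grad W y) -
      stepE W η η b fun y => ∫ ζ, grad (heat ρ g) ((lam / η) • (y - b) + Yf ζ) ⬝ᵥ Yd ζ
        ∂gam (V × Fin d)| ≤ s * ε + R := by
  simp only [zero_add] at hE
  have hgb := (TF.avg hg hYf).temp
  set gb : E d → ℝ := fun y => ∫ ζ, g (Yf ζ + y) ∂gam (V × Fin d) with hgbd
  have k2 : (fun q : E d × Om d V =>
      grad (heat ρ g) ((lam / η) • (q.1 - b) + Yf q.2) ⬝ᵥ Yd q.2).HasTemperateGrowth :=
    temp_dot ((temp_grad (temp_heat hg.temp ρ)).comp (temp_z _ b hYf)) (hYd.comp temp_snd')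
  have k3 : ∀ n : ℕ, (fun x => (jet (heat ρ gb) ((lam / η) • (x - b)) : Ten d (Option (Fin n))) ⬝ᵥ
      tau W η b).HasTemperateGrowth := fun n =>
    temp_dot ((temp_jet (temp_heat hgb ρ)).comp (temp_u _ b)) (Function.HasTemperateGrowth.const _)
  have h2 : |stepE W η η b (fun y => ∫ ζ, grad (heat ρ g) ((lam / η) • (y - b) + Yf ζ) ⬝ᵥ Yd ζ
        ∂gam (V × Fin d)) + s * ∑ n ∈ Finset.range (N + 1), lam ^ n / n.factorial *
          stepE W η η b (fun x => (jet (heat ρ gb) ((lam / η) • (x - b)) :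
            Ten d (Option (Fin n))) ⬝ᵥ tau W η b)| ≤ R := by
    simp only [← stepE_cmul]
    rw [← stepE_sum hW η η b _ fun n _ => PG.of_temp (temp_cmul _ (k3 n)), ← stepE_cmul,
      ← stepE_add hW η η b (PG.of_temp (temp_integral k2))
        (PG.of_temp (temp_cmul _ (temp_sum _ fun n _ => temp_cmul _ (k3 n))))]
    refine abs_stepE_le hW hη.le le_rfl b fun y => ?_
    have h3 := hC _ (hg.shift ((lam / η) • (y - b)))
    have e : (fun z => ∫ ζ, g ((lam / η) • (y - b) + (Yf ζ + z)) ∂gam (V × Fin d)) =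
        fun z => gb ((lam / η) • (y - b) + z) := by
      funext z
      simp only [hgbd, add_left_comm]
    simp only [grad_heat_shift, e, jet_heat_shift ρ hgb] at h3
    exact h3
  rw [abs_le] at hE h2 ⊢
  constructor <;> nlinarith [hE.1, hE.2]

/-- the rescaled test function -/
theorem tf_scale {f : E d → ℝ} (hf : TF f) {s : ℝ} (hs : 0 < s) (b : E d) :
    TF fun y => s * f (b + s⁻¹ • y) := by
  have h1 : (fun y => f (b + s⁻¹ • y)).HasTemperateGrowth := hf.temp.comp (TowerBAux.temp_aff b _)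
  refine ⟨temp_cmul s h1, fun y => ?_⟩
  have : grad (fun y => s * f (b + s⁻¹ • y)) y = grad f (b + s⁻¹ • y) := by
    funext i
    simp only [grad]
    rw [pd_const_mul (tdiff h1 y), TowerBAux.pd_aff (fun x => tdiff hf.temp x), ← mul_assoc,
      mul_inv_cancel₀ hs.ne', one_mul]
  rw [this]
  exact hf.lip _

theorem heat_scale' (f : E d → ℝ) {s : ℝ} (hs : 0 < s) (b : E d) (ρ : ℝ) (z : E d) :
    heat ρ (fun y => s * f (b + s⁻¹ • y)) z = s * heat (ρ / s ^ 2) f (b + s⁻¹ • z) := by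
  have h1 := heat_smul s (fun y => f (b + s⁻¹ • y)) ρ z
  have h2 := heat_scale ρ s⁻¹ (inv_nonneg.2 hs.le) (fun y => f (b + y)) z
  simp only [smul_eq_mul] at h1
  rw [h1, h2, heat_shift, inv_pow, inv_mul_eq_div]

theorem det (hW : Adm δ G W) (hη : 1 ≤ η) (b : E d) {f : E d → ℝ} (hf : TF f)
    {ι : Type} [Fintype ι] {Θ : ι → Om d V → E d}
    (hΘ : ∀ i, (Θ i).HasTemperateGrowth) {φ φ' : ι → ℝ → ℝ}
    (hφ : ∀ i t, HasDerivAt (φ i) (φ' i t) t) (hφ0 : ∀ i, φ i 0 = 0) (α : V → ℝ) {s ρ₀ R ε : ℝ}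
    (hs : 0 < s) (hρ₀ : 0 < ρ₀) (hρ : ρ₀ ≤ s ^ 2 * (1 - 1 / η) - α ⬝ᵥ α) {N : ℕ}
    (hE : ∀ g, TF g → ∀ ρ, ρ₀ ≤ ρ → ∀ lam, |lam| ≤ s →
      |stepE W η η b (fun x => grad (heat ρ g) (0 + (lam / η) • (x - b)) ⬝ᵥ grad W x) -
        ∑ n ∈ Finset.range (N + 1), lam ^ n / n.factorial *
          stepE W η η b (fun x => (jet (heat ρ g) (0 + (lam / η) • (x - b)) :
            Ten d (Option (Fin n))) ⬝ᵥ tau W η b)| ≤ ε)
    (hC : ∀ l ∈ Set.Icc (0 : ℝ) 1, ∀ ρ, ρ₀ ≤ ρ → ∀ g', TF g' →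
      |∫ ζ, grad (heat ρ g') (lin α ζ + ∑ i, φ i (1 - l) • Θ i ζ) ⬝ᵥ
          (∑ i, φ' i (1 - l) • Θ i ζ) ∂gam (V × Fin d) +
        s * ∑ n ∈ Finset.range (N + 1), (l * s) ^ n / n.factorial *
          ((jet (heat ρ fun y => ∫ ζ, g' (lin α ζ + ∑ i, φ i (1 - l) • Θ i ζ + y)
            ∂gam (V × Fin d)) 0 : Ten d (Option (Fin n))) ⬝ᵥ tau W η b)| ≤ R) :
    |stepE W η 1 b f - ∫ ζ, heat (1 - α ⬝ᵥ α / s ^ 2) f
      (b + s⁻¹ • (lin α ζ + ∑ i, φ i 1 • Θ i ζ)) ∂gam (V × Fin d)| ≤ ε + R / s := by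
  have hη0 : 0 < η := by linarith
  have hg := tf_scale hf hs b
  set g : E d → ℝ := fun y => s * f (b + s⁻¹ • y) with hgd
  have hS : ∀ ψ : ι → ℝ, (fun ζ => ∑ i, ψ i • Θ i ζ).HasTemperateGrowth := fun ψ =>
    Function.HasTemperateGrowth.sum fun i _ =>
      (Function.HasTemperateGrowth.const (ψ i)).fun_smul (hΘ i)
  have hY : ∀ l, (fun ζ => lin α ζ + ∑ i, φ i (1 - l) • Θ i ζ).HasTemperateGrowth := fun l =>
    (temp_lin α).add (hS _)
  set ρ : ℝ → ℝ := fun l => s ^ 2 * (1 - l ^ 2 / η) - α ⬝ᵥ α with hρd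
  have hρl : ∀ l ∈ Set.Icc (0 : ℝ) 1, ρ₀ ≤ ρ l := by
    intro l hl
    refine hρ.trans ?_
    have : l ^ 2 ≤ 1 := pow_le_one₀ hl.1 hl.2
    simp only [hρd]
    gcongr
  have hd : ∀ l, HasDerivAt ρ (2 * -(l * s / η * s)) l := by
    intro l
    have := ((((hasDerivAt_pow 2 l).div_const η).const_sub 1).const_mul (s ^ 2)).sub_const (α ⬝ᵥ α)
    refine this.congr_deriv ?_
    push_cast
    ring
  have H := norm_image_sub_le_of_norm_deriv_le_segment_01'
    (f := fun l => stepE W η η b fun y => ∫ ζ, heat (ρ l) g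
        ((l * s / η) • (y - b) + (lin α ζ + ∑ i, φ i (1 - l) • Θ i ζ)) ∂gam (V × Fin d))
    (C := s * ε + R)
    (fun l hl => (hasDerivAt_H0 hW hη0 b hg.temp hΘ hφ α s (hd l)
      (hρ₀.trans_le (hρl l hl))).hasDerivWithinAt) fun l hl => by
      have hl' : l ∈ Set.Icc (0 : ℝ) 1 := Set.Ico_subset_Icc_self hl
      rw [mul_div_cancel_left₀ _ two_ne_zero, deriv_eq hW hη0 b hg.temp (hY l) (hS _),
        Real.norm_eq_abs]
      refine abs_deriv_le hW hη0 b hg (hY l) (hS _) hs.le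
        (hE _ (hg.avg (hY l)) _ (hρl l hl') _ ?_) (hC l hl' _ (hρl l hl'))
      rw [abs_of_nonneg (mul_nonneg hl'.1 hs.le)]
      exact mul_le_of_le_one_left hs.le hl'.2
  have e1 : (stepE W η η b fun y => ∫ ζ, heat (ρ 1) g
      ((1 * s / η) • (y - b) + (lin α ζ + ∑ i, φ i (1 - 1) • Θ i ζ)) ∂gam (V × Fin d)) =
      s * stepE W η 1 b f := by
    rw [stepE_bridge hW hη0 zero_le_one hη b (PG.of_temp hf.temp), ← stepE_cmul]
    congr 1
    funext y
    simp only [sub_self, hφ0, zero_smul, Finset.sum_const_zero, add_zero]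
    rw [heat_lin (PG.of_temp hg.temp) (hρ₀.le.trans (hρl 1 (by simp))), hgd, heat_scale' f hs,
      smul_smul]
    congr 2
    · simp only [hρd]; field_simp; ring
    · congr 2; field_simp
  have e0 : (stepE W η η b fun y => ∫ ζ, heat (ρ 0) g
      ((0 * s / η) • (y - b) + (lin α ζ + ∑ i, φ i (1 - 0) • Θ i ζ)) ∂gam (V × Fin d)) =
      s * ∫ ζ, heat (1 - α ⬝ᵥ α / s ^ 2) f
        (b + s⁻¹ • (lin α ζ + ∑ i, φ i 1 • Θ i ζ)) ∂gam (V × Fin d) := by
    simp only [zero_mul, zero_div, zero_smul, zero_add, sub_zero]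
    rw [stepE_const hW hη0.le le_rfl, ← integral_const_mul]
    congr 1
    funext ζ
    rw [hgd, heat_scale' f hs]
    congr 2
    simp only [hρd]; field_simp; ring
  rw [e1, e0, ← mul_sub, Real.norm_eq_abs, abs_mul, abs_of_pos hs] at H
  rw [← mul_le_mul_iff_right₀ hs]
  refine H.trans (le_of_eq ?_)
  field_simp

theorem abs_int_heat_sub_le {ι : Type} [Fintype ι] {f g : E d → ℝ} (hf : BL f) (hg : BL g) {c : ℝ}
    (h : ∀ y, |f y - g y| ≤ c) (ρ : ℝ) {Y : (ι → ℝ) → E d} (hY : Y.HasTemperateGrowth) :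
    |∫ ζ, heat ρ f (Y ζ) ∂gam ι - ∫ ζ, heat ρ g (Y ζ) ∂gam ι| ≤ c := by
  rw [← integral_sub ((hf.pg.heat ρ).comp_temp hY).integrable
    ((hg.pg.heat ρ).comp_temp hY).integrable, ← Real.norm_eq_abs]
  refine (norm_integral_le_of_norm_le_const (C := c) (Eventually.of_forall fun ζ => ?_)).trans
    (by simp)
  unfold heat
  rw [← integral_sub (hf.pg.integrable_heat ρ _) (hg.pg.integrable_heat ρ _)]
  exact (norm_integral_le_of_norm_le_const (C := c) (Eventually.of_forall fun z => h _)).trans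
    (by simp)

/-- one more visible seed -/
theorem int_seed {f : E d → ℝ} (hf : PG f) {τ : ℝ} (hτ : 1 / 2 ≤ τ) (b : E d) (α : V → ℝ)
    {M : Om d V → E d} (hM : M.HasTemperateGrowth) :
    ∫ ξ, heat (1 / 2) f (b + lin (Sum.elim α fun _ : Unit => √(τ - 1 / 2)) ξ + M (ren Sum.inl ξ))
      ∂gam ((V ⊕ Unit) × Fin d) = ∫ ζ, heat τ f (b + (lin α ζ + M ζ)) ∂gam (V × Fin d) := by
  have h1 : (fun ξ : Om d (V ⊕ Unit) => b + lin (Sum.elim α fun _ : Unit => √(τ - 1 / 2)) ξ +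
      M (ren Sum.inl ξ)).HasTemperateGrowth :=
    ((Function.HasTemperateGrowth.const b).add (temp_lin _)).add (hM.comp (temp_ren _))
  rw [integral_join ((hf.heat _).comp_temp h1)]
  congr 1
  funext ζ
  have e : ∀ y : Om d Unit, b + (lin α ζ + lin (fun _ : Unit => √(τ - 1 / 2)) y) + M ζ =
      b + (lin α ζ + M ζ) + lin (fun _ : Unit => √(τ - 1 / 2)) y := fun y => by abel
  simp only [lin_join, ren_inl_join, e]
  rw [heat_lin hf (by norm_num)]
  simp only [dotProduct, Finset.univ_unique, Finset.sum_singleton,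
    Real.mul_self_sqrt (sub_nonneg.2 hτ), add_sub_cancel]

end TL

end Crest.Agent.R285

end
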