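import Crest.Agent.R285.Cancel
import Crest.Agent.R285.Edge
import Crest.Agent.R285.TLemAuxC

/-!
The T-lemma: a ladder step is a Gaussian mixture with members as means.

Let `N = 4 J B`, `n₁` the complexity of the root block, `n₂` given by `cancel` for `n₁`, `𝒱 = 6 K^n₂`
(`N ≤ K^n₂`). Root block `Y`: seeds `Fin N` with `α = 1`, members
`Θ j = -(√𝒱^(j+1) / j!) • tau η (b x) [Z_0, …, Z_(j-1)]`, `j ≤ N` (`Bas.node`, then `Mem.leaf` `j` times; the
amplitude condition holds since `√𝒱^(j+1) th ≤ 1`, `ev_pow_th`), `φ' j c = (1 - c)^j`. Let `Y'` be given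
by `cancel`. For a test function `f` put `g y = √𝒱 f (b + y/√𝒱)`,
`ρ(λ) = 𝒱 (1 - λ²/η) - α·α - α'·α' ≥ K^n₂` and
`H(λ) = E_{x ~ posterior (η, b)} ∫∫ heat (ρ λ) g ((λ √𝒱/η) (x - b) + Y (1-λ) + Y' (1-λ))`.
By `hasDerivAt_heat_path` (weight `exp (-W (b + √η g)) / u`) and `stepE_ibp`,
`H' = -√𝒱 E[∇h · ∇W] - E[∇h · (Ẏ + Ẏ')]`; `edgeworth` with `lam = λ √𝒱` (`A` from `nrm_jet_heat_le`;
`𝒱/η ≤ Q^(-1/2)` by `ev_pow`, `Q^(-J) ≤ th`) expands the first term, `cancel` (test function averaged over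
the posterior) with `sym_sum`, `sym_pad`, `sym_app` the second; the main terms cancel.
`H(1) = √𝒱 stepE η 1 b f` (`heat_lin`, `heat_scale`, `stepE_bridge`), and `H(0)` is the right-hand side:
the variance `ρ(0)/𝒱 - 1/2 ≥ 0` becomes one more visible seed.
-/

set_option autoImplicit false

open MeasureTheory ProbabilityTheory Matrix Filter
open scoped ENNReal

noncomputable section

namespace Crest.Agent.R285

namespace TL

theorem lin_smul {d : ℕ} {V : Type} [Fintype V] (c : ℝ) (α : V → ℝ) (ζ : Om d V) :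
    lin (c • α) ζ = c • lin α ζ := by
  funext i
  simp [lin, Finset.mul_sum, mul_assoc]

theorem err_le {P : Par} (hP : P.Base) {J B N : ℕ} (hN : N = 4 * J * B) (hJ : 1 ≤ P.th * P.Q ^ J)
    {s η δ c lam : ℝ} (hη : P.Q / 2 ≤ η) (hη' : η ≤ P.Q) (hsQ : 4 * s ^ 4 ≤ P.Q)
    (hδ0 : 0 ≤ δ) (hδ : P.Q * δ ≤ P.th) (hc : c ≤ P.K) (hlam : |lam| ≤ s) :
    c * δ * √(η * P.d) * (|lam| / √η) ^ (N + 1) ≤ P.K * P.th ^ B * P.D := by
  have hQ := hP.one_le_Q
  have hD := hP.one_le_D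
  have hK := hP.one_le_K
  have hth := hP.th_le
  have hth0 := hP.th_pos
  have hη0 : 0 < η := by linarith
  have h1 : √(η * P.d) ≤ P.Q * P.D := by
    rw [Real.sqrt_le_iff]
    refine ⟨by positivity, ?_⟩
    calc η * P.d ≤ P.Q * P.D := by gcongr; exact hP.d_le
      _ ≤ (P.Q * P.D) ^ 2 := le_self_pow₀ (by nlinarith) two_ne_zero
  have h2 : δ * √(η * P.d) ≤ P.D := by
    calc δ * √(η * P.d) ≤ δ * (P.Q * P.D) := by gcongr
      _ = P.Q * δ * P.D := by ring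
      _ ≤ 1 * P.D := by gcongr; linarith
      _ = P.D := one_mul _
  have h3 : (|lam| / √η) ^ 4 ≤ 1 / P.Q := by
    have e : √η ^ 4 = η ^ 2 := by
      rw [show 4 = 2 * 2 from rfl, pow_mul, Real.sq_sqrt hη0.le]
    rw [div_pow, e, div_le_div_iff₀ (by positivity) (by positivity)]
    have h4 : |lam| ^ 4 ≤ s ^ 4 := by gcongr
    have h5 : (P.Q / 2) ^ 2 ≤ η ^ 2 := by gcongr
    nlinarith
  have h4 : |lam| / √η ≤ 1 := by
    refine (pow_le_one_iff_of_nonneg (by positivity) (by norm_num : 4 ≠ 0)).1 (h3.trans ?_)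
    rw [div_le_one (by positivity)]; exact hQ
  have h5 : (1 / P.Q) ^ J ≤ P.th := by
    rw [_root_.one_div_pow, div_le_iff₀ (by positivity)]; exact hJ
  have h6 : (|lam| / √η) ^ (N + 1) ≤ P.th ^ B := by
    calc _ ≤ (|lam| / √η) ^ N := pow_le_pow_of_le_one (by positivity) h4 (by omega)
      _ = (((|lam| / √η) ^ 4) ^ J) ^ B := by rw [hN, pow_mul, pow_mul]
      _ ≤ ((1 / P.Q) ^ J) ^ B := by gcongr
      _ ≤ _ := by gcongr
  calc _ = c * (δ * √(η * P.d)) * (|lam| / √η) ^ (N + 1) := by ring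
    _ ≤ P.K * P.D * P.th ^ B := by gcongr
    _ = _ := by ring

end TL

open TL in
theorem tlemma (J Ms R n B : ℕ) : ∃ n' C : ℕ, ∀ᶠ P in LL J Ms, ∀ β δ G : ℝ, Cl P β δ G →
    Cl0 P R δ G → ∀ a : ℝ, P.th ^ R ≤ a * P.th → a ≤ β * P.th →
    ∀ (V : Type) [Fintype V] (F : Submodule ℝ (V → ℝ))
      (b : Pot P.d δ G → E P.d → Om P.d V → E P.d) (η : ℝ), Bas P β δ G V n β F b →
      P.Q - n ≤ η → η ≤ P.Q →
      ∃ (V' : Type) (_ : Fintype V') (l' : V' → ℝ) (T' : Fam P δ G (V ⊕ V') Unit),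
        (Fintype.card V' : ℝ) ≤ P.K ^ n' ∧ l' ⬝ᵥ l' ≤ 1 ∧
        SMem P β δ G (V ⊕ V') n' Unit a (inlF V' F) T' ∧ ∀ W p,
          CNear (fun x f => stepE W.1 η 1 (b W p x) f)
            (fun x f => ∫ ζ, heat (1 / 2) f (b W p x + lin l' ζ + vec (T' W p (join x ζ)))
              ∂gam (V' × Fin P.d)) (P.K ^ C * P.th ^ B * P.D) := by
  obtain ⟨N, hN⟩ : ∃ N, N = 4 * J * B := ⟨_, rfl⟩
  obtain ⟨n₂, C₂, hcan⟩ := cancel J Ms (n + 3 * N + 3) B
  obtain ⟨Ce, -, hedge⟩ := edgeworth N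
  obtain ⟨A, -, hA⟩ := nrm_jet_heat_le (N + 2)
  obtain ⟨m, hm⟩ : ∃ m, m = n + 3 * N + 3 + n₂ := ⟨_, rfl⟩
  refine ⟨m + 3, C₂ + 2, ?_⟩
  filter_upwards [ev_base, ev_ge (N + 1), ev_ge (2 * n), ev_ge 4, ev_ge (Ce * A),
    ev_pow (4 * (m + 2) + 2), ev_pow_th ((m + 2) * (N + 1)), ev_th_Q, hcan] with P hP hK₁ hK₂ hK₄ hK₃
    hQ hth hJ hcan β δ G hCl hCl0 a haR ha V _ F b η hb hη hη'
  have hK := hP.one_le_K
  have hKQ := hP.K_le
  have hth0 := hP.th_pos
  have hth1 := hP.th_le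
  have hD := hP.one_le_D
  have hβ := hCl.β_pos
  have ha0 : 0 < a := by
    have : 0 < a * P.th := lt_of_lt_of_le (by positivity) haR
    exact (mul_pos_iff_of_pos_right hth0).1 this
  have haβ : a ≤ β := by nlinarith
  have hηQ : P.Q / 2 ≤ η := by linarith
  have hη2 : 2 ≤ η := by linarith
  obtain ⟨s, hs⟩ : ∃ s, s = P.K ^ (m + 2) := ⟨_, rfl⟩
  have hs1 : 1 ≤ s := hs ▸ one_le_pow₀ hK
  have hs0 : 0 < s := by linarith
  have hc : ∀ j ≤ N, |-(s ^ (j + 1) / j.factorial)| * P.th ≤ 1 := by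
    intro j hj
    refine le_trans ?_ hth
    rw [abs_neg, abs_of_nonneg (by positivity), pow_mul, ← hs]
    gcongr
    refine (div_le_self (by positivity) (by exact_mod_cast j.factorial_pos)).trans ?_
    exact pow_le_pow_right₀ hs1 (by omega)
  obtain ⟨Y, hYα, hY⟩ := exists_root hP hβ hb hη hη' ha0 haβ hK₁
    (fun j => -(s ^ (j + 1) / j.factorial))
    (fun j hj => by
      calc _ ≤ |-(s ^ (j + 1) / j.factorial)| * (a * P.th) := by
            gcongr; exact hCl0.δ_le.trans haR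
        _ = |-(s ^ (j + 1) / j.factorial)| * P.th * a := by ring
        _ ≤ 1 * a := by gcongr; exact hc j hj
        _ = a := one_mul a)
    (fun j hj => by
      calc _ ≤ |-(s ^ (j + 1) / j.factorial)| * (a * P.th * P.D) := by
            gcongr; exact hCl0.G_le.trans (by gcongr)
        _ = |-(s ^ (j + 1) / j.factorial)| * P.th * (a * P.D) := by ring
        _ ≤ 1 * (a * P.D) := by gcongr; exact hc j hj
        _ = _ := one_mul _)
  obtain ⟨V₂, _, Y', hY'⟩ := hcan β δ G hCl V (Fin N) a F Y ha0 ha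
  obtain ⟨Y₁, -, -, e₁, e₁'⟩ := Y.exists_mono hP (n' := m) (by omega) le_rfl haβ
  obtain ⟨Y₂, -, -, e₂, e₂'⟩ := Y'.exists_mono hP (n' := m) (a' := a) (by omega)
    (by rw [div_le_iff₀ hβ]; nlinarith) haβ
  obtain ⟨Z, -, hZ⟩ := Blk.exists_sum hP Y₁ Y₂
  rw [e₁, e₁', e₂, e₂'] at hZ
  obtain ⟨T, hT, hTe⟩ := Z.exists_smem hP ha0 haβ (t := 1) (by simp)
  have hα := Z.hα
  have hα0 : 0 ≤ Z.α ⬝ᵥ Z.α := by rw [dot_self]; positivity
  have hKm : 0 < P.K ^ (m + 1) := by positivity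
  have hs2 : 4 * P.K ^ (m + 1) ≤ s ^ 2 := by
    rw [hs, ← pow_mul, show (m + 2) * 2 = (m + 3) + (m + 1) by ring, pow_add _ (m + 3)]
    exact mul_le_mul_of_nonneg_right (hK₄.trans (le_self_pow₀ hK (by omega))) hKm.le
  have hτ : 1 / 2 ≤ 1 - Z.α ⬝ᵥ Z.α / s ^ 2 := by
    have : Z.α ⬝ᵥ Z.α / s ^ 2 ≤ 1 / 2 := by
      rw [div_le_iff₀ (by positivity)]; linarith
    linarith
  have hT' := (hT.ren (V' := V ⊕ ((Fin N ⊕ V₂) ⊕ Unit)) (Sum.map id Sum.inl)
    (Sum.map_injective.2 ⟨Function.injective_id, Sum.inl_injective⟩)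
    (F' := inlF ((Fin N ⊕ V₂) ⊕ Unit) F) fun z hz => ⟨hz.1, fun v => hz.2 _⟩).sc hP (Equiv.refl _)
    (c := s⁻¹) (a' := a) (by
      rw [abs_of_pos (by positivity)]
      exact mul_le_of_le_one_left ha0.le (inv_le_one_of_one_le₀ hs1)) ha0 haβ
  refine ⟨(Fin N ⊕ V₂) ⊕ Unit, inferInstance,
    Sum.elim (s⁻¹ • Z.α) fun _ => √(1 - Z.α ⬝ᵥ Z.α / s ^ 2 - 1 / 2), _, ?_, ?_, hT', fun W p => ?_⟩
  · have h1 := Z.hV
    have h2 : (1 : ℝ) ≤ P.K ^ (m + 1) := one_le_pow₀ hK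
    rw [Fintype.card_sum, Fintype.card_unit, pow_succ _ (m + 2), pow_succ _ (m + 1)]
    push_cast
    have h3 : P.K ^ (m + 1) * 4 * 1 ≤ P.K ^ (m + 1) * P.K * P.K := by gcongr
    linarith
  · rw [sumElim_dotProduct_sumElim, smul_dotProduct, dotProduct_smul]
    simp only [dotProduct, Finset.univ_unique, Finset.sum_singleton, smul_eq_mul] at hτ ⊢
    rw [Real.mul_self_sqrt (sub_nonneg.2 hτ), ← mul_assoc, ← sq, inv_pow, inv_mul_eq_div]
    linarith
  obtain ⟨r, hr, hr1, hr2⟩ := hY' W p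
  refine ⟨fun x => r x + ENNReal.ofReal (P.K * P.th ^ B * P.D), hr.add measurable_const, ?_,
    fun x => ?_⟩
  · rw [lintegral_add_right _ measurable_const, lintegral_const, measure_univ, mul_one]
    refine (add_le_add_left hr1 _).trans ?_
    rw [← ENNReal.ofReal_add (by positivity) (by positivity), ← add_mul, ← add_mul]
    refine ENNReal.ofReal_le_ofReal ?_
    gcongr
    have h2 : (1 : ℝ) ≤ P.K ^ C₂ := one_le_pow₀ hK
    rw [pow_succ, pow_succ]
    have h3 : P.K ^ C₂ * P.K * 4 ≤ P.K ^ C₂ * P.K * P.K := by gcongr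
    have h4 : P.K ^ C₂ * 1 ≤ P.K ^ C₂ * P.K := by gcongr
    have h5 : 1 * P.K ≤ P.K ^ C₂ * P.K := by gcongr
    linarith
  have hΘ : ∀ i, (fun ζ => vec (Z.Θ i W p (join x ζ))).HasTemperateGrowth := fun i =>
    temp_vec (((Z.mem i).temp W p).comp (temp_join_right x))
  refine near_of_TF (fun f g c hf hg h => ?_) (fun f g c hf hg h => ?_) fun f hf hf' => ?_
  · rw [← stepE_sub W.2 η 1 _ hf.pg hg.pg]
    exact abs_stepE_le W.2 zero_le_one (by linarith) _ h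
  · exact abs_int_heat_sub_le hf hg h _
      (((Function.HasTemperateGrowth.const _).add (temp_lin _)).add
        (temp_vec ((hT'.temp W p).comp (temp_join_right x))))
  rcases eq_or_ne (r x) ⊤ with hrx | hrx
  · simp [hrx]
  have H := det (V := Fin N ⊕ V₂) W.2 (η := η) (by linarith) (b W p x) hf hΘ Z.hd Z.φ0 Z.α
    (ρ₀ := P.K ^ (m + 1)) (R := (r x).toReal) (ε := P.K * P.th ^ B * P.D) (N := N) hs0 hKm
    (by
      have : 1 / η ≤ 1 / 2 := by gcongr
      nlinarith)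
    (fun g hg ρ hρ lam hlam => (hedge P.d δ G W.1 W.2 hCl.δ_pos.le η (by linarith)
      (by have := hCl.δ_le; have := hCl.δ_pos; nlinarith) _ (temp_heat hg.temp ρ) A
      (hA P.d _ (by simp) g hg ρ ((one_le_pow₀ hK).trans hρ)) lam 0 _).trans
      (err_le hP hN hJ hηQ hη' (by
        refine le_trans ?_ hQ
        rw [hs, ← pow_mul, pow_add, mul_comm, mul_comm (m + 2)]
        gcongr
        nlinarith) hCl.δ_pos.le hCl.δ_le hK₃ hlam))
    fun l hl ρ hρ g hg => by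
      have h1 := hr2 x (1 - l) ⟨by linarith [hl.2], by linarith [hl.1]⟩ ρ
        ((pow_le_pow_right₀ hK (by omega)).trans hρ) g hg
      rw [ENNReal.ofReal_le_iff_le_toReal hrx] at h1
      have k1 : (fun ζ => grad (heat ρ g) (Z.Y W p x (1 - l) ζ) ⬝ᵥ
          Z.Y' W p x (1 - l) ζ).HasTemperateGrowth :=
        temp_dot ((temp_grad (temp_heat hg.temp ρ)).comp (Z.temp_Y ..)) (Z.temp_Y' ..)
      have k2 := integral_join (PG.of_temp k1)
      have k3 : ∀ y, ∫ ζ, g (Z.Y W p x (1 - l) ζ + y) ∂gam ((Fin N ⊕ V₂) × Fin P.d) = _ :=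
        fun y => integral_join (PG.of_temp (temp_add_const hg.temp (Z.temp_Y ..) y))
      have k4 := (hg.avg (Z.temp_Y W p x (1 - l))).temp
      have k5 : Y.Y' W p x (1 - l) = _ := funext (hY W p x (1 - l))
      simp only [(hZ W p x _ (join _ _)).1, (hZ W p x _ (join _ _)).2, ren_inl_join,
        ren_inr_join] at k2 k3
      simp only [← k3] at h1
      rw [← k2, hYα, k5, sym_sum _ k4 _ _ _ fun j _ => temp_app_ren _ _] at h1
      have hNρ : (N : ℝ) ≤ ρ := by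
        have := le_self_pow₀ hK (show m + 1 ≠ 0 by omega)
        linarith
      simp only [sym_root _ k4 hNρ] at h1
      refine le_trans (le_of_eq ?_) h1
      congr 1
      rw [Finset.sum_range, Finset.mul_sum]
      refine Eq.trans ?_ (sub_eq_add_neg _ _).symm
      rw [← Finset.sum_neg_distrib]
      congr 1
      refine Finset.sum_congr rfl fun j _ => ?_
      simp only [Blk.Y, Blk.N, sub_sub_cancel]
      ring
  have e : ∀ ξ : Om P.d ((Fin N ⊕ V₂) ⊕ Unit),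
      vec (s⁻¹ • reix (Equiv.refl Unit) (T W p (ren (Sum.map id Sum.inl) (join x ξ)))) =
        s⁻¹ • Z.N W p x 1 (ren Sum.inl ξ) := by
    intro ξ
    have : ren (Sum.map id Sum.inl) (join x ξ) = join x (ren Sum.inl ξ) := by
      funext q
      rcases q with ⟨_ | _, _⟩ <;> rfl
    rw [this, ← hTe]
    rfl
  simp only [e]
  rw [int_seed hf'.pg hτ _ _ (M := fun ζ => s⁻¹ • Z.N W p x 1 ζ)
    ((Function.HasTemperateGrowth.const _).fun_smul (Z.temp_N ..))]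
  simp only [lin_smul, ← smul_add]
  refine (ENNReal.ofReal_le_ofReal (H.trans (add_le_add_right
    (div_le_self ENNReal.toReal_nonneg hs1) _))).trans ?_
  rw [ENNReal.ofReal_add (by positivity) ENNReal.toReal_nonneg, ENNReal.ofReal_toReal hrx, add_comm]

end Crest.Agent.R285

end
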