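import Crest.Agent.R285.MainB
import Crest.Agent.R285.TLem

/-!
The oracle for `τ₁(η, p)`: the spine of ladder steps.

Fix `P`, `r = √(1 - 1/Q)`. By induction on `k`: for all `δ G` with `Cl0`, all `c₀` with the two amplitude
bounds and `|c₀| δ r^k ≤ th^(B+1)`, all `τ` with `k th^4 ≤ τ ≤ 1`, the law `heat τ · (c₀ • tau1 W Q p)` is realised
with `1 + k q₀` queries and error `4 th^B D + k ε₀`.
* `k = 0`: `Rz.query`, `nrm_tau1_sub_grad_le`, `Rz.heat_near`.
* step: `tau1 W Q p = stepE W Q 1 p (tau1 W (Q-1))` (`tau1_step`); `tlemma` for `Bas.param`, amplitude `th^(b+1)`,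
  tested against `y ↦ u ⬝ᵥ tau1 W (Q-1) y` (`tau1_lip`, `nrm_tau1_le`, `Near.lip`, `cnear_empty`, `nrm_le_of_dot`);
  `Bas.extend`, `node_mean` with `σ = 1/2`, `η = Q - 1`, `τ₂ = τ - th^4`; the next oracle is the induction
  hypothesis for the class `(r² δ, r G)` and `c₀ / r`, through `Rz.rescale` with `ψ p = r⁻¹ • p` and `tau1_scale`.
Take `k = ⌈K Q⌉`: `r^k ≤ exp (-K/2) ≤ K^(-N) ≤ th^(B+1)` (`ev_big`), `k th^4 ≤ 2 th² ≤ th`. For general
`η ∈ [Q/2, Q]` rescale once more with `r² = η / Q`.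
-/

set_option autoImplicit false

open MeasureTheory ProbabilityTheory Matrix Filter
open scoped ENNReal

noncomputable section

namespace Crest.Agent.R285

namespace MainC

variable {d : ℕ}

/-- `v ↦ u ⬝ᵥ v` as a continuous linear map -/
def dotL (u : E d) : E d →L[ℝ] ℝ :=
  LinearMap.toContinuousLinearMap
    { toFun := fun v => u ⬝ᵥ v
      map_add' := fun v w => dotProduct_add u v w
      map_smul' := fun c v => by simp }

theorem integral_dot {Ω : Type} [MeasurableSpace Ω] {ν : Measure Ω} (u : E d) {H : Ω → E d}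
    (hH : Integrable H ν) : ∫ ω, u ⬝ᵥ H ω ∂ν = u ⬝ᵥ ∫ ω, H ω ∂ν :=
  (dotL u).integral_comp_comm hH

theorem heat_dot (u : E d) {f : E d → E d} (hf : PG f) (ρ : ℝ) (y : E d) :
    heat ρ (fun y => u ⬝ᵥ f y) y = u ⬝ᵥ heat ρ f y :=
  integral_dot u (hf.integrable_heat ρ y)

theorem stepE_dot {δ G : ℝ} {W : E d → ℝ} (hW : Adm δ G W) (η t : ℝ) (b u : E d) {h : E d → E d}
    (hh : PG h) : stepE W η t b (fun y => u ⬝ᵥ h y) = u ⬝ᵥ stepE W η t b h := by
  simp only [stepE]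
  rw [dotProduct_smul, ← heat_dot u (TA.pg_smul (TA.pg_uu hW _) hh)]
  simp only [dotProduct_smul]

theorem mean_near {δ G : ℝ} {W : E d → ℝ} (hW : Adm δ G W) (hδ : 0 < δ) {η : ℝ} (hη : 1 ≤ η)
    (h2 : 2 * (η - 1) * δ ≤ 1) (p : E d) {ι : Type} [Fintype ι] {Y : (ι → ℝ) → E d}
    (hY : Y.HasTemperateGrowth) {ε : ℝ} (hε : 0 ≤ ε)
    (h : Near (fun f => stepE W η 1 p f) (fun f => ∫ ζ, heat (1 / 2) f (Y ζ) ∂gam ι)
      (ENNReal.ofReal ε)) :
    nrm ((∫ ζ, heat (1 / 2) (tau1 W (η - 1)) (Y ζ) ∂gam ι) - tau1 W η p) ≤ 2 * δ * ε := by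
  have hpg : PG (tau1 W (η - 1)) := PG.of_temp (temp_tau1 hW _)
  rw [nrm_sub_comm]
  refine nrm_le_of_dot (by positivity) fun u => ?_
  rcases (nrm_nonneg u).eq_or_lt with h0 | h0
  · refine (le_abs_self _).trans ((abs_dot_le _ _).trans ?_)
    rw [← h0]; simp
  have h3 := h.lip (f := fun y => u ⬝ᵥ tau1 W (η - 1) y) (L := nrm u * (2 * δ))
    (fun c f => stepE_smul W η 1 p c f)
    (fun c f => by
      rw [← integral_const_mul]
      exact integral_congr_ae (ae_of_all _ fun ζ => heat_smul c f _ _))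
    (by positivity)
    ⟨nrm u * G, fun y => (abs_dot_le _ _).trans
      (mul_le_mul_of_nonneg_left (nrm_tau1_le hW _ y) h0.le)⟩
    (fun y y' => by
      rw [← dotProduct_sub, mul_assoc]
      exact (abs_dot_le _ _).trans
        (mul_le_mul_of_nonneg_left (tau1_lip hW hδ.le h2 y y') h0.le))
  rw [← ENNReal.ofReal_mul (by positivity), ENNReal.ofReal_le_ofReal_iff (by positivity)] at h3
  simp only [heat_dot u hpg] at h3
  rw [stepE_dot hW _ _ _ _ hpg, ← tau1_step hW zero_le_one hη,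
    integral_dot u ((hpg.heat _).comp_temp hY).integrable, ← dotProduct_sub] at h3
  calc _ ≤ _ := le_abs_self _
    _ ≤ _ := h3
    _ = _ := by ring

theorem cl0_scale {P : Par} {R : ℕ} {δ G s : ℝ} (h : Cl0 P R δ G) (hs : 0 < s) (hs1 : s ≤ 1) :
    Cl0 P R (s ^ 2 * δ) (s * G) := by
  have h1 := h.δ_pos
  have h2 := h.G_nonneg
  refine ⟨by positivity, le_trans ?_ h.δ_le, by positivity, le_trans ?_ h.G_le⟩
  · exact mul_le_of_le_one_left h1.le (pow_le_one₀ hs.le hs1)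
  · exact mul_le_of_le_one_left h2 hs1

theorem rz_scale {kap δ G s c₀ η τ q ε : ℝ} (hs : 0 < s)
    (h : Rz d kap (s ^ 2 * δ) (s * G) Empty
      (fun W p _ f => heat τ f ((c₀ / s) • tau1 W.1 η p)) q ε) :
    Rz d kap δ G Empty (fun W p _ f => heat τ f (c₀ • tau1 W.1 (s ^ 2 * η) p)) q ε := by
  refine (h.rescale hs.le (ψ := fun p => s⁻¹ • p) (measurable_id.const_smul s⁻¹)).congr
    fun W p x f _ => ?_
  simp only
  rw [tau1_scale W.2 hs.le, smul_smul, smul_smul, div_mul_cancel₀ _ hs.ne', mul_inv_cancel₀ hs.ne',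
    one_smul]

theorem amp_scale {c₀ s : ℝ} (hs : 0 < s) (δ G : ℝ) :
    |c₀ / s| * (s ^ 2 * δ) = |c₀| * δ * s ∧ |c₀ / s| * (s * G) = |c₀| * G := by
  rw [abs_div, abs_of_pos hs]
  constructor <;> field_simp

theorem rz_near {kap δ G τ q ε ε' : ℝ} {m m' : Pot d δ G → E d → Om d Empty → E d}
    (h : Rz d kap δ G Empty (fun W p x f => heat τ f (m W p x)) q ε)
    (h' : ∀ W p x, nrm (m W p x - m' W p x) ≤ ε') (hε : 0 ≤ ε) (hε' : 0 ≤ ε') :
    Rz d kap δ G Empty (fun W p x f => heat τ f (m' W p x)) q (ε + ε') :=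
  h.near (fun W p => cnear_empty.2 fun x =>
    (near_heat τ _ _).mono (ENNReal.ofReal_le_ofReal (h' W p x))) hε hε'

theorem base {P : Par} (hP : P.Base) {R B B0 a : ℕ} (hR : 4 ≤ R) (hB0 : B ≤ B0) (ha : 1 ≤ a)
    {δ G : ℝ} (hc : Cl0 P R δ G) {c₀ : ℝ} (τ : ℝ) (h2 : |c₀| * G * P.th ≤ P.th ^ a * P.D)
    (h3 : |c₀| * δ ≤ P.th ^ (B + 1)) :
    Rz P.d (P.th ^ B0) δ G Empty (fun W p _ f => heat τ f (c₀ • tau1 W.1 P.Q p)) 1
      (4 * P.th ^ B * P.D) := by
  have hth := hP.th_pos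
  have hth2 := hP.th_le
  have hth1 : P.th ≤ 1 := by linarith
  have hQ := hP.one_le_Q
  have hD := hP.one_le_D
  have hQth := hP.Q_th
  have hδ := hc.δ_pos
  have hG := hc.G_nonneg
  have hB : 0 < P.th ^ B := pow_pos hth _
  have a1 : |c₀| * G ≤ P.D := by
    have : P.th ^ a ≤ P.th ^ 1 := pow_le_pow_of_le_one hth.le hth1 ha
    rw [pow_one] at this
    have h4 : |c₀| * G * P.th ≤ P.D * P.th := by nlinarith
    exact le_of_mul_le_mul_right h4 hth
  have a2 : |c₀| * (P.th ^ B0 * G) ≤ P.th ^ B * P.D := by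
    have : P.th ^ B0 ≤ P.th ^ B := pow_le_pow_of_le_one hth.le hth1 hB0
    calc |c₀| * (P.th ^ B0 * G) = P.th ^ B0 * (|c₀| * G) := by ring
      _ ≤ _ := mul_le_mul this a1 (by positivity) hB.le
  have hR4 : P.th ^ R ≤ P.th ^ 4 := pow_le_pow_of_le_one hth.le hth1 hR
  have a3 : P.Q * P.th ^ 4 ≤ 1 / 8 := by
    calc P.Q * P.th ^ 4 = P.Q * P.th * P.th ^ 3 := by ring
      _ ≤ 1 * (1 / 2) ^ 3 := mul_le_mul hQth (pow_le_pow_left₀ hth.le hth2 3) (by positivity)
          zero_le_one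
      _ = 1 / 8 := by norm_num
  have a4 : 4 * P.Q * δ ≤ 1 := by
    have := mul_le_mul_of_nonneg_left (hc.δ_le.trans hR4) (by linarith : 0 ≤ P.Q)
    linarith
  have a5 : P.Q * G ≤ P.D := by
    have h5 : G ≤ P.th ^ 4 * P.D := hc.G_le.trans (mul_le_mul_of_nonneg_right hR4 (by linarith))
    calc P.Q * G ≤ P.Q * (P.th ^ 4 * P.D) := mul_le_mul_of_nonneg_left h5 (by linarith)
      _ = P.Q * P.th ^ 4 * P.D := by ring
      _ ≤ 1 * P.D := mul_le_mul_of_nonneg_right (by linarith) (by linarith)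
      _ = P.D := one_mul _
  have a6 : √(P.Q * P.d) ≤ P.Q * P.D := by
    have h5 : 1 ≤ P.Q * P.D := one_le_mul_of_one_le_of_one_le hQ hD
    rw [Real.sqrt_le_left (by linarith)]
    have := mul_le_mul_of_nonneg_left hP.d_le (by linarith : 0 ≤ P.Q)
    nlinarith
  have a7 : |c₀| * (δ * (P.Q * G + 2 * √(P.Q * P.d))) ≤ 3 * P.th ^ B * P.D := by
    calc |c₀| * (δ * (P.Q * G + 2 * √(P.Q * P.d))) =
          |c₀| * δ * (P.Q * G + 2 * √(P.Q * P.d)) := by ring
      _ ≤ P.th ^ (B + 1) * (P.D + 2 * (P.Q * P.D)) :=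
          mul_le_mul h3 (by linarith) (by positivity) (by positivity)
      _ = P.th ^ B * P.D * (P.th + 2 * (P.Q * P.th)) := by ring
      _ ≤ P.th ^ B * P.D * 3 := mul_le_mul_of_nonneg_left (by linarith) (by positivity)
      _ = _ := by ring
  refine (rz_near (m' := fun W p _ => c₀ • tau1 W.1 P.Q p) (ε' := 3 * P.th ^ B * P.D)
    (Rz.query τ c₀) (fun W p x => ?_) (by positivity) (by positivity)).mono le_rfl (by linarith)
  rw [← smul_sub, nrm_smul, nrm_sub_comm]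
  exact (mul_le_mul_of_nonneg_left (nrm_tau1_sub_grad_le W.2 hδ.le (by linarith) a4 p)
    (abs_nonneg _)).trans a7

theorem pow_le_exp {K : ℝ} {N : ℕ} (hK : 0 < K) (h : (2 : ℝ) ^ (N + 1) * (N + 1).factorial ≤ K) :
    K ^ N ≤ Real.exp (K / 2) := by
  refine le_trans ?_ (Real.pow_div_factorial_le_exp (K / 2) (by positivity) (N + 1))
  have hf : (0 : ℝ) < (N + 1).factorial := by exact_mod_cast Nat.factorial_pos _
  rw [div_pow, div_div, le_div_iff₀ (by positivity), pow_succ K]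
  exact mul_le_mul_of_nonneg_left h (by positivity)

theorem sqrt_pow_le {K Q : ℝ} (_hK : 0 ≤ K) (hQ : 1 ≤ Q) {k : ℕ} (hk : K * Q ≤ k) :
    √(1 - 1 / Q) ^ k ≤ Real.exp (-(K / 2)) := by
  have hQ0 : 0 < Q := by linarith
  have h1 : √(1 - 1 / Q) ≤ Real.exp (-(1 / Q / 2)) := by
    rw [Real.sqrt_le_left (Real.exp_pos _).le, ← Real.exp_nat_mul]
    have := Real.add_one_le_exp (-(1 / Q))
    push_cast
    have e : 2 * -(1 / Q / 2) = -(1 / Q) := by ring
    rw [e]; linarith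
  refine (pow_le_pow_left₀ (Real.sqrt_nonneg _) h1 k).trans ?_
  rw [← Real.exp_nat_mul, Real.exp_le_exp]
  have h2 : K ≤ k * (1 / Q) := by
    rw [mul_one_div, le_div_iff₀ hQ0]; exact hk
  linarith

end MainC

variable {J Ms R B0 a a' b b' B B' c : ℕ}

open MainC in
theorem oracle_rz (h1 : RA J Ms R B0 b (a + 1) B c) (h2 : RA J Ms R B0 b' a' B' c) (hb' : b' ≤ a')
    (hb : b = a' + 1) (ha : b + 10 ≤ a) (hB : B ≤ B' + b) (hR : b + 4 ≤ R) (hB0 : B ≤ B0) :
    ∃ C : ℕ, ∀ᶠ P in LL J Ms, ∀ δ G, Cl0 P R δ G → ∀ c₀ η τ : ℝ, P.Q / 2 ≤ η → η ≤ P.Q →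
      |c₀| * δ * P.th ≤ P.th ^ a → |c₀| * G * P.th ≤ P.th ^ a * P.D → P.th ≤ τ → τ ≤ 1 →
      Rz P.d (P.th ^ B0) δ G Empty (fun W p _ f => heat τ f (c₀ • tau1 W.1 η p))
        (P.K ^ C * P.Q ^ (c + 1)) (P.K ^ C * P.Q ^ (c + 1) * P.th ^ B * P.D) := by
  obtain ⟨n', C₁, htl⟩ := tlemma J Ms R 0 B
  obtain ⟨C₂, hnm⟩ := node_mean h1 h2 hb' hb ha hB (by omega) (n' + 1)
  refine ⟨max C₁ C₂ + 4, ?_⟩
  filter_upwards [ev_base, ev_big (B + 1) (fun N => (2 : ℝ) ^ (N + 1) * (N + 1).factorial), htl,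
    hnm] with P hP hbig htl hnm
  have hth := hP.th_pos
  have hth2 := hP.th_le
  have hth1 : P.th ≤ 1 := by linarith
  have hK := hP.one_le_K
  have hK2 := hP.two_le
  have hKQ := hP.K_le
  have hQ := hP.one_le_Q
  have hD := hP.one_le_D
  have hQth := hP.Q_th
  have hB' : 0 < P.th ^ B := pow_pos hth _
  set C₀ := max C₁ C₂ with hC₀
  set X : ℝ := P.K ^ C₀ * P.Q ^ c with hX
  have hQc : 1 ≤ P.Q ^ c := one_le_pow₀ hQ
  have hX1 : P.K ^ C₁ ≤ X :=
    (pow_le_pow_right₀ hK (le_max_left _ _)).trans (le_mul_of_one_le_right (by positivity) hQc)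
  have hX2 : P.K ^ C₂ * P.Q ^ c ≤ X :=
    mul_le_mul_of_nonneg_right (pow_le_pow_right₀ hK (le_max_right _ _)) (by positivity)
  have hX0 : 1 ≤ X := (one_le_pow₀ hK).trans hX1
  set r : ℝ := √(1 - 1 / P.Q) with hr
  have hQi : 1 / P.Q ≤ 1 / 2 := one_div_le_one_div_of_le (by norm_num) (by linarith)
  have hQi0 : 0 < 1 / P.Q := by positivity
  have hr0 : 0 < r := Real.sqrt_pos.2 (by linarith)
  have hr1 : r ≤ 1 := Real.sqrt_le_one.2 (by linarith)
  have hrQ : r ^ 2 * P.Q = P.Q - 1 := by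
    rw [hr, Real.sq_sqrt (by linarith)]; field_simp
  have hamp : ∀ c₀ δ : ℝ, |c₀| * δ * P.th ≤ P.th ^ a → |c₀| * δ ≤ 1 / 2 := by
    intro c₀ δ h
    have h3 : P.th ^ a ≤ P.th ^ 2 := pow_le_pow_of_le_one hth.le hth1 (by omega)
    have h4 : |c₀| * δ * P.th ≤ 1 / 2 * P.th := by nlinarith
    exact le_of_mul_le_mul_right h4 hth
  have key : ∀ k : ℕ, ∀ δ G, Cl0 P R δ G → ∀ c₀ τ : ℝ, |c₀| * δ * P.th ≤ P.th ^ a →
      |c₀| * G * P.th ≤ P.th ^ a * P.D → |c₀| * δ * r ^ k ≤ P.th ^ (B + 1) →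
      k * P.th ^ 4 ≤ τ → τ ≤ 1 →
      Rz P.d (P.th ^ B0) δ G Empty (fun W p _ f => heat τ f (c₀ • tau1 W.1 P.Q p))
        (1 + k * X) (4 * P.th ^ B * P.D + k * (2 * X * P.th ^ B * P.D)) := by
    intro k
    induction k with
    | zero =>
      intro δ G hc c₀ τ _ h2 h3 _ _
      rw [pow_zero, mul_one] at h3
      simpa using base hP (by omega) hB0 (by omega) hc τ h2 h3
    | succ k ih =>
      intro δ G hc c₀ τ a1 a2 a3 a4 a5
      have hδ := hc.δ_pos
      have hk0 : (0 : ℝ) ≤ k := Nat.cast_nonneg k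
      push_cast at a4
      obtain ⟨e1, e2⟩ := amp_scale (c₀ := c₀) hr0 δ G
      have hprev := rz_scale hr0 (ih _ _ (cl0_scale hc hr0 hr1) (c₀ / r) (τ - P.th ^ 4)
        (by
          rw [e1]
          refine le_trans ?_ a1
          exact mul_le_mul_of_nonneg_right (mul_le_of_le_one_right (by positivity) hr1) hth.le)
        (by rw [e2]; exact a2)
        (by rw [e1, mul_assoc, ← pow_succ']; exact a3)
        (by linarith) (by linarith [pow_pos hth 4]))
      rw [hrQ] at hprev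
      have hβ : 0 < P.th ^ b := pow_pos hth _
      have hcl := hc.cl hP (by omega) b
      obtain ⟨V', _, l', T', hV', hl', hT', hnear⟩ := htl (P.th ^ b) δ G hcl hc (P.th ^ (b + 1))
        (by rw [← pow_succ]; exact pow_le_pow_of_le_one hth.le hth1 (by omega))
        (by rw [← pow_succ]) Empty ⊥ (fun _ p _ => p) P.Q (Bas.param (by linarith)) (by simp) le_rfl
      have hbas := ((Bas.param (n := n') (F := ⊥) (by linarith)).extend hP hβ l' hl' hT').mono hP hβ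
        (F' := ⊥) le_rfl (pow_le_pow_of_le_one hth.le hth1 (Nat.le_succ b)) le_rfl le_rfl bot_le
      have hstep := hnm δ G hc Empty V' _ c₀ (P.Q - 1) (1 / 2) τ (τ - P.th ^ 4) _ _ hbas
        (hV'.trans (pow_le_pow_right₀ hK (Nat.le_succ _)))
        (by push_cast; linarith [(Nat.cast_nonneg n' : (0 : ℝ) ≤ n')]) (by linarith) a1 a2
        (by norm_num) (by norm_num) (by nlinarith [pow_pos hth 4]) (by linarith) a5
        (by positivity) hprev
      refine (rz_near (m' := fun W p _ => c₀ • tau1 W.1 P.Q p) (ε' := X * P.th ^ B * P.D) hstep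
        (fun W p x => ?_) (by positivity) (by positivity)).mono (by push_cast; linarith) ?_
      · have hY := (hbas.temp W p).comp (temp_join_right x)
        have hQδ : 2 * (P.Q - 1) * δ ≤ 1 := by
          have := hcl.δ_le
          nlinarith
        have h5 := mean_near W.2 hδ hQ hQδ p hY (ε := P.K ^ C₁ * P.th ^ B * P.D) (by positivity)
          (cnear_empty.1 (hnear W p) x)
        rw [integral_smul, ← smul_sub, nrm_smul]
        refine (mul_le_mul_of_nonneg_left h5 (abs_nonneg _)).trans ?_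
        have h6 := hamp c₀ δ a1
        calc |c₀| * (2 * δ * (P.K ^ C₁ * P.th ^ B * P.D))
            = 2 * (|c₀| * δ) * P.K ^ C₁ * (P.th ^ B * P.D) := by ring
          _ ≤ 1 * X * (P.th ^ B * P.D) := by
              refine mul_le_mul_of_nonneg_right ?_ (by positivity)
              exact mul_le_mul (by linarith) hX1 (by positivity) zero_le_one
          _ = _ := by ring
      · have h5 : P.K ^ C₂ * P.Q ^ c * P.th ^ B * P.D ≤ X * P.th ^ B * P.D := by gcongr
        push_cast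
        linarith
  intro δ G hc c₀ η τ hη hη' a1 a2 a4 a5
  obtain ⟨N, -, hN, -, hN'⟩ := hbig
  have hδ := hc.δ_pos
  set k : ℕ := ⌈P.K * P.Q⌉₊ with hk
  have hKQ1 : 1 ≤ P.K * P.Q := one_le_mul_of_one_le_of_one_le hK hQ
  have hk1 : P.K * P.Q ≤ k := Nat.le_ceil _
  have hk2 : (k : ℝ) ≤ 2 * (P.K * P.Q) := by
    have := Nat.ceil_lt_add_one (by linarith : 0 ≤ P.K * P.Q)
    linarith
  have hrk : r ^ k ≤ P.th ^ (B + 1) := by
    refine (sqrt_pow_le (by linarith) hQ hk1).trans ?_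
    have h3 := pow_le_exp (by linarith) hN'
    rw [Real.exp_neg, inv_le_iff_one_le_mul₀ (Real.exp_pos _)]
    exact hN.trans (mul_le_mul_of_nonneg_left h3 (by positivity))
  set s : ℝ := √(η / P.Q) with hs
  have hη0 : 0 < η / P.Q := div_pos (by linarith) (by linarith)
  have hs0 : 0 < s := Real.sqrt_pos.2 hη0
  have hs1 : s ≤ 1 := Real.sqrt_le_one.2 ((div_le_one (by linarith)).2 hη')
  have hsQ : s ^ 2 * P.Q = η := by
    rw [hs, Real.sq_sqrt hη0.le]; field_simp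
  obtain ⟨e1, e2⟩ := amp_scale (c₀ := c₀) hs0 δ G
  have b1 : |c₀ / s| * (s ^ 2 * δ) * P.th ≤ P.th ^ a := by
    rw [e1]
    refine le_trans ?_ a1
    exact mul_le_mul_of_nonneg_right (mul_le_of_le_one_right (by positivity) hs1) hth.le
  have hfin := rz_scale hs0 (key k _ _ (cl0_scale hc hs0 hs1) (c₀ / s) τ b1 (by rw [e2]; exact a2)
    (by
      have h3 := hamp _ _ b1
      calc |c₀ / s| * (s ^ 2 * δ) * r ^ k ≤ 1 * P.th ^ (B + 1) :=
            mul_le_mul (by linarith) hrk (by positivity) zero_le_one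
        _ = _ := one_mul _)
    (by
      have h3 : P.K * P.th ≤ 1 := (mul_le_mul_of_nonneg_right hKQ hth.le).trans hQth
      calc (k : ℝ) * P.th ^ 4 ≤ 2 * (P.K * P.Q) * P.th ^ 4 :=
            mul_le_mul_of_nonneg_right hk2 (by positivity)
        _ = 2 * P.th * ((P.K * P.th) * (P.Q * P.th)) * P.th := by ring
        _ ≤ 1 * 1 * P.th := by
            refine mul_le_mul_of_nonneg_right ?_ hth.le
            exact mul_le_mul (by linarith) (mul_le_one₀ h3 (by positivity) hQth) (by positivity)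
              zero_le_one
        _ ≤ τ := by linarith) a5)
  rw [hsQ] at hfin
  set Y : ℝ := P.K * P.Q * X with hY
  have hY1 : 1 ≤ Y := one_le_mul_of_one_le_of_one_le hKQ1 hX0
  have hkX : k * X ≤ 2 * Y := by
    calc k * X ≤ 2 * (P.K * P.Q) * X := mul_le_mul_of_nonneg_right hk2 (by linarith)
      _ = 2 * Y := by rw [hY]; ring
  have h8 : 8 * Y ≤ P.K ^ (C₀ + 4) * P.Q ^ (c + 1) := by
    have h3 : (2 : ℝ) ^ 3 ≤ P.K ^ 3 := pow_le_pow_left₀ (by norm_num) hK2 3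
    calc 8 * Y = 2 ^ 3 * Y := by norm_num
      _ ≤ P.K ^ 3 * Y := mul_le_mul_of_nonneg_right h3 (by linarith)
      _ = _ := by rw [hY, hX]; ring
  refine hfin.mono (by linarith) ?_
  calc 4 * P.th ^ B * P.D + k * (2 * X * P.th ^ B * P.D)
      = (4 + 2 * (k * X)) * (P.th ^ B * P.D) := by ring
    _ ≤ P.K ^ (C₀ + 4) * P.Q ^ (c + 1) * (P.th ^ B * P.D) :=
        mul_le_mul_of_nonneg_right (by linarith) (by positivity)
    _ = _ := by ring

end Crest.Agent.R285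

end
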