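import Crest.Agent.R285.Tower

/-!
Basic properties of the parameter filter and of the class `Mem`.
-/

set_option autoImplicit false

open MeasureTheory ProbabilityTheory Matrix Filter
open scoped ENNReal

set_option linter.unusedVariables false

noncomputable section

namespace Crest.Agent.R285

/-! ### the filter -/

section LL
variable {J Ms : ℕ}

theorem ev_base : ∀ᶠ P in LL J Ms, P.Base := ⟨0, fun _ => ⟨0, fun _ h => h.toBase⟩⟩

theorem ev_ge (c : ℝ) : ∀ᶠ P in LL J Ms, c ≤ P.K := ⟨0, fun _ => ⟨c, fun _ h => h.K0_le⟩⟩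

theorem ev_pow (C : ℕ) : ∀ᶠ P in LL J Ms, P.K ^ C ≤ P.Q := ⟨C, fun _ => ⟨0, fun _ h => h.pow_le⟩⟩

theorem ev_pow_th (C : ℕ) : ∀ᶠ P in LL J Ms, P.K ^ C * P.th ≤ 1 := by
  filter_upwards [ev_base, ev_pow C] with P h1 h2
  exact (mul_le_mul_of_nonneg_right h2 h1.th_pos.le).trans h1.Q_th

theorem ev_th_Q : ∀ᶠ P in LL J Ms, 1 ≤ P.th * P.Q ^ J := ⟨0, fun _ => ⟨0, fun _ h => h.th_Q⟩⟩

theorem ev_D : ∀ᶠ P in LL J Ms, P.D * P.th ^ Ms ≤ 1 := ⟨0, fun _ => ⟨0, fun _ h => h.D_le⟩⟩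

/-- constants may depend on the (unspecified) exponent `N` with `th^{-B} ≤ K^N`, `D ≤ K^N` -/
theorem ev_big (B : ℕ) (Cf : ℕ → ℝ) : ∀ᶠ P in LL J Ms,
    ∃ N, 1 ≤ N ∧ 1 ≤ P.th ^ B * P.K ^ N ∧ P.D ≤ P.K ^ N ∧ Cf N ≤ P.K := by
  refine ⟨0, fun M => ⟨Cf (M * B + M * Ms + 1), fun P h => ⟨M * B + M * Ms + 1, by omega, ?_, ?_,
    h.K0_le⟩⟩⟩
  · have hK : 1 ≤ P.K := by linarith [h.two_le]
    have h1 : 1 ≤ (P.th * P.K ^ M) ^ B := one_le_pow₀ h.th_K
    rw [mul_pow, ← pow_mul] at h1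
    exact h1.trans (mul_le_mul_of_nonneg_left (pow_le_pow_right₀ hK (by omega))
      (pow_pos h.th_pos _).le)
  · have hK : 1 ≤ P.K := by linarith [h.two_le]
    have hD : 0 ≤ P.D := le_trans (Nat.cast_nonneg _) h.d_le
    have h1 : 1 ≤ (P.th * P.K ^ M) ^ Ms := one_le_pow₀ h.th_K
    rw [mul_pow, ← pow_mul] at h1
    calc P.D ≤ P.D * (P.th ^ Ms * P.K ^ (M * Ms)) := le_mul_of_one_le_right hD h1
      _ = P.D * P.th ^ Ms * P.K ^ (M * Ms) := by ring
      _ ≤ 1 * P.K ^ (M * Ms) := mul_le_mul_of_nonneg_right h.D_le (by positivity)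
      _ ≤ _ := by rw [one_mul]; exact pow_le_pow_right₀ hK (by omega)

end LL

theorem Par.Base.one_le_K {P : Par} (h : P.Base) : 1 ≤ P.K := by linarith [h.two_le]

theorem Par.Base.one_le_Q {P : Par} (h : P.Base) : 1 ≤ P.Q := by linarith [h.two_le, h.K_le]

theorem Par.Base.th_le {P : Par} (h : P.Base) : P.th ≤ 1 / 2 := by
  nlinarith [h.two_le, h.K_le, h.Q_th, h.th_pos]

theorem Par.Base.one_le_D {P : Par} (h : P.Base) : 1 ≤ P.D :=
  le_trans (by exact_mod_cast h.d_pos) h.d_le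

theorem Cl0.cl {P : Par} (h : P.Base) {R : ℕ} (hR : 2 ≤ R) {δ G : ℝ} (hc : Cl0 P R δ G) (b : ℕ) :
    Cl P (P.th ^ b) δ G := by
  have h1 : P.th ≤ 1 := by linarith [h.th_le]
  refine ⟨pow_pos h.th_pos _, pow_le_one₀ h.th_pos.le h1, hc.δ_pos, ?_, hc.G_nonneg⟩
  have h2 : δ ≤ P.th ^ 2 := hc.δ_le.trans (pow_le_pow_of_le_one h.th_pos.le h1 hR)
  have hQ := h.one_le_Q
  calc P.Q * δ ≤ P.Q * P.th ^ 2 := mul_le_mul_of_nonneg_left h2 (by linarith)
    _ = P.Q * P.th * P.th := by ring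
    _ ≤ 1 * P.th := mul_le_mul_of_nonneg_right h.Q_th h.th_pos.le
    _ = P.th := one_mul _

/-! ### the class -/

variable {P : Par} {β δ G : ℝ} {V V' : Type} [Fintype V] [Fintype V'] {n : ℕ} {S S' : Type}
  {a : ℝ} {F : Submodule ℝ (V → ℝ)} {T : Fam P δ G V S}

theorem Mem.amp (hβ : 0 < β) (h : Mem P β δ G V n S a F T) : 0 < a ∧ a ≤ β := by
  induction h with
  | @node n S _ _ a F c η b0 hb0 l κ _ T hT hκ hl hF hS hη hη' ha ha' hc hc' ih =>
    exact ⟨ha, ha'⟩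
  | @con n S₁ S₂ _ _ a₁ a₂ a F T₁ T₂ h₁ h₂ ha ha' ih₁ ih₂ =>
    exact ⟨lt_of_lt_of_le (div_pos (mul_pos ih₁.1 ih₂.1) hβ) ha, ha'⟩
  | @leaf n S _ a F' F T h z hz hz1 hF hFz ih =>
    exact ih
  | @sc n S S' e a a' c F F' T h hc ha ha' hF ih =>
    exact ⟨ha, ha'⟩

theorem Mem.finite (h : Mem P β δ G V n S a F T) : Finite S ∧ Nonempty S := by
  induction h with
  | @node n S _ _ a F c η b0 hb0 l κ _ T hT hκ hl hF hS hη hη' ha ha' hc hc' ih =>
    exact ⟨inferInstance, inferInstance⟩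
  | @con n S₁ S₂ _ _ a₁ a₂ a F T₁ T₂ h₁ h₂ ha ha' ih₁ ih₂ =>
    have := ih₁.1
    have := ih₂.1
    have : Finite S₁ := Finite.of_injective _ (Option.some_injective S₁)
    have : Finite S₂ := Finite.of_injective _ (Option.some_injective S₂)
    exact ⟨inferInstance, inferInstance⟩
  | @leaf n S _ a F' F T h z hz hz1 hF hFz ih =>
    have := ih.1
    exact ⟨Finite.of_injective _ (Option.some_injective S), inferInstance⟩
  | @sc n S S' e a a' c F F' T h hc ha ha' hF ih =>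
    have := ih.1
    exact ⟨Finite.of_equiv _ e, ih.2.map e⟩

theorem Mem.natCard_le (h : Mem P β δ G V n S a F T) : Nat.card S ≤ 2 ^ n := by
  induction h with
  | @node n S _ _ a F c η b0 hb0 l κ _ T hT hκ hl hF hS hη hη' ha ha' hc hc' ih =>
    rw [Nat.card_eq_fintype_card]
    exact hS.trans (Nat.lt_two_pow_self).le
  | @con n S₁ S₂ _ _ a₁ a₂ a F T₁ T₂ h₁ h₂ ha ha' ih₁ ih₂ =>
    have := h₁.finite.1
    have := h₂.finite.1
    have : Finite S₁ := Finite.of_injective _ (Option.some_injective S₁)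
    have : Finite S₂ := Finite.of_injective _ (Option.some_injective S₂)
    rw [Finite.card_option] at ih₁ ih₂
    rw [Nat.card_sum, pow_succ]
    omega
  | @leaf n S _ a F' F T h z hz hz1 hF hFz ih =>
    have := h.finite.1
    have : Finite S := Finite.of_injective _ (Option.some_injective S)
    rw [Finite.card_option] at ih
    rw [pow_succ]
    omega
  | @sc n S S' e a a' c F F' T h hc ha ha' hF ih =>
    rw [← Nat.card_congr e, pow_succ]
    omega

theorem Mem.card_le [Fintype S] (h : Mem P β δ G V n S a F T) : Fintype.card S ≤ 2 ^ n := by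
  rw [← Nat.card_eq_fintype_card]
  exact h.natCard_le

theorem vec_sum {d : ℕ} {κ : Type} (s : Finset κ) (U : κ → Ten d Unit) :
    vec (∑ k ∈ s, U k) = ∑ k ∈ s, vec (U k) := by
  funext i
  simp [vec, Finset.sum_apply]

theorem vec_add {d : ℕ} (U U' : Ten d Unit) : vec (U + U') = vec U + vec U' := rfl

theorem reix_sum {d : ℕ} {κ : Type} (e : S ≃ S') (s : Finset κ) (U : κ → Ten d S) :
    reix e (∑ k ∈ s, U k) = ∑ k ∈ s, reix e (U k) := by
  funext i
  simp [reix, Finset.sum_apply]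

theorem leaf_sum {d : ℕ} {κ : Type} (s : Finset κ) (U : κ → Ten d (Option S)) (v : E d) :
    leaf (∑ k ∈ s, U k) v = ∑ k ∈ s, leaf (U k) v := by
  funext i
  simp only [leaf, Finset.sum_apply, Finset.sum_mul]
  exact Finset.sum_comm

theorem con1_sum {d : ℕ} {S₁ S₂ κ₁ κ₂ : Type} [Fintype κ₁] [Fintype κ₂]
    (U₁ : κ₁ → Ten d (Option S₁)) (U₂ : κ₂ → Ten d (Option S₂)) :
    con1 (∑ k, U₁ k) (∑ k, U₂ k) = ∑ k : κ₁ × κ₂, con1 (U₁ k.1) (U₂ k.2) := by
  funext i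
  simp only [con1, Finset.sum_apply, Finset.sum_mul_sum]
  rw [Finset.sum_comm (s := (Finset.univ : Finset (κ₁ × κ₂)))]
  exact Finset.sum_congr rfl fun k _ => (Fintype.sum_prod_type' _).symm

theorem Mem.temp_coord (h : Mem P β δ G V n S a F T) (W : Pot P.d δ G)
    (p : E P.d) (i : S → Fin P.d) : (fun x => T W p x i).HasTemperateGrowth := by
  induction h with
  | @node n S _ _ a F c η b0 hb0 l κ _ T hT hκ hl hF hS hη hη' ha ha' hc hc' ih =>
    classical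
    have h1 : (fun x => b0 p + lin l x + ∑ k, vec (T k W p x)).HasTemperateGrowth := by
      refine ((Function.HasTemperateGrowth.const (b0 p)).add (temp_lin l)).add ?_
      exact Function.HasTemperateGrowth.sum (s := Finset.univ)
        (f := fun k x => vec (T k W p x)) fun k _ => temp_pi.2 fun j => ih k fun _ => j
    exact (Function.HasTemperateGrowth.const c).mul
      (temp_pi.1 ((temp_tau (S := S) W.2 η).comp h1) i)
  | @con n S₁ S₂ _ _ a₁ a₂ a F T₁ T₂ h₁ h₂ ha ha' ih₁ ih₂ =>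
    exact Function.HasTemperateGrowth.sum (s := Finset.univ)
      (f := fun k x => T₁ W p x (oc k fun s => i (Sum.inl s)) * T₂ W p x (oc k fun s => i (Sum.inr s)))
      fun k _ => (ih₁ _).mul (ih₂ _)
  | @leaf n S _ a F' F T h z hz hz1 hF hFz ih =>
    exact Function.HasTemperateGrowth.sum (s := Finset.univ)
      (f := fun k x => T W p x (oc k i) * lin z x k)
      fun k _ => (ih _).mul (temp_pi.1 (temp_lin z) k)
  | @sc n S S' e a a' c F F' T h hc ha ha' hF ih =>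
    exact (Function.HasTemperateGrowth.const c).mul (ih _)

theorem Mem.temp [Fintype S] [DecidableEq S] (h : Mem P β δ G V n S a F T) (W : Pot P.d δ G)
    (p : E P.d) : (T W p).HasTemperateGrowth := by
  exact temp_pi.2 fun i => h.temp_coord W p i

theorem Mem.inv (h : Mem P β δ G V n S a F T) {z : V → ℝ} (hz : z ∈ F) (W : Pot P.d δ G)
    (p : E P.d) (x : Om P.d V) (w : E P.d) : T W p (x + dir z w) = T W p x := by
  induction h with
  | @node n S _ _ a F c η b0 hb0 l κ _ T hT hκ hl hF hS hη hη' ha ha' hc hc' ih =>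
    have h1 : l ⬝ᵥ z = 0 := by rw [dotProduct_comm]; exact hF z hz
    simp only [lin_dir, h1, zero_smul, add_zero, fun k => ih k hz]
  | @con n S₁ S₂ _ _ a₁ a₂ a F T₁ T₂ h₁ h₂ ha ha' ih₁ ih₂ =>
    simp only [ih₁ hz, ih₂ hz]
  | @leaf n S _ a F' F T h y hy hy1 hF hFy ih =>
    have h1 : y ⬝ᵥ z = 0 := by rw [dotProduct_comm]; exact hFy z hz
    simp only [lin_dir, h1, zero_smul, add_zero, ih (hF hz)]
  | @sc n S S' e a a' c F F' T h hc ha ha' hF ih =>
    simp only [ih (hF hz)]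

theorem Mem.congr {T' : Fam P δ G V S} (h : Mem P β δ G V n S a F T)
    (e : ∀ W p x, T W p x = T' W p x) : Mem P β δ G V n S a F T' := by
  have : T = T' := by funext W p x; exact e W p x
  exact this ▸ h

theorem Mem.mono_n (hK : 1 ≤ P.K) {n' : ℕ} (h : Mem P β δ G V n S a F T) (hn : n ≤ n') :
    Mem P β δ G V n' S a F T := by
  induction h generalizing n' with
  | @node n S _ _ a F c η b0 hb0 l κ _ T hT hκ hl hF hS hη hη' ha ha' hc hc' ih =>
    obtain ⟨m, rfl⟩ : ∃ m, n' = m + 1 := ⟨n' - 1, by omega⟩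
    have hm : n ≤ m := by omega
    have hm' : (n : ℝ) ≤ m := by exact_mod_cast hm
    exact Mem.node m S a F c η b0 hb0 l κ T (fun k => ih k hm)
      (hκ.trans (pow_le_pow_right₀ hK hm)) (hl.trans hm') hF (by omega) (by linarith) hη' ha ha'
      hc hc'
  | @con n S₁ S₂ _ _ a₁ a₂ a F T₁ T₂ h₁ h₂ ha ha' ih₁ ih₂ =>
    obtain ⟨m, rfl⟩ : ∃ m, n' = m + 1 := ⟨n' - 1, by omega⟩
    exact Mem.con m S₁ S₂ a₁ a₂ a F T₁ T₂ (ih₁ (by omega)) (ih₂ (by omega)) ha ha'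
  | @leaf n S _ a F' F T h z hz hz1 hF hFz ih =>
    obtain ⟨m, rfl⟩ : ∃ m, n' = m + 1 := ⟨n' - 1, by omega⟩
    exact Mem.leaf m S a F' F T (ih (by omega)) z hz hz1 hF hFz
  | @sc n S S' e a a' c F F' T h hc ha ha' hF ih =>
    obtain ⟨m, rfl⟩ : ∃ m, n' = m + 1 := ⟨n' - 1, by omega⟩
    exact Mem.sc m S S' e a a' c F F' T (ih (by omega)) hc ha ha' hF

theorem Mem.mono_amp (hD : 0 ≤ P.D) {a' : ℝ} (h : Mem P β δ G V n S a F T) (ha : a ≤ a')
    (ha' : a' ≤ β) : Mem P β δ G V n S a' F T := by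
  revert a'
  induction h with
  | @node n S _ _ a F c η b0 hb0 l κ _ T hT hκ hl hF hS hη hη' ha ha' hc hc' ih =>
    intro a'' h1 h2
    exact Mem.node n S a'' F c η b0 hb0 l κ T hT hκ hl hF hS hη hη' (ha.trans_le h1) h2
      (hc.trans h1) (hc'.trans (mul_le_mul_of_nonneg_right h1 hD))
  | @con n S₁ S₂ _ _ a₁ a₂ a F T₁ T₂ h₁ h₂ ha ha' ih₁ ih₂ =>
    intro a'' h1 h2
    exact Mem.con n S₁ S₂ a₁ a₂ a'' F T₁ T₂ h₁ h₂ (ha.trans h1) h2
  | @leaf n S _ a F' F T h z hz hz1 hF hFz ih =>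
    intro a'' h1 h2
    exact Mem.leaf n S a'' F' F T (ih h1 h2) z hz hz1 hF hFz
  | @sc n S S' e a a' c F F' T h hc ha ha' hF ih =>
    intro a'' h1 h2
    exact Mem.sc n S S' e a a'' c F F' T h (hc.trans h1) (ha.trans_le h1) h2 hF

theorem Mem.mono_F {F' : Submodule ℝ (V → ℝ)} (h : Mem P β δ G V n S a F T) (hF : F' ≤ F) :
    Mem P β δ G V n S a F' T := by
  revert F'
  induction h with
  | @node n S _ _ a F c η b0 hb0 l κ _ T hT hκ hl hF hS hη hη' ha ha' hc hc' ih =>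
    intro F'' h1
    exact Mem.node n S a F'' c η b0 hb0 l κ T (fun k => ih k h1) hκ hl (fun z hz => hF z (h1 hz)) hS
      hη hη' ha ha' hc hc'
  | @con n S₁ S₂ _ _ a₁ a₂ a F T₁ T₂ h₁ h₂ ha ha' ih₁ ih₂ =>
    intro F'' h1
    exact Mem.con n S₁ S₂ a₁ a₂ a F'' T₁ T₂ (ih₁ h1) (ih₂ h1) ha ha'
  | @leaf n S _ a F' F T h z hz hz1 hF hFz ih =>
    intro F'' h1
    exact Mem.leaf n S a F' F'' T h z hz hz1 (h1.trans hF) fun y hy => hFz y (h1 hy)
  | @sc n S S' e a a' c F F' T h hc ha ha' hF ih =>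
    intro F'' h1
    exact Mem.sc n S S' e a a' c F F'' T h hc ha ha' (h1.trans hF)

theorem Mem.mono_β (hD : 0 ≤ P.D) (hβ : 0 < β) {β' : ℝ} (h : Mem P β δ G V n S a F T)
    (hb : β ≤ β') : Mem P β' δ G V n S a F T := by
  induction h with
  | @node n S _ _ a F c η b0 hb0 l κ _ T hT hκ hl hF hS hη hη' ha ha' hc hc' ih =>
    exact Mem.node n S a F c η b0 hb0 l κ T (fun k => (ih k).mono_amp hD hb le_rfl) hκ hl hF hS
      hη hη' ha (ha'.trans hb) hc hc'
  | @con n S₁ S₂ _ _ a₁ a₂ a F T₁ T₂ h₁ h₂ ha ha' ih₁ ih₂ =>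
    refine Mem.con n S₁ S₂ a₁ a₂ a F T₁ T₂ ih₁ ih₂ (le_trans ?_ ha) (ha'.trans hb)
    exact div_le_div_of_nonneg_left (mul_pos (h₁.amp hβ).1 (h₂.amp hβ).1).le hβ hb
  | @leaf n S _ a F' F T h z hz hz1 hF hFz ih =>
    exact Mem.leaf n S a F' F T ih z hz hz1 hF hFz
  | @sc n S S' e a a' c F F' T h hc ha ha' hF ih =>
    exact Mem.sc n S S' e a a' c F F' T ih hc ha (ha'.trans hb) hF

theorem dot_tr (A : Matrix V V' ℝ) (z : V' → ℝ) (l : V → ℝ) : z ⬝ᵥ (Aᵀ *ᵥ l) = (A *ᵥ z) ⬝ᵥ l := by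
  rw [dotProduct_mulVec, vecMul_transpose]

theorem dot_tr_tr [DecidableEq V] {A : Matrix V V' ℝ} (hA : A * Aᵀ = 1) (l l' : V → ℝ) :
    (Aᵀ *ᵥ l) ⬝ᵥ (Aᵀ *ᵥ l') = l ⬝ᵥ l' := by
  rw [dot_tr, mulVec_mulVec, hA, one_mulVec]

/-- the matrix of a renaming -/
def renM [DecidableEq V'] (e : V → V') : Matrix V V' ℝ :=
  Matrix.of fun v v' => if e v = v' then (1 : ℝ) else 0

omit [Fintype V] in
theorem renM_mulVec [DecidableEq V'] (e : V → V') (z : V' → ℝ) :
    renM e *ᵥ z = fun v => z (e v) := by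
  funext v
  simp [renM, mulVec, dotProduct]

omit [Fintype V] in
theorem renM_mul [DecidableEq V] [DecidableEq V'] {e : V → V'} (he : Function.Injective e) :
    renM e * (renM e)ᵀ = 1 := by
  ext v w
  simp only [renM, mul_apply, of_apply, transpose_apply, one_apply, ite_mul, one_mul, zero_mul,
    Finset.sum_ite_eq, Finset.mem_univ, if_true, he.eq_iff]
  simp [eq_comm]

theorem ren_eq_renM [DecidableEq V'] {d : ℕ} (e : V → V') (x : Om d V') :
    ren e x = sub (renM e) x := ren_eq_sub e x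

theorem Mem.sub [DecidableEq V] (h : Mem P β δ G V n S a F T) (A : Matrix V V' ℝ)
    (hA : A * Aᵀ = 1) :
    Mem P β δ G V' n S a (F.comap A.mulVecLin) (fun W p x => T W p (sub A x)) := by
  induction h with
  | @node n S _ _ a F c η b0 hb0 l κ _ T hT hκ hl hF hS hη hη' ha ha' hc hc' ih =>
    simp only [lin_sub]
    exact Mem.node n S a _ c η b0 hb0 (Aᵀ *ᵥ l) κ (fun k W p x => T k W p (R285.sub A x)) ih hκ
      (by rwa [dot_tr_tr hA]) (fun z hz => by rw [dot_tr]; exact hF _ hz) hS hη hη' ha ha' hc hc'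
  | @con n S₁ S₂ _ _ a₁ a₂ a F T₁ T₂ h₁ h₂ ha ha' ih₁ ih₂ =>
    exact Mem.con n S₁ S₂ a₁ a₂ a _ _ _ ih₁ ih₂ ha ha'
  | @leaf n S _ a F' F T h z hz hz1 hF hFz ih =>
    simp only [lin_sub]
    refine Mem.leaf n S a _ _ _ ih (Aᵀ *ᵥ z) ?_ (by rwa [dot_tr_tr hA]) (Submodule.comap_mono hF)
      fun y hy => by rw [dot_tr]; exact hFz _ hy
    change A *ᵥ (Aᵀ *ᵥ z) ∈ F'
    rwa [mulVec_mulVec, hA, one_mulVec]
  | @sc n S S' e a a' c F F' T h hc ha ha' hF ih =>
    exact Mem.sc n S S' e a a' c _ _ _ ih hc ha ha' (Submodule.comap_mono hF)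

theorem Mem.ren (h : Mem P β δ G V n S a F T) (e : V → V') (he : Function.Injective e)
    {F' : Submodule ℝ (V' → ℝ)} (hF : ∀ z ∈ F', (fun v => z (e v)) ∈ F) :
    Mem P β δ G V' n S a F' (fun W p x => T W p (ren e x)) := by
  classical
  simp only [ren_eq_renM]
  refine (h.sub (renM e) (renM_mul he)).mono_F fun z hz => ?_
  change renM e *ᵥ z ∈ F
  rw [renM_mulVec]
  exact hF z hz

/-- reparametrisation of the free parameter -/
theorem Mem.param (h : Mem P β δ G V n S a F T) {ψ : E P.d → E P.d} (hψ : Measurable ψ) :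
    Mem P β δ G V n S a F (fun W p x => T W (ψ p) x) := by
  induction h with
  | @node n S _ _ a F c η b0 hb0 l κ _ T hT hκ hl hF hS hη hη' ha ha' hc hc' ih =>
    exact Mem.node n S a F c η (fun p => b0 (ψ p)) (hb0.comp hψ) l κ (fun k W p x => T k W (ψ p) x)
      ih hκ hl hF hS hη hη' ha ha' hc hc'
  | @con n S₁ S₂ _ _ a₁ a₂ a F T₁ T₂ h₁ h₂ ha ha' ih₁ ih₂ =>
    exact Mem.con n S₁ S₂ a₁ a₂ a F _ _ ih₁ ih₂ ha ha'
  | @leaf n S _ a F' F T h z hz hz1 hF hFz ih =>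
    exact Mem.leaf n S a F' F _ ih z hz hz1 hF hFz
  | @sc n S S' e a a' c F F' T h hc ha ha' hF ih =>
    exact Mem.sc n S S' e a a' c F F' _ ih hc ha ha' hF

/-! ### sums -/

theorem Mem.smem (hK : 1 ≤ P.K) (h : Mem P β δ G V n S a F T) : SMem P β δ G V n S a F T := by
  exact ⟨Unit, inferInstance, fun _ => T, by simpa using one_le_pow₀ hK, fun _ => h,
    fun W p x => by simp⟩

theorem SMem.zero (hK : 0 ≤ P.K) : SMem P β δ G V n S a F fun _ _ _ => 0 := by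
  exact ⟨Empty, inferInstance, fun k => k.elim, by simpa using pow_nonneg hK n, fun k => k.elim,
    fun W p x => by simp⟩

theorem SMem.congr {T' : Fam P δ G V S} (h : SMem P β δ G V n S a F T)
    (e : ∀ W p x, T W p x = T' W p x) : SMem P β δ G V n S a F T' := by
  have : T = T' := by funext W p x; exact e W p x
  exact this ▸ h

theorem SMem.temp [Fintype S] [DecidableEq S] (h : SMem P β δ G V n S a F T) (W : Pot P.d δ G)
    (p : E P.d) : (T W p).HasTemperateGrowth := by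
  obtain ⟨κ, _, U, -, hU, e⟩ := h
  have : T W p = fun x => ∑ k, U k W p x := funext (e W p)
  rw [this]
  exact Function.HasTemperateGrowth.sum (s := Finset.univ) (f := fun k => U k W p)
    fun k _ => (hU k).temp W p

theorem SMem.inv (h : SMem P β δ G V n S a F T) {z : V → ℝ} (hz : z ∈ F) (W : Pot P.d δ G)
    (p : E P.d) (x : Om P.d V) (w : E P.d) : T W p (x + dir z w) = T W p x := by
  obtain ⟨κ, _, U, -, hU, e⟩ := h
  simp only [e, fun k => (hU k).inv hz W p x w]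

theorem SMem.mono (hP : P.Base) (hβ : 0 < β) {n' : ℕ} {a' β' : ℝ} {F' : Submodule ℝ (V → ℝ)}
    (h : SMem P β δ G V n S a F T) (hn : n ≤ n') (ha : a ≤ a') (ha' : a' ≤ β') (hb : β ≤ β')
    (hF : F' ≤ F) : SMem P β' δ G V n' S a' F' T := by
  obtain ⟨κ, _, U, hκ, hU, e⟩ := h
  have hD : 0 ≤ P.D := by linarith [hP.one_le_D]
  exact ⟨κ, inferInstance, U, hκ.trans (pow_le_pow_right₀ hP.one_le_K hn),
    fun k => ((((hU k).mono_n hP.one_le_K hn).mono_β hD hβ hb).mono_amp hD ha ha').mono_F hF, e⟩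

theorem SMem.add (hP : P.Base) (hβ : 0 < β) {T' : Fam P δ G V S} (h : SMem P β δ G V n S a F T)
    (h' : SMem P β δ G V n S a F T') :
    SMem P β δ G V (n + 1) S a F fun W p x => T W p x + T' W p x := by
  obtain ⟨κ, _, U, hκ, hU, e⟩ := h
  obtain ⟨κ', _, U', hκ', hU', e'⟩ := h'
  refine ⟨κ ⊕ κ', inferInstance, Sum.elim U U', ?_, ?_, fun W p x => ?_⟩
  · rw [Fintype.card_sum, Nat.cast_add, pow_succ]
    have := pow_pos (show 0 < P.K by linarith [hP.two_le]) n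
    nlinarith [hP.two_le]
  · rintro (k | k)
    · exact (hU k).mono_n hP.one_le_K n.le_succ
    · exact (hU' k).mono_n hP.one_le_K n.le_succ
  · simp [e, e']

theorem SMem.sum (hP : P.Base) (hβ : 0 < β) {κ : Type} [Fintype κ] {m : ℕ}
    (hκ : (Fintype.card κ : ℝ) ≤ P.K ^ m) {U : κ → Fam P δ G V S}
    (h : ∀ k, SMem P β δ G V n S a F (U k)) :
    SMem P β δ G V (n + m) S a F fun W p x => ∑ k, U k W p x := by
  choose κ' iκ U' hκ' hU' e using h
  refine ⟨Σ k, κ' k, inferInstance, fun q => U' q.1 q.2, ?_,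
    fun q => (hU' q.1 q.2).mono_n hP.one_le_K (Nat.le_add_right _ _), fun W p x => ?_⟩
  · rw [Fintype.card_sigma, Nat.cast_sum]
    have h0 := pow_pos (show 0 < P.K by linarith [hP.two_le]) n
    calc ∑ k, (Fintype.card (κ' k) : ℝ) ≤ ∑ _k : κ, P.K ^ n := Finset.sum_le_sum fun k _ => hκ' k
      _ = Fintype.card κ * P.K ^ n := by simp
      _ ≤ P.K ^ m * P.K ^ n := mul_le_mul_of_nonneg_right hκ h0.le
      _ = P.K ^ (n + m) := by ring
  · simp only [e]
    exact (Fintype.sum_sigma (fun q : Σ k, κ' k => U' q.1 q.2 W p x)).symm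

theorem SMem.sc (hP : P.Base) (e : S ≃ S') {a' c : ℝ} (h : SMem P β δ G V n S a F T)
    (hc : |c| * a ≤ a') (ha : 0 < a') (ha' : a' ≤ β) :
    SMem P β δ G V (n + 1) S' a' F fun W p x => c • reix e (T W p x) := by
  obtain ⟨κ, _, U, hκ, hU, e'⟩ := h
  refine ⟨κ, inferInstance, fun k W p x => c • reix e (U k W p x),
    hκ.trans (pow_le_pow_right₀ hP.one_le_K n.le_succ),
    fun k => Mem.sc n S S' e a a' c F F _ (hU k) hc ha ha' le_rfl, fun W p x => ?_⟩
  simp only [e', reix_sum, Finset.smul_sum]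

/-- a large scalar is paid for by the number of terms -/
theorem SMem.smul_count (hP : P.Base) (hβ : 0 < β) {c : ℝ} {m : ℕ} (h : SMem P β δ G V n S a F T)
    (hc : |c| ≤ P.K ^ m) : SMem P β δ G V (n + m + 2) S a F fun W p x => c • T W p x := by
  obtain ⟨κ, _, U, hκ, hU, e⟩ := h
  have hK := hP.one_le_K
  have hN : |c| < ((⌊|c|⌋₊ + 1 : ℕ) : ℝ) := by exact_mod_cast Nat.lt_floor_add_one |c|
  have hN' : ((⌊|c|⌋₊ + 1 : ℕ) : ℝ) ≤ P.K ^ (m + 1) := by
    have h1 := Nat.floor_le (abs_nonneg c)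
    have h2 : 1 ≤ P.K ^ m := one_le_pow₀ hK
    push_cast
    rw [pow_succ]
    nlinarith [hP.two_le]
  generalize ⌊|c|⌋₊ + 1 = N at hN hN'
  have hN0 : (0 : ℝ) < N := (abs_nonneg c).trans_lt hN
  refine ⟨Fin N × κ, inferInstance, fun k W p x => (c / N) • reix (Equiv.refl S) (U k.2 W p x),
    ?_, fun k => ?_, fun W p x => ?_⟩
  · rw [Fintype.card_prod, Fintype.card_fin, Nat.cast_mul]
    calc (N : ℝ) * Fintype.card κ ≤ P.K ^ (m + 1) * P.K ^ n :=
          mul_le_mul hN' hκ (Nat.cast_nonneg _) (by positivity)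
      _ = P.K ^ (n + m + 1) := by ring
      _ ≤ _ := pow_le_pow_right₀ hK (by omega)
  · have ha := (hU k.2).amp hβ
    refine (Mem.sc n S S (Equiv.refl S) a a (c / N) F F _ (hU k.2) ?_ ha.1 ha.2 le_rfl).mono_n hK
      (by omega)
    refine mul_le_of_le_one_left ha.1.le ?_
    rw [abs_div, abs_of_pos hN0, div_le_one hN0]
    exact hN.le
  · simp only [e, reix_refl, Fintype.sum_prod_type, Finset.sum_const, Finset.card_univ,
      Fintype.card_fin, ← Finset.smul_sum]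
    rw [← Nat.cast_smul_eq_nsmul ℝ, smul_smul, div_mul_cancel₀ _ hN0.ne']

theorem SMem.con (hP : P.Base) (hβ : 0 < β) {S₁ S₂ : Type} [Nonempty S₁] [Nonempty S₂]
    {a₁ a₂ : ℝ} {T₁ : Fam P δ G V (Option S₁)} {T₂ : Fam P δ G V (Option S₂)}
    (h₁ : SMem P β δ G V n (Option S₁) a₁ F T₁) (h₂ : SMem P β δ G V n (Option S₂) a₂ F T₂)
    (ha : a₁ * a₂ / β ≤ a) (ha' : a ≤ β) :
    SMem P β δ G V (2 * n + 1) (S₁ ⊕ S₂) a F fun W p x => con1 (T₁ W p x) (T₂ W p x) := by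
  obtain ⟨κ₁, _, U₁, hκ₁, hU₁, e₁⟩ := h₁
  obtain ⟨κ₂, _, U₂, hκ₂, hU₂, e₂⟩ := h₂
  have hK := hP.one_le_K
  refine ⟨κ₁ × κ₂, inferInstance, fun k W p x => con1 (U₁ k.1 W p x) (U₂ k.2 W p x), ?_,
    fun k => (Mem.con n S₁ S₂ a₁ a₂ a F _ _ (hU₁ k.1) (hU₂ k.2) ha ha').mono_n hK (by omega),
    fun W p x => ?_⟩
  · rw [Fintype.card_prod, Nat.cast_mul]
    calc (Fintype.card κ₁ : ℝ) * Fintype.card κ₂ ≤ P.K ^ n * P.K ^ n :=
          mul_le_mul hκ₁ hκ₂ (Nat.cast_nonneg _) (by positivity)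
      _ = P.K ^ (2 * n) := by ring
      _ ≤ _ := pow_le_pow_right₀ hK (by omega)
  · simp only [e₁, e₂, con1_sum]

theorem SMem.leaf (hP : P.Base) [Nonempty S] {F' : Submodule ℝ (V → ℝ)}
    {T : Fam P δ G V (Option S)} (h : SMem P β δ G V n (Option S) a F' T) {z : V → ℝ}
    (hz : z ∈ F') (hz1 : z ⬝ᵥ z = 1) (hF : F ≤ F') (hFz : ∀ y ∈ F, y ⬝ᵥ z = 0) :
    SMem P β δ G V (n + 1) S a F fun W p x => leaf (T W p x) (lin z x) := by
  obtain ⟨κ, _, U, hκ, hU, e⟩ := h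
  refine ⟨κ, inferInstance, fun k W p x => R285.leaf (U k W p x) (lin z x),
    hκ.trans (pow_le_pow_right₀ hP.one_le_K n.le_succ),
    fun k => Mem.leaf n S a F' F _ (hU k) z hz hz1 hF hFz, fun W p x => ?_⟩
  simp only [e, leaf_sum]

theorem SMem.sub [DecidableEq V] (h : SMem P β δ G V n S a F T) (A : Matrix V V' ℝ)
    (hA : A * Aᵀ = 1) :
    SMem P β δ G V' n S a (F.comap A.mulVecLin) (fun W p x => T W p (sub A x)) := by
  obtain ⟨κ, _, U, hκ, hU, e⟩ := h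
  exact ⟨κ, inferInstance, fun k W p x => U k W p (R285.sub A x), hκ, fun k => (hU k).sub A hA,
    fun W p x => e W p _⟩

theorem SMem.ren (h : SMem P β δ G V n S a F T) (e : V → V') (he : Function.Injective e)
    {F' : Submodule ℝ (V' → ℝ)} (hF : ∀ z ∈ F', (fun v => z (e v)) ∈ F) :
    SMem P β δ G V' n S a F' (fun W p x => T W p (ren e x)) := by
  obtain ⟨κ, _, U, hκ, hU, e'⟩ := h
  exact ⟨κ, inferInstance, fun k W p x => U k W p (R285.ren e x), hκ, fun k => (hU k).ren e he hF,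
    fun W p x => e' W p _⟩

/-! ### base points -/

variable {b : Pot P.d δ G → E P.d → Om P.d V → E P.d}

theorem Bas.node (h : Bas P β δ G V n β F b) [Fintype S] [Nonempty S]
    (hS : Fintype.card S ≤ n + 1) {c η : ℝ} (hη : P.Q - n ≤ η) (hη' : η ≤ P.Q) (ha : 0 < a)
    (ha' : a ≤ β) (hc : |c| * δ ≤ a) (hc' : |c| * G ≤ a * P.D) :
    Mem P β δ G V (n + 1) S a F fun W p x => c • tau W.1 η (b W p x) := by
  obtain ⟨b0, l, T, hb0, hl, hF, ⟨κ, _, U, hκ, hU, e⟩, eb⟩ := h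
  simp only [eb, e, vec_sum]
  exact Mem.node n S a F c η b0 hb0 l κ U hU hκ hl hF hS hη hη' ha ha' hc hc'

theorem Bas.temp (h : Bas P β δ G V n a F b) (W : Pot P.d δ G) (p : E P.d) :
    (b W p).HasTemperateGrowth := by
  obtain ⟨b0, l, T, -, -, -, hT, eb⟩ := h
  have : b W p = fun x => b0 p + lin l x + vec (T W p x) := funext (eb W p)
  rw [this]
  exact ((Function.HasTemperateGrowth.const (b0 p)).add (temp_lin l)).add (temp_vec (hT.temp W p))

theorem Bas.inv (h : Bas P β δ G V n a F b) {z : V → ℝ} (hz : z ∈ F) (W : Pot P.d δ G)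
    (p : E P.d) (x : Om P.d V) (w : E P.d) : b W p (x + dir z w) = b W p x := by
  obtain ⟨b0, l, T, -, -, hF, hT, eb⟩ := h
  have h1 : l ⬝ᵥ z = 0 := by rw [dotProduct_comm]; exact hF z hz
  simp only [eb, lin_dir, h1, zero_smul, add_zero, hT.inv hz]

theorem Bas.mono (hP : P.Base) (hβ : 0 < β) {n' : ℕ} {a' β' : ℝ} {F' : Submodule ℝ (V → ℝ)}
    (h : Bas P β δ G V n a F b) (hn : n ≤ n') (ha : a ≤ a') (ha' : a' ≤ β') (hb : β ≤ β')
    (hF : F' ≤ F) : Bas P β' δ G V n' a' F' b := by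
  obtain ⟨b0, l, T, hb0, hl, hF', hT, eb⟩ := h
  exact ⟨b0, l, T, hb0, hl.trans (by exact_mod_cast hn), fun z hz => hF' z (hF hz),
    hT.mono hP hβ hn ha ha' hb hF, eb⟩

theorem Bas.ren (h : Bas P β δ G V n a F b) (e : V → V') (he : Function.Injective e)
    {F' : Submodule ℝ (V' → ℝ)} (hF : ∀ z ∈ F', (fun v => z (e v)) ∈ F) :
    Bas P β δ G V' n a F' (fun W p x => b W p (R285.ren e x)) := by
  classical
  obtain ⟨b0, l, T, hb0, hl, hF', hT, eb⟩ := h
  refine ⟨b0, (renM e)ᵀ *ᵥ l, fun W p x => T W p (R285.ren e x), hb0,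
    by rwa [dot_tr_tr (renM_mul he)], fun z hz => ?_, hT.ren e he hF, fun W p x => ?_⟩
  · rw [dot_tr, renM_mulVec]
    exact hF' _ (hF z hz)
  · simp only [eb]
    rw [← lin_sub, ← ren_eq_renM]

/-- adding fresh linear terms and members -/
theorem Bas.extend (hP : P.Base) (hβ : 0 < β) (h : Bas P β δ G V n a F b) (l' : V' → ℝ)
    (hl : l' ⬝ᵥ l' ≤ 1) {T' : Fam P δ G (V ⊕ V') Unit}
    (hT : SMem P β δ G (V ⊕ V') n Unit a (inlF V' F) T') :
    Bas P β δ G (V ⊕ V') (n + 1) a (inlF V' F) fun W p x =>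
      b W p (R285.ren Sum.inl x) + lin l' (R285.ren Sum.inr x) + vec (T' W p x) := by
  obtain ⟨b0, l, T, hb0, hl', hF, hT', eb⟩ := h
  refine ⟨b0, Sum.elim l l', fun W p x => T W p (R285.ren Sum.inl x) + T' W p x, hb0, ?_,
    fun z hz => ?_,
    (hT'.ren (F' := inlF V' F) Sum.inl Sum.inl_injective fun z hz => hz.1).add hP hβ hT,
    fun W p x => ?_⟩
  · have : Sum.elim l l' ⬝ᵥ Sum.elim l l' = l ⬝ᵥ l + l' ⬝ᵥ l' := by simp [dotProduct]
    rw [this]
    push_cast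
    linarith
  · have : z ⬝ᵥ Sum.elim l l' = (fun v => z (Sum.inl v)) ⬝ᵥ l + (fun v => z (Sum.inr v)) ⬝ᵥ l' := by
      simp [dotProduct]
    rw [this, hF _ hz.1]
    simp [dotProduct, hz.2]
  · have : lin (Sum.elim l l') x = lin l (R285.ren Sum.inl x) + lin l' (R285.ren Sum.inr x) := by
      funext i
      simp [lin, R285.ren]
    simp only [eb, this, vec_add]
    abel

theorem Bas.param (hK : 0 ≤ P.K) : Bas P β δ G V n a F (fun _ p _ => p) := by
  refine ⟨id, 0, fun _ _ _ => 0, measurable_id, by simp, by simp, SMem.zero hK, fun W p x => ?_⟩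
  funext i
  simp [lin, vec]

end Crest.Agent.R285

end
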