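import Crest.Agent.R285.PPoly
import Crest.Agent.R285.MemA

/-!
Gaussian averages of members.
-/

set_option autoImplicit false
set_option linter.unusedVariables false

open MeasureTheory ProbabilityTheory Matrix Filter
open scoped ENNReal

noncomputable section

namespace Crest.Agent.R285

/-- Gaussian averages (over at most `n` fresh variables) of members -/
def AvM (P : Par) (β δ G : ℝ) (V : Type) [Fintype V] (n : ℕ) (S : Type) (a : ℝ)
    (F : Submodule ℝ (V → ℝ)) (H : Fam P δ G V S) : Prop :=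
  ∃ (V'' : Type) (_ : Fintype V'') (T : Fam P δ G (V ⊕ V'') S), Fintype.card V'' ≤ n ∧
    Mem P β δ G (V ⊕ V'') n S a (inlF V'' F) T ∧
    ∀ W p x i, H W p x i = ∫ ξ, T W p (join x ξ) i ∂gam (V'' × Fin P.d)

namespace AvM

variable {P : Par} {β δ G : ℝ} {V : Type} [Fintype V] {n : ℕ} {S S' : Type}
  {a : ℝ} {F : Submodule ℝ (V → ℝ)} {H : Fam P δ G V S}

theorem temp_join {U : Type} [Fintype U] {F' : Submodule ℝ (V ⊕ U → ℝ)}
    {T : Fam P δ G (V ⊕ U) S} (h : Mem P β δ G (V ⊕ U) n S a F' T) (W : Pot P.d δ G) (p : E P.d)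
    (x : Om P.d V) (i : S → Fin P.d) : (fun ξ => T W p (join x ξ) i).HasTemperateGrowth :=
  (h.temp_coord W p i).comp (temp_join_right x)

theorem of_mem (h : Mem P β δ G V n S a F H) : AvM P β δ G V n S a F H := by
  refine ⟨Empty, inferInstance, fun W p x => H W p (ren Sum.inl x), by simp,
    h.ren Sum.inl Sum.inl_injective fun z hz => hz.1, fun W p x i => ?_⟩
  simp [ren_inl_join]

theorem congr {H' : Fam P δ G V S} (h : AvM P β δ G V n S a F H)
    (e : ∀ W p x i, H' W p x i = H W p x i) : AvM P β δ G V n S a F H' := by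
  have : H' = H := by funext W p x i; exact e W p x i
  exact this ▸ h

theorem mono_n (hK : 1 ≤ P.K) {n' : ℕ} (h : AvM P β δ G V n S a F H) (hn : n ≤ n') :
    AvM P β δ G V n' S a F H := by
  obtain ⟨U, _, T, h1, h2, h3⟩ := h
  exact ⟨U, inferInstance, T, h1.trans hn, h2.mono_n hK hn, h3⟩

theorem mono_amp (hD : 0 ≤ P.D) {a' : ℝ} (h : AvM P β δ G V n S a F H) (ha : a ≤ a')
    (ha' : a' ≤ β) : AvM P β δ G V n S a' F H := by
  obtain ⟨U, _, T, h1, h2, h3⟩ := h
  exact ⟨U, inferInstance, T, h1, h2.mono_amp hD ha ha', h3⟩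

theorem sc (hβ : 0 < β) (h : AvM P β δ G V n S a F H) (e : S ≃ S') {c : ℝ} (hc : |c| ≤ 1) :
    AvM P β δ G V (n + 1) S' a F fun W p x => c • reix e (H W p x) := by
  obtain ⟨U, _, T, h1, h2, h3⟩ := h
  have ha := h2.amp hβ
  refine ⟨U, inferInstance, fun W p x => c • reix e (T W p x), by omega,
    Mem.sc n S S' e a a c _ _ T h2 (mul_le_of_le_one_left ha.1.le hc) ha.1 ha.2 le_rfl,
    fun W p x i => ?_⟩
  simp only [Pi.smul_apply, smul_eq_mul, reix, h3, integral_const_mul]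

theorem reix' (hβ : 0 < β) (h : AvM P β δ G V n S a F H) (e : S ≃ S') :
    AvM P β δ G V (n + 1) S' a F fun W p x => reix e (H W p x) :=
  (h.sc hβ e (c := 1) (by simp)).congr fun W p x i => by simp

theorem con1' (hK : 1 ≤ P.K) {S₁ S₂ : Type} [Nonempty S₁] [Nonempty S₂] {a₁ a₂ : ℝ}
    {H₁ : Fam P δ G V (Option S₁)} {H₂ : Fam P δ G V (Option S₂)}
    (h₁ : AvM P β δ G V n (Option S₁) a₁ F H₁) (h₂ : AvM P β δ G V n (Option S₂) a₂ F H₂)
    (ha : a₁ * a₂ / β ≤ a) (ha' : a ≤ β) :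
    AvM P β δ G V (2 * n + 1) (S₁ ⊕ S₂) a F fun W p x => con1 (H₁ W p x) (H₂ W p x) := by
  obtain ⟨U₁, _, T₁, c₁, m₁, e₁⟩ := h₁
  obtain ⟨U₂, _, T₂, c₂, m₂, e₂⟩ := h₂
  have r₁ := m₁.ren (V' := V ⊕ (U₁ ⊕ U₂)) (Sum.map id Sum.inl)
    (Function.Injective.sumMap Function.injective_id Sum.inl_injective)
    (F' := inlF (U₁ ⊕ U₂) F) fun z hz => ⟨hz.1, fun v => hz.2 _⟩
  have r₂ := m₂.ren (V' := V ⊕ (U₁ ⊕ U₂)) (Sum.map id Sum.inr)
    (Function.Injective.sumMap Function.injective_id Sum.inr_injective)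
    (F' := inlF (U₁ ⊕ U₂) F) fun z hz => ⟨hz.1, fun v => hz.2 _⟩
  have m := (Mem.con n S₁ S₂ a₁ a₂ a _ _ _ r₁ r₂ ha ha').mono_n hK (n' := 2 * n + 1) (by omega)
  refine ⟨U₁ ⊕ U₂, inferInstance, _, by rw [Fintype.card_sum]; omega, m, fun W p x i => ?_⟩
  rw [integral_join (PG.of_temp (temp_join m W p x i))]
  have j₁ : ∀ (y : Om P.d U₁) (z : Om P.d U₂),
      ren (Sum.map id Sum.inl) (join x (join y z)) = join x y := fun y z => by
    funext ⟨s, k⟩
    cases s <;> rfl
  have j₂ : ∀ (y : Om P.d U₁) (z : Om P.d U₂),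
      ren (Sum.map id Sum.inr) (join x (join y z)) = join x z := fun y z => by
    funext ⟨s, k⟩
    cases s <;> rfl
  simp only [j₁, j₂, con1, e₁, e₂]
  have i₂ : ∀ y : Om P.d U₁, ∫ z, ∑ k, T₁ W p (join x y) (oc k fun s => i (Sum.inl s)) *
      T₂ W p (join x z) (oc k fun s => i (Sum.inr s)) ∂gam (U₂ × Fin P.d) =
      ∑ k, T₁ W p (join x y) (oc k fun s => i (Sum.inl s)) *
        ∫ z, T₂ W p (join x z) (oc k fun s => i (Sum.inr s)) ∂gam (U₂ × Fin P.d) := fun y => by
    rw [integral_finsetSum _ fun k _ => (temp_integrable (temp_join m₂ W p x _)).const_mul _]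
    simp only [integral_const_mul]
  simp only [i₂]
  rw [integral_finsetSum _ fun k _ => (temp_integrable (temp_join m₁ W p x _)).mul_const _]
  simp only [integral_mul_const]

theorem leaf_fresh [Nonempty S] {H : Fam P δ G V (Option S)}
    (h : AvM P β δ G V n (Option S) a F H) :
    AvM P β δ G (V ⊕ Unit) (n + 1) S a (inlF Unit F)
      fun W p x => leaf (H W p (ren Sum.inl x)) fun k => x (Sum.inr (), k) := by
  classical
  obtain ⟨U, _, T, c, m, e⟩ := h
  have r := m.ren (V' := (V ⊕ Unit) ⊕ U) (Sum.map Sum.inl id)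
    (Function.Injective.sumMap Sum.inl_injective Function.injective_id)
    (F' := (inlF U F).comap (LinearMap.funLeft ℝ ℝ (Sum.map Sum.inl id))) fun z hz => hz
  have m' := Mem.leaf n S a _ (inlF U (inlF Unit F)) _ r (Pi.single (Sum.inl (Sum.inr ())) 1)
    (by
      change (fun v => (Pi.single (Sum.inl (Sum.inr ())) 1 : (V ⊕ Unit) ⊕ U → ℝ)
        (Sum.map Sum.inl id v)) ∈ inlF U F
      have : (fun v => (Pi.single (Sum.inl (Sum.inr ())) 1 : (V ⊕ Unit) ⊕ U → ℝ)
          (Sum.map Sum.inl id v)) = 0 := by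
        funext v
        cases v <;> simp
      rw [this]
      exact Submodule.zero_mem _)
    (by simp) (fun z hz => ⟨hz.1.1, fun v => hz.2 v⟩)
    (fun y hy => by simpa using hy.1.2 ())
  refine ⟨U, inferInstance, _, by omega, m', fun W p x i => ?_⟩
  have j : ∀ y : Om P.d U, ren (Sum.map Sum.inl id) (join x y) = join (ren Sum.inl x) y :=
    fun y => by
      funext ⟨s, k⟩
      cases s <;> rfl
  simp only [j, lin_single, leaf, e]
  have j' : ∀ (y : Om P.d U) k, join x y (Sum.inl (Sum.inr ()), k) = x (Sum.inr (), k) :=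
    fun _ _ => rfl
  simp only [j']
  rw [integral_finsetSum _ fun k _ => (temp_integrable (temp_join m W p _ _)).mul_const _]
  simp only [integral_mul_const]

theorem avg (hK : 1 ≤ P.K) {H' : Fam P δ G (V ⊕ Unit) S}
    (h : AvM P β δ G (V ⊕ Unit) n S a (inlF Unit F) H')
    (e' : ∀ W p x i, H W p x i = ∫ g, H' W p (join x g) i ∂gam (Unit × Fin P.d)) :
    AvM P β δ G V (n + 1) S a F H := by
  obtain ⟨U, _, T, c, m, e⟩ := h
  have r := (m.ren (V' := V ⊕ (Unit ⊕ U)) (Equiv.sumAssoc V Unit U) (Equiv.injective _)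
    (F' := inlF (Unit ⊕ U) F) fun z hz => ⟨⟨hz.1, fun v => hz.2 _⟩, fun v => hz.2 _⟩).mono_n hK
    n.le_succ
  refine ⟨Unit ⊕ U, inferInstance, _, by simp; omega, r, fun W p x i => ?_⟩
  rw [integral_join (PG.of_temp (temp_join r W p x i))]
  have j : ∀ (y : Om P.d Unit) (z : Om P.d U),
      ren (Equiv.sumAssoc V Unit U) (join x (join y z)) = join (join x y) z := fun y z => by
    funext ⟨s, k⟩
    rcases s with (s | s) | s <;> rfl
  simp only [j, e', e]

theorem gauss_contr {d : ℕ} {κ : Type} [Fintype κ] (A B : κ → Fin d → ℝ) :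
    ∫ g : Om d Unit, ∑ j, (∑ k, A j k * g ((), k)) * ∑ k, B j k * g ((), k) ∂gam (Unit × Fin d) =
      ∑ k, ∑ j, A j k * B j k := by
  classical
  have ii : ∀ k l : Fin d, Integrable (fun g : Om d Unit => g ((), k) * g ((), l))
      (gam (Unit × Fin d)) := fun k l => temp_integrable
    (((ContinuousLinearMap.proj (R := ℝ) (φ := fun _ : Unit × Fin d => ℝ)
      ((), k)).hasTemperateGrowth).mul
      (ContinuousLinearMap.proj (R := ℝ) (φ := fun _ : Unit × Fin d => ℝ)
        ((), l)).hasTemperateGrowth)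
  have e : ∀ (g : Om d Unit) j, (∑ k, A j k * g ((), k)) * ∑ k, B j k * g ((), k) =
      ∑ k, ∑ l, A j k * B j l * (g ((), k) * g ((), l)) := fun g j => by
    rw [Finset.sum_mul_sum]
    exact Finset.sum_congr rfl fun k _ => Finset.sum_congr rfl fun l _ => by ring
  simp only [e]
  rw [integral_finsetSum _ fun j _ => integrable_finsetSum _ fun k _ =>
    integrable_finsetSum _ fun l _ => (ii k l).const_mul _, Finset.sum_comm]
  refine Finset.sum_congr rfl fun j _ => ?_
  rw [integral_finsetSum _ fun k _ => integrable_finsetSum _ fun l _ => (ii k l).const_mul _]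
  refine Finset.sum_congr rfl fun k _ => ?_
  rw [integral_finsetSum _ fun l _ => (ii k l).const_mul _]
  simp only [integral_const_mul, integral_coord_mul]
  simp

/-- `S ⊕ J ≃ Option S` for a one-point `J` -/
def eL (S J : Type) [Unique J] : S ⊕ J ≃ Option S where
  toFun := Sum.elim some fun _ => none
  invFun o := o.elim (Sum.inr default) Sum.inl
  left_inv s := by
    rcases s with s | s
    · rfl
    · exact congrArg Sum.inr (Subsingleton.elim _ _)
  right_inv o := by cases o <;> rfl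

theorem con' (hK : 1 ≤ P.K) (hβ : 0 < β) (m : ℕ) : ∀ (J : Type) [Fintype J] [DecidableEq J],
    Fintype.card J = m + 1 → ∀ (V : Type) [Fintype V] (F : Submodule ℝ (V → ℝ)) (n : ℕ)
      (S₁ S₂ : Type) [Nonempty S₁] [Nonempty S₂] (a₁ a₂ a : ℝ) (H₁ : Fam P δ G V (S₁ ⊕ J))
      (H₂ : Fam P δ G V (J ⊕ S₂)), AvM P β δ G V n (S₁ ⊕ J) a₁ F H₁ →
      AvM P β δ G V n (J ⊕ S₂) a₂ F H₂ → a₁ * a₂ / β ≤ a → a ≤ β →
      AvM P β δ G V (2 * n + 5 * m + 3) (S₁ ⊕ S₂) a F fun W p x => con (H₁ W p x) (H₂ W p x) := by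
  induction m with
  | zero =>
    intro J _ _ hJ V _ F n S₁ S₂ _ _ a₁ a₂ a H₁ H₂ h₁ h₂ ha ha'
    obtain ⟨_⟩ : Nonempty (Unique J) := Fintype.card_eq_one_iff_nonempty_unique.1 hJ
    refine (con1' hK (h₁.reix' hβ (eL S₁ J)) (h₂.reix' hβ ((Equiv.sumComm J S₂).trans (eL S₂ J)))
      ha ha').congr fun W p x i => ?_
    simp only [con, con1, reix]
    refine (Fintype.sum_equiv (Equiv.funUnique J (Fin P.d)).symm _ _ fun k => ?_).symm
    congr 2 <;> funext s <;> cases s <;> rfl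
  | succ m ih =>
    intro J _ _ hJ V _ F n S₁ S₂ _ _ a₁ a₂ a H₁ H₂ h₁ h₂ ha ha'
    let e : J ≃ Option (Fin (m + 1)) := Fintype.equivOfCardEq (by simp [hJ])
    have k := ih (Fin (m + 1)) (by simp) (V ⊕ Unit) (inlF Unit F) (n + 1 + 1) S₁ S₂ a₁ a₂ a _ _
      (h₁.reix' hβ ((Equiv.sumCongr (Equiv.refl S₁) e).trans (optR S₁ _))).leaf_fresh
      (h₂.reix' hβ ((Equiv.sumCongr e (Equiv.refl S₂)).trans (optL _ S₂))).leaf_fresh ha ha'
    refine (avg hK k fun W p x i => ?_).mono_n hK (by omega)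
    have j' : ∀ (y : Om P.d Unit) k, join x y (Sum.inr (), k) = y ((), k) := fun _ _ => rfl
    simp only [con, leaf, ren_inl_join, j']
    rw [gauss_contr, ← Fintype.sum_equiv (Equiv.arrowCongr e.symm (Equiv.refl (Fin P.d)))
      (fun j : Option (Fin (m + 1)) → Fin P.d =>
        H₁ W p x (Sum.elim (fun s => i (Sum.inl s)) fun s => j (e s)) *
          H₂ W p x (Sum.elim (fun s => j (e s)) fun s => i (Sum.inr s))) _ fun _ => rfl,
      sum_option]
    refine Finset.sum_congr rfl fun k _ => Finset.sum_congr rfl fun j _ => ?_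
    simp only [reix]
    congr 2
    · funext s
      rcases s with s | s
      · rfl
      · show oc k j (e s) = oc k _ (optR S₁ _ (Sum.inr (e s)))
        cases e s <;> rfl
    · funext s
      rcases s with s | s
      · show oc k j (e s) = oc k _ (optL _ S₂ (Sum.inl (e s)))
        cases e s <;> rfl
      · rfl

/-- the level reached for a graph polynomial of depth `n` -/
def lev (n0 : ℕ) : ℕ → ℕ
  | 0 => n0 + 1
  | n + 1 => 2 * lev n0 n + 5 * n + 5

theorem le_lev (n0 n : ℕ) : n0 + n + 1 ≤ lev n0 n := by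
  induction n with
  | zero => exact le_rfl
  | succ n ih => unfold lev; omega

theorem of_pp (hP : P.Base) {δ0 : ℝ} (h0 : 0 < δ0) (hβ : δ0 ≤ β) (hδ : δ ≤ δ0)
    (hG : G ≤ δ0 * P.D) {n0 : ℕ} {b : Pot P.d δ G → E P.d → Om P.d V → E P.d} {η : ℝ}
    (hb : Bas P β δ G V n0 β F b) (hη : P.Q - n0 ≤ η) (hη' : η ≤ P.Q) {n k w : ℕ} {S : Type}
    {H : (E P.d → ℝ) → ℝ → E P.d → Ten P.d S} (h : PP P.d n k w S H) : ∀ c a : ℝ, 0 < a → a ≤ β →
      |c| * δ ≤ a → |c| * G ≤ a * P.D →
      AvM P β δ G V (lev n0 n) S (a * (δ0 / β) ^ (k - 1)) F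
        fun W p x => c • H W.1 η (b W p x) := by
  have hβ0 : 0 < β := h0.trans_le hβ
  have hK := hP.one_le_K
  have hq0 : 0 < δ0 / β := div_pos h0 hβ0
  have hq1 : δ0 / β ≤ 1 := (div_le_one hβ0).2 hβ
  induction h with
  | node n S h2 hn =>
    intro c a ha ha' hc hc'
    have : Nonempty S := Fintype.card_pos_iff.1 (by omega)
    have hb' : Bas P β δ G V (n0 + n) β F b := hb.mono hP hβ0 (by omega) le_rfl le_rfl le_rfl le_rfl
    have hη1 : P.Q - (n0 + n : ℕ) ≤ η := by
      push_cast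
      have : (0 : ℝ) ≤ n := Nat.cast_nonneg n
      linarith
    simp only [Nat.sub_self, pow_zero, mul_one]
    exact (of_mem (hb'.node (by omega) hη1 hη' ha ha' hc hc')).mono_n hK (le_lev n0 n)
  | con n k₁ k₂ w₁ w₂ S₁ S₂ J hJ G₁ G₂ h₁ h₂ ih₁ ih₂ =>
    intro c a ha ha' hc hc'
    have k1 := h₁.finite.2.2.1
    have k2 := h₂.finite.2.2.1
    obtain ⟨m, hm⟩ : ∃ m, Fintype.card J = m + 1 := ⟨Fintype.card J - 1, by
      have := Fintype.card_pos (α := J); omega⟩
    have key := con' hK hβ0 m J hm V F _ S₁ S₂ _ _ (a * (δ0 / β) ^ (k₁ + k₂ - 1)) _ _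
      (ih₁ c a ha ha' hc hc') (ih₂ 1 δ0 h0 hβ (by simpa using hδ) (by simpa using hG))
      (le_of_eq (by
        rw [show k₁ + k₂ - 1 = (k₁ - 1) + (k₂ - 1) + 1 by omega, pow_succ, pow_add]
        ring))
      ((mul_le_of_le_one_right ha.le (pow_le_one₀ hq0.le hq1)).trans ha')
    refine (key.mono_n hK (by rw [lev]; omega)).congr fun W p x i => ?_
    simp only [con, Pi.smul_apply, smul_eq_mul, one_mul, Finset.mul_sum, mul_assoc]
  | sc n k w S S' e c' hc0 G' h ih =>
    intro c a ha ha' hc hc'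
    refine (((ih c a ha ha' hc hc').sc hβ0 e hc0).mono_n hK (by rw [lev]; omega)).congr
      fun W p x i => ?_
    simp only [reix, Pi.smul_apply, smul_eq_mul, mul_left_comm]

theorem vec_form [Fintype S] [DecidableEq S] (h : AvM P β δ G V n S a F H) :
    ∃ (V'' : Type) (_ : Fintype V'') (T : Fam P δ G (V ⊕ V'') S), Fintype.card V'' ≤ n ∧
      Mem P β δ G (V ⊕ V'') n S a (inlF V'' F) T ∧
      ∀ W p x, H W p x = ∫ ξ, T W p (join x ξ) ∂gam (V'' × Fin P.d) := by
  obtain ⟨U, _, T, c, m, e⟩ := h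
  refine ⟨U, inferInstance, T, c, m, fun W p x => funext fun i => ?_⟩
  rw [e, eval_integral fun i => temp_integrable (temp_join m W p x i)]

/-- a finite sum of averages is an average of a sum of members -/
theorem sum_form [Fintype S] [DecidableEq S] (hP : P.Base) {κ : Type} [Fintype κ]
    {H : κ → Fam P δ G V S} (h : ∀ k, AvM P β δ G V n S a F (H k)) {m : ℕ}
    (hκ : Fintype.card κ ≤ m) :
    ∃ (V'' : Type) (_ : Fintype V'') (T : Fam P δ G (V ⊕ V'') S),
      (Fintype.card V'' : ℝ) ≤ P.K ^ (n + m + m * n) ∧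
      SMem P β δ G (V ⊕ V'') (n + m + m * n) S a (inlF V'' F) T ∧
      ∀ W p x, ∑ k, H k W p x = ∫ ξ, T W p (join x ξ) ∂gam (V'' × Fin P.d) := by
  choose U iU T c mm e using h
  have hK := hP.one_le_K
  have pw : ∀ j : ℕ, j ≤ n + m + m * n → (j : ℝ) ≤ P.K ^ (n + m + m * n) := fun j hj => by
    calc (j : ℝ) ≤ 2 ^ j := by exact_mod_cast Nat.lt_two_pow_self.le
      _ ≤ P.K ^ j := pow_le_pow_left₀ (by norm_num) hP.two_le j
      _ ≤ _ := pow_le_pow_right₀ hK hj
  have r : ∀ k, Mem P β δ G (V ⊕ Σ k, U k) (n + m + m * n) S a (inlF (Σ k, U k) F)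
      fun W p x => T k W p (ren (Sum.map id (Sigma.mk k)) x) := fun k =>
    ((mm k).ren (V' := V ⊕ Σ k, U k) (Sum.map id (Sigma.mk k))
      (Function.Injective.sumMap Function.injective_id sigma_mk_injective)
      (F' := inlF (Σ k, U k) F) fun z hz => ⟨hz.1, fun v => hz.2 _⟩).mono_n hK (by omega)
  refine ⟨Σ k, U k, inferInstance, fun W p x => ∑ k, T k W p (ren (Sum.map id (Sigma.mk k)) x),
    pw _ ?_, ⟨κ, inferInstance, _, pw _ (by omega), r, fun W p x => rfl⟩, fun W p x => ?_⟩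
  · rw [Fintype.card_sigma]
    calc ∑ k, Fintype.card (U k) ≤ ∑ _k : κ, n := Finset.sum_le_sum fun k _ => c k
      _ = Fintype.card κ * n := by simp
      _ ≤ m * n := Nat.mul_le_mul_right _ hκ
      _ ≤ _ := by omega
  · have ii : ∀ k, Integrable (fun ξ => T k W p (ren (Sum.map id (Sigma.mk k)) (join x ξ)))
        (gam ((Σ k, U k) × Fin P.d)) := fun k =>
      temp_integrable (((r k).temp W p).comp (temp_join_right x))
    beta_reduce
    rw [integral_finsetSum _ fun k _ => ii k]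
    refine Finset.sum_congr rfl fun k _ => funext fun i => ?_
    rw [e, eval_integral fun i => temp_integrable (temp_join (r k) W p x i)]
    have j : ∀ y : Om P.d (Σ k, U k),
        ren (Sum.map id (Sigma.mk k)) (join x y) = join x (ren (Sigma.mk k) y) := fun y => by
      funext ⟨s, l⟩
      cases s <;> rfl
    simp only [j]
    have mp := mp_ren (d := P.d) (Sigma.mk k : U k → Σ k, U k) sigma_mk_injective
    rw [← mp.map_eq, integral_map mp.measurable.aemeasurable]
    exact (temp_join (mm k) W p x i).1.continuous.aestronglyMeasurable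

end AvM

end Crest.Agent.R285

end
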