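import Crest.Agent.R285.PPoly
import Crest.Agent.R285.MemA
import Crest.Agent.R285.PPMemAux

/-!
Graph polynomials at a base point are Gaussian averages of members.

A multiple edge `con` over `J ≃ Option J'` is the average over fresh variables `J'` of a single
edge `con1`, both factors having their slots `J'` filled with the same fresh leaves
(`integral_coord_mul`). The constant `c` goes to the first factor, the other factor is treated with
`c = 1`, `a = δ0`.
-/

set_option autoImplicit false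

open MeasureTheory ProbabilityTheory Matrix Filter
open scoped ENNReal

noncomputable section

namespace Crest.Agent.R285

theorem pp_mem (n : ℕ) : ∃ n' : ℕ, ∀ P : Par, P.Base → ∀ β δ G δ0 : ℝ, 0 < δ0 → δ0 ≤ β →
    δ ≤ δ0 → G ≤ δ0 * P.D → ∀ (V : Type) [Fintype V] (F : Submodule ℝ (V → ℝ))
      (b : Pot P.d δ G → E P.d → Om P.d V → E P.d) (η : ℝ), Bas P β δ G V n β F b →
      P.Q - n ≤ η → η ≤ P.Q → ∀ (k w : ℕ) (S : Type) [Fintype S] [DecidableEq S]
      (H : (E P.d → ℝ) → ℝ → E P.d → Ten P.d S), PP P.d n k w S H → ∀ c a : ℝ, 0 < a → a ≤ β →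
      |c| * δ ≤ a → |c| * G ≤ a * P.D →
      ∃ (V'' : Type) (_ : Fintype V'') (T : Fam P δ G (V ⊕ V'') S), Fintype.card V'' ≤ n' ∧
        Mem P β δ G (V ⊕ V'') n' S (a * (δ0 / β) ^ (k - 1)) (inlF V'' F) T ∧
        ∀ W p x, c • H W.1 η (b W p x) = ∫ ξ, T W p (join x ξ) ∂gam (V'' × Fin P.d) := by
  refine ⟨AvM.lev n n, fun P hP β δ G δ0 h0 hβ hδ hG V _ F b η hb hη hη' k w S _ _ H h c a ha ha'
    hc hc' => ?_⟩
  exact (AvM.of_pp hP h0 hβ hδ hG hb hη hη' h c a ha ha' hc hc').vec_form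

/-- `tau_taylor` with `N = J B`, and `pp_mem` -/
theorem stepB (J Ms R n B : ℕ) : ∃ n' : ℕ, ∀ᶠ P in LL J Ms, ∀ β δ G : ℝ, Cl P β δ G →
    Cl0 P R δ G → P.th ^ R ≤ β → ∀ (V : Type) [Fintype V] (F : Submodule ℝ (V → ℝ))
      (b : Pot P.d δ G → E P.d → Om P.d V → E P.d) (S : Type) [Fintype S] [DecidableEq S]
      [Nonempty S] (c η a : ℝ), Fintype.card S ≤ n + 1 → Bas P β δ G V n β F b → P.Q - n ≤ η →
      η ≤ P.Q → 0 < a → a ≤ β → |c| * δ ≤ a → |c| * G ≤ a * P.D →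
      ∃ (V'' : Type) (_ : Fintype V'') (H : Fam P δ G (V ⊕ V'') S),
        (Fintype.card V'' : ℝ) ≤ P.K ^ n' ∧
        SMem P β δ G (V ⊕ V'') n' S (a * P.th ^ R / β) (inlF V'' F) H ∧
        ∀ W p x, nrm (c • (tau W.1 η (b W p x) : Ten P.d S) -
            c • stepE W.1 η 1 (b W p x) (fun y => tau W.1 (η - 1) y) -
            ∫ ξ, H W p (join x ξ) ∂gam (V'' × Fin P.d)) ≤ P.K * a * P.th ^ B * P.D := by
  obtain ⟨n₁, C, hC, hT⟩ := tau_taylor (n + 1) (J * B)
  refine ⟨AvM.lev n n₁ + n₁ + n₁ * AvM.lev n n₁, ?_⟩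
  filter_upwards [ev_base, ev_ge (C * 2 ^ (J * B)), ev_ge (2 * n + 4 : ℝ), ev_pow_th 1, ev_th_Q]
    with P hP hK1 hK2 hK3 hQ
  intro β δ G hcl hcl0 hβ V _ F b S _ _ _ c η a hS hb hη hη' ha ha' hc hc'
  obtain ⟨κ, _, k, w, H, hκ, hH, hrem⟩ := hT P.d S hS
  have h0 : 0 < P.th ^ R := pow_pos hP.th_pos R
  have hβ0 := hcl.β_pos
  have hD := hP.one_le_D
  have hq0 : 0 < P.th ^ R / β := div_pos h0 hβ0
  have hq1 : P.th ^ R / β ≤ 1 := (div_le_one hβ0).2 hβ
  have hav : ∀ i, AvM P β δ G V (AvM.lev n n₁) S (a * P.th ^ R / β) F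
      fun W p x => c • H i W.1 η (b W p x) := fun i => by
    refine (AvM.of_pp hP h0 hβ hcl0.δ_le hcl0.G_le hb hη hη' (hH i).2 c a ha ha' hc hc').mono_amp
      (by linarith) ?_ ?_
    · rw [mul_div_assoc]
      refine mul_le_mul_of_nonneg_left ?_ ha.le
      exact pow_le_of_le_one hq0.le hq1 (by have := (hH i).1; omega)
    · rw [mul_div_assoc]
      exact (mul_le_of_le_one_right ha.le hq1).trans ha'
  obtain ⟨V'', _, T, h1, h2, h3⟩ := AvM.sum_form hP hav hκ
  refine ⟨V'', inferInstance, T, h1, h2, fun W p x => ?_⟩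
  have hKQ := hP.K_le
  have hn0 : (0 : ℝ) ≤ n := Nat.cast_nonneg n
  have hη2 : P.Q / 2 ≤ η := by linarith
  have hη3 : 2 ≤ η := by linarith
  have h2pow : (1 : ℝ) ≤ 2 ^ (J * B) := one_le_pow₀ (by norm_num)
  have hCK : C ≤ P.K := le_trans (le_mul_of_one_le_right (by linarith) h2pow) hK1
  have hsmall : C * η * δ ≤ 1 := by
    have e1 : η * δ ≤ P.th := (mul_le_mul_of_nonneg_right hη' hcl.δ_pos.le).trans hcl.δ_le
    rw [pow_one] at hK3
    calc C * η * δ = C * (η * δ) := by ring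
      _ ≤ P.K * P.th := mul_le_mul hCK e1 (mul_nonneg (by linarith) hcl.δ_pos.le) (by linarith)
      _ ≤ 1 := hK3
  have key := hrem δ G W.1 W.2 hcl.δ_pos.le η hη3 hsmall (b W p x)
  rw [← h3, ← Finset.smul_sum, ← smul_sub, ← smul_sub, nrm_smul]
  have hd : √(P.d : ℝ) ≤ P.D := by
    have h1d : (1 : ℝ) ≤ P.d := by exact_mod_cast hP.d_pos
    refine le_trans ?_ hP.d_le
    rw [Real.sqrt_le_left (by linarith)]
    nlinarith
  have hηp : 0 < η ^ (J * B) := pow_pos (by linarith) _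
  have hpow : 1 ≤ P.th ^ B * (2 ^ (J * B) * η ^ (J * B)) := by
    have e1 : 1 ≤ (P.th * P.Q ^ J) ^ B := one_le_pow₀ hQ
    rw [mul_pow, ← pow_mul] at e1
    refine e1.trans (mul_le_mul_of_nonneg_left ?_ (pow_pos hP.th_pos B).le)
    rw [← mul_pow]
    exact pow_le_pow_left₀ (by linarith [hP.one_le_Q]) (by linarith) _
  have hth := pow_pos hP.th_pos B
  calc |c| * nrm _ ≤ |c| * (C * δ * √P.d / η ^ (J * B)) :=
        mul_le_mul_of_nonneg_left key (abs_nonneg c)
    _ = C * (|c| * δ) * √P.d / η ^ (J * B) := by ring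
    _ ≤ C * a * P.D / η ^ (J * B) := by
        refine div_le_div_of_nonneg_right ?_ hηp.le
        exact mul_le_mul (mul_le_mul_of_nonneg_left hc (by linarith)) hd (Real.sqrt_nonneg _)
          (mul_nonneg (by linarith) ha.le)
    _ ≤ P.K * a * P.th ^ B * P.D := by
        rw [div_le_iff₀ hηp]
        calc C * a * P.D ≤ C * a * P.D * (P.th ^ B * (2 ^ (J * B) * η ^ (J * B))) :=
              le_mul_of_one_le_right (by positivity) hpow
          _ = C * 2 ^ (J * B) * (a * P.th ^ B * P.D * η ^ (J * B)) := by ring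
          _ ≤ P.K * (a * P.th ^ B * P.D * η ^ (J * B)) :=
              mul_le_mul_of_nonneg_right hK1 (by positivity)
          _ = _ := by ring

end Crest.Agent.R285

end
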