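import Crest.Agent.R285.Norm
import Crest.Agent.R285.HeatC
import Crest.Agent.R285.Tower

/-! Auxiliary lemmas for `StepD.lean`. -/

set_option autoImplicit false

open MeasureTheory ProbabilityTheory Matrix Filter
open scoped ENNReal

noncomputable section

namespace Crest.Agent.R285.StepDAux

variable {d : ℕ} {δ G : ℝ} {W : E d → ℝ} {ι : Type} [Fintype ι]

/-- `T ↦ app T v` as a continuous linear map -/
def appL {S : Type} [Fintype S] [DecidableEq S] (v : S → E d) : Ten d (Option S) →L[ℝ] E d :=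
  LinearMap.toContinuousLinearMap
    { toFun := fun T => app T v
      map_add' := fun T T' => by ext k; simp [app, add_mul, Finset.sum_add_distrib]
      map_smul' := fun c T => by ext k; simp [app, Finset.mul_sum, mul_assoc] }

theorem appL_apply {S : Type} [Fintype S] [DecidableEq S] (v : S → E d) (T : Ten d (Option S)) :
    app T v = appL v T := rfl

theorem dot_integral {Ω : Type} [MeasurableSpace Ω] {μ : Measure Ω} {f : Ω → ι → ℝ}
    (hf : Integrable f μ) (B : ι → ℝ) : B ⬝ᵥ ∫ x, f x ∂μ = ∫ x, B ⬝ᵥ f x ∂μ :=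
  ((LinearMap.toContinuousLinearMap (dotProductBilin ℝ ℝ B)).integral_comp_comm hf).symm

theorem dot_heat {f : E d → ι → ℝ} (hf : PG f) (B : ι → ℝ) (ρ : ℝ) (y : E d) :
    B ⬝ᵥ heat ρ f y = heat ρ (fun x => B ⬝ᵥ f x) y :=
  dot_integral (hf.integrable_heat ρ y) B

theorem dot_stepE (hW : Adm δ G W) {h : E d → ι → ℝ} (hh : PG h) (B : ι → ℝ) (η t : ℝ) (b : E d) :
    B ⬝ᵥ stepE W η t b h = stepE W η t b fun y => B ⬝ᵥ h y := by
  unfold stepE
  rw [dotProduct_smul, dot_heat (TA.pg_smul (TA.pg_uu hW _) hh)]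
  simp only [dotProduct_smul]

theorem abs_integral_le {κ : Type} [Fintype κ] {f : (κ → ℝ) → ℝ} {C : ℝ} (h : ∀ y, |f y| ≤ C) :
    |∫ x, f x ∂gam κ| ≤ C := by
  simpa using norm_integral_le_of_norm_le_const (μ := gam κ) (f := f) (C := C) (ae_of_all _ h)

theorem near_vec {V' : Type} [Fintype V'] (hW : Adm δ G W) {η : ℝ} (hη : 1 ≤ η) (b : E d)
    {Y : Om d V' → E d} (hY : Y.HasTemperateGrowth) {r : ℝ≥0∞}
    (h : Near (fun f => stepE W η 1 b f)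
      (fun f => ∫ ζ, heat (1 / 2) f (Y ζ) ∂gam (V' × Fin d)) r)
    {τ : E d → ι → ℝ} (hτ : τ.HasTemperateGrowth) {L M : ℝ} (hL : 0 < L)
    (hM : ∀ y, nrm (τ y) ≤ M)
    (hl : ∀ B y y', |B ⬝ᵥ τ y - B ⬝ᵥ τ y'| ≤ L * nrm B * nrm (y - y')) :
    ENNReal.ofReal (nrm (stepE W η 1 b τ - ∫ ζ, heat (1 / 2) τ (Y ζ) ∂gam (V' × Fin d))) ≤
        ENNReal.ofReal L * r ∧
      nrm (stepE W η 1 b τ - ∫ ζ, heat (1 / 2) τ (Y ζ) ∂gam (V' × Fin d)) ≤ 2 * M := by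
  set Δ := stepE W η 1 b τ - ∫ ζ, heat (1 / 2) τ (Y ζ) ∂gam (V' × Fin d) with hΔ
  have key : ∀ B, B ⬝ᵥ Δ = stepE W η 1 b (fun y => B ⬝ᵥ τ y) -
      ∫ ζ, heat (1 / 2) (fun y => B ⬝ᵥ τ y) (Y ζ) ∂gam (V' × Fin d) := fun B => by
    rw [hΔ, dotProduct_sub, dot_stepE hW (PG.of_temp hτ),
      dot_integral (f := fun ζ => heat (1 / 2) τ (Y ζ))
        (temp_integrable ((temp_heat hτ _).comp hY))]
    simp only [dot_heat (PG.of_temp hτ)]
  have hb : ∀ B y, |B ⬝ᵥ τ y| ≤ nrm B * M := fun B y =>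
    (abs_dot_le _ _).trans (mul_le_mul_of_nonneg_left (hM y) (nrm_nonneg _))
  constructor
  · rcases (nrm_nonneg Δ).eq_or_lt with h0 | h0
    · rw [← h0, ENNReal.ofReal_zero]
      exact zero_le
    have := h.lip (fun c f => stepE_smul W η 1 b c f)
      (fun c f => by
        rw [← integral_const_mul]
        exact congrArg _ (funext fun ζ => heat_smul c f _ _))
      (mul_pos hL h0) ⟨_, hb Δ⟩ (hl Δ)
    rw [← key, dot_self, abs_of_nonneg (sq_nonneg _), sq, ENNReal.ofReal_mul h0.le, mul_comm L,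
      ENNReal.ofReal_mul h0.le, mul_assoc] at this
    exact (ENNReal.mul_le_mul_iff_right (ENNReal.ofReal_pos.2 h0).ne' ENNReal.ofReal_ne_top).1 this
  · refine nrm_le_of_dot (by linarith [(nrm_nonneg _).trans (hM 0)]) fun u => ?_
    have h1 := abs_stepE_le hW zero_le_one hη b (hb u)
    have h2 := abs_integral_le (κ := V' × Fin d)
      (f := fun ζ => heat (1 / 2) (fun y => u ⬝ᵥ τ y) (Y ζ)) fun ζ => abs_integral_le fun g => hb u _
    rw [key]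
    linarith [(abs_le.1 h1).2, (abs_le.1 h2).1]

theorem split_bound {X c Pr A L M a₁ a₂ : ℝ} {r : ℝ≥0∞} (hX : 0 ≤ X) (hA : 0 < A)
    (h1 : ENNReal.ofReal X ≤ ENNReal.ofReal L * r) (h2 : X ≤ 2 * M) (h3 : |c| * L ≤ a₁)
    (h4 : |c| * M ≤ a₂) :
    ENNReal.ofReal (|c| * (X * Pr)) ≤
      ENNReal.ofReal (A * a₁) * r + ENNReal.ofReal (2 * a₂ / A * Pr ^ 2) := by
  have hc := abs_nonneg c
  have e1 : Pr ≤ A + Pr ^ 2 / A := by
    rw [← sub_le_iff_le_add', le_div_iff₀ hA]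
    nlinarith [sq_nonneg (Pr - A), sq_nonneg Pr, sq_nonneg A]
  have e2 : |c| * X ≤ 2 * a₂ := by nlinarith [mul_le_mul_of_nonneg_left h2 hc]
  have e3 : |c| * (X * Pr) ≤ A * |c| * X + 2 * a₂ / A * Pr ^ 2 := by
    have := mul_le_mul_of_nonneg_left e1 (mul_nonneg hc hX)
    have := mul_le_mul_of_nonneg_right e2 (div_nonneg (sq_nonneg Pr) hA.le)
    rw [div_mul_eq_mul_div, mul_div_assoc]
    nlinarith
  refine (ENNReal.ofReal_le_ofReal e3).trans (ENNReal.ofReal_add_le.trans (add_le_add ?_ le_rfl))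
  rw [ENNReal.ofReal_mul (mul_nonneg hA.le hc)]
  refine (mul_le_mul_right h1 _).trans ?_
  rw [← mul_assoc, ← ENNReal.ofReal_mul (mul_nonneg hA.le hc), mul_assoc]
  exact mul_le_mul_left (ENNReal.ofReal_le_ofReal (mul_le_mul_of_nonneg_left h3 hA.le)) _

theorem lint_bound {Ω : Type} [MeasurableSpace Ω] {μ : Measure Ω} {e r : Ω → ℝ≥0∞}
    (hr : Measurable r) {Pr : Ω → ℝ} {s t ε Z : ℝ} (hs : 0 ≤ s) (ht : 0 ≤ t) (hε : 0 ≤ ε)
    (hZ : 0 ≤ Z) (h0 : ∀ x, 0 ≤ Pr x)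
    (h : ∀ x, e x ≤ ENNReal.ofReal s * r x + ENNReal.ofReal (t * Pr x ^ 2))
    (h1 : ∫⁻ x, r x ∂μ ≤ ENNReal.ofReal ε) (h2 : LpLe μ 2 Pr Z) :
    ∫⁻ x, e x ∂μ ≤ ENNReal.ofReal (s * ε + t * Z ^ 2) := by
  refine (lintegral_mono h).trans ?_
  rw [lintegral_add_left (hr.const_mul _), lintegral_const_mul _ hr,
    ENNReal.ofReal_add (mul_nonneg hs hε) (mul_nonneg ht (sq_nonneg _)), ENNReal.ofReal_mul hs]
  exact add_le_add (mul_le_mul_right h1 _)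
    ((LpLe.pow (p := 1) (k := 2) h2 h0 hZ).const_mul ht).one

theorem nrm_tau_le {m : ℕ} (hW : Adm δ G W) (η : ℝ) (y : E d) {A : ℝ}
    (hA : opN (tau W η y : Ten d (Option (Fin m))) ≤ A) :
    nrm (tau W η y : Ten d (Option (Fin m))) ≤ G + √d * A := by
  have h0 := (opN_nonneg _).trans hA
  have h1 := nrm_tau1_le hW η y
  cases m with
  | zero =>
    rw [tau, ← jet_reix (contDiff_Phi hW η) (Equiv.ofUnique Unit (Option (Fin 0))), nrm_reix,
      ← nrm_vec, vec_jet]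
    exact h1.trans (le_add_of_nonneg_right (by positivity))
  | succ m =>
    exact ((nrm_le_sqrt_mul_opN _).trans (mul_le_mul_of_nonneg_left hA (Real.sqrt_nonneg _))).trans
      (le_add_of_nonneg_left ((nrm_nonneg _).trans h1))

theorem decomp {Ω κ : Type} [MeasurableSpace Ω] {μ : Measure Ω} [Fintype κ] {A : Ω → E d}
    {Bs : κ → Ω → E d} (hA : Integrable A μ) (hB : ∀ s, Integrable (Bs s) μ) (c : ℝ) (w : κ → ℝ) :
    ∫ ζ, c • (A ζ - ∑ s, w s • Bs s ζ) ∂μ =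
      ∫ ζ, c • A ζ ∂μ - ∑ s, (c * w s) • ∫ ζ, Bs s ζ ∂μ := by
  have h : ∀ s ∈ Finset.univ, Integrable (fun ζ => w s • Bs s ζ) μ := fun s _ => (hB s).smul (w s)
  rw [integral_smul, integral_smul, integral_sub hA (integrable_finsetSum _ h),
    integral_finsetSum _ h, smul_sub, Finset.smul_sum]
  simp only [integral_smul, smul_smul]

theorem lint_three {Ω : Type} [MeasurableSpace Ω] {μ : Measure Ω} {e e₁ e₂ e₃ : Ω → ℝ≥0∞}
    (h₁ : Measurable e₁) (h₃ : Measurable e₃) (h : ∀ x, e x ≤ e₁ x + e₂ x + e₃ x) {a₁ a₂ a₃ : ℝ}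
    (b₁ : ∫⁻ x, e₁ x ∂μ ≤ ENNReal.ofReal a₁) (b₂ : ∫⁻ x, e₂ x ∂μ ≤ ENNReal.ofReal a₂)
    (b₃ : ∫⁻ x, e₃ x ∂μ ≤ ENNReal.ofReal a₃) {a : ℝ} (c₁ : a₁ ≤ a) (c₂ : a₂ ≤ a) (c₃ : a₃ ≤ a) :
    ∫⁻ x, e x ∂μ ≤ ENNReal.ofReal (3 * a) := by
  refine (lintegral_mono h).trans ?_
  rw [lintegral_add_right _ h₃, lintegral_add_left h₁, ENNReal.ofReal_mul (by norm_num),
    ENNReal.ofReal_ofNat, show (3 : ℝ≥0∞) = 1 + 1 + 1 by norm_num, add_mul, add_mul, one_mul]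
  exact add_le_add (add_le_add (b₁.trans (ENNReal.ofReal_le_ofReal c₁))
    (b₂.trans (ENNReal.ofReal_le_ofReal c₂))) (b₃.trans (ENNReal.ofReal_le_ofReal c₃))

theorem elim_mem {V V' : Type} {F : Submodule ℝ (V → ℝ)} {z : V → ℝ} (hz : z ∈ F) :
    (Sum.elim z 0 : V ⊕ V' → ℝ) ∈ inlF V' F := ⟨hz, fun _ => rfl⟩

theorem ren_assoc {V V' V'' : Type} (x : Om d V) (y : Om d V') (z : Om d V'') :
    ren (Equiv.sumAssoc V V' V'') (join x (join y z)) = join (join x y) z := by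
  funext ⟨q, i⟩
  rcases q with (q | q) | q <;> rfl

theorem pow_D_le {P : Par} (hP : P.Base) {Ms : ℕ} (h : P.D * P.th ^ Ms ≤ 1) (n : ℕ) :
    P.D ^ n * P.th ^ (Ms * n) ≤ 1 := by
  rw [pow_mul, ← mul_pow]
  exact pow_le_one₀ (mul_nonneg (by linarith [hP.one_le_D]) (pow_nonneg hP.th_pos.le _)) h

end Crest.Agent.R285.StepDAux

end
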