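import Crest.Agent.R285.StepC
import Crest.Agent.R285.TLem
import Crest.Agent.R285.PPMem
import Crest.Agent.R285.StepDAux

/-!
Reduction of a vector member to averages of members of smaller amplitude and of smoothed
gradients at base points.

`nf` gives `vec T = c • app (tau η (b x)) legs` (`S = Option (Fin m)`).
* `stepB` (with `B + Ms n` in place of `B`; `nrm_app_le`, `ev_legs_prod`, `D th^Ms ≤ 1`) replaces `c • tau η (b x)`
  by `c • stepE η 1 (b x) (tau (η-1)) + ∫ H`; `app_legs` (with `Legs.exists_inl`) for the `H` part.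
* `step_T`: `tlemma` (amplitude `β th`) is applied to the test functions `y ↦ B ⬝ᵥ tau (η-1) y`, `B = u ⊗ legs`,
  which are bounded and Lipschitz with constant `C δ |u| ∏ |legs|` (`abs_dot_jet_sub_le`, `tau_op`, `Near.lip`).
  With `Π x = ∏ |legs|` the error at `x` is at most `|c| C δ Π r x`, and also at most `2 C a D Π`
  (`nrm_le_sqrt_mul_opN`, or `nrm_tau1_le` if `m = 0`); so it is at most
  `C a (A r x + 2 D Π² / A)` for `A = th^(-B₁)`.
* `Bas.extend`, `Legs.exists_inl`, `stepC` on `V ⊕ V'`; reassociate `(V ⊕ V') ⊕ V2` (`Bas.ren`, `integral_join`,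
  `nrm_integral_le`, `lintegral_join`).
-/

set_option autoImplicit false

open MeasureTheory ProbabilityTheory Matrix Filter
open scoped ENNReal

noncomputable section

namespace Crest.Agent.R285

open StepDAux

theorem step_T (J Ms R n B : ℕ) : ∃ n' C : ℕ, ∀ᶠ P in LL J Ms, ∀ β δ G : ℝ, Cl P β δ G →
    Cl0 P R δ G → P.th ^ R ≤ β * P.th ^ 2 → ∀ (V : Type) [Fintype V] (m : ℕ)
      (F : Submodule ℝ (V → ℝ)) (b : Pot P.d δ G → E P.d → Om P.d V → E P.d)
      (g : Legs P β δ G V n m) (η c a : ℝ), m ≤ n → Bas P β δ G V n β F b → P.Q - n ≤ η →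
      η ≤ P.Q → |c| * δ ≤ a → |c| * G ≤ a * P.D →
      ∃ (V' : Type) (_ : Fintype V') (b' : Pot P.d δ G → E P.d → Om P.d (V ⊕ V') → E P.d),
        (Fintype.card V' : ℝ) ≤ P.K ^ n' ∧ Bas P β δ G (V ⊕ V') n' β (inlF V' F) b' ∧ ∀ W p,
          ∫⁻ x, ENNReal.ofReal (nrm (c • app (stepE W.1 η 1 (b W p x)
              fun y => (tau W.1 (η - 1) y : Ten P.d (Option (Fin m)))) (g.v W p x) -
              ∫ ζ, c • app (heat (1 / 2) (fun y => (tau W.1 (η - 1) y : Ten P.d (Option (Fin m))))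
                (b' W p (join x ζ))) (g.v W p x) ∂gam (V' × Fin P.d)))
            ∂gam (V × Fin P.d) ≤ ENNReal.ofReal (P.K ^ C * a * P.th ^ B * P.D) := by
  obtain ⟨Cτ, hC1, hτ⟩ := NormAux.tau_le (n + 2)
  obtain ⟨Ex, hEx⟩ := ev_legs_prod J Ms n
  obtain ⟨n₁, C₁, hT⟩ := tlemma J Ms R n (B + (B + Ms * (n * 2)))
  refine ⟨max n n₁ + 1, C₁ + Ex * 2 + 1, ?_⟩
  filter_upwards [ev_base, ev_ge (n + 2), ev_ge (5 * Cτ), ev_pow_th 1, ev_D, hEx 2, hT]
    with P hP k1 k2 k3 k4 k5 k6 β δ G hc hc0 hR V _ m F b g η c a hm hb hη hη' ha ha'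
  have hth := hP.th_pos
  have hth1 := hP.th_le
  have hK := hP.one_le_K
  have hD := hP.one_le_D
  have hβ := hc.β_pos
  have hδ := hc.δ_pos
  have ha0 : 0 ≤ a := (mul_nonneg (abs_nonneg c) hδ.le).trans ha
  obtain ⟨V', _, l', T', h1, h2, h3, h4⟩ := k6 β δ G hc hc0 (β * P.th)
    (by rw [mul_assoc, ← sq]; exact hR) le_rfl V F b η hb hη hη'
  refine ⟨V', inferInstance, _, h1.trans (pow_le_pow_right₀ hK (by omega)),
    (hb.mono hP hβ (le_max_left n n₁) le_rfl le_rfl le_rfl le_rfl).extend hP hβ l' h2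
      (h3.mono hP hβ (le_max_right n n₁) (by nlinarith) le_rfl le_rfl le_rfl), fun W p => ?_⟩
  obtain ⟨r, r1, r2, r3⟩ := h4 W p
  simp only [ren_inl_join, ren_inr_join]
  have hη1 : 1 ≤ η - 1 := by linarith [hP.K_le]
  have hsm : Cτ * (η - 1) * δ ≤ 1 := by
    have e1 : (η - 1) * δ ≤ P.th := (mul_le_mul_of_nonneg_right (by linarith) hδ.le).trans hc.δ_le
    rw [pow_one] at k3
    rw [mul_assoc]
    nlinarith [mul_le_mul (show Cτ ≤ P.K by linarith) e1 (by positivity) (by linarith)]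
  have hop := hτ P.d δ G W.1 W.2 hδ.le (η - 1) hη1 hsm
  have htm : (fun y => (tau W.1 (η - 1) y : Ten P.d (Option (Fin m)))).HasTemperateGrowth :=
    temp_tau W.2 _
  have hA : 0 < (P.th ^ (B + Ms * (n * 2)))⁻¹ := by positivity
  refine (lint_bound (s := (P.th ^ (B + Ms * (n * 2)))⁻¹ * (Cτ * a))
    (t := 2 * (2 * Cτ * a * P.D) / (P.th ^ (B + Ms * (n * 2)))⁻¹) r1 (by positivity)
    (by positivity) (by positivity) (by positivity)
    (fun x => Finset.prod_nonneg fun i _ => nrm_nonneg _) (fun x => ?_) r2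
    (k5 β δ G hc V m hm g W p)).trans (ENNReal.ofReal_le_ofReal ?_)
  · have hY : (fun ζ => b W p x + lin l' ζ + vec (T' W p (join x ζ))).HasTemperateGrowth :=
      ((Function.HasTemperateGrowth.const _).add (temp_lin l')).add
        (temp_vec ((h3.temp W p).comp (temp_join_right x)))
    obtain ⟨e1, e2⟩ := near_vec W.2 (by linarith) (b W p x) hY (r3 x) htm (L := Cτ * δ)
      (by positivity) (fun y => nrm_tau_le W.2 _ y (hop _ (by simp; omega) y))
      (abs_dot_jet_sub_le (contDiff_Phi W.2 _) (hop _ (by simp; omega)))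
    refine le_trans (ENNReal.ofReal_le_ofReal ?_) (split_bound (c := c)
      (Pr := ∏ i, nrm (g.v W p x i)) (nrm_nonneg _) hA e1 e2 ?_ ?_)
    · rw [integral_smul, ← smul_sub, nrm_smul]
      refine mul_le_mul_of_nonneg_left (le_trans (le_of_eq ?_) (nrm_app_le _ _)) (abs_nonneg c)
      simp only [appL_apply]
      rw [map_sub]
      exact congrArg (fun z => nrm (_ - z))
        ((appL _).integral_comp_comm (temp_integrable ((temp_heat htm _).comp hY)))
    · rw [mul_left_comm]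
      exact mul_le_mul_of_nonneg_left ha (by linarith)
    · have e3 := mul_le_mul (NormAux.sqrt_le_D hP) ha (by positivity) (by linarith)
      have e4 := mul_le_mul_of_nonneg_left e3 (show 0 ≤ Cτ by linarith)
      have e5 := mul_le_mul_of_nonneg_right hC1 (show 0 ≤ a * P.D by positivity)
      nlinarith
  · have e1 := pow_D_le hP k4 (n * 2)
    have e2 : P.K ^ C₁ ≤ P.K ^ (C₁ + Ex * 2) := pow_le_pow_right₀ hK (by omega)
    have e3 : P.K ^ (Ex * 2) ≤ P.K ^ (C₁ + Ex * 2) := pow_le_pow_right₀ hK (by omega)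
    calc _ = (Cτ * P.K ^ C₁ + 4 * Cτ * (P.K ^ (Ex * 2) * (P.D ^ (n * 2) * P.th ^ (Ms * (n * 2))))) *
          (a * P.th ^ B * P.D) := by
          rw [pow_add, pow_add]
          field_simp
          ring
      _ ≤ (Cτ * P.K ^ (C₁ + Ex * 2) + 4 * Cτ * (P.K ^ (C₁ + Ex * 2) * 1)) *
          (a * P.th ^ B * P.D) := by gcongr
      _ = 5 * Cτ * P.K ^ (C₁ + Ex * 2) * (a * P.th ^ B * P.D) := by ring
      _ ≤ P.K * P.K ^ (C₁ + Ex * 2) * (a * P.th ^ B * P.D) := by gcongr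
      _ = _ := by ring

theorem stepD (J Ms R n B : ℕ) : ∃ n' C : ℕ, ∀ᶠ P in LL J Ms, ∀ β δ G : ℝ, Cl P β δ G → β ≤ P.th →
    Cl0 P R δ G → P.th ^ R ≤ β * P.th ^ 2 → ∀ (V : Type) [Fintype V] (a : ℝ)
      (F : Submodule ℝ (V → ℝ)) (T : Fam P δ G V Unit), Mem P β δ G V n Unit a F T →
      ∃ (V1 : Type) (_ : Fintype V1) (H : Fam P δ G (V ⊕ V1) Unit) (κ : Type) (_ : Fintype κ)
        (V2 : Type) (_ : Fintype V2) (c : κ → ℝ) (η : ℝ)
        (bs : κ → Pot P.d δ G → E P.d → Om P.d (V ⊕ V2) → E P.d),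
        (Fintype.card V1 : ℝ) ≤ P.K ^ n' ∧ SMem P β δ G (V ⊕ V1) n' Unit (a * P.th ^ R / β) ⊥ H ∧
        (Fintype.card κ : ℝ) ≤ P.K ∧ (Fintype.card V2 : ℝ) ≤ P.K ^ n' ∧
        (∀ s, |c s| * δ ≤ P.K ^ n' * a ∧ |c s| * G ≤ P.K ^ n' * a * P.D) ∧
        P.Q - n' ≤ η ∧ η ≤ P.Q ∧ (∀ s, Bas P β δ G (V ⊕ V2) n' β ⊥ (bs s)) ∧ ∀ W p,
          ∫⁻ x, ENNReal.ofReal (nrm (vec (T W p x) -
              (∫ ξ, vec (H W p (join x ξ)) ∂gam (V1 × Fin P.d) +
              ∑ s, ∫ ξ, c s • heat (1 / 4) (tau1 W.1 η) (bs s W p (join x ξ)) ∂gam (V2 × Fin P.d))))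
            ∂gam (V × Fin P.d) ≤ ENNReal.ofReal (P.K ^ C * P.th ^ B * P.D) := by
  obtain ⟨n₀, h₀⟩ := nf n
  obtain ⟨n₁, h₁⟩ := stepB J Ms R n₀ (B + Ms * n₀)
  obtain ⟨n₃, h₃⟩ := app_legs (n₀ + n₁)
  obtain ⟨n₄, C₄, h₄⟩ := step_T J Ms R n₀ B
  obtain ⟨n₆, C₆, h₆⟩ := stepC J Ms (n₀ + n₄) B
  obtain ⟨Ex, hEx⟩ := ev_legs_prod J Ms n₀
  refine ⟨n₀ + n₁ + n₃ + n₄ + n₆ + 1, Ex + 1 + C₄ + C₆ + 1, ?_⟩
  filter_upwards [ev_base, ev_ge 3, ev_D, h₁, h₄, h₆, hEx 1]
    with P hP k1 k2 k3 k4 k5 k6 β δ G hc hβth hc0 hR V _ a F T hT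
  have hth := hP.th_pos
  have hth1 := hP.th_le
  have hK := hP.one_le_K
  have hD := hP.one_le_D
  have hβ := hc.β_pos
  have hG := hc.G_nonneg
  obtain ⟨ha0, haβ⟩ := hT.amp hβ
  have hRβ : P.th ^ R ≤ β := hR.trans (mul_le_of_le_one_right hβ.le (by nlinarith))
  have ham : a * P.th ^ R / β ≤ β := by
    rw [div_le_iff₀ hβ]
    exact mul_le_mul haβ hRβ (by positivity) hβ.le
  have hKp : ∀ i j : ℕ, i ≤ j → P.K ^ i ≤ P.K ^ j := fun i j h => pow_le_pow_right₀ hK h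
  obtain ⟨m, c, η, Fb, b, g, hm, hη, hη', hb, hz, ha, ha', hv⟩ := h₀ P hP β δ G hβ V a F T hT
  obtain ⟨V1, _, H0, a1, a2, a3⟩ := k3 β δ G hc hc0 hRβ V Fb b (Option (Fin m)) c η a
    (by simpa using hm) hb hη hη' ha0 haβ ha ha'
  obtain ⟨g₁, g1, g2⟩ := g.exists_inl V1
  obtain ⟨g₂, g3, g4⟩ := g₁.exists_mono hK (Nat.le_add_right n₀ n₁)
  obtain ⟨H, b1, b2⟩ := h₃ P hP β δ G hβ (V ⊕ V1) m (by omega) _ _ H0 g₂
    (a2.mono hP hβ (by omega) le_rfl ham le_rfl le_rfl) fun i => by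
      rw [g3, g1]
      exact elim_mem (hz i)
  obtain ⟨V', _, b', c1, c2, c3⟩ := k4 β δ G hc hc0 hR V m Fb b g η c a hm hb hη hη' ha ha'
  obtain ⟨g₃, g5, g6⟩ := g.exists_inl V'
  obtain ⟨g₄, g7, g8⟩ := g₃.exists_mono hK (Nat.le_add_right n₀ n₄)
  obtain ⟨κ, _, V2, _, w, bs, d1, d2, d3, d4, d5⟩ := k5 β δ G hc hβth (V ⊕ V') m _ b' g₄ (η - 1)
    (by omega) (c2.mono hP hβ (by omega) le_rfl le_rfl le_rfl le_rfl) fun i => by
      rw [g7, g5]
      exact elim_mem (hz i)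
  refine ⟨V1, inferInstance, H, κ, inferInstance, V' ⊕ V2, inferInstance, fun s => c * w s, η - 1,
    fun s W p y => bs s W p (ren (Equiv.sumAssoc V V' V2) y), a1.trans (hKp _ _ (by omega)),
    b1.mono hP hβ (by omega) le_rfl ham le_rfl le_rfl, d1, ?_, fun s => ?_, ?_, by linarith,
    fun s => ((d4 s).ren _ (Equiv.injective _) fun z hz => ?_).mono hP hβ (by omega) le_rfl le_rfl
      le_rfl le_rfl, fun W p => ?_⟩
  · have e1 := hKp n₄ (n₀ + n₁ + n₃ + n₄ + n₆) (by omega)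
    have e2 := hKp n₆ (n₀ + n₁ + n₃ + n₄ + n₆) (by omega)
    have e3 := mul_le_mul_of_nonneg_left hP.two_le (pow_nonneg (zero_le_one.trans hK)
      (n₀ + n₁ + n₃ + n₄ + n₆))
    rw [Fintype.card_sum, Nat.cast_add, pow_succ]
    linarith
  · have e1 := (d3 s).trans (hKp n₆ (n₀ + n₁ + n₃ + n₄ + n₆ + 1) (by omega))
    rw [abs_mul, mul_comm |c|, mul_assoc, mul_assoc, mul_assoc]
    exact ⟨mul_le_mul e1 ha (mul_nonneg (abs_nonneg c) hc.δ_pos.le) (by positivity),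
      mul_le_mul e1 ha' (mul_nonneg (abs_nonneg c) hG) (by positivity)⟩
  · push_cast
    have := Nat.cast_nonneg (α := ℝ) (n₁ + n₃ + n₄ + n₆)
    push_cast at this
    linarith
  · rw [(Submodule.mem_bot ℝ).1 hz]
    exact zero_mem _
  have t1 : (fun z => app (heat (1 / 2) (fun y => (tau W.1 (η - 1) y : Ten P.d (Option (Fin m))))
      (b' W p z)) (g₄.v W p z)).HasTemperateGrowth :=
    temp_app ((temp_heat (temp_tau W.2 _) _).comp (c2.temp W p)) (g₄.temp W p)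
  have t2 : ∀ s, (fun z => heat (1 / 4) (tau1 W.1 (η - 1)) (bs s W p z)).HasTemperateGrowth :=
    fun s => (temp_heat (temp_tau1 W.2 _) _).comp ((d4 s).temp W p)
  have t3 : ∀ s, (fun z => ∫ ξ, heat (1 / 4) (tau1 W.1 (η - 1)) (bs s W p (join z ξ))
      ∂gam (V2 × Fin P.d)).HasTemperateGrowth := fun s =>
    temp_integral (Ψ := fun q : Om P.d (V ⊕ V') × Om P.d V2 =>
      heat (1 / 4) (tau1 W.1 (η - 1)) (bs s W p (join q.1 q.2))) ((t2 s).comp temp_join)
  have t4 := (measurable_nrm.comp (t1.sub (Function.HasTemperateGrowth.sum (s := Finset.univ)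
    fun s _ => (Function.HasTemperateGrowth.const (w s)).smul (t3 s))).1.continuous.measurable
      ).ennreal_ofReal.const_mul (ENNReal.ofReal |c|)
  have hX : 0 ≤ P.th ^ B * P.D := by positivity
  refine (lint_three (e₁ := fun x => ENNReal.ofReal (P.K * a * P.th ^ (B + Ms * n₀) * P.D *
      ∏ i, nrm (g.v W p x i)))
    (e₃ := fun x => ∫⁻ ζ, ENNReal.ofReal |c| * ENNReal.ofReal (nrm (app (heat (1 / 2)
        (fun y => (tau W.1 (η - 1) y : Ten P.d (Option (Fin m)))) (b' W p (join x ζ)))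
        (g₄.v W p (join x ζ)) - ∑ s, w s • ∫ ξ, heat (1 / 4) (tau1 W.1 (η - 1))
          (bs s W p (join (join x ζ) ξ)) ∂gam (V2 × Fin P.d))) ∂gam (V' × Fin P.d))
    (a₃ := |c| * (P.K ^ C₆ * P.th ^ B * G))
    (a := P.K ^ (Ex + 1 + C₄ + C₆) * (P.th ^ B * P.D)) ?_
    (t4.comp temp_join.1.continuous.measurable).lintegral_prod_right' (fun x => ?_)
    ((k6 β δ G hc V m hm g W p).const_mul (by positivity)).one (c3 W p) ?_ ?_ ?_ ?_).trans
      (ENNReal.ofReal_le_ofReal ?_)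
  · exact ((Finset.measurable_prod _ fun i _ => measurable_nrm.comp ((measurable_pi_apply i).comp
      (g.temp W p).1.continuous.measurable)).const_mul _).ennreal_ofReal
  · have u1 : ∫ ξ, vec (H W p (join x ξ)) ∂gam (V1 × Fin P.d) =
        app (∫ ξ, H0 W p (join x ξ) ∂gam (V1 × Fin P.d)) (g.v W p x) := by
      simp only [b2, g4, g2, ren_inl_join, appL_apply]
      exact (appL _).integral_comp_comm (temp_integrable ((a2.temp W p).comp (temp_join_right x)))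
    have u2 : ∀ s, ∫ ξ, (c * w s) • heat (1 / 4) (tau1 W.1 (η - 1))
        (bs s W p (ren (Equiv.sumAssoc V V' V2) (join x ξ))) ∂gam ((V' ⊕ V2) × Fin P.d) =
        (c * w s) • ∫ ζ, ∫ ξ, heat (1 / 4) (tau1 W.1 (η - 1)) (bs s W p (join (join x ζ) ξ))
          ∂gam (V2 × Fin P.d) ∂gam (V' × Fin P.d) := fun s => by
      rw [integral_smul, integral_join (h := fun ξ => heat (1 / 4) (tau1 W.1 (η - 1))
        (bs s W p (ren (Equiv.sumAssoc V V' V2) (join x ξ))))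
        (PG.of_temp ((t2 s).comp ((temp_ren _).comp (temp_join_right x))))]
      simp only [ren_assoc]
    have u3 := decomp (temp_integrable (t1.comp (temp_join_right x)))
      (fun s => temp_integrable ((t3 s).comp (temp_join_right x))) c w
    have u4 := nrm_integral_le (gam (V' × Fin P.d)) fun ζ => c • (app (heat (1 / 2)
        (fun y => (tau W.1 (η - 1) y : Ten P.d (Option (Fin m)))) (b' W p (join x ζ)))
        (g₄.v W p (join x ζ)) - ∑ s, w s • ∫ ξ, heat (1 / 4) (tau1 W.1 (η - 1))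
          (bs s W p (join (join x ζ) ξ)) ∂gam (V2 × Fin P.d))
    have u5 := (nrm_app_le _ (g.v W p x)).trans (mul_le_mul_of_nonneg_right (a3 W p x)
      (Finset.prod_nonneg fun i _ => nrm_nonneg _))
    simp only [Function.comp_apply] at u3
    rw [u3] at u4
    simp only [nrm_smul, ENNReal.ofReal_mul (abs_nonneg c)] at u4
    refine le_trans (ENNReal.ofReal_le_ofReal ?_) (ENNReal.ofReal_add_le.trans (add_le_add
      (ENNReal.ofReal_add_le.trans (add_le_add (ENNReal.ofReal_le_ofReal u5) le_rfl)) u4))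
    refine le_trans (le_of_eq (congrArg nrm ?_))
      ((nrm_add_le _ _).trans (add_le_add (nrm_add_le _ _) le_rfl))
    simp only [u1, u2, hv, g8, g6, ren_inl_join, appL_apply, map_sub, map_smul]
    abel
  · refine (lintegral_join t4).symm.trans_le ?_
    rw [lintegral_const_mul' _ _ ENNReal.ofReal_ne_top, ENNReal.ofReal_mul (abs_nonneg c)]
    exact mul_le_mul_right (d5 W p) _
  · have e1 := pow_D_le hP k2 n₀
    have e2 := hKp (Ex + 1) (Ex + 1 + C₄ + C₆) (by omega)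
    calc _ = P.K ^ (Ex + 1) * (a * (P.D ^ n₀ * P.th ^ (Ms * n₀))) * (P.th ^ B * P.D) := by ring
      _ ≤ P.K ^ (Ex + 1 + C₄ + C₆) * (1 * 1) * (P.th ^ B * P.D) := by
          gcongr
          linarith
      _ = _ := by ring
  · have e2 := hKp C₄ (Ex + 1 + C₄ + C₆) (by omega)
    calc _ = P.K ^ C₄ * a * (P.th ^ B * P.D) := by ring
      _ ≤ P.K ^ (Ex + 1 + C₄ + C₆) * 1 * (P.th ^ B * P.D) := by
          gcongr
          linarith
      _ = _ := by ring
  · have e2 := hKp C₆ (Ex + 1 + C₄ + C₆) (by omega)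
    calc _ = P.K ^ C₆ * (P.th ^ B * (|c| * G)) := by ring
      _ ≤ P.K ^ (Ex + 1 + C₄ + C₆) * (P.th ^ B * P.D) := by
          gcongr
          exact ha'.trans (mul_le_of_le_one_left (by linarith) (by linarith))
  · calc _ ≤ P.K * (P.K ^ (Ex + 1 + C₄ + C₆) * (P.th ^ B * P.D)) := by gcongr
      _ = _ := by ring

end Crest.Agent.R285

end
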