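import Crest.Agent.R285.MainC
import Crest.Agent.R285.StepD

/-!
The induction step on the amplitude, and the ladder step.

`RA_step`: `stepD` with `β = th^b`; `mean_rz` with noise `1/2` for `H` (amplitude `th^a th^R / th^b ≤ th^(a+4)`,
`SMem.mono`); for each `s`, `node_mean` with `σ = 1/4`, `τ₁ = 1/(2K)`, `τ₂ = 1/(4K) ≥ th` and `oracle_rz`;
`Rz.heat_sum`, `Rz.heat_add`, `Rz.heat_more`, `Rz.heat_near`.

`step_rz_of`: `tlemma` for `Bas.param` with `β = th^b`, amplitude `th^(a+1)`; `Bas.extend` (amplitude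
`th^(a+1)`), `rz_bas` with noise `1/2`, `Rz.mix`, `Rz.near`.
-/

set_option autoImplicit false

open MeasureTheory ProbabilityTheory Matrix Filter
open scoped ENNReal

noncomputable section

namespace Crest.Agent.R285

variable {J Ms R B0 a a' b b' B B' c : ℕ}

theorem RA_step (h1 : RA J Ms R B0 b (a + 1) B c) (h2 : RA J Ms R B0 b' a' B' c) (hb' : b' ≤ a')
    (hb : b = a' + 1) (ha : b + 10 ≤ a) (hB : B ≤ B' + b) (hR : b + 4 ≤ R) (hB0 : B ≤ B0) :
    RA J Ms R B0 b a B (c + 1) := by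
  intro n
  obtain ⟨n', C₁, hD⟩ := stepD J Ms R n B
  obtain ⟨C₂, hM⟩ := mean_rz h1 (by omega) (by omega) n'
  obtain ⟨C₃, hN⟩ := node_mean h1 h2 hb' hb ha hB (by omega) n'
  obtain ⟨C₄, hO⟩ := oracle_rz h1 h2 hb' hb ha hB hR hB0
  obtain ⟨M, hMd⟩ : ∃ M, M = C₁ + C₂ + C₃ + C₄ := ⟨_, rfl⟩
  refine ⟨M + 3, ?_⟩
  filter_upwards [ev_base, ev_ge (2 * n'), ev_pow_th n', ev_pow_th 3, hD, hM, hN, hO] with P hP hKn
    hth1 hth3 hD hM hN hO δ G hCl0 V _ F T hT
  have hK := hP.one_le_K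
  have hK2 := hP.two_le
  have hKQ := hP.K_le
  have hQ := hP.one_le_Q
  have hth0 := hP.th_pos
  have hth := hP.th_le
  have hth' : P.th ≤ 1 := by linarith
  have hD1 := hP.one_le_D
  have hβ : 0 < P.th ^ b := by positivity
  have pw : ∀ {i j : ℕ}, i ≤ j → P.th ^ j ≤ P.th ^ i := fun h =>
    pow_le_pow_of_le_one hth0.le hth' h
  obtain ⟨V1, _, H, κ, _, V2, _, cs, η, bs, hV1, hH, hκ, hV2, hcs, hη, hη', hbs, hnear⟩ :=
    hD (P.th ^ b) δ G (hCl0.cl hP (by omega) b) (by simpa using pw (i := 1) (j := b) (by omega))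
      hCl0 (by rw [← pow_add]; exact pw (by omega)) V (P.th ^ a) F T hT
  have hH' : SMem P (P.th ^ b) δ G (V ⊕ V1) n' Unit (P.th ^ (a + 4)) ⊥ H := by
    refine hH.mono hP hβ le_rfl ?_ (pw (by omega)) le_rfl le_rfl
    rw [div_le_iff₀ hβ, ← pow_add, ← pow_add]
    exact pw (by omega)
  have r1 := hM δ G hCl0 V V1 H hH' hV1 (1 / 2) hth (by norm_num)
  have hK0 : 0 < P.K := by linarith
  have hK4 : 4 * P.K ≤ P.K ^ 3 := by
    have h4 : 4 ≤ P.K ^ 2 := by nlinarith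
    calc 4 * P.K ≤ P.K ^ 2 * P.K := mul_le_mul_of_nonneg_right h4 hK0.le
      _ = _ := by ring
  have hτ₂ : P.th ≤ 1 / (4 * P.K) := by
    rw [le_div_iff₀ (by positivity), mul_comm]
    exact (mul_le_mul_of_nonneg_right hK4 hth0.le).trans hth3
  have hτ₂' : 1 / (4 * P.K) ≤ 1 := by
    rw [div_le_one (by positivity)]; linarith
  have hτ₁ : 1 / (2 * P.K) ≤ 1 := by
    rw [div_le_one (by positivity)]; linarith
  have hτ : 1 / (4 * P.K) + P.th ^ 4 ≤ 1 / (2 * P.K) := by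
    have h4 : P.th ^ 4 ≤ P.th := by simpa using pw (i := 1) (j := 4) (by omega)
    have e : 1 / (2 * P.K) = 1 / (4 * P.K) + 1 / (4 * P.K) := by field_simp; norm_num
    linarith
  have hc1 : ∀ s, |cs s| * δ * P.th ≤ P.th ^ a := fun s => by
    calc _ ≤ P.K ^ n' * P.th ^ a * P.th := mul_le_mul_of_nonneg_right (hcs s).1 hth0.le
      _ = P.K ^ n' * P.th * P.th ^ a := by ring
      _ ≤ 1 * P.th ^ a := by gcongr
      _ = _ := one_mul _
  have hc2 : ∀ s, |cs s| * G * P.th ≤ P.th ^ a * P.D := fun s => by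
    calc _ ≤ P.K ^ n' * P.th ^ a * P.D * P.th := mul_le_mul_of_nonneg_right (hcs s).2 hth0.le
      _ = P.K ^ n' * P.th * (P.th ^ a * P.D) := by ring
      _ ≤ 1 * (P.th ^ a * P.D) := by gcongr
      _ = _ := one_mul _
  have r2 := fun s => hN δ G hCl0 V V2 (bs s) (cs s) η (1 / 4) (1 / (2 * P.K)) (1 / (4 * P.K)) _ _
    (hbs s) hV2 hη hη' (hc1 s) (hc2 s) le_rfl (by norm_num) (by positivity) hτ hτ₁ (by positivity)
    (hO δ G hCl0 (cs s) η (1 / (4 * P.K)) (by linarith) hη' (hc1 s) (hc2 s) hτ₂ hτ₂')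
  have r3 := (Rz.heat_sum r2 (by positivity) (by positivity)).heat_more (ρ' := 1 / 2)
    (by positivity) (by
      rw [mul_one_div, div_le_div_iff₀ (by positivity) (by positivity)]; linarith) (by positivity)
  have r4 := r1.heat_add r3 (by norm_num) (by norm_num) (by positivity) (by positivity)
  rw [show (1 / 2 + 1 / 2 : ℝ) = 1 by norm_num] at r4
  have r5 := r4.heat_near (m' := fun W p x => vec (T W p x)) (ε' := P.K ^ C₁ * P.th ^ B * P.D)
    (fun W p => by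
      have t1 := temp_integral (temp_vec ((hH.temp W p).comp temp_join))
      have t2 : ∀ s, (fun x => ∫ ξ, cs s • heat (1 / 4) (tau1 W.1 η) (bs s W p (join x ξ))
          ∂gam (V2 × Fin P.d)).HasTemperateGrowth := fun s =>
        temp_integral ((Function.HasTemperateGrowth.const (cs s)).fun_smul
          ((temp_heat (temp_tau1 W.2 η) (1 / 4)).comp (((hbs s).temp W p).comp temp_join)))
      exact (t1.1.continuous.add (continuous_finsetSum _ fun s _ => (t2 s).1.continuous)).measurable)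
    (fun W p => (temp_vec (hT.temp W p)).1.continuous.measurable)
    (fun W p => by
      simp only [nrm_sub_comm _ (vec (T W p _))]
      exact hnear W p) (by positivity) (by positivity)
  have k : ∀ i ≤ M, P.K ^ i ≤ P.K ^ M := fun i h => pow_le_pow_right₀ hK h
  have k1 := k C₁ (by omega)
  have k2 := k C₂ (by omega)
  have k3 := k C₃ (by omega)
  have k4 := k C₄ (by omega)
  have q1 : P.Q ^ c ≤ P.Q ^ (c + 1) := pow_le_pow_right₀ hQ (by omega)
  have q2 : 1 ≤ P.Q ^ (c + 1) := one_le_pow₀ hQ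
  have hK3 : 2 + 2 * P.K ≤ P.K ^ 3 := by linarith
  refine r5.mono ?_ ?_
  · calc _ ≤ P.K ^ M * P.Q ^ (c + 1) +
          P.K * (P.K ^ M * P.Q ^ (c + 1) + P.K ^ M * P.Q ^ (c + 1)) := by gcongr
      _ = P.K ^ M * (1 + 2 * P.K) * P.Q ^ (c + 1) := by ring
      _ ≤ P.K ^ M * P.K ^ 3 * P.Q ^ (c + 1) := by gcongr; linarith
      _ = _ := by rw [← pow_add]
  · calc _ ≤ P.K ^ M * P.Q ^ (c + 1) * P.th ^ B * P.D +
          P.K * (P.K ^ M * P.Q ^ (c + 1) * P.th ^ B * P.D + P.K ^ M * P.Q ^ (c + 1) * P.th ^ B * P.D) +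
          P.K ^ M * P.Q ^ (c + 1) * P.th ^ B * P.D := by
          gcongr
          exact k1.trans (le_mul_of_one_le_right (by positivity) q2)
      _ = P.K ^ M * (2 + 2 * P.K) * P.Q ^ (c + 1) * P.th ^ B * P.D := by ring
      _ ≤ P.K ^ M * P.K ^ 3 * P.Q ^ (c + 1) * P.th ^ B * P.D := by gcongr
      _ = _ := by rw [← pow_add]

theorem step_rz_of (h : RA J Ms R B0 b a B c) (hba : b ≤ a) (hR : a + 2 ≤ R) :
    ∃ C : ℕ, ∀ᶠ P in LL J Ms, ∀ δ G, Cl0 P R δ G →
      Rz P.d (P.th ^ B0) δ G Empty (fun W p _ f => stepE W.1 P.Q 1 p f)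
        (P.K ^ C * P.Q ^ c) (P.K ^ C * P.Q ^ c * P.th ^ B * P.D) := by
  obtain ⟨n', C₁, hT⟩ := tlemma J Ms R 0 B
  obtain ⟨C₂, hZ⟩ := rz_bas h hba (n' + 1)
  refine ⟨C₁ + C₂ + 1, ?_⟩
  filter_upwards [ev_base, hT, hZ] with P hP hT hZ δ G hCl0
  have hK := hP.one_le_K
  have hK2 := hP.two_le
  have hQ := hP.one_le_Q
  have hth0 := hP.th_pos
  have hth := hP.th_le
  have hth' : P.th ≤ 1 := by linarith
  have hD1 := hP.one_le_D
  have hβ : 0 < P.th ^ b := by positivity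
  have pw : ∀ {i j : ℕ}, i ≤ j → P.th ^ j ≤ P.th ^ i := fun h =>
    pow_le_pow_of_le_one hth0.le hth' h
  obtain ⟨V', _, l', T', -, hl', hT', hnear⟩ := hT (P.th ^ b) δ G (hCl0.cl hP (by omega) b) hCl0
    (P.th ^ (a + 1)) (by rw [← pow_succ]; exact pw (by omega))
    (by rw [← pow_succ]; exact pw (by omega)) Empty ⊥ (fun _ p _ => p) P.Q
    (Bas.param (by linarith)) (by simp) le_rfl
  have hB := Bas.extend hP hβ (Bas.param (by linarith)) l' hl' hT'
  have r1 := hZ δ G hCl0 (P.th ^ b) (P.th ^ (a + 1)) hβ le_rfl (by positivity) le_rfl _ _ _ hB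
    (1 / 2) hth
  have r2 := r1.mix (fun W p x => pr_heat _ _) fun W p f hf =>
    measurable_heat _ hf (hB.temp W p).1.continuous.measurable
  have r3 := r2.near (fun W p => (hnear W p).symm) (by positivity) (by positivity)
  have k1 : P.K ^ C₁ ≤ P.K ^ (C₁ + C₂) := pow_le_pow_right₀ hK (by omega)
  have k2 : P.K ^ C₂ ≤ P.K ^ (C₁ + C₂) := pow_le_pow_right₀ hK (by omega)
  have q2 : 1 ≤ P.Q ^ c := one_le_pow₀ hQ
  refine r3.mono ?_ ?_
  · gcongr
    omega
  · calc _ ≤ P.K ^ (C₁ + C₂) * P.Q ^ c * P.th ^ B * P.D +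
          P.K ^ (C₁ + C₂) * P.Q ^ c * P.th ^ B * P.D := by
          gcongr
          exact k1.trans (le_mul_of_one_le_right (by positivity) q2)
      _ = P.K ^ (C₁ + C₂) * 2 * P.Q ^ c * P.th ^ B * P.D := by ring
      _ ≤ P.K ^ (C₁ + C₂) * P.K * P.Q ^ c * P.th ^ B * P.D := by gcongr
      _ = _ := by rw [← pow_succ]

end Crest.Agent.R285

end
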