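import Crest.Agent.R285.NFAux

/-!
Normal form of vector members: a root node with a triangular system of legs.

Generalise: let `Mem n S a F T`, `e : S ≃ Option S'` (the output slot is `none`), and let the slots
`S'` be filled with external legs `L s · (z s · x)` of complexity `n₀`, ordered by an injective
`pos : S' → ℕ`, with orthonormal `z s ∈ F`, `z s' ∈ F_s` for `pos s ≤ pos s'`. Claim: for `n'`
depending on `n, n₀` only, `app (reix e T) legs` has a normal form. Induction on `Mem`: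
* node: sort the legs (`jet_reix`);
* leaf: the leaf becomes a new identity leg that comes first;
* con: say the output slot is in `S₁`. Fill the slots of `T₂` with their legs in increasing order,
  except that the last leaf `z_last` is not applied (each filling is `Mem.con` with the leg matrix
  followed by `Mem.leaf`; the support shrinks to `F ⊓ F_s ⊓ (z s)ᗮ`). This gives a matrix member of
  amplitude `a₂`; rescale it by `β / a₂`, use it as the leg (position of the last one) in the slot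
  `none` of `T₁`, and multiply the final constant by `a₂ / β`;
* sc: multiply the constant.
-/

set_option autoImplicit false

open MeasureTheory ProbabilityTheory Matrix Filter
open scoped ENNReal

noncomputable section

namespace Crest.Agent.R285

section Legs

variable {P : Par} {β δ G : ℝ} {V : Type} [Fintype V] {n m : ℕ}

/-- more variables -/
theorem Legs.exists_inl (g : Legs P β δ G V n m) (V' : Type) [Fintype V'] :
    ∃ g' : Legs P β δ G (V ⊕ V') n m, (∀ i, g'.z i = Sum.elim (g.z i) 0) ∧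
      ∀ W p x, g'.v W p x = g.v W p (ren Sum.inl x) := by
  refine ⟨⟨fun i => Sum.elim (g.z i) 0, fun i => inlF V' (g.F i),
    fun i W p x => g.L i W p (ren Sum.inl x), fun i j => ?_,
    fun i j hij => ⟨g.mem i j hij, fun _ => rfl⟩, fun i => ?_⟩, fun _ => rfl, fun W p x => ?_⟩
  · rw [← g.orth i j]
    simp [dotProduct]
  · exact (g.ok i).imp (fun h W p x => h W p _) fun ⟨M, h1, h2⟩ =>
      ⟨_, h1.ren Sum.inl Sum.inl_injective fun z hz => hz.1, fun W p x => h2 W p _⟩
  · funext i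
    simp only [Legs.v]
    congr 1
    funext k
    simp [lin, ren]

theorem Legs.exists_mono (hK : 1 ≤ P.K) (g : Legs P β δ G V n m) {n' : ℕ} (hn : n ≤ n') :
    ∃ g' : Legs P β δ G V n' m, g'.z = g.z ∧ g'.v = g.v :=
  ⟨⟨g.z, g.F, g.L, g.orth, g.mem,
    fun i => (g.ok i).imp_right fun ⟨M, h1, h2⟩ => ⟨M, h1.mono_n hK hn, h2⟩⟩, rfl, rfl⟩

end Legs

namespace NFAux

/-- `val` has a normal form -/
def NFor (P : Par) (β δ G : ℝ) (V : Type) [Fintype V] (n' : ℕ) (a : ℝ)
    (val : Pot P.d δ G → E P.d → Om P.d V → E P.d) : Prop :=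
  ∃ (m : ℕ) (c η : ℝ) (Fb : Submodule ℝ (V → ℝ)) (b : Pot P.d δ G → E P.d → Om P.d V → E P.d)
    (g : Legs P β δ G V n' m), m ≤ n' ∧ P.Q - n' ≤ η ∧ η ≤ P.Q ∧ Bas P β δ G V n' β Fb b ∧
    (∀ i, g.z i ∈ Fb) ∧ |c| * δ ≤ a ∧ |c| * G ≤ a * P.D ∧ ∀ W p x, val W p x =
      c • app (tau W.1 η (b W p x) : Ten P.d (Option (Fin m))) (g.v W p x)

/-- the generalised claim -/
def Claim (P : Par) (β δ G : ℝ) (V : Type) [Fintype V] (n n₀ n' : ℕ) : Prop :=
  ∀ (S : Type) (a : ℝ) (F : Submodule ℝ (V → ℝ)) (T : Fam P δ G V S),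
    Mem P β δ G V n S a F T → ∀ [Fintype S] [DecidableEq S] (o : S) (g : S → LegD P δ G V),
    Sys β n₀ (fun s => s ≠ o) g F → ∀ val : Pot P.d δ G → E P.d → Om P.d V → E P.d,
    (∀ W p x (w : S → E P.d), (∀ s, s ≠ o → w s = (g s).v W p x) →
      w o ⬝ᵥ val W p x = ev (T W p x) w) → NFor P β δ G V n' a val

variable {P : Par} {β δ G : ℝ} {V : Type} [Fintype V] {n n₀ n' : ℕ} {a : ℝ}
  {val : Pot P.d δ G → E P.d → Om P.d V → E P.d}

theorem NFor.mono (hP : P.Base) (hβ : 0 < β) (h : NFor P β δ G V n a val) (hn : n ≤ n') :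
    NFor P β δ G V n' a val := by
  obtain ⟨m, c, η, Fb, b, g, h1, h2, h3, h4, h5, h6, h7, h8⟩ := h
  obtain ⟨g', e1, e2⟩ := g.exists_mono hP.one_le_K hn
  have : (n : ℝ) ≤ n' := by exact_mod_cast hn
  exact ⟨m, c, η, Fb, b, g', h1.trans hn, by linarith, h3,
    h4.mono hP hβ hn le_rfl le_rfl le_rfl le_rfl, by rwa [e1], h6, h7, by rwa [e2]⟩

theorem NFor.smul (hP : P.Base) (h : NFor P β δ G V n a val) {c' a' : ℝ} (hc : |c'| * a ≤ a') :
    NFor P β δ G V n a' fun W p x => c' • val W p x := by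
  obtain ⟨m, c, η, Fb, b, g, h1, h2, h3, h4, h5, h6, h7, h8⟩ := h
  have hD : 0 ≤ P.D := by linarith [hP.one_le_D]
  refine ⟨m, c' * c, η, Fb, b, g, h1, h2, h3, h4, h5, ?_, ?_, fun W p x => ?_⟩
  · rw [abs_mul, mul_assoc]
    exact (mul_le_mul_of_nonneg_left h6 (abs_nonneg _)).trans hc
  · rw [abs_mul, mul_assoc]
    refine (mul_le_mul_of_nonneg_left h7 (abs_nonneg _)).trans ?_
    rw [← mul_assoc]
    exact mul_le_mul_of_nonneg_right hc hD
  · simp only [h8, smul_smul]

theorem vec_ext {d : ℕ} {u v : E d} (h : ∀ y : E d, y ⬝ᵥ u = y ⬝ᵥ v) : u = v := by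
  funext k
  simpa using h (Pi.single k 1)

/-- the value of a tensor with all slots but one filled -/
def outv {d : ℕ} {S : Type} [Fintype S] [DecidableEq S] (T : Ten d S) (o : S) (v : S → E d) :
    E d := app (reix (Equiv.optionSubtypeNe o).symm T) fun s => v s.1

theorem outv_spec {d : ℕ} {S : Type} [Fintype S] [DecidableEq S] (T : Ten d S) (o : S)
    (v w : S → E d) (h : ∀ s, s ≠ o → w s = v s) : w o ⬝ᵥ outv T o v = ev T w := by
  have h2 := ev_option (reix (Equiv.optionSubtypeNe o).symm T)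
    fun s => w (Equiv.optionSubtypeNe o s)
  rw [ev_reix] at h2
  simp only [Equiv.apply_symm_apply, Equiv.optionSubtypeNe_none, Equiv.optionSubtypeNe_some] at h2
  rw [h2, outv]
  congr 2
  funext s
  exact (h s.1 s.2).symm

theorem node_case {S : Type} {i₁ : Fintype S} [i₂ : Fintype S]
    [DecidableEq S] {F : Submodule ℝ (V → ℝ)} {c η : ℝ}
    {b : Pot P.d δ G → E P.d → Om P.d V → E P.d} (hb : Bas P β δ G V n β F b)
    (hS : Fintype.card S ≤ n + 1) (hη : P.Q - n ≤ η) (hη' : η ≤ P.Q) (hc : |c| * δ ≤ a)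
    (hc' : |c| * G ≤ a * P.D) (o : S) (g : S → LegD P δ G V) (hg : Sys β n (fun s => s ≠ o) g F)
    (hval : ∀ W p x (w : S → E P.d), (∀ s, s ≠ o → w s = (g s).v W p x) →
      w o ⬝ᵥ val W p x = ev (c • @tau _ S i₁ W.1 η (b W p x)) w) : NFor P β δ G V n a val := by
  obtain rfl : i₁ = i₂ := Subsingleton.elim _ _
  let e₀ := (Fintype.equivFin {s // s ≠ o}).symm
  let f : Fin (Fintype.card {s // s ≠ o}) → ℕ := fun i => (g (e₀ i).1).pos
  let σ := (Tuple.sort f).trans e₀
  have hσ : ∀ i j, i ≤ j → (g (σ i).1).pos ≤ (g (σ j).1).pos := fun i j h =>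
    Tuple.monotone_sort f h
  have hcard := Fintype.card_congr (Equiv.optionSubtypeNe o)
  rw [Fintype.card_option] at hcard
  refine ⟨_, c, η, F, b, ⟨fun i => (g (σ i).1).z, fun i => (g (σ i).1).F, fun i => (g (σ i).1).L,
    fun i j => ?_, fun i j h => hg.mem _ _ (σ i).2 (σ j).2 (hσ i j h), fun i => hg.ok _ (σ i).2⟩,
    by omega, hη, hη', hb, fun i => hg.top _ (σ i).2, hc, hc', fun W p x => vec_ext fun y => ?_⟩
  · split_ifs with h
    · subst h
      exact hg.one _ (σ i).2
    · exact hg.orth _ _ (σ i).2 (σ j).2 fun h' => h (σ.injective (Subtype.ext h'))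
  · let e : Option (Fin (Fintype.card {s // s ≠ o})) ≃ S :=
      (Equiv.optionCongr σ).trans (Equiv.optionSubtypeNe o)
    have h1 := hval W p x (Function.update (fun s => (g s).v W p x) o y)
      fun s hs => Function.update_of_ne hs _ _
    rw [Function.update_self, ev_smul, tau, ← jet_reix (contDiff_Phi W.2 η) e, ev_reix,
      ev_option] at h1
    rw [h1, dotProduct_smul, smul_eq_mul]
    congr 2
    · exact Function.update_self _ _ _
    · congr 1
      funext i
      exact Function.update_of_ne (σ i).2 _ _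

theorem con_case (hP : P.Base) (hβ : 0 < β) (ih : Claim P β δ G V n (max n n₀ + 4 * 2 ^ n + 4) n')
    {S S₁ S₂ : Type} [Fintype S₁] [DecidableEq S₁] [Fintype S₂] [DecidableEq S₂] [Nonempty S₂]
    {a₁ a₂ : ℝ} {F : Submodule ℝ (V → ℝ)} {T₁ : Fam P δ G V (Option S₁)}
    {T₂ : Fam P δ G V (Option S₂)} (h₁ : Mem P β δ G V n (Option S₁) a₁ F T₁)
    (h₂ : Mem P β δ G V n (Option S₂) a₂ F T₂) (ha : a₁ * a₂ / β ≤ a) (f₁ : S₁ → S)
    (f₂ : S₂ → S) (hf₁ : Function.Injective f₁) (hf₂ : Function.Injective f₂)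
    (hne : ∀ s t, f₁ s ≠ f₂ t) (o : S₁) (g : S → LegD P δ G V)
    (hg : Sys β n₀ (fun s => s ≠ f₁ o) g F)
    (hval : ∀ W p x (w : S₁ → E P.d), (∀ s, s ≠ o → w s = (g (f₁ s)).v W p x) →
      w o ⬝ᵥ val W p x = app (T₂ W p x) (fun t => (g (f₂ t)).v W p x) ⬝ᵥ app (T₁ W p x) w) :
    NFor P β δ G V n' a val := by
  have hK := hP.one_le_K
  have ha₂ := (h₂.amp hβ).1
  have hA₂ : ∀ t, f₂ t ≠ f₁ o := fun t => (hne o t).symm
  obtain ⟨t₀, ht₀⟩ := Finite.exists_max fun t => (g (f₂ t)).pos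
  let F' : Submodule ℝ (V → ℝ) :=
    F ⊓ ⨅ t : {t // t ≠ t₀}, ((g (f₂ t.1)).F ⊓ perp (g (f₂ t.1)).z)
  let j : Option Unit → Option S₂ := fun o => o.elim (some t₀) fun _ => none
  have hj : ∀ s, s ∉ Set.range j → ∃ t, t ≠ t₀ ∧ s = some t := fun s hs => by
    cases s with
    | none => exact absurd ⟨some (), rfl⟩ hs
    | some t => exact ⟨t, fun h => hs ⟨none, by rw [h]; rfl⟩, rfl⟩
  obtain ⟨T', h3, e3⟩ := fill hK hβ F' (2 ^ n) (max n n₀) (Option S₂) F T₂
    (h₂.mono_n hK (le_max_left _ _)) j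
    (by rintro (_ | _) (_ | _) h <;> simp_all [j]) (h₂.card_le.trans (Nat.le_add_left _ _))
    (fun s => g (f₂ (s.getD t₀)))
    ⟨fun s _ => hg.one _ (hA₂ _), fun s t hs ht hst => by
        obtain ⟨s, -, rfl⟩ := hj s hs
        obtain ⟨t, -, rfl⟩ := hj t ht
        exact hg.orth _ _ (hA₂ _) (hA₂ _) fun h => hst (congrArg some (hf₂ h)),
      fun s t _ _ => hg.mem _ _ (hA₂ _) (hA₂ _),
      fun s _ => (hg.ok _ (hA₂ _)).mono hK (le_max_right _ _), fun s _ => hg.top _ (hA₂ _)⟩
    inf_le_left fun s hs => by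
      obtain ⟨t, ht, rfl⟩ := hj s hs
      exact inf_le_right.trans (iInf_le (fun t : {t // t ≠ t₀} =>
        (g (f₂ t.1)).F ⊓ perp (g (f₂ t.1)).z) ⟨t, ht⟩)
  obtain ⟨T'', h4, e4⟩ := half hK hβ h3 ((hg.ok _ (hA₂ t₀)).mono hK
    (show n₀ ≤ max n n₀ + 4 * 2 ^ n + 1 by omega))
  have h5 := Mem.sc _ _ _ (Equiv.swap none (some ())) a₂ β (β / a₂) _ _ T'' h4
    (by rw [abs_of_pos (div_pos hβ ha₂), div_mul_cancel₀ _ ha₂.ne']) hβ le_rfl le_rfl
  let l : LegD P δ G V := ⟨(g (f₂ t₀)).z, F' ⊓ (g (f₂ t₀)).F,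
    fun W p x => mat ((β / a₂) • reix (Equiv.swap none (some ())) (T'' W p x)), (g (f₂ t₀)).pos⟩
  have hl : ∀ W p x, l.v W p x = (β / a₂) • app (T₂ W p x) fun t => (g (f₂ t)).v W p x := by
    intro W p x
    refine vec_ext fun y => ?_
    have k1 := ev_option (reix (Equiv.swap none (some ())) (T'' W p x))
      fun o => o.elim y fun _ => lin (g (f₂ t₀)).z x
    rw [ev_reix, ev_option, e4, app_unit, app_unit] at k1
    have k2 := e3 W p x (fun o => o.elim y fun t => (g (f₂ t)).v W p x) fun s hs => by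
      obtain ⟨t, -, rfl⟩ := hj s hs
      rfl
    rw [ev_option, ev_option, app_unit] at k2
    change y ⬝ᵥ (mat ((β / a₂) • reix (Equiv.swap none (some ())) (T'' W p x)) *ᵥ
      lin (g (f₂ t₀)).z x) = _
    rw [mat_smul, smul_mulVec, dotProduct_smul, dotProduct_smul]
    congr 1
    exact k1.symm.trans k2
  have hmem : ∀ s, s ≠ f₁ o → (g (f₂ t₀)).pos ≤ (g s).pos → (∀ t, t ≠ t₀ → s ≠ f₂ t) →
      (g s).z ∈ l.F := fun s hs hp hs' =>
    ⟨⟨hg.top s hs, (Submodule.mem_iInf _).2 fun t =>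
      ⟨hg.mem _ _ (hA₂ _) hs ((ht₀ t.1).trans hp), hg.orth _ _ hs (hA₂ _) (hs' t.1 t.2)⟩⟩,
      hg.mem _ _ (hA₂ _) hs hp⟩
  have hA₁ : ∀ s, some s ≠ some o → f₁ s ≠ f₁ o := fun s hs h => hs (congrArg some (hf₁ h))
  have h6 := ih (Option S₁) a₁ F T₁ h₁ (some o) (fun s => s.elim l fun s => g (f₁ s))
    ⟨?_, ?_, ?_, ?_, ?_⟩ (fun W p x => (β / a₂) • val W p x) ?_
  · have h7 := h6.smul hP (c' := a₂ / β) (a' := a) (by
      rw [abs_of_pos (div_pos ha₂ hβ)]
      exact le_of_eq_of_le (by ring) ha)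
    convert h7 using 4 with W p x
    rw [smul_smul, div_mul_div_cancel₀ hβ.ne', div_self ha₂.ne', one_smul]
  · rintro (_ | s) hs
    · exact hg.one _ (hA₂ _)
    · exact hg.one _ (hA₁ s hs)
  · rintro (_ | s) (_ | t) hs ht hst
    · exact absurd rfl hst
    · exact hg.orth _ _ (hA₂ _) (hA₁ t ht) (hne _ _).symm
    · exact hg.orth _ _ (hA₁ s hs) (hA₂ _) (hne _ _)
    · exact hg.orth _ _ (hA₁ s hs) (hA₁ t ht) fun h => hst (congrArg some (hf₁ h))
  · rintro (_ | s) (_ | t) hs ht hp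
    · exact hmem _ (hA₂ _) le_rfl fun t ht h => ht (hf₂ h).symm
    · exact hmem _ (hA₁ t ht) hp fun t' _ => hne _ _
    · exact hg.mem _ _ (hA₁ s hs) (hA₂ _) hp
    · exact hg.mem _ _ (hA₁ s hs) (hA₁ t ht) hp
  · rintro (_ | s) hs
    · exact Or.inr ⟨_, h5, fun _ _ _ => rfl⟩
    · exact (hg.ok _ (hA₁ s hs)).mono hK (by omega)
  · rintro (_ | s) hs
    · exact hg.top _ (hA₂ _)
    · exact hg.top _ (hA₁ s hs)
  · intro W p x w hw
    rw [ev_option, hw none (by simp), dotProduct_smul,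
      hval W p x (fun s => w (some s)) fun s hs => hw _ (by simpa using hs)]
    change _ = l.v W p x ⬝ᵥ _
    rw [hl, smul_dotProduct]

theorem claim (n : ℕ) : ∀ n₀, ∃ n', ∀ P : Par, P.Base → ∀ β δ G : ℝ, 0 < β →
    ∀ (V : Type) [Fintype V], Claim P β δ G V n n₀ n' := by
  induction n with
  | zero => exact fun n₀ => ⟨0, fun P _ β δ G _ V _ S a F T h => by cases h⟩
  | succ n ih =>
    intro n₀
    obtain ⟨n₁, ih₁⟩ := ih n₀
    obtain ⟨n₂, ih₂⟩ := ih (max n n₀ + 4 * 2 ^ n + 4)
    refine ⟨max (max n n₀) (max n₁ n₂), fun P hP β δ G hβ V _ S a F T h => ?_⟩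
    have hK := hP.one_le_K
    replace ih₁ := ih₁ P hP β δ G hβ V
    replace ih₂ := ih₂ P hP β δ G hβ V
    cases h with
    | node _ _ _ _ c η b0 hb0 l κ T hT hκ hl hF hS hη hη' ha ha' hc hc' =>
      intro _ _ o g hg val hval
      have hb : Bas P β δ G V n β F fun W p x => b0 p + lin l x + ∑ k, vec (T k W p x) :=
        ⟨b0, l, fun W p x => ∑ k, T k W p x, hb0, hl, hF,
          ⟨κ, inferInstance, T, hκ, hT, fun _ _ _ => rfl⟩, fun W p x => by rw [vec_sum]⟩
      have hn : (n : ℝ) ≤ (max n n₀ : ℕ) := by exact_mod_cast le_max_left n n₀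
      refine (node_case (hb.mono hP hβ (le_max_left n n₀) le_rfl le_rfl le_rfl le_rfl)
        ?_ (by linarith) hη' hc hc' o g (hg.comp hK (le_max_right _ _) id Function.injective_id
          (fun _ h => h) hg.top) hval).mono hP hβ (le_max_left _ _)
      rw [Fintype.card_eq_nat_card] at hS ⊢
      exact hS.trans (Nat.add_le_add_right (le_max_left n n₀) 1)
    | con _ S₁ S₂ a₁ a₂ _ _ T₁ T₂ h₁ h₂ ha ha' =>
      intro _ _ o g hg val hval
      classical
      have := h₁.finite.1
      have := h₂.finite.1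
      have : Finite S₁ := Finite.of_injective _ (Option.some_injective S₁)
      have : Finite S₂ := Finite.of_injective _ (Option.some_injective S₂)
      have := Fintype.ofFinite S₁
      have := Fintype.ofFinite S₂
      cases o with
      | inl o =>
        refine (con_case hP hβ ih₂ h₁ h₂ ha Sum.inl Sum.inr Sum.inl_injective Sum.inr_injective
          (fun _ _ => Sum.inl_ne_inr) o g hg fun W p x w hw => ?_).mono hP hβ (by omega)
        have := hval W p x (Sum.elim w fun t => (g (Sum.inr t)).v W p x) (by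
          rintro (s | s) hs
          · exact hw s fun h => hs (by rw [h])
          · rfl)
        rw [ev_con1, dotProduct_comm (app _ _)] at this
        exact this
      | inr o =>
        refine (con_case hP hβ ih₂ h₂ h₁ (by rwa [mul_comm]) Sum.inr Sum.inl Sum.inr_injective
          Sum.inl_injective (fun _ _ => Sum.inr_ne_inl) o g hg fun W p x w hw => ?_).mono hP hβ
          (by omega)
        have := hval W p x (Sum.elim (fun t => (g (Sum.inl t)).v W p x) w) (by
          rintro (s | s) hs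
          · rfl
          · exact hw s fun h => hs (by rw [h]))
        rw [ev_con1] at this
        exact this
    | leaf _ _ _ F' _ T h z hz hz1 hF hFz =>
      intro _ _ o g hg val hval
      have hA : ∀ s, some s ≠ some o → s ≠ o := fun s hs h => hs (congrArg some h)
      refine (ih₁ _ a F' T h (some o) (fun s => s.elim ⟨z, ⊤, fun _ _ _ => 1, 0⟩
        fun s => ⟨(g s).z, (g s).F, (g s).L, (g s).pos + 1⟩) ⟨?_, ?_, ?_, ?_, ?_⟩ val
        fun W p x w hw => ?_).mono hP hβ (by omega)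
      · rintro (_ | s) hs
        · exact hz1
        · exact hg.one _ (hA s hs)
      · rintro (_ | s) (_ | t) hs ht hst
        · exact absurd rfl hst
        · exact (dotProduct_comm _ _).trans (hFz _ (hg.top _ (hA t ht)))
        · exact hFz _ (hg.top _ (hA s hs))
        · exact hg.orth _ _ (hA s hs) (hA t ht) fun h => hst (congrArg some h)
      · rintro (_ | s) (_ | t) hs ht hp
        · trivial
        · trivial
        · exact absurd hp (Nat.not_succ_le_zero _)
        · exact hg.mem _ _ (hA s hs) (hA t ht) (Nat.le_of_succ_le_succ hp)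
      · rintro (_ | s) hs
        · exact Or.inl fun _ _ _ => rfl
        · exact hg.ok _ (hA s hs)
      · rintro (_ | s) hs
        · exact hz
        · exact hF (hg.top _ (hA s hs))
      · rw [ev_option, hw none (by simp),
          hval W p x (fun s => w (some s)) fun s hs => hw _ (by simpa using hs), ev_leaf]
        congr 1
        exact (one_mulVec _).symm
    | sc _ S₀ _ e a₀ _ c F₀ _ T h hc ha ha' hF =>
      intro _ _ o g hg val hval
      classical
      have := h.finite.1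
      have := Fintype.ofFinite S₀
      have hA : ∀ s, s ≠ e.symm o → e s ≠ o := fun s hs h => hs (by rw [← h, e.symm_apply_apply])
      have h1 := ih₁ _ a₀ F₀ T h (e.symm o) (fun s => g (e s))
        (hg.comp hK le_rfl e e.injective hA fun s hs => hF (hg.top _ (hA s hs)))
        (fun W p x => outv (T W p x) (e.symm o) fun s => (g (e s)).v W p x)
        fun W p x w hw => outv_spec _ _ _ _ hw
      convert (h1.smul hP hc).mono hP hβ (show n₁ ≤ max (max n n₀) (max n₁ n₂) by omega) using 4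
        with W p x
      refine vec_ext fun y => ?_
      have h2 := hval W p x (Function.update (fun s => (g s).v W p x) o y)
        fun s hs => Function.update_of_ne hs _ _
      rw [Function.update_self, ev_smul, ev_reix, ← outv_spec _ (e.symm o)
        (fun s => (g (e s)).v W p x) _ fun s hs => Function.update_of_ne (hA s hs) _ _,
        e.apply_symm_apply, Function.update_self] at h2
      rw [h2, dotProduct_smul, smul_eq_mul]

end NFAux

theorem nf (n : ℕ) : ∃ n' : ℕ, ∀ P : Par, P.Base → ∀ β δ G : ℝ, 0 < β →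
    ∀ (V : Type) [Fintype V] (a : ℝ) (F : Submodule ℝ (V → ℝ)) (T : Fam P δ G V Unit),
      Mem P β δ G V n Unit a F T →
      ∃ (m : ℕ) (c η : ℝ) (Fb : Submodule ℝ (V → ℝ)) (b : Pot P.d δ G → E P.d → Om P.d V → E P.d)
        (g : Legs P β δ G V n' m), m ≤ n' ∧ P.Q - n' ≤ η ∧ η ≤ P.Q ∧ Bas P β δ G V n' β Fb b ∧
        (∀ i, g.z i ∈ Fb) ∧ |c| * δ ≤ a ∧ |c| * G ≤ a * P.D ∧ ∀ W p x, vec (T W p x) =
          c • app (tau W.1 η (b W p x) : Ten P.d (Option (Fin m))) (g.v W p x) := by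
  obtain ⟨n', h⟩ := NFAux.claim n 0
  refine ⟨n', fun P hP β δ G hβ V _ a F T hT => h P hP β δ G hβ V Unit a F T hT ()
    (fun _ => ⟨0, ⊤, fun _ _ _ => 1, 0⟩) ⟨fun _ h => absurd rfl h, fun _ _ h => absurd rfl h,
      fun _ _ h => absurd rfl h, fun _ h => absurd rfl h, fun _ h => absurd rfl h⟩
    (fun W p x => vec (T W p x)) fun W p x w _ => ?_⟩
  rw [NFAux.ev_unit, dotProduct_comm]

/-- filling all slots but one with a triangular system of legs -/
theorem app_legs (n : ℕ) : ∃ n' : ℕ, ∀ P : Par, P.Base → ∀ β δ G : ℝ, 0 < β →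
    ∀ (V : Type) [Fintype V] (m : ℕ), m ≤ n → ∀ (a : ℝ) (F : Submodule ℝ (V → ℝ))
      (H : Fam P δ G V (Option (Fin m))) (g : Legs P β δ G V n m),
      SMem P β δ G V n (Option (Fin m)) a F H → (∀ i, g.z i ∈ F) →
      ∃ T : Fam P δ G V Unit, SMem P β δ G V n' Unit a ⊥ T ∧
        ∀ W p x, vec (T W p x) = app (H W p x) (g.v W p x) := by
  refine ⟨n + 4 * n + 1, fun P hP β δ G hβ V _ m hm a F H g ⟨κ, _, U, hκ, hU, eU⟩ hz => ?_⟩
  have hK := hP.one_le_K
  let g' : Option (Fin m) → NFAux.LegD P δ G V := fun o =>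
    o.elim ⟨0, ⊤, fun _ _ _ => 1, 0⟩ fun i => ⟨g.z i, g.F i, g.L i, i⟩
  have hj : ∀ s : Option (Fin m), s ∉ Set.range (fun _ : Unit => (none : Option (Fin m))) →
      ∃ t, s = some t := fun s hs => by
    cases s with
    | none => exact absurd ⟨(), rfl⟩ hs
    | some t => exact ⟨t, rfl⟩
  have hg : NFAux.Sys β n (fun s => s ∉ Set.range (fun _ : Unit => (none : Option (Fin m))))
      g' F := by
    refine ⟨fun s hs => ?_, fun s t hs ht hst => ?_, fun s t hs ht hp => ?_, fun s hs => ?_,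
      fun s hs => ?_⟩ <;> obtain ⟨s, rfl⟩ := hj s hs
    · exact (g.orth s s).trans (if_pos rfl)
    · obtain ⟨t, rfl⟩ := hj t ht
      exact (g.orth s t).trans (if_neg fun h => hst (by rw [h]))
    · obtain ⟨t, rfl⟩ := hj t ht
      exact g.mem s t hp
    · exact g.ok s
    · exact hz s
  choose T hT eT using fun k => NFAux.fill hK hβ ⊥ n n (Option (Fin m)) F (U k) (hU k)
    (fun _ : Unit => none) (fun _ _ _ => rfl) (by simp; omega) g' hg bot_le fun _ _ => bot_le
  refine ⟨fun W p x => ∑ k, T k W p x, ⟨κ, inferInstance, T,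
    hκ.trans (pow_le_pow_right₀ hK (by omega)), hT, fun _ _ _ => rfl⟩, fun W p x => ?_⟩
  rw [eU, vec_sum, NFAux.app_sum]
  refine Finset.sum_congr rfl fun k _ => NFAux.vec_ext fun y => ?_
  have := eT k W p x (fun o => o.elim y (g.v W p x)) fun s hs => by
    obtain ⟨t, rfl⟩ := hj s hs
    rfl
  rw [NFAux.ev_unit, NFAux.ev_option, dotProduct_comm] at this
  exact this

end Crest.Agent.R285

end
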