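import Crest.Agent.R285.MemA

/-! Auxiliary material for `NF.lean`: full evaluation of tensors, systems of legs, filling. -/

set_option autoImplicit false

open MeasureTheory ProbabilityTheory Matrix Filter
open scoped ENNReal

noncomputable section

namespace Crest.Agent.R285.NFAux

section Ev
variable {d : ℕ} {S S' S₁ S₂ : Type}

/-- fill all slots with vectors -/
def ev [Fintype S] [DecidableEq S] (T : Ten d S) (w : S → E d) : ℝ :=
  ∑ i : S → Fin d, T i * ∏ s, w s (i s)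

theorem ev_reix [Fintype S] [DecidableEq S] [Fintype S'] [DecidableEq S'] (e : S ≃ S')
    (T : Ten d S) (w : S' → E d) : ev (reix e T) w = ev T fun s => w (e s) := by
  unfold ev reix
  refine Fintype.sum_equiv (Equiv.arrowCongr e.symm (Equiv.refl _)) _ _ fun i => ?_
  congr 1
  exact (e.prod_comp fun s => w s (i s)).symm

theorem ev_smul [Fintype S] [DecidableEq S] (c : ℝ) (T : Ten d S) (w : S → E d) :
    ev (c • T) w = c * ev T w := by
  simp only [ev, Pi.smul_apply, smul_eq_mul, Finset.mul_sum, mul_assoc]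

theorem ev_option [Fintype S] [DecidableEq S] [i₁ : Fintype (Option S)]
    [i₂ : DecidableEq (Option S)] (T : Ten d (Option S)) (w : Option S → E d) :
    ev T w = w none ⬝ᵥ app T fun s => w (some s) := by
  obtain rfl : i₁ = instFintypeOption := Subsingleton.elim _ _
  obtain rfl : i₂ = Option.instDecidableEq := Subsingleton.elim _ _
  rw [ev, sum_option]
  simp only [dotProduct, app, Finset.mul_sum, Fintype.prod_option, oc_none, oc_some]
  exact Finset.sum_congr rfl fun k _ => Finset.sum_congr rfl fun i _ => by ring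

theorem ev_leaf [Fintype S] [DecidableEq S] (T : Ten d (Option S)) (y : E d) (w : S → E d) :
    ev (leaf T y) w = y ⬝ᵥ app T w := by
  simp only [ev, leaf, dotProduct, app, Finset.mul_sum, Finset.sum_mul]
  rw [Finset.sum_comm]
  exact Finset.sum_congr rfl fun k _ => Finset.sum_congr rfl fun i _ => by ring

theorem ev_con1 [Fintype S₁] [DecidableEq S₁] [Fintype S₂] [DecidableEq S₂]
    [i₁ : Fintype (S₁ ⊕ S₂)] [i₂ : DecidableEq (S₁ ⊕ S₂)] (T₁ : Ten d (Option S₁))
    (T₂ : Ten d (Option S₂)) (w : S₁ ⊕ S₂ → E d) :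
    ev (con1 T₁ T₂) w = (app T₁ fun s => w (Sum.inl s)) ⬝ᵥ app T₂ fun s => w (Sum.inr s) := by
  obtain rfl : i₁ = instFintypeSum S₁ S₂ := Subsingleton.elim _ _
  obtain rfl : i₂ = instDecidableEqSum := Subsingleton.elim _ _
  rw [ev, sum_sum]
  simp only [con1, dotProduct, app, Fintype.prod_sum_type, Sum.elim_inl,
    Sum.elim_inr, Finset.sum_mul]
  simp only [Finset.mul_sum]
  symm
  rw [Finset.sum_comm]
  refine Finset.sum_congr rfl fun i _ => ?_
  rw [Finset.sum_comm]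
  exact Finset.sum_congr rfl fun j _ => Finset.sum_congr rfl fun k _ => by ring

theorem app_unit (M : Ten d (Option Unit)) (w : Unit → E d) : app M w = mat M *ᵥ w () := by
  funext k
  rw [app, sum_unit]
  simp [mat, mulVec, dotProduct]

theorem ev_unit (T : Ten d Unit) (w : Unit → E d) : ev T w = vec T ⬝ᵥ w () := by
  rw [ev, sum_unit]
  simp [vec, dotProduct]

theorem app_sum [Fintype S] [DecidableEq S] {κ : Type} (s : Finset κ) (U : κ → Ten d (Option S))
    (w : S → E d) : app (∑ k ∈ s, U k) w = ∑ k ∈ s, app (U k) w := by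
  funext j
  simp only [app, Finset.sum_apply, Finset.sum_mul]
  exact Finset.sum_comm

theorem mat_smul (c : ℝ) (M : Ten d (Option Unit)) : mat (c • M) = c • mat M := rfl

end Ev

/-- the hyperplane orthogonal to `z` -/
def perp {V : Type} [Fintype V] (z : V → ℝ) : Submodule ℝ (V → ℝ) where
  carrier := {y | y ⬝ᵥ z = 0}
  add_mem' := fun {a b} ha hb => by
    change (a + b) ⬝ᵥ z = 0
    rw [add_dotProduct, ha, hb, add_zero]
  zero_mem' := zero_dotProduct z
  smul_mem' := fun c a ha => by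
    change (c • a) ⬝ᵥ z = 0
    rw [smul_dotProduct, ha, smul_zero]

/-- the data of one leg -/
structure LegD (P : Par) (δ G : ℝ) (V : Type) where
  z : V → ℝ
  F : Submodule ℝ (V → ℝ)
  L : Pot P.d δ G → E P.d → Om P.d V → Matrix (Fin P.d) (Fin P.d) ℝ
  pos : ℕ

variable {P : Par} {β δ G : ℝ} {V : Type} [Fintype V]

/-- the vector of a leg -/
def LegD.v (l : LegD P δ G V) (W : Pot P.d δ G) (p : E P.d) (x : Om P.d V) : E P.d :=
  l.L W p x *ᵥ lin l.z x

/-- the matrix of the leg is the identity or a member -/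
def LegD.OK (l : LegD P δ G V) (β : ℝ) (n : ℕ) : Prop :=
  (∀ W p x, l.L W p x = 1) ∨
    ∃ M, Mem P β δ G V n (Option Unit) β l.F M ∧ ∀ W p x, l.L W p x = mat (M W p x)

theorem LegD.OK.mono (hK : 1 ≤ P.K) {l : LegD P δ G V} {n n' : ℕ} (h : l.OK β n) (hn : n ≤ n') :
    l.OK β n' :=
  h.imp_right fun ⟨M, h1, h2⟩ => ⟨M, h1.mono_n hK hn, h2⟩

/-- a triangular system of legs in the active slots -/
structure Sys (β : ℝ) (n : ℕ) {S : Type} (A : S → Prop) (g : S → LegD P δ G V)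
    (F : Submodule ℝ (V → ℝ)) : Prop where
  one : ∀ s, A s → (g s).z ⬝ᵥ (g s).z = 1
  orth : ∀ s t, A s → A t → s ≠ t → (g s).z ⬝ᵥ (g t).z = 0
  mem : ∀ s t, A s → A t → (g s).pos ≤ (g t).pos → (g t).z ∈ (g s).F
  ok : ∀ s, A s → (g s).OK β n
  top : ∀ s, A s → (g s).z ∈ F

theorem Sys.comp {n n' : ℕ} {S S' : Type} {A : S → Prop} {g : S → LegD P δ G V}
    {F F' : Submodule ℝ (V → ℝ)} (h : Sys β n A g F) (hK : 1 ≤ P.K) (hn : n ≤ n')
    {A' : S' → Prop} (f : S' → S) (hf : Function.Injective f) (hA : ∀ s, A' s → A (f s))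
    (hF : ∀ s, A' s → (g (f s)).z ∈ F') : Sys β n' A' (fun s => g (f s)) F' :=
  ⟨fun s hs => h.one _ (hA s hs), fun s t hs ht hne => h.orth _ _ (hA s hs) (hA t ht) (hf.ne hne),
    fun s t hs ht => h.mem _ _ (hA s hs) (hA t ht), fun s hs => (h.ok _ (hA s hs)).mono hK hn, hF⟩

variable {n : ℕ} {S : Type} {a : ℝ} {F : Submodule ℝ (V → ℝ)}

theorem mem_reix (hβ : 0 < β) {T : Fam P δ G V S} (h : Mem P β δ G V n S a F T) {S' : Type}
    (e : S ≃ S') : Mem P β δ G V (n + 1) S' a F fun W p x => reix e (T W p x) := by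
  have ha := h.amp hβ
  refine (Mem.sc n S S' e a a 1 F F T h (by simp) ha.1 ha.2 le_rfl).congr fun W p x => ?_
  rw [one_smul]

/-- apply the matrix of a leg to the slot `none` -/
theorem half (hK : 1 ≤ P.K) (hβ : 0 < β) [Fintype S] [DecidableEq S] [Nonempty S]
    {T : Fam P δ G V (Option S)} (h : Mem P β δ G V n (Option S) a F T) {l : LegD P δ G V}
    (hl : l.OK β n) : ∃ T' : Fam P δ G V (Option S),
      Mem P β δ G V (n + 2) (Option S) a (F ⊓ l.F) T' ∧ ∀ W p x (y : E P.d) (u : S → E P.d),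
        y ⬝ᵥ app (T' W p x) u = (l.L W p x *ᵥ y) ⬝ᵥ app (T W p x) u := by
  rcases hl with hl | ⟨M, hM, hl⟩
  · exact ⟨T, (h.mono_F inf_le_left).mono_n hK (by omega), fun W p x y u => by
      rw [hl, one_mulVec]⟩
  · have ha := h.amp hβ
    have h1 := Mem.con n S Unit a β a (F ⊓ l.F) T M (h.mono_F inf_le_left)
      (hM.mono_F inf_le_right) (by rw [mul_div_cancel_right₀ _ hβ.ne']) ha.2
    refine ⟨_, mem_reix hβ h1 (Equiv.optionEquivSumPUnit.{0, 0} S).symm, fun W p x y u => ?_⟩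
    have h2 := ev_option (reix (Equiv.optionEquivSumPUnit.{0, 0} S).symm
      (con1 (T W p x) (M W p x))) fun o => o.elim y u
    rw [ev_reix, ev_con1, app_unit, ← hl, dotProduct_comm] at h2
    exact h2.symm

/-- fill one slot -/
theorem step (hK : 1 ≤ P.K) (hβ : 0 < β) [Fintype S] [DecidableEq S] {T : Fam P δ G V S}
    (h : Mem P β δ G V n S a F T) (s₀ : S) [Nonempty {s // s ≠ s₀}] {l : LegD P δ G V}
    (hl : l.OK β n) (hz : l.z ∈ F) (hz' : l.z ∈ l.F) (hz1 : l.z ⬝ᵥ l.z = 1) :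
    ∃ T' : Fam P δ G V {s // s ≠ s₀},
      Mem P β δ G V (n + 4) {s // s ≠ s₀} a (F ⊓ l.F ⊓ perp l.z) T' ∧
      ∀ W p x (w : S → E P.d), w s₀ = l.v W p x →
        ev (T' W p x) (fun s => w s.1) = ev (T W p x) w := by
  obtain ⟨T₁, h1, e1⟩ := half hK hβ (mem_reix hβ h (Equiv.optionSubtypeNe s₀).symm)
    (hl.mono hK n.le_succ)
  refine ⟨_, Mem.leaf _ _ a _ _ T₁ h1 l.z ⟨hz, hz'⟩ hz1 inf_le_left fun y hy => hy.2,
    fun W p x w hw => ?_⟩
  have h2 := ev_option (reix (Equiv.optionSubtypeNe s₀).symm (T W p x))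
    fun o => w (Equiv.optionSubtypeNe s₀ o)
  rw [ev_reix] at h2
  simp only [Equiv.apply_symm_apply, Equiv.optionSubtypeNe_none, Equiv.optionSubtypeNe_some] at h2
  rw [ev_leaf, e1, h2, hw]
  rfl

/-- fill all slots outside the range of `j` -/
theorem fill (hK : 1 ≤ P.K) (hβ : 0 < β) {R : Type} [Fintype R] [DecidableEq R] [Nonempty R]
    (F' : Submodule ℝ (V → ℝ)) (m : ℕ) : ∀ (n : ℕ) (S : Type) [Fintype S] [DecidableEq S]
    (F : Submodule ℝ (V → ℝ)) (T : Fam P δ G V S), Mem P β δ G V n S a F T →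
    ∀ (j : R → S), Function.Injective j → Fintype.card S ≤ Fintype.card R + m →
    ∀ (g : S → LegD P δ G V), Sys β n (fun s => s ∉ Set.range j) g F → F' ≤ F →
    (∀ s, s ∉ Set.range j → F' ≤ (g s).F ⊓ perp (g s).z) →
    ∃ T' : Fam P δ G V R, Mem P β δ G V (n + 4 * m + 1) R a F' T' ∧
      ∀ W p x (w : S → E P.d), (∀ s, s ∉ Set.range j → w s = (g s).v W p x) →
        ev (T' W p x) (fun r => w (j r)) = ev (T W p x) w := by
  have base : ∀ (n : ℕ) (S : Type) [Fintype S] [DecidableEq S]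
      (F : Submodule ℝ (V → ℝ)) (T : Fam P δ G V S), Mem P β δ G V n S a F T →
      ∀ (j : R → S), Function.Bijective j → F' ≤ F →
      ∃ T' : Fam P δ G V R, Mem P β δ G V (n + 1) R a F' T' ∧
        ∀ W p x (w : S → E P.d), ev (T' W p x) (fun r => w (j r)) = ev (T W p x) w := by
    intro n S _ _ F T h j hj hF
    refine ⟨_, mem_reix hβ (h.mono_F hF) (Equiv.ofBijective j hj).symm, fun W p x w => ?_⟩
    rw [ev_reix]
    congr 1
    funext s
    rw [Equiv.ofBijective_apply_symm_apply j hj]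
  induction m with
  | zero =>
    intro n S _ _ F T h j hj hc g _ hF _
    obtain ⟨T', h1, h2⟩ := base n S F T h j ((Fintype.bijective_iff_injective_and_card j).2
      ⟨hj, le_antisymm (Fintype.card_le_of_injective j hj) hc⟩) hF
    exact ⟨T', h1, fun W p x w _ => h2 W p x w⟩
  | succ m ih =>
    intro n S _ _ F T h j hj hc g hg hF hF'
    by_cases hs : Function.Surjective j
    · obtain ⟨T', h1, h2⟩ := base n S F T h j ⟨hj, hs⟩ hF
      exact ⟨T', h1.mono_n hK (by omega), fun W p x w _ => h2 W p x w⟩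
    have hne : {s | s ∉ Set.range j}.Nonempty := by
      by_contra hc
      exact hs fun s => by
        by_contra h'
        exact hc ⟨s, h'⟩
    obtain ⟨s₀, hs₀, hmin⟩ := Set.exists_min_image _ (fun s => (g s).pos) (Set.toFinite _) hne
    have hj₀ : ∀ r, j r ≠ s₀ := fun r hr => hs₀ ⟨r, hr⟩
    have : Nonempty {s // s ≠ s₀} := ⟨⟨j (Classical.arbitrary R), hj₀ _⟩⟩
    obtain ⟨T₁, h1, e1⟩ := step hK hβ h s₀ (hg.ok s₀ hs₀) (hg.top s₀ hs₀)
      (hg.mem s₀ s₀ hs₀ hs₀ le_rfl) (hg.one s₀ hs₀)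
    have hA : ∀ s : {s // s ≠ s₀}, s ∉ Set.range (fun r => (⟨j r, hj₀ r⟩ : {s // s ≠ s₀})) →
        s.1 ∉ Set.range j := fun s hs ⟨r, hr⟩ => hs ⟨r, Subtype.ext hr⟩
    obtain ⟨T', h2, e2⟩ := ih (n + 4) {s // s ≠ s₀} _ T₁ h1 (fun r => ⟨j r, hj₀ r⟩)
      (fun r r' hr => hj (congrArg Subtype.val hr)) (by
        have := Fintype.card_congr (Equiv.optionSubtypeNe s₀)
        rw [Fintype.card_option] at this
        omega) (fun s => g s.1)
      (hg.comp hK (by omega) Subtype.val Subtype.val_injective hA fun s hs =>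
        ⟨⟨hg.top _ (hA s hs), hg.mem _ _ hs₀ (hA s hs) (hmin _ (hA s hs))⟩,
          hg.orth _ _ (hA s hs) hs₀ s.2⟩)
      (by rw [inf_assoc]; exact le_inf hF (hF' s₀ hs₀)) fun s hs => hF' _ (hA s hs)
    refine ⟨T', h2.mono_n hK (by omega), fun W p x w hw => ?_⟩
    rw [← e1 W p x w (hw s₀ hs₀), ← e2 W p x (fun s => w s.1) fun s hs => hw _ (hA s hs)]

end Crest.Agent.R285.NFAux

end
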