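import Crest.Agent.R285.HJB

/-!
Graph polynomials: closure under the generator.
-/

set_option autoImplicit false

open MeasureTheory ProbabilityTheory Matrix Filter
open scoped ENNReal

noncomputable section

namespace Crest.Agent.R285

/-- `DD` applied entrywise -/
def DDT {d : ℕ} {S : Type} (W : E d → ℝ) (H : ℝ → E d → Ten d S) : ℝ → E d → Ten d S :=
  fun η y i => DD W (fun η y => H η y i) η y

/-- spatial derivative of a tensor field on `E d`, new slot `none` -/
def dE {d : ℕ} {S : Type} (H : E d → Ten d S) : E d → Ten d (Option S) :=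
  fun y i => pd (i none) (fun y => H y fun s => i (some s)) y

theorem PP.finite {d n k w : ℕ} {S : Type} {H : (E d → ℝ) → ℝ → E d → Ten d S}
    (h : PP d n k w S H) : Finite S ∧ Nontrivial S ∧ 1 ≤ k ∧ 2 * k ≤ w ∧ k ≤ 2 ^ n := by
  induction h with
  | node n S h2 hn =>
    exact ⟨inferInstance, Fintype.one_lt_card_iff_nontrivial.1 h2, le_rfl, h2, Nat.one_le_two_pow⟩
  | con n k₁ k₂ w₁ w₂ S₁ S₂ J hJ G₁ G₂ h₁ h₂ ih₁ ih₂ =>
    obtain ⟨f1, -, a1, b1, c1⟩ := ih₁
    obtain ⟨f2, -, a2, b2, c2⟩ := ih₂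
    have := Finite.sum_left (α := S₁) J
    have := Finite.sum_right (β := S₂) J
    exact ⟨inferInstance, ⟨Sum.inl (Classical.arbitrary _), Sum.inr (Classical.arbitrary _),
      Sum.inl_ne_inr⟩, by omega, by omega, by rw [pow_succ]; omega⟩
  | sc n k w S S' e c hc G h ih =>
    obtain ⟨f1, n1, a1, b1, c1⟩ := ih
    exact ⟨Finite.of_equiv _ e, e.symm.nontrivial, a1, b1, by rw [pow_succ]; omega⟩

theorem PP.mono {d n n' k w : ℕ} {S : Type} {H : (E d → ℝ) → ℝ → E d → Ten d S}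
    (h : PP d n k w S H) (hn : n ≤ n') : PP d n' k w S H := by
  induction h generalizing n' with
  | node n S h2 hn' => exact PP.node n' S h2 (hn'.trans hn)
  | con n k₁ k₂ w₁ w₂ S₁ S₂ J hJ G₁ G₂ h₁ h₂ ih₁ ih₂ =>
    obtain ⟨m, rfl⟩ : ∃ m, n' = m + 1 := ⟨n' - 1, by omega⟩
    exact PP.con m _ _ _ _ _ _ _ (by omega) _ _ (ih₁ (by omega)) (ih₂ (by omega))
  | sc n k w S S' e c hc G h ih =>
    obtain ⟨m, rfl⟩ : ∃ m, n' = m + 1 := ⟨n' - 1, by omega⟩
    exact PP.sc m _ _ _ _ e c hc _ (ih (by omega))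

theorem PP.hh {d n k w : ℕ} {S : Type} {H : (E d → ℝ) → ℝ → E d → Ten d S} (h : PP d n k w S H)
    {δ G : ℝ} {W : E d → ℝ} (hW : Adm δ G W) (i : S → Fin d) : HH W fun η y => H W η y i := by
  induction h with
  | node n S h2 hn =>
    have : Nonempty S := Fintype.card_pos_iff.1 (by omega)
    exact HH.tau hW i
  | con n k₁ k₂ w₁ w₂ S₁ S₂ J hJ G₁ G₂ h₁ h₂ ih₁ ih₂ =>
    exact HH.sum _ fun j _ => (ih₁ _).mul (ih₂ _)
  | sc n k w S S' e c hc G h ih => exact (HH.const c).mul (ih _)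

namespace PPA

theorem diff {d : ℕ} {δ G : ℝ} {W : E d → ℝ} (hW : Adm δ G W) {h : ℝ → E d → ℝ} (hh : HH W h)
    (η : ℝ) (y : E d) : DifferentiableAt ℝ (h η) y :=
  ((hh.temp hW η).1.differentiable (by simp)) y

/-- a single-edge contraction pattern -/
structure Tm (S : Type) : Type 1 where
  A : Type
  B : Type
  fA : Fintype A
  fB : Fintype B
  nA : Nonempty A
  nB : Nonempty B
  e : A ⊕ B ≃ S

attribute [instance] Tm.fA Tm.fB Tm.nA Tm.nB

/-- the value of a pattern -/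
def Tm.val {S : Type} (t : Tm S) {d : ℕ} (W : E d → ℝ) (η : ℝ) (y : E d) : Ten d S :=
  reix t.e (con1 (tau W η y : Ten d (Option t.A)) (tau W η y))

/-- the conclusion of `DDT_tau` -/
def Q (n : ℕ) (S : Type) [Fintype S] : Prop :=
  ∃ (κ : Type) (_ : Fintype κ) (t : κ → Tm S), Fintype.card κ ≤ n ∧
    ∀ (d : ℕ) (δ G : ℝ) (W : E d → ℝ), Adm δ G W → ∀ η, 0 < η → ∀ y,
      DDT W (fun η y => (tau W η y : Ten d S)) η y = ∑ k, (t k).val W η y

theorem Q.mono {n n' : ℕ} {S : Type} [Fintype S] (h : Q n S) (hn : n ≤ n') : Q n' S := by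
  obtain ⟨κ, _, t, h1, h2⟩ := h
  exact ⟨κ, _, t, h1.trans hn, h2⟩

theorem Q.equiv {n : ℕ} {S S' : Type} [Fintype S] [Fintype S'] (h : Q n S) (e : S ≃ S') :
    Q n S' := by
  obtain ⟨κ, _, t, h1, h2⟩ := h
  refine ⟨κ, _, fun k => { t k with e := (t k).e.trans e }, h1, fun d δ G W hW η hη y => ?_⟩
  have h3 : (fun η y => (tau W η y : Ten d S')) = fun η y => reix e (tau W η y : Ten d S) := by
    funext η y; exact (jet_reix (contDiff_Phi hW η) e y).symm
  funext i
  have h4 := congrFun (h2 d δ G W hW η hη y) fun s => i (e s)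
  rw [h3]
  simp only [Finset.sum_apply] at h4 ⊢
  exact h4

theorem Q.unique (S : Type) [Fintype S] [Unique S] : Q 0 S := by
  refine ⟨Empty, inferInstance, Empty.elim, by simp, fun d δ G W hW η hη y => ?_⟩
  funext i
  have h1 : (fun η y => (tau W η y : Ten d S) i) = fun η y => tau1 W η y (i default) := by
    funext η y; exact jet_unique y i
  simp only [DDT, h1, Finset.univ_eq_empty, Finset.sum_empty, Pi.zero_apply]
  exact DD_tau1 hW _ hη y

theorem jet_swap {d : ℕ} {S : Type} [Fintype S] {f : E d → ℝ} (hf : ContDiff ℝ (⊤ : ℕ∞) f)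
    (y : E d) (k l : Fin d) (a : S → Fin d) :
    (jet f y : Ten d (Option (Option S))) (oc k (oc l a)) =
      (jet f y : Ten d (Option (Option S))) (oc l (oc k a)) := by
  conv_lhs => rw [← jet_reix hf (swapO S) y]
  simp only [reix]
  congr 1
  funext s; rcases s with _ | _ | s <;> rfl

/-- `Unit ⊕ S ≃ Option S` -/
def unitL (S : Type) : Unit ⊕ S ≃ Option S := (Equiv.sumComm _ _).trans (sumU S)

theorem Q.option {n : ℕ} {S : Type} [Fintype S] [Nonempty S] (h : Q n S) :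
    Q (2 * n + 1) (Option S) := by
  obtain ⟨κ, _, t, h1, h2⟩ := h
  refine ⟨(κ ⊕ κ) ⊕ Unit, inferInstance, Sum.elim (Sum.elim
    (fun k => ⟨Option (t k).A, (t k).B, inferInstance, inferInstance, inferInstance, inferInstance,
      (optL _ _).trans (t k).e.optionCongr⟩)
    (fun k => ⟨(t k).A, Option (t k).B, inferInstance, inferInstance, inferInstance, inferInstance,
      (optR _ _).trans (t k).e.optionCongr⟩))
    (fun _ => ⟨Unit, S, inferInstance, inferInstance, inferInstance, inferInstance, unitL S⟩),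
    by simp; omega, fun d δ G W hW η hη y => ?_⟩
  funext i
  have hΦ := contDiff_Phi hW
  have h3 : (fun η y => (tau W η y : Ten d (Option S)) i) =
      fun η y => pd (i none) (fun y => (tau W η y : Ten d S) fun s => i (some s)) y := by
    funext η y
    simp only [tau]
    rw [pd_jet (hΦ η), oc_eta]
  have h4 : DD W (fun η y => (tau W η y : Ten d S) fun s => i (some s)) η =
      fun y => ∑ k, (t k).val W η y fun s => i (some s) := by
    funext y
    have := congrFun (h2 d δ G W hW η hη y) fun s => i (some s)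
    rw [Finset.sum_apply] at this
    exact this
  simp only [DDT, h3]
  rw [DD_pd hW (HH.tau hW _) _ hη, h4]
  simp only [Finset.sum_apply, Fintype.sum_sum_type, Sum.elim_inl, Sum.elim_inr,
    Finset.univ_unique, Finset.sum_singleton]
  congr 1
  · rw [← Finset.sum_add_distrib, TenB.pd_sum]
    · refine Finset.sum_congr rfl fun k _ => ?_
      simp only [Tm.val, reix, con1]
      rw [TenB.pd_sum _ fun l _ => (diff hW (HH.tau hW _) η y).fun_mul (diff hW (HH.tau hW _) η y),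
        ← Finset.sum_add_distrib]
      refine Finset.sum_congr rfl fun l _ => ?_
      rw [TenB.pd_mul (diff hW (HH.tau hW _) η y) (diff hW (HH.tau hW _) η y)]
      simp only [tau]
      rw [pd_jet (hΦ η), pd_jet (hΦ η), jet_swap (hΦ η), jet_swap (hΦ η) y (i none)]
      congr 4
      · funext s; rcases s with _ | s <;> rfl
      · funext s; rcases s with _ | s <;> rfl
    · intro k _
      refine diff hW (h := fun η y => (t k).val W η y fun s => i (some s)) ?_ η y
      simp only [Tm.val, reix, con1]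
      exact HH.sum _ fun l _ => (HH.tau hW _).mul (HH.tau hW _)
  · simp only [Tm.val, reix, con1]
    refine Finset.sum_congr rfl fun l _ => ?_
    simp only [tau]
    rw [pd_jet (hΦ η)]
    congr 1
    have h5 := mat_jet (hΦ η) y l (i none)
    rw [pd_comm (hΦ η)] at h5
    exact h5.symm

theorem exists_Q (j : ℕ) : ∃ n : ℕ, ∀ (S : Type) [Fintype S] [Nonempty S], Fintype.card S ≤ j →
    Q n S := by
  induction j with
  | zero => exact ⟨0, fun S _ _ h => absurd Fintype.card_pos (not_lt.2 h)⟩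
  | succ j ih =>
    obtain ⟨n, hn⟩ := ih
    refine ⟨2 * n + 1, fun S _ _ h => ?_⟩
    classical
    obtain ⟨s⟩ : Nonempty S := inferInstance
    by_cases h1 : Nonempty {x : S // x ≠ s}
    · have h2 : Fintype.card {x : S // x ≠ s} ≤ j := by
        have := Fintype.card_congr (Equiv.optionSubtypeNe s)
        rw [Fintype.card_option] at this
        omega
      exact (hn _ h2).option.equiv (Equiv.optionSubtypeNe s)
    · have : Unique S := ⟨⟨s⟩, fun x => by
        by_contra hx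
        exact h1 ⟨⟨x, hx⟩⟩⟩
      exact (Q.unique S).mono (Nat.zero_le _)

/-- sums of at most `n` graph polynomials of depth `n` -/
def SP (d n : ℕ) (K : ℕ → Prop) (w : ℕ) (S : Type) (C : ℝ → Prop)
    (F : (E d → ℝ) → ℝ → E d → Ten d S) : Prop :=
  ∃ (κ : Type) (_ : Fintype κ) (k' : κ → ℕ) (H' : κ → (E d → ℝ) → ℝ → E d → Ten d S),
    Fintype.card κ ≤ n ∧ (∀ i, K (k' i) ∧ PP d n (k' i) w S (H' i)) ∧
    ∀ (δ G : ℝ) (W : E d → ℝ), Adm δ G W → ∀ η, C η → ∀ y, F W η y = ∑ i, H' i W η y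

section SP
variable {d n n' w w' : ℕ} {K K' : ℕ → Prop} {S S' : Type} {C C' : ℝ → Prop}
  {F F' : (E d → ℝ) → ℝ → E d → Ten d S}

theorem SP.mono (h : SP d n K w S C F) (hn : n ≤ n') (hK : ∀ k, K k → K' k) (hw : w = w')
    (hC : ∀ η, C' η → C η)
    (hF : ∀ (δ G : ℝ) (W : E d → ℝ), Adm δ G W → ∀ η, C' η → ∀ y, F' W η y = F W η y) :
    SP d n' K' w' S C' F' := by
  subst hw
  obtain ⟨κ, _, k', H', h1, h2, h3⟩ := h
  exact ⟨κ, _, k', H', h1.trans hn, fun i => ⟨hK _ (h2 i).1, (h2 i).2.mono hn⟩,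
    fun δ G W hW η hη y => (hF δ G W hW η hη y).trans (h3 δ G W hW η (hC η hη) y)⟩

theorem SP.le (h : SP d n K w S C F) (hn : n ≤ n') : SP d n' K w S C F :=
  h.mono hn (fun _ h => h) rfl (fun _ h => h) fun _ _ _ _ _ _ _ => rfl

theorem SP.of_pp {k : ℕ} (h : PP d n k w S F) : SP d (n + 1) (· = k) w S C F :=
  ⟨Unit, inferInstance, fun _ => k, fun _ => F, by simp, fun _ => ⟨rfl, h.mono (by omega)⟩,
    fun _ _ _ _ _ _ _ => by simp⟩

theorem SP.add (h : SP d n K w S C F) (h' : SP d n K w S C F') :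
    SP d (2 * n) K w S C fun W η y => F W η y + F' W η y := by
  obtain ⟨κ, _, k, H, h1, h2, h3⟩ := h
  obtain ⟨κ', _, k', H', h1', h2', h3'⟩ := h'
  refine ⟨κ ⊕ κ', inferInstance, Sum.elim k k', Sum.elim H H', by simp; omega, ?_,
    fun δ G W hW η hη y => ?_⟩
  · rintro (i | i)
    · exact ⟨(h2 i).1, (h2 i).2.mono (by omega)⟩
    · exact ⟨(h2' i).1, (h2' i).2.mono (by omega)⟩
  · simp only [Fintype.sum_sum_type, Sum.elim_inl, Sum.elim_inr, h3 δ G W hW η hη y,
      h3' δ G W hW η hη y]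

theorem SP.sc (h : SP d n K w S C F) (e : S ≃ S') {c : ℝ} (hc : |c| ≤ 1) :
    SP d (n + 1) K w S' C fun W η y => c • reix e (F W η y) := by
  obtain ⟨κ, _, k, H, h1, h2, h3⟩ := h
  refine ⟨κ, _, k, fun i W η y => c • reix e (H i W η y), by omega,
    fun i => ⟨(h2 i).1, PP.sc _ _ _ _ _ e c hc _ (h2 i).2⟩, fun δ G W hW η hη y => ?_⟩
  funext i
  simp only [h3 δ G W hW η hη y, reix, Pi.smul_apply, Finset.sum_apply, smul_eq_mul,
    Finset.mul_sum]

theorem SP.reix (h : SP d n K w S C F) (e : S ≃ S') :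
    SP d (n + 1) K w S' C fun W η y => reix e (F W η y) := by
  simpa using h.sc e (c := 1) (by simp)

theorem SP.con {S₁ S₂ J : Type} [Fintype J] [DecidableEq J] [Nonempty J] [Nonempty S₁]
    [Nonempty S₂] (hJ : Fintype.card J ≤ n) {F₁ : (E d → ℝ) → ℝ → E d → Ten d (S₁ ⊕ J)}
    {F₂ : (E d → ℝ) → ℝ → E d → Ten d (J ⊕ S₂)} (h₁ : SP d n K w _ C F₁)
    (h₂ : SP d n K' w' _ C F₂) :
    SP d (n * n + n + 1) (fun k => ∃ a b, K a ∧ K' b ∧ k = a + b) (w + w') _ C
      fun W η y => con (F₁ W η y) (F₂ W η y) := by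
  obtain ⟨κ, _, k, H, h1, h2, h3⟩ := h₁
  obtain ⟨κ', _, k', H', h1', h2', h3'⟩ := h₂
  refine ⟨κ × κ', inferInstance, fun i => k i.1 + k' i.2,
    fun i W η y => R285.con (H i.1 W η y) (H' i.2 W η y), ?_, fun i => ⟨⟨_, _, (h2 _).1, (h2' _).1,
      rfl⟩, (PP.con _ _ _ _ _ _ _ _ hJ _ _ (h2 _).2 (h2' _).2).mono (by omega)⟩,
    fun δ G W hW η hη y => ?_⟩
  · rw [Fintype.card_prod]
    have := Nat.mul_le_mul h1 h1'
    omega
  · funext i
    simp only [h3 δ G W hW η hη y, h3' δ G W hW η hη y, R285.con, Finset.sum_apply,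
      Finset.sum_mul_sum, Fintype.sum_prod_type]
    rw [Finset.sum_comm]
    exact Finset.sum_congr rfl fun _ _ => Finset.sum_comm

end SP

theorem sp_dE (n : ℕ) : ∃ n' : ℕ, ∀ (d k w : ℕ) (S : Type)
    (H : (E d → ℝ) → ℝ → E d → Ten d S), PP d n k w S H →
    SP d n' (· = k) (w + 1) (Option S) (fun _ => True) fun W η y => dE (H W η) y := by
  have hnode : ∀ (d n : ℕ) (S : Type) [Fintype S], 2 ≤ Fintype.card S → Fintype.card S ≤ n →
      SP d (n + 2) (· = 1) (Fintype.card S + 1) (Option S) (fun _ => True)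
        fun W η y => dE (fun y => (tau W η y : Ten d S)) y := by
    intro d n S _ h2 hn
    refine (SP.of_pp (C := fun _ => True) (PP.node (d := d) (n + 1) (Option S) (by simp; omega)
      (by simp; omega))).mono le_rfl (fun _ h => h) (by simp) (fun _ h => h)
      fun δ G W hW η _ y => ?_
    funext i
    simp only [dE, tau]
    rw [pd_jet (contDiff_Phi hW η), oc_eta]
  induction n with
  | zero =>
    refine ⟨2, fun d k w S H h => ?_⟩
    cases h with
    | node _ _ h2 hn => exact hnode d 0 S h2 hn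
  | succ n ih =>
    obtain ⟨m, hm⟩ := ih
    refine ⟨2 * ((m + n + 1) * (m + n + 1) + (m + n + 1) + 2) + n + 3, fun d k w S H h => ?_⟩
    cases h with
    | node _ _ h2 hn => exact (hnode d (n + 1) S h2 hn).le (by omega)
    | con _ k₁ k₂ w₁ w₂ S₁ S₂ J hJ G₁ G₂ h₁ h₂ =>
      have a1 := ((SP.con (n := m + n + 1) (by omega)
        (((hm d _ _ _ _ h₁).reix (optL S₁ J).symm).le (by omega))
        ((SP.of_pp h₂).le (by omega))).reix (optL S₁ S₂)).mono (K' := (· = k₁ + k₂))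
        (w' := w₁ + w₂ + 1) le_rfl (by rintro _ ⟨a, b, rfl, rfl, rfl⟩; rfl) (by omega)
        (fun _ h => h) fun _ _ _ _ _ _ _ => rfl
      have a2 := ((SP.con (n := m + n + 1) (by omega) ((SP.of_pp h₁).le (by omega))
        (((hm d _ _ _ _ h₂).reix (optR J S₂).symm).le (by omega))).reix (optR S₁ S₂)).mono
        (K' := (· = k₁ + k₂)) (w' := w₁ + w₂ + 1) le_rfl
        (by rintro _ ⟨a, b, rfl, rfl, rfl⟩; rfl) (by omega) (fun _ h => h) fun _ _ _ _ _ _ _ => rfl
      refine (a1.add a2).mono (by omega) (fun _ h => h) rfl (fun _ h => h)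
        fun δ G W hW η _ y => ?_
      funext i
      simp only [dE, con, reix, Pi.add_apply]
      rw [TenB.pd_sum _ fun j _ => (diff hW (h₁.hh hW _) η y).fun_mul (diff hW (h₂.hh hW _) η y),
        ← Finset.sum_add_distrib]
      refine Finset.sum_congr rfl fun j _ => ?_
      rw [TenB.pd_mul (diff hW (h₁.hh hW _) η y) (diff hW (h₂.hh hW _) η y)]
      congr 3
      · funext y; congr 1; funext s; rcases s with s | s <;> rfl
      · funext y; congr 1; funext s; rcases s with s | s <;> rfl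
    | sc _ _ _ S₀ _ e c hc G₀ h₀ =>
      refine ((hm d _ _ _ _ h₀).sc e.optionCongr hc).mono (by omega) (fun _ h => h) rfl
        (fun _ h => h) fun δ G W hW η _ y => ?_
      funext i
      exact TenB.pd_const_mul (diff hW (h₀.hh hW _) η y) c _

theorem sp_DDT (n : ℕ) : ∃ n' : ℕ, ∀ (d k w : ℕ) (S : Type)
    (H : (E d → ℝ) → ℝ → E d → Ten d S), PP d n k w S H →
    SP d n' (2 ≤ ·) (w + 2) S (0 < ·) fun W η y => DDT W (H W) η y := by
  have hnode : ∀ n : ℕ, ∃ n', ∀ (d : ℕ) (S : Type) [Fintype S], 2 ≤ Fintype.card S →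
      Fintype.card S ≤ n → SP d n' (2 ≤ ·) (Fintype.card S + 2) S (0 < ·)
        fun W η y => DDT W (fun η y => (tau W η y : Ten d S)) η y := by
    intro n
    obtain ⟨m, hm⟩ := exists_Q n
    refine ⟨m + n + 3, fun d S _ h2 hn => ?_⟩
    have : Nonempty S := Fintype.card_pos_iff.1 (by omega)
    obtain ⟨κ, _, t, h3, h4⟩ := hm S hn
    refine ⟨κ, _, fun _ => 2, fun k W η y => (1 : ℝ) • reix (t k).e (con (J := Unit)
      (tau W η y : Ten d ((t k).A ⊕ Unit)) (tau W η y : Ten d (Unit ⊕ (t k).B))), by omega,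
      fun k => ⟨le_rfl, ?_⟩, fun δ G W hW η hη y => ?_⟩
    · have h5 := Fintype.card_congr (t k).e
      have h6 : 0 < Fintype.card (t k).A := Fintype.card_pos
      have h7 : 0 < Fintype.card (t k).B := Fintype.card_pos
      rw [Fintype.card_sum] at h5
      have h8 := PP.sc _ _ _ _ _ (t k).e 1 (by simp) _ (PP.con (n + 1) _ _ _ _ _ _ Unit (by simp) _ _
        (PP.node (d := d) (n + 1) ((t k).A ⊕ Unit) (by simp; omega) (by simp; omega))
        (PP.node (d := d) (n + 1) (Unit ⊕ (t k).B) (by simp; omega) (by simp; omega)))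
      have h9 : Fintype.card ((t k).A ⊕ Unit) + Fintype.card (Unit ⊕ (t k).B) =
          Fintype.card S + 2 := by simp; omega
      rw [h9] at h8
      exact h8.mono (by omega)
    · refine (h4 d δ G W hW η hη y).trans (Finset.sum_congr rfl fun k _ => ?_)
      beta_reduce
      rw [one_smul, Tm.val, con1_eq_con]
      simp only [tau]
      rw [jet_reix (contDiff_Phi hW η), jet_reix (contDiff_Phi hW η)]
  induction n with
  | zero =>
    refine ⟨0, fun d k w S H h => ?_⟩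
    cases h with
    | node _ _ h2 hn => omega
  | succ n ih =>
    obtain ⟨m, hm⟩ := ih
    obtain ⟨m₁, hm₁⟩ := hnode (n + 1)
    obtain ⟨m₂, hm₂⟩ := sp_dE n
    refine ⟨4 * ((m + m₂ + n + 1) * (m + m₂ + n + 1) + (m + m₂ + n + 1) + 1) + m₁,
      fun d k w S H h => ?_⟩
    cases h with
    | node _ _ h2 hn => exact (hm₁ d S h2 hn).le (by omega)
    | con _ k₁ k₂ w₁ w₂ S₁ S₂ J hJ G₁ G₂ h₁ h₂ =>
      have p1 := h₁.finite.2.2.1
      have p2 := h₂.finite.2.2.1
      have a1 := (SP.con (n := m + m₂ + n + 1) (by omega) ((hm d _ _ _ _ h₁).le (by omega))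
        ((SP.of_pp h₂).le (by omega))).mono (K' := (2 ≤ ·)) (w' := w₁ + w₂ + 2) le_rfl
        (by rintro _ ⟨a, b, ha, rfl, rfl⟩; omega) (by omega) (fun _ h => h)
        fun _ _ _ _ _ _ _ => rfl
      have a2 := (SP.con (n := m + m₂ + n + 1) (by omega) ((SP.of_pp h₁).le (by omega))
        ((hm d _ _ _ _ h₂).le (by omega))).mono (K' := (2 ≤ ·)) (w' := w₁ + w₂ + 2) le_rfl
        (by rintro _ ⟨a, b, rfl, hb, rfl⟩; omega) (by omega) (fun _ h => h)
        fun _ _ _ _ _ _ _ => rfl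
      have a3 := (SP.con (n := m + m₂ + n + 1) (J := Option J) (by simp; omega)
        (((hm₂ d _ _ _ _ h₁).reix (optR S₁ J).symm).le (by omega))
        (((hm₂ d _ _ _ _ h₂).reix (optL J S₂).symm).le (by omega))).mono (K' := (2 ≤ ·))
        (w' := w₁ + w₂ + 2) (C' := (0 < ·))
        (n' := 2 * ((m + m₂ + n + 1) * (m + m₂ + n + 1) + (m + m₂ + n + 1) + 1)) (by omega)
        (by rintro _ ⟨a, b, rfl, rfl, rfl⟩; omega) (by omega) (fun _ _ => trivial)
        fun _ _ _ _ _ _ _ => rfl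
      refine ((a1.add a2).add a3).mono (by omega) (fun _ h => h) rfl (fun _ h => h)
        fun δ G W hW η hη y => ?_
      funext i
      simp only [DDT, con, reix, Pi.add_apply, dE]
      rw [DD_sum hW _ (fun j _ => (h₁.hh hW _).mul (h₂.hh hW _)) hη, sum_option,
        Finset.sum_comm (γ := Fin d), ← Finset.sum_add_distrib, ← Finset.sum_add_distrib]
      refine Finset.sum_congr rfl fun j _ => ?_
      rw [DD_mul hW (h₁.hh hW _) (h₂.hh hW _) hη]
      congr 1
      refine Finset.sum_congr rfl fun l _ => ?_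
      simp only [grad]
      congr 2
      · funext y; congr 1; funext s; rcases s with s | s <;> rfl
      · funext y; congr 1; funext s; rcases s with s | s <;> rfl
    | sc _ _ _ S₀ _ e c hc G₀ h₀ =>
      refine ((hm d _ _ _ _ h₀).sc e hc).mono (by omega) (fun _ h => h) rfl
        (fun _ h => h) fun δ G W hW η hη y => ?_
      funext i
      exact DD_const_mul hW c (h₀.hh hW _) hη y

end PPA
/-- `DD τ_S` is a sum of single-edge contractions `τ_A · τ_B` with `|A| + |B| = |S| + 2`,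
`|A|, |B| ≥ 2` (induction on `|S|` with `DD_pd`, starting from `DD_tau1`). -/
theorem DDT_tau (j : ℕ) : ∃ n : ℕ, ∀ (S : Type) [Fintype S] [Nonempty S], Fintype.card S ≤ j →
    ∃ (κ : Type) (_ : Fintype κ) (A B : κ → Type) (_ : ∀ k, Fintype (A k)) (_ : ∀ k, Fintype (B k))
      (_ : ∀ k, Nonempty (A k)) (_ : ∀ k, Nonempty (B k)) (e : ∀ k, A k ⊕ B k ≃ S),
      Fintype.card κ ≤ n ∧ ∀ (d : ℕ) (δ G : ℝ) (W : E d → ℝ), Adm δ G W → ∀ η, 0 < η → ∀ y,
        DDT W (fun η y => (tau W η y : Ten d S)) η y =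
          ∑ k, reix (e k) (con1 (tau W η y : Ten d (Option (A k))) (tau W η y)) := by
  obtain ⟨n, hn⟩ := PPA.exists_Q j
  refine ⟨n, fun S _ _ h => ?_⟩
  obtain ⟨κ, _, t, h1, h2⟩ := hn S h
  exact ⟨κ, _, fun k => (t k).A, fun k => (t k).B, fun k => (t k).fA, fun k => (t k).fB,
    fun k => (t k).nA, fun k => (t k).nB, fun k => (t k).e, h1, h2⟩

theorem pp_dE (n : ℕ) : ∃ n' : ℕ, ∀ (d k w : ℕ) (S : Type)
    (H : (E d → ℝ) → ℝ → E d → Ten d S), PP d n k w S H →
    ∃ (κ : Type) (_ : Fintype κ) (H' : κ → (E d → ℝ) → ℝ → E d → Ten d (Option S)),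
      Fintype.card κ ≤ n' ∧ (∀ i, PP d n' k (w + 1) (Option S) (H' i)) ∧
      ∀ (δ G : ℝ) (W : E d → ℝ), Adm δ G W → ∀ η y, dE (H W η) y = ∑ i, H' i W η y := by
  obtain ⟨n', hn⟩ := PPA.sp_dE n
  refine ⟨n', fun d k w S H h => ?_⟩
  obtain ⟨κ, _, k', H', h1, h2, h3⟩ := hn d k w S H h
  exact ⟨κ, _, H', h1, fun i => (h2 i).1 ▸ (h2 i).2, fun δ G W hW η y => h3 δ G W hW η trivial y⟩

theorem pp_DDT (n : ℕ) : ∃ n' : ℕ, ∀ (d k w : ℕ) (S : Type)
    (H : (E d → ℝ) → ℝ → E d → Ten d S), PP d n k w S H →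
    ∃ (κ : Type) (_ : Fintype κ) (k' : κ → ℕ) (H' : κ → (E d → ℝ) → ℝ → E d → Ten d S),
      Fintype.card κ ≤ n' ∧ (∀ i, 2 ≤ k' i ∧ PP d n' (k' i) (w + 2) S (H' i)) ∧
      ∀ (δ G : ℝ) (W : E d → ℝ), Adm δ G W → ∀ η, 0 < η → ∀ y,
        DDT W (H W) η y = ∑ i, H' i W η y := by
  exact PPA.sp_DDT n

end Crest.Agent.R285

end
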