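import Crest.Agent.R285.Tower
import Crest.Agent.Lib.PrekopaLeindler.Basic

/-!
The Poincaré inequality for the posteriors and its consequences.

Proof (Maurey's property τ): `V x = |x-b|²/(2η) + W x` satisfies
`V((x+y)/2) ≤ (V x + V y)/2 - α|x-y|²/8` with `α = 1/η - δ`. For `f` smooth with compact support
(Hessian bounded by `M`) put `g y = ε f y - ε² |∇f y|²/(α - 2εM)`; then `g y ≤ ε f x + α|x-y|²/4`
and the midpoint Prékopa-Leindler inequality gives `E e^{g} · E e^{-εf} ≤ 1`; expand to order `ε²`.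
Temperate `f`: cut off with `χ(x/R)` and let `R → ∞`.
-/

set_option autoImplicit false

open MeasureTheory ProbabilityTheory Matrix Filter
open scoped ENNReal

noncomputable section

namespace Crest.Agent.R285

variable {d : ℕ} {δ G : ℝ} {W : E d → ℝ}

namespace PoinA

open Real Topology

theorem gam_eq : gam (Fin d) = volume.withDensity fun x =>
    ENNReal.ofReal ((√(2 * π))⁻¹ ^ d * exp (-nrm x ^ 2 / 2)) := by
  have h1 : ∀ x : E d, (√(2 * π))⁻¹ ^ d * exp (-nrm x ^ 2 / 2) =
      ∏ i, gaussianPDFReal 0 1 (x i) := fun x => by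
    have h2 : ∀ t : ℝ, gaussianPDFReal 0 1 t = (√(2 * π))⁻¹ * exp (-t ^ 2 / 2) := fun t => by
      simp [gaussianPDFReal]
    simp only [h2, Finset.prod_mul_distrib, Finset.prod_const, Finset.card_univ, ← exp_sum,
      Fintype.card_fin, nrm_sq]
    rw [← Finset.sum_div, Finset.sum_neg_distrib]
  simp only [h1]
  refine Measure.pi_eq fun s hs => ?_
  rw [withDensity_apply _ (MeasurableSet.univ_pi hs), volume_pi, Measure.restrict_pi_pi,
    ← ofReal_integral_eq_lintegral_ofReal, integral_fintype_prod_eq_prod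
      (f := fun _ x => gaussianPDFReal 0 1 x), ENNReal.ofReal_prod_of_nonneg]
  · simp only [gaussianReal_apply_eq_integral _ one_ne_zero]
  · exact fun i _ => integral_nonneg fun x => gaussianPDFReal_nonneg _ _ _
  · exact Integrable.fintype_prod (f := fun _ x => gaussianPDFReal 0 1 x)
      fun i => (integrable_gaussianPDFReal _ _).restrict
  · exact ae_of_all _ fun x => Finset.prod_nonneg fun i _ => gaussianPDFReal_nonneg _ _ _

theorem parallelogram (x y : E d) : nrm x ^ 2 + nrm y ^ 2 =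
    2 * nrm (fun i => (x i + y i) / 2) ^ 2 + nrm (x - y) ^ 2 / 2 := by
  simp only [nrm_sq, Finset.mul_sum, Finset.sum_div, ← Finset.sum_add_distrib, Pi.sub_apply]
  exact Finset.sum_congr rfl fun i _ => by ring

/-- The Prékopa-Leindler inequality for the Gaussian measure. -/
theorem gauss_pl {a b c : E d → ℝ} (ha : Continuous a) (hb : Continuous b) (hc : Continuous c)
    (ia : Integrable (fun x => exp (a x)) (gam (Fin d)))
    (ib : Integrable (fun x => exp (b x)) (gam (Fin d)))
    (ic : Integrable (fun x => exp (c x)) (gam (Fin d)))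
    (H : ∀ x y, a x + b y ≤ 2 * c (fun i => (x i + y i) / 2) + nrm (x - y) ^ 2 / 4) :
    (∫ x, exp (a x) ∂gam (Fin d)) * (∫ x, exp (b x) ∂gam (Fin d)) ≤
      (∫ x, exp (c x) ∂gam (Fin d)) ^ 2 := by
  have hn : Continuous (nrm : E d → ℝ) := continuous_nrm
  set κ : ℝ := (√(2 * π))⁻¹ ^ d with hκ
  have hκ0 : 0 ≤ κ := by positivity
  have h1 : ∀ k : E d → ℝ, Continuous k → Integrable (fun x => exp (k x)) (gam (Fin d)) →
      ENNReal.ofReal (∫ x, exp (k x) ∂gam (Fin d)) =
        ∫⁻ x, ENNReal.ofReal (κ * exp (k x - nrm x ^ 2 / 2)) := fun k hk ik => by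
    rw [ofReal_integral_eq_lintegral_ofReal ik (ae_of_all _ fun x => (exp_pos _).le), gam_eq,
      lintegral_withDensity_eq_lintegral_mul _ (by fun_prop) (by fun_prop)]
    refine lintegral_congr fun x => ?_
    rw [Pi.mul_apply, ← ENNReal.ofReal_mul (by positivity), mul_assoc, ← exp_add]
    congr 3
    ring
  have h0 : ∀ k : E d → ℝ, 0 ≤ ∫ x, exp (k x) ∂gam (Fin d) := fun k =>
    integral_nonneg fun x => (exp_pos _).le
  rw [← ENNReal.ofReal_le_ofReal_iff (sq_nonneg _), ENNReal.ofReal_mul (h0 a),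
    ENNReal.ofReal_pow (h0 c), h1 a ha ia, h1 b hb ib, h1 c hc ic]
  refine Lib.PrekopaLeindler.plProp_pi d _ _ _ (by fun_prop) (by fun_prop) (by fun_prop)
    fun x y => ?_
  rw [← ENNReal.ofReal_mul (by positivity), ← ENNReal.ofReal_pow (by positivity)]
  refine ENNReal.ofReal_le_ofReal ?_
  rw [mul_mul_mul_comm, ← exp_add, sq (κ * _), mul_mul_mul_comm, ← exp_add]
  refine mul_le_mul_of_nonneg_left (exp_le_exp.2 ?_) (by positivity)
  linarith [H x y, parallelogram x y]

theorem midpoint_aux (hW : Adm δ G W) (hδ : 0 ≤ δ) (m v : E d) :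
    2 * W m ≤ W (m + v) + W (m - v) + δ * nrm v ^ 2 := by
  have hd : Differentiable ℝ W := hW.smooth.differentiable (by simp)
  have h1 : ∀ (u : E d) (t : ℝ), HasDerivAt (fun t : ℝ => W (m + t • u))
      (grad W (m + t • u) ⬝ᵥ u) t := fun u t => by
    have h2 : HasDerivAt (fun t : ℝ => m + t • u) u t := by
      simpa using ((hasDerivAt_id t).smul_const u).const_add m
    rw [← fderiv_eq_dot]
    exact (hd _).hasFDerivAt.comp_hasDerivAt t h2
  have h2 : ∀ t : ℝ, HasDerivAt
      (fun t : ℝ => W (m + t • v) + W (m + t • -v) + δ * nrm v ^ 2 * t ^ 2)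
      (grad W (m + t • v) ⬝ᵥ v + grad W (m + t • -v) ⬝ᵥ -v + δ * nrm v ^ 2 * (2 * t)) t :=
    fun t => ((h1 v t).add (h1 (-v) t)).add (by
      simpa using (hasDerivAt_pow 2 t).const_mul (δ * nrm v ^ 2))
  have h3 := monotoneOn_of_deriv_nonneg (convex_Icc (0 : ℝ) 1)
    (fun t _ => (h2 t).continuousAt.continuousWithinAt)
    (fun t _ => (h2 t).differentiableAt.differentiableWithinAt) (fun t ht => by
      have ht0 : 0 ≤ t := (interior_subset ht).1
      rw [(h2 t).deriv, dotProduct_neg, ← sub_eq_add_neg, ← sub_dotProduct]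
      have a1 := abs_dot_le (grad W (m + t • v) - grad W (m + t • -v)) v
      have a2 := hW.lip_grad hδ (m + t • v) (m + t • -v)
      rw [show m + t • v - (m + t • -v) = (2 * t) • v by module, nrm_smul,
        abs_of_nonneg (by positivity)] at a2
      have a3 := mul_le_mul_of_nonneg_right a2 (nrm_nonneg v)
      nlinarith [neg_abs_le ((grad W (m + t • v) - grad W (m + t • -v)) ⬝ᵥ v)])
    (Set.left_mem_Icc.2 zero_le_one) (Set.right_mem_Icc.2 zero_le_one) zero_le_one
  simp only [zero_smul, add_zero, one_smul, ← sub_eq_add_neg] at h3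
  linarith

theorem midpoint (hW : Adm δ G W) (m v : E d) :
    2 * W m ≤ W (m + v) + W (m - v) + δ * nrm v ^ 2 := by
  rcases le_or_gt 0 δ with hδ | hδ
  · exact midpoint_aux hW hδ m v
  · have h1 := (abs_nonneg _).trans (hW.hess_le m v v)
    have h2 := midpoint_aux (hW.mono hδ.le le_rfl) le_rfl m v
    nlinarith

/-- Maurey's property `τ` with a quadratic cost. -/
def Tau (μ : Measure (E d)) (α : ℝ) : Prop :=
  ∀ φ ψ : E d → ℝ, Continuous φ → Continuous ψ → ∀ C, (∀ x, |φ x| ≤ C) → (∀ x, |ψ x| ≤ C) →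
    (∀ x y, φ x + ψ y ≤ α / 4 * nrm (x - y) ^ 2) →
      (∫ x, exp (φ x) ∂μ) * (∫ x, exp (ψ x) ∂μ) ≤ 1

section Abstract
variable {μ : Measure (E d)} [IsProbabilityMeasure μ] {α : ℝ}

theorem intg {h : E d → ℝ} (hh : Continuous h) {C : ℝ} (hC : ∀ x, |h x| ≤ C) : Integrable h μ :=
  Integrable.of_bound hh.aestronglyMeasurable C (ae_of_all _ hC)

theorem intg_sq {h : E d → ℝ} (hh : Continuous h) {C : ℝ} (hC : ∀ x, |h x| ≤ C) :
    Integrable (fun x => h x ^ 2) μ :=
  intg (by fun_prop) (C := C ^ 2) fun x => by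
    rw [abs_pow]; exact pow_le_pow_left₀ (abs_nonneg _) (hC x) 2

theorem exp_lower {h : E d → ℝ} (hh : Continuous h) {c : ℝ} (hc : ∀ x, |h x| ≤ c) (hc1 : c ≤ 1) :
    1 + ∫ x, h x ∂μ + (∫ x, h x ^ 2 ∂μ) / 2 - c ^ 3 ≤ ∫ x, exp (h x) ∂μ := by
  have i1 : Integrable h μ := intg hh hc
  have i2 : Integrable (fun x => h x ^ 2 / 2) μ := (intg_sq hh hc).div_const 2
  have i3 : Integrable (fun x => exp (h x)) μ := intg (by fun_prop) (C := exp c) fun x => by
    rw [abs_exp]; exact exp_le_exp.2 ((le_abs_self _).trans (hc x))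
  have i4 : Integrable (fun x => h x + h x ^ 2 / 2) μ := i1.add i2
  have h1 : ∫ x, (h x + h x ^ 2 / 2) + (1 - c ^ 3) ∂μ ≤ ∫ x, exp (h x) ∂μ := by
    refine integral_mono (i4.add (integrable_const _)) i3 fun x => ?_
    have a1 := Real.exp_bound ((hc x).trans hc1) (n := 3) (by norm_num)
    have a2 := pow_le_pow_left₀ (abs_nonneg _) (hc x) 3
    have a3 : 0 ≤ |h x| ^ 3 := by positivity
    simp only [Finset.sum_range_succ, Finset.sum_range_zero, Nat.factorial] at a1
    norm_num at a1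
    have := (abs_le.1 a1).1
    dsimp only
    linarith
  rw [integral_add i4 (integrable_const _), integral_add i1 i2, integral_div] at h1
  simp only [integral_const, probReal_univ, one_smul] at h1
  linarith

theorem poin_zero (hτ : Tau μ α) (hα : 0 < α) {f n : E d → ℝ} (hf : Continuous f)
    (hn : Continuous n) {C M : ℝ} (hfC : ∀ x, |f x| ≤ C) (hnC : ∀ x, |n x| ≤ C)
    (hT : ∀ x y, f y - f x ≤ n y * nrm (x - y) + M * nrm (x - y) ^ 2) (h0 : ∫ x, f x ∂μ = 0) :
    ∫ x, f x ^ 2 ∂μ ≤ α⁻¹ * ∫ x, n x ^ 2 ∂μ := by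
  have hC : 0 ≤ C := (abs_nonneg _).trans (hfC 0)
  set s := ∫ x, f x ^ 2 ∂μ with hs
  set D := ∫ x, n x ^ 2 ∂μ with hD
  set Q := 2 * C ^ 2 / α with hQ
  have hQ0 : 0 ≤ Q := by positivity
  set K := C + Q with hK
  let a : ℝ → ℝ := fun ε => s / 2 - ε * K ^ 3
  let b : ℝ → ℝ := fun ε => s / 2 - D / (α - 4 * ε * M) - ε * (C * Q + K ^ 3)
  have ha : ContinuousAt a 0 := by fun_prop
  have hb : ContinuousAt b 0 := by
    refine ContinuousAt.sub (ContinuousAt.sub continuousAt_const
      (ContinuousAt.div continuousAt_const (by fun_prop) (by simpa using hα.ne'))) (by fun_prop)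
  have ev : ∀ {u : ℝ → ℝ} {c : ℝ}, ContinuousAt u 0 → u 0 < c → ∀ᶠ ε in 𝓝[>] (0 : ℝ), u ε < c :=
    fun hu h => nhdsWithin_le_nhds (hu.eventually (gt_mem_nhds h))
  have key : ∀ᶠ ε in 𝓝[>] (0 : ℝ), a ε + b ε + ε ^ 2 * (a ε * b ε) ≤ 0 := by
    filter_upwards [self_mem_nhdsWithin, ev (u := fun ε => ε) (c := 1) (by fun_prop) one_pos,
      ev (u := fun ε => 4 * ε * M) (c := α / 2) (by fun_prop) (by simpa using hα),
      ev (u := fun ε => ε * K) (c := 1) (by fun_prop) (by simp),
      ev (u := fun ε => -(ε ^ 2 * a ε)) (c := 1) (by fun_prop) (by simp),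
      ev (u := fun ε => -(ε ^ 2 * b ε)) (c := 1) (by fun_prop) (by simp)]
      with ε (h1 : 0 < ε) h2 h3 h4 h5 h6
    set α' := α - 4 * ε * M with hα'
    have hα0 : 0 < α' := by linarith
    have hq0 : ∀ x, 0 ≤ n x ^ 2 / α' := fun x => by positivity
    have hq : ∀ x, n x ^ 2 / α' ≤ Q := fun x => by
      have e1 : n x ^ 2 ≤ C ^ 2 := by
        rw [← sq_abs]; exact pow_le_pow_left₀ (abs_nonneg _) (hnC x) 2
      calc n x ^ 2 / α' ≤ C ^ 2 / (α / 2) := by gcongr; linarith
        _ = Q := by rw [hQ]; field_simp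
    have b1 : ∀ x, |-ε * f x| ≤ ε * K := fun x => by
      rw [abs_mul, abs_neg, abs_of_pos h1]
      exact mul_le_mul_of_nonneg_left ((hfC x).trans (by linarith)) h1.le
    have b2 : ∀ x, |ε * f x - ε ^ 2 * (n x ^ 2 / α')| ≤ ε * K := fun x => by
      rw [show ε * f x - ε ^ 2 * (n x ^ 2 / α') = ε * (f x - ε * (n x ^ 2 / α')) by ring,
        abs_mul, abs_of_pos h1]
      refine mul_le_mul_of_nonneg_left ((abs_sub _ _).trans (add_le_add (hfC x) ?_)) h1.le
      rw [abs_of_nonneg (mul_nonneg h1.le (hq0 x))]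
      nlinarith [hq x, hq0 x]
    have c1 : Continuous fun x => -ε * f x := by fun_prop
    have c2 : Continuous fun x => ε * f x - ε ^ 2 * (n x ^ 2 / α') := by fun_prop
    have t := hτ _ _ c1 c2 _ b1 b2 fun x y => by
      have e1 := mul_le_mul_of_nonneg_left (hT x y) h1.le
      have e2 : ε * (n y * nrm (x - y)) ≤ ε ^ 2 * (n y ^ 2 / α') + α' / 4 * nrm (x - y) ^ 2 := by
        have e3 : ε ^ 2 * (n y ^ 2 / α') + α' / 4 * nrm (x - y) ^ 2 - ε * (n y * nrm (x - y)) =
            (ε * n y - α' / 2 * nrm (x - y)) ^ 2 / α' := by field_simp; ring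
        have e4 : 0 ≤ (ε * n y - α' / 2 * nrm (x - y)) ^ 2 / α' := by positivity
        linarith
      rw [hα'] at e2
      rw [hα']
      nlinarith
    have l1 := exp_lower (μ := μ) c1 b1 h4.le
    have l2 := exp_lower (μ := μ) c2 b2 h4.le
    have i1 : Integrable f μ := intg hf hfC
    have i2 : Integrable (fun x => f x ^ 2) μ := intg_sq hf hfC
    have i3 : Integrable (fun x => n x ^ 2 / α') μ := (intg_sq hn hnC).div_const _
    have m1 : ∫ x, (-ε * f x) ^ 2 ∂μ = ε ^ 2 * s := by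
      simp only [mul_pow, even_two, Even.neg_pow]
      rw [integral_const_mul]
    have m2 : ∫ x, ε ^ 2 * f x ^ 2 - 2 * ε ^ 3 * (C * Q) ∂μ ≤
        ∫ x, (ε * f x - ε ^ 2 * (n x ^ 2 / α')) ^ 2 ∂μ := by
      refine integral_mono ((i2.const_mul _).sub (integrable_const _)) (intg_sq c2 b2) fun x => ?_
      have e1 : f x * (n x ^ 2 / α') ≤ C * Q :=
        mul_le_mul ((le_abs_self _).trans (hfC x)) (hq x) (hq0 x) hC
      have e2 := mul_le_mul_of_nonneg_left e1 (pow_pos h1 3).le
      dsimp only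
      nlinarith [sq_nonneg (ε ^ 2 * (n x ^ 2 / α'))]
    rw [integral_sub (i2.const_mul _) (integrable_const _), integral_const_mul] at m2
    simp only [integral_const, probReal_univ, one_smul] at m2
    rw [m1, integral_const_mul, h0] at l1
    rw [integral_sub (i1.const_mul _) (i3.const_mul _), integral_const_mul, integral_const_mul,
      h0, integral_div] at l2
    have l3 : 1 + ε ^ 2 * a ε ≤ ∫ x, exp (-ε * f x) ∂μ := by
      refine le_trans (le_of_eq ?_) l1
      simp only [a]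
      ring
    have l4 : 1 + ε ^ 2 * b ε ≤ ∫ x, exp (ε * f x - ε ^ 2 * (n x ^ 2 / α')) ∂μ := by
      refine le_trans ?_ l2
      simp only [b]
      rw [← hα', ← hD]
      rw [← hs] at m2
      nlinarith
    have l5 := (mul_le_mul l3 l4 (by linarith) (le_trans (by linarith) l3)).trans t
    have l6 : ε ^ 2 * (a ε + b ε + ε ^ 2 * (a ε * b ε)) ≤ ε ^ 2 * 0 := by nlinarith
    exact le_of_mul_le_mul_left l6 (pow_pos h1 2)
  have hc : ContinuousAt (fun ε => a ε + b ε + ε ^ 2 * (a ε * b ε)) 0 := by fun_prop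
  have := le_of_tendsto (hc.tendsto.mono_left nhdsWithin_le_nhds) key
  simp only [a, b] at this
  rw [inv_mul_eq_div]
  norm_num at this
  linarith

theorem poin_bdd (hτ : Tau μ α) (hα : 0 < α) {f n : E d → ℝ} (hf : Continuous f)
    (hn : Continuous n) {C M : ℝ} (hfC : ∀ x, |f x| ≤ C) (hnC : ∀ x, |n x| ≤ C)
    (hT : ∀ x y, f y - f x ≤ n y * nrm (x - y) + M * nrm (x - y) ^ 2) :
    ∫ x, f x ^ 2 ∂μ - (∫ x, f x ∂μ) ^ 2 ≤ α⁻¹ * ∫ x, n x ^ 2 ∂μ := by
  set m := ∫ x, f x ∂μ with hm
  have i1 : Integrable f μ := intg hf hfC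
  have i2 : Integrable (fun x => f x ^ 2) μ := intg_sq hf hfC
  have h := poin_zero hτ hα (f := fun x => f x - m) (by fun_prop) hn (C := C + |m|) (M := M)
    (fun x => (abs_sub _ _).trans (by linarith [hfC x]))
    (fun x => by linarith [hnC x, abs_nonneg m]) (fun x y => by linarith [hT x y])
    (by rw [integral_sub i1 (integrable_const _)]; simp [hm])
  refine le_trans (le_of_eq ?_) h
  have e : ∀ x, (f x - m) ^ 2 = (f x ^ 2 - 2 * m * f x) + m ^ 2 := fun x => by ring
  simp only [e]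
  have i3 : Integrable (fun x => f x ^ 2 - 2 * m * f x) μ := i2.sub (i1.const_mul _)
  rw [integral_add i3 (integrable_const _), integral_sub i2 (i1.const_mul _), integral_const_mul]
  simp only [integral_const, probReal_univ, one_smul]
  ring

theorem continuous_grad {f : E d → ℝ} (hf : ContDiff ℝ (⊤ : ℕ∞) f) : Continuous (grad f) :=
  continuous_pi fun _ => (hf.continuous_fderiv (by simp)).clm_apply continuous_const

theorem grad_bdd {f : E d → ℝ} (hf : ContDiff ℝ (⊤ : ℕ∞) f) (hc : HasCompactSupport f) :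
    ∃ C, ∀ x, nrm (grad f x) ≤ C := by
  have h1 : HasCompactSupport fun x => nrm (grad f x) :=
    (hc.fderiv ℝ).comp_left (g := fun L : E d →L[ℝ] ℝ => nrm fun i => L (Pi.single i 1))
      (by simp [nrm])
  obtain ⟨C, hC⟩ := (continuous_nrm.comp (continuous_grad hf)).bounded_above_of_compact_support h1
  exact ⟨C, fun x => (le_abs_self _).trans (hC x)⟩

theorem poin_cpt (hτ : Tau μ α) (hα : 0 < α) {f : E d → ℝ} (hf : ContDiff ℝ (⊤ : ℕ∞) f)
    (hc : HasCompactSupport f) :
    ∫ x, f x ^ 2 ∂μ - (∫ x, f x ∂μ) ^ 2 ≤ α⁻¹ * ∫ x, nrm (grad f x) ^ 2 ∂μ := by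
  obtain ⟨C, hC⟩ := hf.continuous.bounded_above_of_compact_support hc
  obtain ⟨C', hC'⟩ := grad_bdd hf hc
  obtain ⟨M, hM⟩ := ContDiff.lipschitzWith_of_hasCompactSupport (hc.fderiv ℝ)
    (hf.fderiv_right (m := 1) (by norm_cast)) one_ne_zero
  refine poin_bdd hτ hα hf.continuous (continuous_nrm.comp (continuous_grad hf)) (C := max C C')
    (M := M) (fun x => (hC x).trans (le_max_left _ _))
    (fun x => by rw [abs_of_nonneg (nrm_nonneg _)]; exact (hC' x).trans (le_max_right _ _))
    fun x y => ?_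
  have h1 := Convex.norm_image_sub_le_of_norm_fderiv_le' (𝕜 := ℝ) (f := f) (φ := fderiv ℝ f y)
    (s := Metric.closedBall y ‖x - y‖) (C := M * ‖x - y‖) (x := y) (y := x)
    (fun z _ => hf.differentiable (by simp) z)
    (fun z hz => (hM.norm_sub_le z y).trans
      (mul_le_mul_of_nonneg_left (mem_closedBall_iff_norm.1 hz) M.2))
    (convex_closedBall _ _) (Metric.mem_closedBall_self (norm_nonneg _))
    (mem_closedBall_iff_norm.2 le_rfl)
  rw [fderiv_eq_dot, mul_assoc, ← sq] at h1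
  have h2 := (abs_le.1 h1).1
  have h3 := (abs_le.1 (abs_dot_le (grad f y) (x - y))).1
  have h4 : (M : ℝ) * ‖x - y‖ ^ 2 ≤ M * nrm (x - y) ^ 2 :=
    mul_le_mul_of_nonneg_left (pow_le_pow_left₀ (norm_nonneg _) (norm_le_nrm _) 2) M.2
  change _ ≤ nrm (grad f y) * nrm (x - y) + (M : ℝ) * nrm (x - y) ^ 2
  linarith

theorem grad_cut {χ f : E d → ℝ} (hχ : Differentiable ℝ χ) (hf : Differentiable ℝ f) (c : ℝ)
    (x : E d) : grad (fun x => χ (c • x) * f x) x =
      χ (c • x) • grad f x + (f x * c) • grad χ (c • x) := by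
  have h1 : HasFDerivAt (fun x : E d => χ (c • x))
      ((fderiv ℝ χ (c • x)).comp (c • ContinuousLinearMap.id ℝ (E d))) x :=
    (hχ _).hasFDerivAt.comp x ((hasFDerivAt_id x).const_smul c)
  have h2 := (h1.mul (hf x).hasFDerivAt).fderiv
  funext i
  have h3 : fderiv ℝ (fun x => χ (c • x) * f x) x = _ := h2
  simp [grad, pd, h3, mul_assoc]

theorem poin_smooth (hτ : Tau μ α) (hα : 0 < α) {f : E d → ℝ} (hf : ContDiff ℝ (⊤ : ℕ∞) f)
    (i1 : Integrable f μ) (i2 : Integrable (fun x => f x ^ 2) μ)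
    (i3 : Integrable (fun x => nrm (grad f x) ^ 2) μ) :
    ∫ x, f x ^ 2 ∂μ - (∫ x, f x ∂μ) ^ 2 ≤ α⁻¹ * ∫ x, nrm (grad f x) ^ 2 ∂μ := by
  let χ : ContDiffBump (0 : E d) := ⟨1, 2, one_pos, one_lt_two⟩
  have hχ : ContDiff ℝ (⊤ : ℕ∞) χ := χ.contDiff
  have hχ0 : χ 0 = 1 := χ.one_of_mem_closedBall (Metric.mem_closedBall_self zero_le_one)
  have hχ1 : ∀ x, |χ x| ≤ 1 := fun x => by rw [abs_of_nonneg χ.nonneg]; exact χ.le_one
  obtain ⟨L, hL⟩ := grad_bdd hχ χ.hasCompactSupport
  have hL0 : 0 ≤ L := (nrm_nonneg _).trans (hL 0)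
  let c : ℕ → ℝ := fun k => 1 / ((k : ℝ) + 1)
  have hc : Tendsto c atTop (𝓝 0) := tendsto_one_div_add_atTop_nhds_zero_nat
  have hc0 : ∀ k, 0 < c k := fun k => Nat.one_div_pos_of_nat
  have hc1 : ∀ k, c k ≤ 1 := fun k => by
    simp only [c]
    rw [div_le_one (by positivity)]
    linarith [Nat.cast_nonneg (α := ℝ) k]
  let F : ℕ → E d → ℝ := fun k x => χ (c k • x) * f x
  have hF : ∀ k, ContDiff ℝ (⊤ : ℕ∞) (F k) := fun k =>
    (hχ.comp (contDiff_id.const_smul (c k))).mul hf
  have hFc : ∀ k, HasCompactSupport (F k) := fun k =>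
    (χ.hasCompactSupport.comp_smul (hc0 k).ne').mul_right
  have hle : ∀ k x, |F k x| ≤ |f x| := fun k x => by
    rw [abs_mul]
    exact mul_le_of_le_one_left (abs_nonneg _) (hχ1 _)
  have hlim : ∀ x, Tendsto (fun k => F k x) atTop (𝓝 (f x)) := fun x => by
    have h1 : Continuous fun t : ℝ => χ (t • x) * f x := by
      have := hχ.continuous
      fun_prop
    simpa [hχ0, Function.comp_def] using (h1.tendsto 0).comp hc
  have hg : ∀ k x, grad (F k) x = χ (c k • x) • grad f x + (f x * c k) • grad χ (c k • x) :=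
    fun k x => grad_cut (hχ.differentiable (by simp)) (hf.differentiable (by simp)) _ x
  have t1 : Tendsto (fun k => ∫ x, F k x ∂μ) atTop (𝓝 (∫ x, f x ∂μ)) :=
    tendsto_integral_of_dominated_convergence _
      (fun k => (hF k).continuous.aestronglyMeasurable) i1.abs
      (fun k => ae_of_all _ (hle k)) (ae_of_all _ hlim)
  have t2 : Tendsto (fun k => ∫ x, F k x ^ 2 ∂μ) atTop (𝓝 (∫ x, f x ^ 2 ∂μ)) :=
    tendsto_integral_of_dominated_convergence _
      (fun k => ((hF k).continuous.pow 2).aestronglyMeasurable) i2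
      (fun k => ae_of_all _ fun x => by
        rw [Real.norm_eq_abs, abs_pow, ← sq_abs (f x)]
        exact pow_le_pow_left₀ (abs_nonneg _) (hle k x) 2)
      (ae_of_all _ fun x => (hlim x).pow 2)
  have t3 : Tendsto (fun k => ∫ x, nrm (grad (F k) x) ^ 2 ∂μ) atTop
      (𝓝 (∫ x, nrm (grad f x) ^ 2 ∂μ)) := by
    refine tendsto_integral_of_dominated_convergence
      (fun x => 2 * nrm (grad f x) ^ 2 + 2 * L ^ 2 * f x ^ 2)
      (fun k => ((continuous_nrm.comp (continuous_grad (hF k))).pow 2).aestronglyMeasurable)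
      ((i3.const_mul _).add (i2.const_mul _)) (fun k => ae_of_all _ fun x => ?_)
      (ae_of_all _ fun x => ?_)
    · have h1 : nrm (grad (F k) x) ≤ nrm (grad f x) + L * |f x| := by
        rw [hg]
        refine (nrm_add_le _ _).trans (add_le_add ?_ ?_)
        · rw [nrm_smul]
          exact mul_le_of_le_one_left (nrm_nonneg _) (hχ1 _)
        · rw [nrm_smul, abs_mul, abs_of_pos (hc0 k), mul_comm L]
          exact mul_le_mul (mul_le_of_le_one_right (abs_nonneg _) (hc1 k)) (hL _) (nrm_nonneg _)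
            (abs_nonneg _)
      rw [Real.norm_eq_abs, abs_of_nonneg (sq_nonneg _), ← sq_abs (f x)]
      nlinarith [pow_le_pow_left₀ (nrm_nonneg _) h1 2, sq_nonneg (nrm (grad f x) - L * |f x|)]
    · have h1 : Continuous fun t : ℝ =>
          nrm (χ (t • x) • grad f x + (f x * t) • grad χ (t • x)) ^ 2 := by
        have := hχ.continuous
        have := continuous_grad hχ
        have : Continuous (nrm : E d → ℝ) := continuous_nrm
        fun_prop
      simp only [hg]
      simpa [hχ0, Function.comp_def] using (h1.tendsto 0).comp hc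
  exact le_of_tendsto_of_tendsto' (t2.sub (t1.pow 2)) (t3.const_mul _)
    fun k => poin_cpt hτ hα (hF k) (hFc k)

end Abstract

end PoinA

open PoinA Real in
theorem poincare (hW : Adm δ G W) {η : ℝ} (hη : 0 < η) (hδ : η * δ < 1) (b : E d) {f : E d → ℝ}
    (hf : f.HasTemperateGrowth) :
    stepE W η η b (fun x => f x ^ 2) - stepE W η η b f ^ 2 ≤
      η / (1 - η * δ) * stepE W η η b fun x => nrm (grad f x) ^ 2 := by
  let T : E d → E d := fun g => b + √η • g
  have hT : Continuous T := by fun_prop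
  have hWc : Continuous W := hW.smooth.continuous
  have iW : Integrable (fun g => exp (-W (T g))) (gam (Fin d)) :=
    (PG.of_temp hW.temp_exp).integrable_heat η b
  let ν : Measure (E d) := (gam (Fin d)).tilted fun g => -W (T g)
  have : IsProbabilityMeasure ν := isProbabilityMeasure_tilted iW
  let μ : Measure (E d) := ν.map T
  have : IsProbabilityMeasure μ := Measure.isProbabilityMeasure_map hT.aemeasurable
  have hZ : uu W η b = ∫ g, exp (-W (T g)) ∂gam (Fin d) := rfl
  have hZ0 := uu_pos hW η b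
  have h1 : ∀ h : E d → ℝ, Continuous h → ∫ x, h x ∂μ =
      (uu W η b)⁻¹ * ∫ g, exp (-W (T g)) * h (T g) ∂gam (Fin d) := fun h hh => by
    rw [integral_map hT.aemeasurable hh.aestronglyMeasurable, integral_tilted, ← hZ,
      ← integral_const_mul]
    refine integral_congr_ae (ae_of_all _ fun g => ?_)
    simp only [smul_eq_mul]
    ring
  have h2 : ∀ h : E d → ℝ, Continuous h → stepE W η η b h = ∫ x, h x ∂μ := fun h hh => by
    rw [h1 h hh, stepE, sub_self, uu_zero]
    rfl
  have h3 : ∀ h : E d → ℝ, h.HasTemperateGrowth → Integrable h μ := fun h hh => by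
    rw [integrable_map_measure hh.1.continuous.aestronglyMeasurable hT.aemeasurable,
      integrable_tilted_iff iW]
    exact (PG.of_temp (hW.temp_exp.mul hh)).integrable_heat η b
  have hτ : Tau μ ((1 - η * δ) / η) := by
    intro φ ψ hφ hψ C hφC hψC H
    have i : ∀ k : E d → ℝ, Continuous k → (∀ x, |k x| ≤ C) →
        Integrable (fun g => exp (-W (T g) + k (T g))) (gam (Fin d)) := fun k hk hC => by
      simp only [exp_add]
      refine iW.mul_bdd (c := exp C) (by fun_prop) (ae_of_all _ fun g => ?_)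
      rw [Real.norm_eq_abs, abs_exp]
      exact exp_le_exp.2 ((le_abs_self _).trans (hC _))
    have pl := gauss_pl (a := fun g => -W (T g) + φ (T g)) (b := fun g => -W (T g) + ψ (T g))
      (c := fun g => -W (T g)) (by fun_prop) (by fun_prop) (by fun_prop) (i φ hφ hφC)
      (i ψ hψ hψC) iW fun x y => by
        have a1 := H (T x) (T y)
        have a2 := midpoint hW (T fun i => (x i + y i) / 2) ((√η / 2) • (x - y))
        have e1 : T (fun i => (x i + y i) / 2) + (√η / 2) • (x - y) = T x := by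
          funext i; simp [T]; ring
        have e2 : T (fun i => (x i + y i) / 2) - (√η / 2) • (x - y) = T y := by
          funext i; simp [T]; ring
        have e3 : T x - T y = √η • (x - y) := by simp only [T]; module
        rw [e1, e2, nrm_smul, mul_pow, sq_abs, div_pow, sq_sqrt hη.le] at a2
        rw [e3, nrm_smul, mul_pow, sq_abs, sq_sqrt hη.le] at a1
        have e4 : (1 - η * δ) / η / 4 * (η * nrm (x - y) ^ 2) =
            nrm (x - y) ^ 2 / 4 - δ * (η / 2 ^ 2 * nrm (x - y) ^ 2) := by field_simp; ring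
        linarith
    simp only [exp_add] at pl
    rw [h1 _ (by fun_prop), h1 _ (by fun_prop), mul_mul_mul_comm, ← sq, inv_pow,
      inv_mul_le_iff₀ (by positivity), mul_one]
    exact pl
  have hg : (fun x => nrm (grad f x) ^ 2).HasTemperateGrowth := by
    simp only [← dot_self]
    exact temp_dot (temp_grad hf) (temp_grad hf)
  have h4 := poin_smooth hτ (div_pos (by linarith) hη) hf.1 (h3 f hf) (h3 _ (hf.pow 2)) (h3 _ hg)
  rw [h2 (fun x => f x ^ 2) (hf.1.continuous.pow 2), h2 _ hf.1.continuous, h2 _ hg.1.continuous, ← inv_div]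
  exact h4

end Crest.Agent.R285

end
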