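import Crest.Agent.R285.ProgA

/-!
Closure properties of realisability `Rz`.
-/

set_option autoImplicit false

open MeasureTheory ProbabilityTheory Matrix Filter
open scoped ENNReal

noncomputable section

namespace Crest.Agent.R285

namespace Prog

variable {Ω Ω' : Type} [MeasurableSpace Ω] [MeasurableSpace Ω']

theorem int_of_bdd (ν : Measure Ω) [IsFiniteMeasure ν] {a : Ω → ℝ} (ha : Measurable a) {C : ℝ}
    (hC : ∀ ω, |a ω| ≤ C) : Integrable a ν :=
  Integrable.of_bound ha.aestronglyMeasurable C (ae_of_all _ hC)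

theorem abs_int_sub_le (ν : Measure Ω) [IsProbabilityMeasure ν] {a b : Ω → ℝ}
    (ha : Integrable a ν) (hb : Integrable b ν) {c : ℝ} (h : ∀ ω, |a ω - b ω| ≤ c) :
    |∫ ω, a ω ∂ν - ∫ ω, b ω ∂ν| ≤ c := by
  rw [← integral_sub ha hb]
  simpa using norm_integral_le_of_norm_le_const (μ := ν) (C := c) (f := fun ω => a ω - b ω)
    (ae_of_all _ h)

theorem ofReal_abs_int_sub_le (ν : Measure Ω) {a b : Ω → ℝ} (ha : Integrable a ν)
    (hb : Integrable b ν) :
    ENNReal.ofReal |∫ ω, a ω ∂ν - ∫ ω, b ω ∂ν| ≤ ∫⁻ ω, ENNReal.ofReal |a ω - b ω| ∂ν := by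
  rw [← integral_sub ha hb]
  have := enorm_integral_le_lintegral_enorm (μ := ν) (fun ω => a ω - b ω)
  simpa only [← ofReal_norm, Real.norm_eq_abs] using this

theorem cont_of_lip {d : ℕ} {g : E d → ℝ} {L : ℝ}
    (h : ∀ y y', |g y - g y'| ≤ L * nrm (y - y')) : Continuous g := by
  refine (LipschitzWith.of_dist_le_mul (K := ⟨|L| * √(Fintype.card (Fin d)), by positivity⟩)
    fun y y' => ?_).continuous
  rw [Real.dist_eq, dist_eq_norm]
  refine (h y y').trans ?_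
  show _ ≤ |L| * √(Fintype.card (Fin d)) * ‖y - y'‖
  rw [mul_assoc]
  exact mul_le_mul (le_abs_self L) (nrm_le_norm _) (nrm_nonneg _) (abs_nonneg L)

/-- replace the second stage of a two-stage experiment by its approximate mean -/
theorem two_stage {X : Type} [MeasurableSpace X] (ν : Measure Ω) [IsProbabilityMeasure ν]
    (ν' : Measure Ω') [IsProbabilityMeasure ν'] {Y : Ω → X} (hY : Measurable Y) {K : X × Ω' → ℝ}
    (hK : Measurable K) {C : ℝ} (hC : ∀ z, |K z| ≤ C) {g : X → ℝ} (hg : Measurable g)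
    (hb : ∃ C, ∀ y, |g y| ≤ C) {e : ℝ≥0∞}
    (h : ∀ y, ENNReal.ofReal |∫ ω', K (y, ω') ∂ν' - g y| ≤ e) :
    ENNReal.ofReal |∫ z, K (Y z.1, z.2) ∂ν.prod ν' - ∫ ω, g (Y ω) ∂ν| ≤ e := by
  obtain ⟨C', hC'⟩ := hb
  have iK := int_of_bdd (ν.prod ν') (a := fun z => K (Y z.1, z.2))
    (hK.comp ((hY.comp measurable_fst).prodMk measurable_snd)) fun _ => hC _
  rw [integral_prod _ iK]
  refine (ofReal_abs_int_sub_le ν iK.integral_prod_left
    (int_of_bdd ν (hg.comp hY) fun _ => hC' _)).trans ?_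
  refine (lintegral_mono fun ω => h (Y ω)).trans ?_
  simp

end Prog

/-- functionals that behave like expectations -/
structure Pr {d : ℕ} (Λ : (E d → ℝ) → ℝ) : Prop where
  lip : ∀ f g c, BL f → BL g → (∀ y, |f y - g y| ≤ c) → |Λ f - Λ g| ≤ c
  hom : ∀ c f, Λ (fun y => c * f y) = c * Λ f

variable {d : ℕ}

theorem Pr.abs_le {Λ : (E d → ℝ) → ℝ} (h : Pr Λ) {f : E d → ℝ} (hf : BL f) {c : ℝ}
    (hc : ∀ y, |f y| ≤ c) : |Λ f| ≤ c := by
  have h0 : BL fun y => (0 : ℝ) * f y := ⟨⟨0, fun y => by simp⟩, fun y y' => by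
    simpa using nrm_nonneg (y - y')⟩
  have h1 := h.lip f _ c hf h0 fun y => by simpa using hc y
  rwa [h.hom, zero_mul, sub_zero] at h1

theorem pr_integral {Ω : Type} [MeasurableSpace Ω] (ν : Measure Ω) [IsProbabilityMeasure ν]
    {Y : Ω → E d} (hY : Measurable Y) : Pr fun f => ∫ ω, f (Y ω) ∂ν := by
  refine ⟨fun f g c hf hg hc => ?_, fun c f => integral_const_mul _ _⟩
  obtain ⟨C, hC⟩ := hf.bdd
  obtain ⟨C', hC'⟩ := hg.bdd
  exact Prog.abs_int_sub_le ν
    (Prog.int_of_bdd ν (hf.continuous.measurable.comp hY) fun ω => hC _)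
    (Prog.int_of_bdd ν (hg.continuous.measurable.comp hY) fun ω => hC' _) fun ω => hc _

theorem pr_heat (ρ : ℝ) (y : E d) : Pr fun f => heat ρ f y := by
  exact pr_integral (gam (Fin d)) (Y := fun g => y + √ρ • g) (by fun_prop)

theorem pr_mix {Ω : Type} [MeasurableSpace Ω] (ν : Measure Ω) [IsProbabilityMeasure ν]
    {Λ : Ω → (E d → ℝ) → ℝ} (h : ∀ ω, Pr (Λ ω)) (hm : ∀ f, BL f → Measurable fun ω => Λ ω f) :
    Pr fun f => ∫ ω, Λ ω f ∂ν := by
  refine ⟨fun f g c hf hg hc => ?_, fun c f => ?_⟩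
  · obtain ⟨C, hC⟩ := hf.bdd
    obtain ⟨C', hC'⟩ := hg.bdd
    exact Prog.abs_int_sub_le ν
      (Prog.int_of_bdd ν (hm f hf) fun ω => (h ω).abs_le hf hC)
      (Prog.int_of_bdd ν (hm g hg) fun ω => (h ω).abs_le hg hC') fun ω => (h ω).lip f g c hf hg hc
  · simp only [fun ω => (h ω).hom c f]
    exact integral_const_mul _ _

theorem pr_stepE {δ G : ℝ} {W : E d → ℝ} (hW : Adm δ G W) {η t : ℝ} (ht : 0 ≤ t) (htη : t ≤ η)
    (b : E d) : Pr fun f => stepE W η t b f := by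
  refine ⟨fun f g c hf hg hc => ?_, fun c f => stepE_smul W η t b c f⟩
  rw [← stepE_sub hW η t b hf.pg hg.pg]
  exact abs_stepE_le hW ht htη b hc

theorem measurable_heat {X : Type} [MeasurableSpace X] (ρ : ℝ) {f : E d → ℝ} (hf : BL f)
    {m : X → E d} (hm : Measurable m) : Measurable fun x => heat ρ f (m x) :=
  (hf.heat ρ).continuous.measurable.comp hm

theorem CNear.smul {V : Type} [Fintype V] {Λ₁ Λ₂ : Om d V → (E d → ℝ) → ℝ} {ε : ℝ}
    (h : CNear Λ₁ Λ₂ ε) (h₁ : ∀ x, Pr (Λ₁ x)) (h₂ : ∀ x, Pr (Λ₂ x)) {s : ℝ} (hs : 0 < s) :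
    CNear (fun x f => Λ₁ x fun y => f (s • y)) (fun x f => Λ₂ x fun y => f (s • y)) (s * ε) := by
  obtain ⟨r, a1, a2, a3⟩ := h
  refine ⟨fun x => ENNReal.ofReal s * r x, a1.const_mul _, ?_, fun x f hf => ?_⟩
  · rw [lintegral_const_mul _ a1, ENNReal.ofReal_mul hs.le]
    gcongr
  · obtain ⟨C, hC⟩ := hf.bdd
    refine (a3 x).lip (h₁ x).hom (h₂ x).hom hs ⟨C, fun y => hC _⟩ fun y y' => ?_
    refine (hf.lip _ _).trans (le_of_eq ?_)
    rw [← smul_sub, nrm_smul, abs_of_pos hs]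

variable {kap δ G : ℝ} {V V' : Type} [Fintype V] [Fintype V']
  {Λ Λ' : Pot d δ G → E d → Om d V → (E d → ℝ) → ℝ} {q q' ε ε' : ℝ}

theorem Rz.q_nonneg (h : Rz d kap δ G V Λ q ε) : 0 ≤ q := by
  obtain ⟨Ω, mΩ, ν, hν, n, r, hq, -, -⟩ := h
  exact (Nat.cast_nonneg n).trans hq

theorem Rz.mono (h : Rz d kap δ G V Λ q ε) (hq : q ≤ q') (hε : ε ≤ ε') :
    Rz d kap δ G V Λ q' ε' := by
  obtain ⟨Ω, mΩ, ν, hν, n, r, hn, hr, H⟩ := h
  exact ⟨Ω, mΩ, ν, hν, n, r, hn.trans hq, hr, fun W o ho p => (H W o ho p).mono hε⟩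

theorem Rz.congr (h : Rz d kap δ G V Λ q ε) (e : ∀ W p x f, BL f → Λ W p x f = Λ' W p x f) :
    Rz d kap δ G V Λ' q ε := by
  obtain ⟨Ω, mΩ, ν, hν, n, r, hn, hr, H⟩ := h
  exact ⟨Ω, mΩ, ν, hν, n, r, hn, hr, fun W o ho p =>
    (H W o ho p).congr (fun _ _ _ => rfl) (e W p)⟩

theorem Rz.near (h : Rz d kap δ G V Λ q ε) (h' : ∀ W p, CNear (Λ W p) (Λ' W p) ε') (hε : 0 ≤ ε)
    (hε' : 0 ≤ ε') : Rz d kap δ G V Λ' q (ε + ε') := by
  obtain ⟨Ω, mΩ, ν, hν, n, r, hn, hr, H⟩ := h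
  exact ⟨Ω, mΩ, ν, hν, n, r, hn, hr, fun W o ho p => (H W o ho p).trans (h' W p) hε hε'⟩

/-- post-processing of the output by a known `s`-Lipschitz map -/
theorem Rz.map (h : Rz d kap δ G V Λ q ε) (hΛ : ∀ W p x, Pr (Λ W p x))
    {ψ : (E d × Om d V) × E d → E d} (hψ : Measurable ψ) {s : ℝ} (hs : 0 < s)
    (hl : ∀ z y y', nrm (ψ (z, y) - ψ (z, y')) ≤ s * nrm (y - y')) :
    Rz d kap δ G V (fun W p x f => Λ W p x fun y => f (ψ ((p, x), y))) q (s * ε) := by
  obtain ⟨Ω, mΩ, ν, hν, n, r, hn, hr, H⟩ := h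
  refine ⟨Ω, mΩ, ν, hν, n, fun o i => ψ (i.1, r o i), hn,
    hr.map (ψ := fun z => ψ (z.1.1, z.2)) (hψ.comp (by fun_prop)), fun W o ho p => ?_⟩
  obtain ⟨ρ, a1, a2, a3⟩ := H W o ho p
  refine ⟨fun x => ENNReal.ofReal s * ρ x, a1.const_mul _, ?_, fun x f hf => ?_⟩
  · rw [lintegral_const_mul _ a1, ENNReal.ofReal_mul hs.le]
    gcongr
  · obtain ⟨C, hC⟩ := hf.bdd
    exact (a3 x).lip (fun c f => integral_const_mul _ _) (hΛ W p x).hom hs
      (f := fun y => f (ψ ((p, x), y))) ⟨C, fun y => hC _⟩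
      fun y y' => (hf.lip _ _).trans (hl _ _ _)

/-- conditionally independent sum -/
theorem Rz.conv (h : Rz d kap δ G V Λ q ε) (h' : Rz d kap δ G V Λ' q' ε')
    (hΛ : ∀ W p x, Pr (Λ W p x)) (hΛ' : ∀ W p x, Pr (Λ' W p x)) (hε : 0 ≤ ε) (hε' : 0 ≤ ε') :
    Rz d kap δ G V (fun W p x f => Λ W p x fun y => Λ' W p x fun y' => f (y + y'))
      (q + q') (ε + ε') := by
  obtain ⟨Ω, mΩ, ν, hν, n, r, hn, hr, H⟩ := h
  obtain ⟨Ω', mΩ', ν', hν', n', r', hn', hr', H'⟩ := h'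
  have d1 : DImpl (E d) (E d) (E d) n ((E d × Om d V) × (Ω × Ω')) fun o i => r o (i.1, i.2.1) :=
    hr.comap (φ := fun i : (E d × Om d V) × (Ω × Ω') => (i.1, i.2.1)) (by fun_prop)
  have d2 : DImpl (E d) (E d) (E d) n' (((E d × Om d V) × (Ω × Ω')) × E d)
      fun o j => j.2 + r' o (j.1.1, j.1.2.2) :=
    (hr'.comap (φ := fun j : ((E d × Om d V) × (Ω × Ω')) × E d => (j.1.1, j.1.2.2))
      (by fun_prop)).map (ψ := fun z => z.1.2 + z.2) (by fun_prop)
  refine ⟨Ω × Ω', inferInstance, ν.prod ν', inferInstance, n + n',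
    fun o i => r o (i.1, i.2.1) + r' o (i.1, i.2.2), by push_cast; exact add_le_add hn hn',
    d1.bind d2, fun W o ho p => ?_⟩
  obtain ⟨ρ, a1, a2, a3⟩ := H W o ho p
  obtain ⟨ρ', b1, b2, b3⟩ := H' W o ho p
  refine ⟨fun x => ρ x + ρ' x, a1.add b1, ?_, fun x f hf => ?_⟩
  · rw [lintegral_add_left a1, ENNReal.ofReal_add hε hε']
    exact add_le_add a2 b2
  · obtain ⟨C, hC⟩ := hf.bdd
    have m1 : Measurable fun ω => r o ((p, x), ω) := (hr.measurable ho.1).comp (by fun_prop)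
    have m2 : Measurable fun ω => r' o ((p, x), ω) := (hr'.measurable ho.1).comp (by fun_prop)
    have hg : BL fun y => Λ' W p x fun y' => f (y + y') :=
      ⟨⟨C, fun y => (hΛ' W p x).abs_le (hf.shift y) fun _ => hC _⟩, fun y y₂ =>
        (hΛ' W p x).lip _ _ _ (hf.shift y) (hf.shift y₂) fun y' => by
          simpa using hf.lip (y + y') (y₂ + y')⟩
    have key := Prog.two_stage ν ν' (Y := fun ω => r o ((p, x), ω)) m1
      (K := fun z : E d × Ω' => f (z.1 + r' o ((p, x), z.2)))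
      (hf.continuous.measurable.comp (measurable_fst.add (m2.comp measurable_snd)))
      (fun _ => hC _) hg.continuous.measurable hg.bdd (e := ρ' x)
      fun y => b3 x _ (hf.shift y)
    have k2 := a3 x _ hg
    refine (ENNReal.ofReal_le_ofReal (abs_sub_le _ (∫ ω, (fun y => Λ' W p x fun y' => f (y + y'))
      (r o ((p, x), ω)) ∂ν) _)).trans (ENNReal.ofReal_add_le.trans ?_)
    exact (add_le_add key k2).trans (le_of_eq (add_comm _ _))

/-- the program samples the variables `V'` itself -/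
theorem Rz.mix {Λ : Pot d δ G → E d → Om d (V ⊕ V') → (E d → ℝ) → ℝ}
    (h : Rz d kap δ G (V ⊕ V') Λ q ε) (hΛ : ∀ W p x, Pr (Λ W p x))
    (hm : ∀ W p f, BL f → Measurable fun x => Λ W p x f) :
    Rz d kap δ G V (fun W p x f => ∫ ξ, Λ W p (join x ξ) f ∂gam (V' × Fin d)) q ε := by
  obtain ⟨Ω, mΩ, ν, hν, n, r, hn, hr, H⟩ := h
  have mj : Measurable fun z : Om d V × Om d V' => join z.1 z.2 := mp_join.measurable
  refine ⟨Om d V' × Ω, inferInstance, (gam (V' × Fin d)).prod ν, inferInstance, n,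
    fun o i => r o ((i.1.1, join i.1.2 i.2.1), i.2.2), hn,
    hr.comap (φ := fun i : (E d × Om d V) × (Om d V' × Ω) => ((i.1.1, join i.1.2 i.2.1), i.2.2))
      ((measurable_fst.fst.prodMk (mj.comp (measurable_fst.snd.prodMk measurable_snd.fst))).prodMk
        measurable_snd.snd), fun W o ho p => ?_⟩
  obtain ⟨ρ, a1, a2, a3⟩ := H W o ho p
  refine ⟨fun x => ∫⁻ ξ, ρ (join x ξ) ∂gam (V' × Fin d),
    (a1.comp mj).lintegral_prod_right', by rwa [← lintegral_join a1], fun x f hf => ?_⟩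
  obtain ⟨C, hC⟩ := hf.bdd
  have mx : Measurable fun ξ : Om d V' => join x ξ := mj.comp (measurable_const.prodMk measurable_id)
  have mK : Measurable fun z : Om d V' × Ω => f (r o ((p, join x z.1), z.2)) :=
    hf.continuous.measurable.comp ((hr.measurable ho.1).comp
      ((measurable_const.prodMk (mx.comp measurable_fst)).prodMk measurable_snd))
  have iK := Prog.int_of_bdd ((gam (V' × Fin d)).prod ν) mK fun _ => hC _
  show ENNReal.ofReal |∫ z, f (r o ((p, join x z.1), z.2)) ∂(gam (V' × Fin d)).prod ν -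
    ∫ ξ, Λ W p (join x ξ) f ∂gam (V' × Fin d)| ≤ _
  rw [integral_prod _ iK]
  refine (Prog.ofReal_abs_int_sub_le _ iK.integral_prod_left
    (Prog.int_of_bdd _ ((hm W p f hf).comp mx) fun ξ => (hΛ W p _).abs_le hf hC)).trans ?_
  exact lintegral_mono fun ξ => a3 (join x ξ) f hf

/-- the output of the first program is the parameter of the second -/
theorem Rz.bind {Λ' : Pot d δ G → E d → (E d → ℝ) → ℝ} (h : Rz d kap δ G V Λ q ε)
    (h' : Rz d kap δ G Empty (fun W p _ => Λ' W p) q' ε') (hΛ : ∀ W p x, Pr (Λ W p x))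
    (hΛ' : ∀ W p, Pr (Λ' W p)) {L : ℝ} (hL : 0 < L)
    (hl : ∀ W f, BL f → ∀ y y', |Λ' W y f - Λ' W y' f| ≤ L * nrm (y - y')) (hε : 0 ≤ ε)
    (hε' : 0 ≤ ε') :
    Rz d kap δ G V (fun W p x f => Λ W p x fun y => Λ' W y f) (q + q') (L * ε + ε') := by
  obtain ⟨Ω, mΩ, ν, hν, n, r, hn, hr, H⟩ := h
  obtain ⟨Ω', mΩ', ν', hν', n', r', hn', hr', H'⟩ := h'
  have d1 : DImpl (E d) (E d) (E d) n ((E d × Om d V) × (Ω × Ω')) fun o i => r o (i.1, i.2.1) :=
    hr.comap (φ := fun i : (E d × Om d V) × (Ω × Ω') => (i.1, i.2.1)) (by fun_prop)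
  have d2 : DImpl (E d) (E d) (E d) n' (((E d × Om d V) × (Ω × Ω')) × E d)
      fun o j => r' o ((j.2, 0), j.1.2.2) :=
    hr'.comap (φ := fun j : ((E d × Om d V) × (Ω × Ω')) × E d => ((j.2, (0 : Om d Empty)), j.1.2.2))
      (by fun_prop)
  refine ⟨Ω × Ω', inferInstance, ν.prod ν', inferInstance, n + n',
    fun o i => r' o ((r o (i.1, i.2.1), 0), i.2.2), by push_cast; exact add_le_add hn hn',
    d1.bind d2, fun W o ho p => ?_⟩
  obtain ⟨ρ, a1, a2, a3⟩ := H W o ho p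
  have b3 := fun y => cnear_empty.1 (H' W o ho y) 0
  refine ⟨fun x => ENNReal.ofReal L * ρ x + ENNReal.ofReal ε', (a1.const_mul _).add_const _, ?_,
    fun x f hf => ?_⟩
  · rw [lintegral_add_right _ measurable_const, lintegral_const_mul _ a1, lintegral_const,
      measure_univ, mul_one, ENNReal.ofReal_add (mul_nonneg hL.le hε) hε', ENNReal.ofReal_mul hL.le]
    gcongr
  · obtain ⟨C, hC⟩ := hf.bdd
    have m1 : Measurable fun ω => r o ((p, x), ω) := (hr.measurable ho.1).comp (by fun_prop)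
    have hb : ∃ C, ∀ y, |Λ' W y f| ≤ C := ⟨C, fun y => (hΛ' W y).abs_le hf hC⟩
    have key := Prog.two_stage ν ν' (Y := fun ω => r o ((p, x), ω)) m1
      (K := fun z : E d × Ω' => f (r' o ((z.1, 0), z.2)))
      (hf.continuous.measurable.comp ((hr'.measurable ho.1).comp (by fun_prop)))
      (fun _ => hC _) (Prog.cont_of_lip (hl W f hf)).measurable hb (e := ENNReal.ofReal ε')
      fun y => b3 y f hf
    have k2 := (a3 x).lip (fun c f => integral_const_mul _ _) (hΛ W p x).hom hL hb (hl W f hf)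
    refine (ENNReal.ofReal_le_ofReal (abs_sub_le _ (∫ ω, (fun y => Λ' W y f)
      (r o ((p, x), ω)) ∂ν) _)).trans (ENNReal.ofReal_add_le.trans ?_)
    exact (add_le_add key k2).trans (le_of_eq (add_comm _ _))

/-- rescaling of the potential (the oracle is `y ↦ r • o (r • y)`) and change of parameter -/
theorem Rz.rescale {r : ℝ} (hr : 0 ≤ r)
    {Λ : Pot d (r ^ 2 * δ) (r * G) → E d → Om d V → (E d → ℝ) → ℝ}
    (h : Rz d kap (r ^ 2 * δ) (r * G) V Λ q ε) {ψ : E d → E d} (hψ : Measurable ψ) :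
    Rz d kap δ G V (fun W p => Λ ⟨fun x => W.1 (r • x), W.2.scale hr⟩ (ψ p)) q ε := by
  obtain ⟨Ω, mΩ, ν, hν, n, R, hn, hR, H⟩ := h
  have d1 := hR.oracle (X' := E d) (A' := E d) (φ := fun y => r • y) (by fun_prop)
    (ψ := fun z => r • z.2) (by fun_prop)
  refine ⟨Ω, mΩ, ν, hν, n, fun o i => R (fun y => r • o (r • y)) ((ψ i.1.1, i.1.2), i.2), hn,
    d1.comap (φ := fun i : (E d × Om d V) × Ω => ((ψ i.1.1, i.1.2), i.2)) (by fun_prop),
    fun W o ho p => ?_⟩
  refine H ⟨fun x => W.1 (r • x), W.2.scale hr⟩ (fun y => r • o (r • y)) ⟨?_, fun y => ?_⟩ (ψ p)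
  · have := ho.1
    fun_prop
  · have e : grad (fun x => W.1 (r • x)) y = r • grad W.1 (r • y) := by
      funext i
      simp [grad, TA.pd_scale]
    show nrm (r • o (r • y) - grad (fun x => W.1 (r • x)) y) ≤ _
    rw [e, ← smul_sub, nrm_smul, abs_of_nonneg hr, mul_left_comm]
    exact mul_le_mul_of_nonneg_left (ho.2 _) hr

theorem Rz.noise (ρ : ℝ) {m : E d × Om d V → E d} (hm : Measurable m) :
    Rz d kap δ G V (fun _ p x f => heat ρ f (m (p, x))) 0 0 := by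
  exact ⟨E d, inferInstance, gam (Fin d), inferInstance, 0, fun _ i => m i.1 + √ρ • i.2, by simp,
    DImpl.pure _ _ (by fun_prop), fun W o ho p => CNear.refl _ _⟩

theorem Rz.query (ρ c : ℝ) :
    Rz d kap δ G V (fun W p _ f => heat ρ f (c • grad W.1 p)) 1 (|c| * (kap * G)) := by
  refine ⟨E d, inferInstance, gam (Fin d), inferInstance, 1,
    fun o i => c • o i.1.1 + √ρ • i.2, by simp,
    DImpl.step 0 _ (fun i : (E d × Om d V) × E d => i.1.1) (by fun_prop)
      (fun _ j => c • j.2 + √ρ • j.1.2) (DImpl.pure _ _ (by fun_prop)), fun W o ho p => ?_⟩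
  refine cnear_heat ρ (m := fun _ => c • o p) (m' := fun _ => c • grad W.1 p) measurable_const
    measurable_const ?_
  rw [lintegral_const, measure_univ, mul_one, ← smul_sub, nrm_smul]
  exact ENNReal.ofReal_le_ofReal (mul_le_mul_of_nonneg_left (ho.2 p) (abs_nonneg c))

/-! ### Gaussian laws -/

variable {m m' : Pot d δ G → E d → Om d V → E d} {ρ ρ' : ℝ}

theorem Rz.heat_add (h : Rz d kap δ G V (fun W p x f => heat ρ f (m W p x)) q ε)
    (h' : Rz d kap δ G V (fun W p x f => heat ρ' f (m' W p x)) q' ε') (hρ : 0 ≤ ρ) (hρ' : 0 ≤ ρ')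
    (hε : 0 ≤ ε) (hε' : 0 ≤ ε') :
    Rz d kap δ G V (fun W p x f => heat (ρ + ρ') f (m W p x + m' W p x)) (q + q') (ε + ε') := by
  refine (h.conv h' (fun _ _ _ => pr_heat _ _) (fun _ _ _ => pr_heat _ _) hε hε').congr
    fun W p x f hf => ?_
  have e : (fun y => heat ρ' (fun y' => f (y + y')) (m' W p x)) =
      fun y => heat ρ' f (m' W p x + y) := by
    funext y
    rw [R285.heat_shift, add_comm]
  rw [e, R285.heat_shift, heat_heat hf.pg hρ hρ', add_comm (m' W p x)]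

theorem Rz.heat_sum {κ : Type} [Fintype κ] {m : κ → Pot d δ G → E d → Om d V → E d}
    (h : ∀ k, Rz d kap δ G V (fun W p x f => heat ρ f (m k W p x)) q ε) (hρ : 0 ≤ ρ) (hε : 0 ≤ ε) :
    Rz d kap δ G V (fun W p x f => heat (Fintype.card κ * ρ) f (∑ k, m k W p x))
      (Fintype.card κ * q) (Fintype.card κ * ε) := by
  classical
  have key : ∀ s : Finset κ, Rz d kap δ G V
      (fun W p x f => heat (s.card * ρ) f (∑ k ∈ s, m k W p x)) (s.card * q) (s.card * ε) := by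
    intro s
    induction s using Finset.induction_on with
    | empty =>
      simpa using Rz.noise (kap := kap) (δ := δ) (G := G) (V := V) 0 (m := fun _ => (0 : E d))
        measurable_const
    | insert k s hk ih =>
      have := (h k).heat_add ih hρ (by positivity) hε (by positivity)
      simp only [Finset.sum_insert hk, Finset.card_insert_of_notMem hk, Nat.cast_add, Nat.cast_one,
        add_mul, one_mul, add_comm (s.card * _ : ℝ)]
      exact this
  exact key Finset.univ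

theorem Rz.heat_more (h : Rz d kap δ G V (fun W p x f => heat ρ f (m W p x)) q ε) (hρ : 0 ≤ ρ)
    (hρ' : ρ ≤ ρ') (hε : 0 ≤ ε) : Rz d kap δ G V (fun W p x f => heat ρ' f (m W p x)) q ε := by
  have := h.heat_add (Rz.noise (ρ' - ρ) (m := fun _ => (0 : E d)) measurable_const) hρ
    (sub_nonneg.2 hρ') hε le_rfl
  simpa using this

theorem Rz.heat_shift (h : Rz d kap δ G V (fun W p x f => heat ρ f (m W p x)) q ε)
    {m₀ : E d × Om d V → E d} (hm : Measurable m₀) :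
    Rz d kap δ G V (fun W p x f => heat ρ f (m₀ (p, x) + m W p x)) q ε := by
  have := h.map (fun _ _ _ => pr_heat _ _) (ψ := fun z => m₀ z.1 + z.2) (by fun_prop) one_pos
    fun z y y' => by simp
  rw [one_mul] at this
  exact this.congr fun W p x f _ => R285.heat_shift ρ f (m₀ (p, x)) (m W p x)

theorem Rz.heat_smul (h : Rz d kap δ G V (fun W p x f => heat ρ f (m W p x)) q ε) {s : ℝ}
    (hs : 0 < s) :
    Rz d kap δ G V (fun W p x f => heat (s ^ 2 * ρ) f (s • m W p x)) q (s * ε) := by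
  have := h.map (fun _ _ _ => pr_heat _ _) (ψ := fun z => s • z.2) (by fun_prop) hs
    fun z y y' => by rw [← smul_sub, nrm_smul, abs_of_pos hs]
  exact this.congr fun W p x f _ => heat_scale _ _ hs.le _ _

theorem Rz.heat_near (h : Rz d kap δ G V (fun W p x f => heat ρ f (m W p x)) q ε)
    (hm : ∀ W p, Measurable (m W p)) (hm' : ∀ W p, Measurable (m' W p))
    (h' : ∀ W p, ∫⁻ x, ENNReal.ofReal (nrm (m W p x - m' W p x)) ∂gam (V × Fin d) ≤
      ENNReal.ofReal ε') (hε : 0 ≤ ε) (hε' : 0 ≤ ε') :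
    Rz d kap δ G V (fun W p x f => heat ρ f (m' W p x)) q (ε + ε') := by
  exact h.near (fun W p => cnear_heat ρ (hm W p) (hm' W p) (h' W p)) hε hε'

end Crest.Agent.R285

end
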