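import Crest.Agent.R285.Tower
import Crest.Prelude.Def_OracleSampling

/-!
Query programs: closure properties of `DImpl`, the bridge to `QueryAlg`.
-/

set_option autoImplicit false

open MeasureTheory ProbabilityTheory Matrix Filter
open scoped ENNReal

noncomputable section

namespace Crest.Agent.R285

section DImpl
variable {X A O O' I I' : Type} [MeasurableSpace X] [MeasurableSpace A] [MeasurableSpace O]
  [MeasurableSpace O'] [MeasurableSpace I] [MeasurableSpace I'] {q q' : ℕ}

theorem DImpl.measurable {r : (X → A) → I → O} (h : DImpl X A O q I r) {o : X → A}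
    (ho : Measurable o) : Measurable (r o) := by
  induction h with
  | pure I f hf => exact hf
  | step q I x hx r hr ih => exact ih.comp (measurable_id.prodMk (ho.comp hx))

theorem DImpl.comap {r : (X → A) → I → O} (h : DImpl X A O q I r) {φ : I' → I}
    (hφ : Measurable φ) : DImpl X A O q I' fun o i => r o (φ i) := by
  induction h generalizing I' with
  | pure I f hf => exact DImpl.pure I' (fun i => f (φ i)) (hf.comp hφ)
  | step q I x hx r hr ih =>
    exact DImpl.step q I' (fun i => x (φ i)) (hx.comp hφ) (fun o p => r o (φ p.1, p.2))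
      (ih (φ := fun p : I' × A => (φ p.1, p.2)) ((hφ.comp measurable_fst).prodMk measurable_snd))

theorem DImpl.bind {r : (X → A) → I → O} {r' : (X → A) → I × O → O'} (h : DImpl X A O q I r)
    (h' : DImpl X A O' q' (I × O) r') : DImpl X A O' (q + q') I fun o i => r' o (i, r o i) := by
  induction h with
  | pure I f hf =>
    rw [Nat.zero_add]
    exact h'.comap (φ := fun i : I => (i, f i)) (measurable_id.prodMk hf)
  | step q I x hx r hr ih =>
    rw [Nat.add_right_comm]
    have h1 := ih (r' := fun o p => r' o (p.1.1, p.2))
      (h'.comap (φ := fun p : (I × A) × O => (p.1.1, p.2))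
        ((measurable_fst.comp measurable_fst).prodMk measurable_snd))
    exact DImpl.step (q + q') I x hx _ h1

theorem DImpl.map {r : (X → A) → I → O} (h : DImpl X A O q I r) {ψ : I × O → O'}
    (hψ : Measurable ψ) : DImpl X A O' q I fun o i => ψ (i, r o i) :=
  h.bind (DImpl.pure (I × O) ψ hψ)

/-- simulate the oracle by another oracle -/
theorem DImpl.oracle {X' A' : Type} [MeasurableSpace X'] [MeasurableSpace A']
    {r : (X → A) → I → O} (h : DImpl X A O q I r) {φ : X → X'} (hφ : Measurable φ)
    {ψ : X × A' → A} (hψ : Measurable ψ) :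
    DImpl X' A' O q I fun o => r fun y => ψ (y, o (φ y)) := by
  induction h with
  | pure I f hf => exact DImpl.pure I f hf
  | step q I x hx r hr ih =>
    have h1 := ih.comap (φ := fun p : I × A' => (p.1, ψ (x p.1, p.2)))
      (measurable_fst.prodMk (hψ.comp ((hx.comp measurable_fst).prodMk measurable_snd)))
    exact DImpl.step q I (fun i => φ (x i)) (hφ.comp hx) _ h1

/-- the transcript of an adaptive query scheme -/
def trQ (query : (i : ℕ) → I → (Fin i → A) → X) (o : X → A) (ω : I) : (i : ℕ) → (Fin i → A)
  | 0 => Fin.elim0
  | i + 1 => Fin.snoc (trQ query o ω i) (o (query i ω (trQ query o ω i)))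

/-- prepend a query -/
def consQ (x : I → X) (query : (i : ℕ) → I × A → (Fin i → A) → X) :
    (i : ℕ) → I → (Fin i → A) → X
  | 0 => fun ω _ => x ω
  | i + 1 => fun ω a => query i (ω, a 0) (Fin.tail a)

omit [MeasurableSpace X] [MeasurableSpace A] [MeasurableSpace I] in
theorem trQ_consQ (x : I → X) (query : (i : ℕ) → I × A → (Fin i → A) → X) (o : X → A) (ω : I)
    (i : ℕ) :
    trQ (consQ x query) o ω (i + 1) = Fin.cons (o (x ω)) (trQ query o (ω, o (x ω)) i) := by
  induction i with
  | zero =>
    funext j
    have : j = 0 := Fin.ext (by omega)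
    subst this
    rfl
  | succ i ih =>
    rw [trQ, ih, trQ, Fin.cons_snoc_eq_snoc_cons]
    rfl

theorem measurable_finTail (i : ℕ) :
    Measurable (fun a : Fin (i + 1) → A => (Fin.tail a : Fin i → A)) :=
  measurable_pi_lambda _ fun j => measurable_pi_apply j.succ

theorem DImpl.exists_query (x₀ : X) {r : (X → A) → I → O} (h : DImpl X A O q I r) :
    ∃ (query : (i : ℕ) → I → (Fin i → A) → X) (output : I → (Fin q → A) → O),
      (∀ i, Measurable (Function.uncurry (query i))) ∧ Measurable (Function.uncurry output) ∧
        ∀ o ω, output ω (trQ query o ω q) = r o ω := by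
  induction h with
  | pure I f hf =>
    exact ⟨fun _ _ _ => x₀, fun ω _ => f ω, fun _ => measurable_const, hf.comp measurable_fst,
      fun _ _ => rfl⟩
  | step q I x hx r hr ih =>
    obtain ⟨query, output, hq, ho, he⟩ := ih
    have hm : ∀ i, Measurable (fun p : I × (Fin (i + 1) → A) =>
        (((p.1, p.2 0) : I × A), (Fin.tail p.2 : Fin i → A))) := fun i =>
      (measurable_fst.prodMk ((measurable_pi_apply 0).comp measurable_snd)).prodMk
        ((measurable_finTail i).comp measurable_snd)
    refine ⟨consQ x query, fun ω a => output (ω, a 0) (Fin.tail a), ?_, ho.comp (hm q), ?_⟩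
    · intro i
      cases i with
      | zero => exact hx.comp measurable_fst
      | succ i => exact (hq i).comp (hm i)
    · intro o ω
      rw [trQ_consQ]
      exact he o (ω, o (x ω))

end DImpl

open Crest.OracleSampling in
/-- Prove by induction on the derivation (for any input space `I`) that there are measurable
`query : ∀ i, I → (Fin i → Answer d) → E d` and `output` with `run = r (oracle V)`: the first query is
`x i`, later queries are those of the tail with input `(i, answer 0)` and answers `Fin.tail`. -/
theorem DImpl.queryAlg {d q : ℕ} {Ω : Type} [MeasurableSpace Ω] (ν : Measure Ω)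
    [IsProbabilityMeasure ν]
    {r : (OracleSampling.E d → Answer d) → Ω → OracleSampling.E d}
    (h : DImpl (OracleSampling.E d) (Answer d) (OracleSampling.E d) q Ω r) :
    ∃ A : QueryAlg d q, ∀ V, outputLaw A V = ν.map (r (OracleSampling.oracle V)) := by
  obtain ⟨query, output, hq, ho, he⟩ := h.exists_query 0
  let A : QueryAlg d q := ⟨Ω, inferInstance, ν, inferInstance, query, output, hq, ho⟩
  refine ⟨A, fun V => ?_⟩
  have ht : ∀ ω i, transcript A V ω i = trQ query (OracleSampling.oracle V) ω i := by
    intro ω i
    induction i with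
    | zero => rfl
    | succ i ih =>
      rw [transcript, trQ, ih]
  have hr : run A V = r (OracleSampling.oracle V) := by
    funext ω
    rw [run, ht]
    exact he _ ω
  rw [outputLaw, hr]

end Crest.Agent.R285

end
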