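import Crest.Agent.R285.StepCAux

/-!
The analytic core of `stepC`.
-/

set_option autoImplicit false

open MeasureTheory ProbabilityTheory Matrix Filter
open scoped ENNReal

noncomputable section

namespace Crest.Agent.R285

namespace StepCAux

open NormAux

theorem nrm_jet_le (r : ℕ) : ∃ C : ℝ, 1 ≤ C ∧ ∀ (d : ℕ) (u : E d → ℝ), u.HasTemperateGrowth →
    ∀ A : ℝ, (∀ y, nrm (grad u y) ≤ A) → ∀ (S : Type) [Fintype S] [DecidableEq S],
      Fintype.card S ≤ r → ∀ ρ : ℝ, 1 / 16 ≤ ρ → ∀ y,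
      nrm (jet (heat ρ u) y : Ten d (Option S)) ≤ C * A := by
  obtain ⟨C, hC, h⟩ := nrm_jet_heat_vec_le r
  refine ⟨C, hC, fun d u hu A hA S _ _ hS ρ hρ y => ?_⟩
  refine le_of_eq_of_le ?_ (h d (Fin d) (grad u) (temp_grad hu) A hA S hS ρ hρ y)
  unfold nrm
  congr 1
  rw [sum_option, Fintype.sum_prod_type, Finset.sum_comm]
  refine Finset.sum_congr rfl fun i _ => Finset.sum_congr rfl fun k _ => ?_
  have : (heat ρ fun x => grad u x k) = pd k (heat ρ u) := (pd_heat hu ρ k).symm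
  simp only [this, jet_pd (temp_heat hu ρ).1]

theorem nrm_heat_le {d : ℕ} {F : E d → E d} {A : ℝ} (hA0 : 0 ≤ A) (hA : ∀ y, nrm (F y) ≤ A)
    (ρ : ℝ) (y : E d) : nrm (heat ρ F y) ≤ A := by
  rw [← ENNReal.ofReal_le_ofReal_iff hA0]
  refine (nrm_integral_le _ _).trans ?_
  calc _ ≤ ∫⁻ _, ENNReal.ofReal A ∂gam (Fin d) :=
        lintegral_mono fun g => ENNReal.ofReal_le_ofReal (hA _)
    _ = _ := by simp

theorem lip_grad {d : ℕ} {f : E d → ℝ} (hf : ContDiff ℝ (⊤ : ℕ∞) f) {A : ℝ} (hA0 : 0 ≤ A)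
    (hA : ∀ y, nrm (jet f y : Ten d (Option Unit)) ≤ A) (y y' : E d) :
    nrm (grad f y - grad f y') ≤ A * nrm (y - y') := by
  have e : grad f y - grad f y' = vec ((jet f y : Ten d Unit) - jet f y') := by
    rw [← vec_jet, ← vec_jet]; rfl
  rw [e, nrm_vec]
  refine nrm_le_of_dot (mul_nonneg hA0 (nrm_nonneg _)) fun B => ?_
  rw [dotProduct_sub]
  refine (le_abs_self _).trans ((abs_dot_jet_sub_le hf (fun y => (opN_le_nrm _).trans (hA y)) B y
    y').trans_eq (by ring))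

theorem continuous_app {d : ℕ} {S : Type} [Fintype S] [DecidableEq S] {X : Type}
    [TopologicalSpace X] {T : X → Ten d (Option S)} {v : X → S → E d} (hT : Continuous T)
    (hv : Continuous v) : Continuous fun x => app (T x) (v x) := by
  refine continuous_pi fun k => continuous_finsetSum _ fun i _ => ?_
  exact ((continuous_apply _).comp hT).mul (continuous_finsetProd _ fun s _ =>
    (continuous_apply _).comp ((continuous_apply s).comp hv))

theorem one_le_sum_pow {m : ℕ} {r : Fin m → ℝ} (r0 : ∀ i, 0 ≤ r i) (q : ℕ)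
    (h : ¬∀ i, r i ≤ 1 / 2) : 1 ≤ ∑ i, (2 * r i) ^ q := by
  push Not at h
  obtain ⟨i, hi⟩ := h
  exact (one_le_pow₀ (by linarith)).trans (Finset.single_le_sum (f := fun i => (2 * r i) ^ q)
    (fun j _ => pow_nonneg (by linarith [r0 j]) _) (Finset.mem_univ i))

/-- the estimate at a fixed point `x` -/
theorem core_pt {d m : ℕ} {κ : Type} [Fintype κ] (T : Ten d (Option (Fin m))) (H : κ → E d → E d)
    (hH : ∀ k, Continuous (H k)) {a : ℝ} (ha : 0 ≤ a) (hT : nrm T ≤ a)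
    (hb : ∀ k y, nrm (H k y) ≤ a) (hl : ∀ k y y', nrm (H k y - H k y') ≤ a * nrm (y - y'))
    (ν : κ → Fin m → ℝ) (hν : ∀ k i, |ν k i| ≤ 1) (w : κ → ℝ) (b : E d) (v s : Fin m → E d)
    (S : Fin m → Matrix (Fin d) (Fin d) ℝ) (N : Fin m → E d → E d) (hN : ∀ i, Continuous (N i))
    (r : Fin m → ℝ) (r0 : ∀ i, 0 ≤ r i) (q : ℕ) (hs : ∀ i, nrm (s i) ≤ nrm (v i))
    (good : ∀ i, r i ≤ 1 / 2 → s i = v i ∧ ∀ ξ, nrm (s i + S i *ᵥ ξ - N i ξ) ≤ 2 * r i ^ q * nrm ξ)
    {c : ℝ} (hc0 : 0 ≤ c)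
    (hc : ∀ i, LpLe (gam (Fin m × Fin d)) 1 (fun ξ => nrm fun k => ξ (i, k)) c) :
    ENNReal.ofReal (nrm (app T v - ∑ k, w k •
        ∫ ξ, H k (b + ∑ i, ν k i • N i fun j => ξ (i, j)) ∂gam (Fin m × Fin d))) ≤
      ENNReal.ofReal (2 * a * ((∏ i, nrm (v i)) * ∑ i, (2 * r i) ^ q) +
        (∑ k, |w k|) * (2 * a) * (c + 1) * ∑ i, (2 * r i) ^ q) +
      ∫⁻ ξ, ENNReal.ofReal (nrm (app T (fun i => s i + S i *ᵥ fun j => ξ (i, j)) - ∑ k, w k •
        H k (b + ∑ i, ν k i • (s i + S i *ᵥ fun j => ξ (i, j))))) ∂gam (Fin m × Fin d) := by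
  have hR : 0 ≤ ∑ i, (2 * r i) ^ q :=
    Finset.sum_nonneg fun j _ => pow_nonneg (by linarith [r0 j]) _
  have hW : 0 ≤ ∑ k, |w k| := Finset.sum_nonneg fun _ _ => abs_nonneg _
  have hP : 0 ≤ ∏ i, nrm (v i) := Finset.prod_nonneg fun _ _ => nrm_nonneg _
  have hξ : ∀ i, Continuous fun (ξ : Om d (Fin m)) (j : Fin d) => ξ (i, j) := fun i =>
    continuous_pi fun j => continuous_apply _
  -- step 1
  have h1 : nrm (app T v - app T s) ≤ 2 * a * ((∏ i, nrm (v i)) * ∑ i, (2 * r i) ^ q) := by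
    by_cases hg : ∀ i, r i ≤ 1 / 2
    · have : s = v := funext fun i => (good i (hg i)).1
      rw [this, sub_self, nrm_zero]
      positivity
    · have h2 : ∏ i, nrm (s i) ≤ ∏ i, nrm (v i) :=
        Finset.prod_le_prod (fun _ _ => nrm_nonneg _) fun i _ => hs i
      have h3 := nrm_app_le T v
      have h4 := (nrm_app_le T s).trans (mul_le_mul_of_nonneg_left h2 (nrm_nonneg _))
      have h5 := mul_le_mul_of_nonneg_right hT hP
      calc _ ≤ 2 * a * ((∏ i, nrm (v i)) * 1) := by linarith [nrm_sub_le (app T v) (app T s)]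
        _ ≤ _ := mul_le_mul_of_nonneg_left
            (mul_le_mul_of_nonneg_left (one_le_sum_pow r0 q hg) hP) (by linarith)
  -- step 2
  have i1 : Integrable (fun ξ : Om d (Fin m) => app T fun i => s i + S i *ᵥ fun j => ξ (i, j))
      (gam (Fin m × Fin d)) := by
    refine temp_integrable (temp_app (Function.HasTemperateGrowth.const _) (temp_pi' fun i => ?_))
    refine (Function.HasTemperateGrowth.const _).add (temp_linear _ (fun x y => ?_) fun t x => ?_)
    · rw [← mulVec_add]; rfl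
    · rw [← mulVec_smul]; rfl
  have i2 : ∀ k, Integrable (fun ξ : Om d (Fin m) => H k (b + ∑ i, ν k i • N i fun j => ξ (i, j)))
      (gam (Fin m × Fin d)) := fun k => by
    refine PG.integrable (PG.of_bdd (Continuous.stronglyMeasurable ?_) (C := a)
      fun ξ => (norm_le_nrm _).trans (hb _ _))
    exact (hH k).comp (continuous_const.add (continuous_finsetSum _ fun i _ =>
      ((hN i).comp (hξ i)).const_smul (ν k i)))
  have h2 : app T s - ∑ k, w k • ∫ ξ, H k (b + ∑ i, ν k i • N i fun j => ξ (i, j))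
      ∂gam (Fin m × Fin d) = ∫ ξ, (app T (fun i => s i + S i *ᵥ fun j => ξ (i, j)) -
        ∑ k, w k • H k (b + ∑ i, ν k i • N i fun j => ξ (i, j))) ∂gam (Fin m × Fin d) := by
    have i3 : ∀ k ∈ (Finset.univ : Finset κ), Integrable (fun ξ : Om d (Fin m) =>
        w k • H k (b + ∑ i, ν k i • N i fun j => ξ (i, j))) (gam (Fin m × Fin d)) :=
      fun k _ => (i2 k).smul (w k)
    rw [integral_sub i1 (integrable_finsetSum _ i3), integral_app_add, integral_finsetSum _ i3]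
    simp only [integral_smul]
  -- step 4
  have h4 : ∀ (k : κ) (ξ : Om d (Fin m)),
      nrm (H k (b + ∑ i, ν k i • (s i + S i *ᵥ fun j => ξ (i, j))) -
        H k (b + ∑ i, ν k i • N i fun j => ξ (i, j))) ≤
      2 * a * ∑ i, (2 * r i) ^ q * ((nrm fun j => ξ (i, j)) + 1) := fun k ξ => by
    by_cases hg : ∀ i, r i ≤ 1 / 2
    · refine (hl k _ _).trans ?_
      rw [add_sub_add_left_eq_sub, ← Finset.sum_sub_distrib, mul_comm 2 a, mul_assoc]
      refine mul_le_mul_of_nonneg_left ((nrm_sum_le _ _).trans ?_) ha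
      rw [Finset.mul_sum]
      refine Finset.sum_le_sum fun i _ => ?_
      rw [← smul_sub, nrm_smul]
      have h5 := (good i (hg i)).2 fun j => ξ (i, j)
      have h6 : r i ^ q ≤ (2 * r i) ^ q := pow_le_pow_left₀ (r0 i) (by linarith [r0 i]) q
      have h7 := nrm_nonneg fun j => ξ (i, j)
      have h8 := pow_nonneg (r0 i) q
      calc _ ≤ 1 * (2 * r i ^ q * nrm fun j => ξ (i, j)) :=
            mul_le_mul (hν k i) h5 (nrm_nonneg _) zero_le_one
        _ ≤ _ := by nlinarith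
    · have h5 : ∑ i, (2 * r i) ^ q ≤ ∑ i, (2 * r i) ^ q * ((nrm fun j => ξ (i, j)) + 1) :=
        Finset.sum_le_sum fun i _ => le_mul_of_one_le_right (pow_nonneg (by linarith [r0 i]) _)
          (by linarith [nrm_nonneg fun j => ξ (i, j)])
      calc _ ≤ a + a := (nrm_sub_le _ _).trans (add_le_add (hb _ _) (hb _ _))
        _ = 2 * a * 1 := by ring
        _ ≤ _ := mul_le_mul_of_nonneg_left ((one_le_sum_pow r0 q hg).trans h5) (by linarith)
  have m1 : ∀ i, Measurable fun ξ : Om d (Fin m) => nrm fun j => ξ (i, j) := fun i =>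
    measurable_nrm.comp (hξ i).measurable
  have h5 : LpLe (gam (Fin m × Fin d)) 1 (fun ξ => (∑ k, |w k|) *
      (2 * a * ∑ i, (2 * r i) ^ q * ((nrm fun j => ξ (i, j)) + 1)))
      ((∑ k, |w k|) * (2 * a * ∑ i, (2 * r i) ^ q * (c + 1))) := by
    refine (LpLe.const_mul ?_ (by linarith)).const_mul hW
    refine LpLe.sum _ (fun i _ => LpLe.const_mul ?_ (pow_nonneg (by linarith [r0 i]) _))
      (fun i _ => ((m1 i).add_const 1).const_mul _) le_rfl
      fun i _ => mul_nonneg (pow_nonneg (by linarith [r0 i]) _) (by linarith)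
    exact (hc i).add (LpLe.const fun _ => le_rfl) (m1 i) measurable_const le_rfl hc0 zero_le_one
  have m2 : Measurable fun ξ : Om d (Fin m) => ENNReal.ofReal ((∑ k, |w k|) *
      (2 * a * ∑ i, (2 * r i) ^ q * ((nrm fun j => ξ (i, j)) + 1))) :=
    ENNReal.measurable_ofReal.comp (((Finset.measurable_sum _ fun i _ =>
      ((m1 i).add_const 1).const_mul _).const_mul _).const_mul _)
  calc _ ≤ ENNReal.ofReal (nrm (app T v - app T s) + nrm (app T s - ∑ k, w k •
        ∫ ξ, H k (b + ∑ i, ν k i • N i fun j => ξ (i, j)) ∂gam (Fin m × Fin d))) := by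
        refine ENNReal.ofReal_le_ofReal (le_of_eq_of_le ?_ (nrm_add_le _ _))
        rw [sub_add_sub_cancel]
    _ ≤ ENNReal.ofReal (2 * a * ((∏ i, nrm (v i)) * ∑ i, (2 * r i) ^ q)) +
        ∫⁻ ξ, (ENNReal.ofReal ((∑ k, |w k|) *
          (2 * a * ∑ i, (2 * r i) ^ q * ((nrm fun j => ξ (i, j)) + 1))) +
          ENNReal.ofReal (nrm (app T (fun i => s i + S i *ᵥ fun j => ξ (i, j)) - ∑ k, w k •
          H k (b + ∑ i, ν k i • (s i + S i *ᵥ fun j => ξ (i, j)))))) ∂gam (Fin m × Fin d) := by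
        refine ENNReal.ofReal_add_le.trans (add_le_add (ENNReal.ofReal_le_ofReal h1) ?_)
        rw [h2]
        refine (nrm_integral_le _ _).trans (lintegral_mono fun ξ => ?_)
        refine le_trans (ENNReal.ofReal_le_ofReal ?_) ENNReal.ofReal_add_le
        have e : app T (fun i => s i + S i *ᵥ fun j => ξ (i, j)) -
            ∑ k, w k • H k (b + ∑ i, ν k i • N i fun j => ξ (i, j)) =
            ∑ k, w k • (H k (b + ∑ i, ν k i • (s i + S i *ᵥ fun j => ξ (i, j))) -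
              H k (b + ∑ i, ν k i • N i fun j => ξ (i, j))) +
            (app T (fun i => s i + S i *ᵥ fun j => ξ (i, j)) - ∑ k, w k •
              H k (b + ∑ i, ν k i • (s i + S i *ᵥ fun j => ξ (i, j)))) := by
          simp only [smul_sub, Finset.sum_sub_distrib]
          abel
        rw [e]
        refine (nrm_add_le _ _).trans (add_le_add_left ((nrm_sum_le _ _).trans ?_) _)
        rw [Finset.sum_mul]
        refine Finset.sum_le_sum fun k _ => ?_
        rw [nrm_smul]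
        exact mul_le_mul_of_nonneg_left (h4 k ξ) (abs_nonneg _)
    _ ≤ _ := by
        rw [lintegral_add_left m2, ← add_assoc, ENNReal.ofReal_add (by positivity) (by positivity)]
        refine add_le_add_left (add_le_add_right (h5.one.trans_eq ?_) _) _
        congr 1
        rw [← Finset.sum_mul]
        ring

/-- the integrated estimate -/
theorem core {d m : ℕ} {V : Type} [Fintype V] {κ : Type} [Fintype κ]
    (T : E d → Ten d (Option (Fin m))) (hTc : Continuous T) (H : κ → E d → E d)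
    (hH : ∀ k, Continuous (H k)) {a : ℝ} (ha : 0 ≤ a) (hT : ∀ y, nrm (T y) ≤ a)
    (hb : ∀ k y, nrm (H k y) ≤ a) (hl : ∀ k y y', nrm (H k y - H k y') ≤ a * nrm (y - y'))
    (ν : κ → Fin m → ℝ) (hν : ∀ k i, |ν k i| ≤ 1) (w : κ → ℝ) {ε : ℝ}
    (hex : ∀ y, ∫⁻ Z, ENNReal.ofReal (nrm (app (T y) (fun i k => Z (i, k)) -
      ∑ k, w k • H k (y + lin (ν k) Z))) ∂gam (Fin m × Fin d) ≤ ENNReal.ofReal ε)
    (z : Fin m → V → ℝ) (hz : ∀ i j, z i ⬝ᵥ z j = if i = j then 1 else 0)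
    (A S : Fin m → Om d V → Matrix (Fin d) (Fin d) ℝ)
    (hA : ∀ i k l, Measurable fun x => A i x k l) (hS : ∀ i k l, Measurable fun x => S i x k l)
    (hAS : ∀ i x, A i x * (A i x)ᵀ + S i x * (S i x)ᵀ = 1)
    (hAz : ∀ i j, i ≤ j → ∀ x w, A i (x + dir (z j) w) = A i x)
    (hSz : ∀ i j, i ≤ j → ∀ x w, S i (x + dir (z j) w) = S i x)
    (b : Om d V → E d) (hbm : Measurable b) (hbz : ∀ j x w, b (x + dir (z j) w) = b x)
    (v : Om d V → Fin m → E d) (hv : Measurable v) (N : Fin m → Om d V → E d → E d)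
    (hN : ∀ i x, Continuous (N i x)) (r : Fin m → Om d V → ℝ) (mr : ∀ i, Measurable (r i))
    (r0 : ∀ i x, 0 ≤ r i x) (q : ℕ) (hs : ∀ i x, nrm (A i x *ᵥ lin (z i) x) ≤ nrm (v x i))
    (good : ∀ i x, r i x ≤ 1 / 2 → A i x *ᵥ lin (z i) x = v x i ∧ ∀ ξ,
      nrm (A i x *ᵥ lin (z i) x + S i x *ᵥ ξ - N i x ξ) ≤ 2 * r i x ^ q * nrm ξ)
    {c : ℝ} (hc0 : 0 ≤ c)
    (hc : ∀ i, LpLe (gam (Fin m × Fin d)) 1 (fun ξ => nrm fun k => ξ (i, k)) c)
    {ρ π : ℝ} (hρ0 : 0 ≤ ρ) (hπ0 : 0 ≤ π)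
    (hρ : ∀ i, LpLe (gam (V × Fin d)) (q * 2) (r i) ρ)
    (hπ : LpLe (gam (V × Fin d)) 2 (fun x => ∏ i, nrm (v x i)) π) :
    ∫⁻ x, ENNReal.ofReal (nrm (app (T (b x)) (v x) - ∑ k, w k •
        ∫ ξ, H k (b x + ∑ i, ν k i • N i x fun j => ξ (i, j)) ∂gam (Fin m × Fin d)))
      ∂gam (V × Fin d) ≤ ENNReal.ofReal (2 * a * (π * (m * (2 * ρ) ^ q)) +
        (∑ k, |w k|) * (2 * a) * (c + 1) * (m * (2 * ρ) ^ q)) + ENNReal.ofReal ε := by
  have hW : 0 ≤ ∑ k, |w k| := Finset.sum_nonneg fun _ _ => abs_nonneg _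
  have mR : Measurable fun x => ∑ i, (2 * r i x) ^ q :=
    Finset.measurable_sum _ fun i _ => ((mr i).const_mul 2).pow_const q
  have mP : Measurable fun x => ∏ i, nrm (v x i) :=
    Finset.measurable_prod _ fun i _ => measurable_nrm.comp ((measurable_pi_apply i).comp hv)
  have hR : LpLe (gam (V × Fin d)) 2 (fun x => ∑ i, (2 * r i x) ^ q) (m * (2 * ρ) ^ q) := by
    have := LpLe.sum (μ := gam (V × Fin d)) (p := 2) Finset.univ
      (fun i _ => ((hρ i).const_mul zero_le_two).pow (fun x => by linarith [r0 i x]) (by linarith))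
      (fun i _ => ((mr i).const_mul 2).pow_const q) one_le_two fun _ _ => by positivity
    rwa [Finset.sum_const, Finset.card_univ, Fintype.card_fin, nsmul_eq_mul] at this
  have h1 := (((LpLe.mul (p := 1) hπ hR mP mR
    (fun x => Finset.prod_nonneg fun _ _ => nrm_nonneg _) hπ0).const_mul
    (c := 2 * a) (by linarith)).add ((hR.anti mR one_le_two).const_mul
    (c := (∑ k, |w k|) * (2 * a) * (c + 1)) (by positivity)) ((mP.mul mR).const_mul _)
    (mR.const_mul _) le_rfl (by positivity) (by positivity)).one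
  have mh : Measurable fun yZ : E d × Om d (Fin m) => ENNReal.ofReal (nrm (app (T yZ.1)
      (fun i k => yZ.2 (i, k)) - ∑ k, w k • H k (yZ.1 + lin (ν k) yZ.2))) := by
    refine ENNReal.measurable_ofReal.comp (Continuous.measurable (continuous_nrm.comp ?_))
    refine (continuous_app (hTc.comp continuous_fst) (continuous_pi fun i => continuous_pi fun k =>
      (continuous_apply _).comp continuous_snd)).sub (continuous_finsetSum _ fun k _ => ?_)
    exact ((hH k).comp (continuous_fst.add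
      ((temp_lin (ν k)).1.continuous.comp continuous_snd))).const_smul (w k)
  have h2 := lintegral_legs m z hz A S hA hS hAS hAz hSz b hbm hbz _ mh
  refine (lintegral_mono fun x => core_pt (T (b x)) H hH ha (hT _) hb hl ν hν w (b x) (v x)
    (fun i => A i x *ᵥ lin (z i) x) (fun i => S i x) (fun i => N i x) (fun i => hN i x)
    (fun i => r i x) (fun i => r0 i x) q (fun i => hs i x) (fun i => good i x) hc0 hc).trans ?_
  have m3 : Measurable fun x => ENNReal.ofReal (2 * a * ((∏ i, nrm (v x i)) *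
      ∑ i, (2 * r i x) ^ q) + (∑ k, |w k|) * (2 * a) * (c + 1) * ∑ i, (2 * r i x) ^ q) :=
    ENNReal.measurable_ofReal.comp (((mP.mul mR).const_mul _).add (mR.const_mul _))
  rw [lintegral_add_left m3]
  refine add_le_add h1 ?_
  simp only [lin_eq_sum (ν _)] at h2 hex
  refine (le_of_eq h2).trans ((lintegral_mono fun x => hex (b x)).trans ?_)
  simp

theorem numer {K D th G : ℝ} (hK : 2 ≤ K) (hD : 1 ≤ D) (hth0 : 0 < th) (hth : th ≤ 1) (hG : 0 ≤ G)
    {Ms n B q E₁ E₂ : ℕ} (hq : B + Ms * (n + 1) ≤ q) (hDth : D * th ^ Ms ≤ 1) {a m Ws c ε : ℝ}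
    (ha0 : 0 ≤ a) (ha : a ≤ K * G) (hm0 : 0 ≤ m) (hm : m ≤ K ^ n) (hW0 : 0 ≤ Ws)
    (hW : Ws ≤ K ^ (n + 2)) (hc0 : 0 ≤ c) (hc : c ≤ K * D) (hε : ε ≤ K * th ^ B * G) :
    2 * a * (K ^ E₂ * D ^ n * (m * (2 * (K ^ E₁ * th)) ^ q)) +
      Ws * (2 * a) * (c + 1) * (m * (2 * (K ^ E₁ * th)) ^ q) + ε ≤
      K ^ (2 * n + 8 + E₂ + (E₁ + 1) * q) * th ^ B * G := by
  have hK1 : 1 ≤ K := by linarith
  have hpw : ∀ {i j : ℕ}, i ≤ j → K ^ i ≤ K ^ j := fun h => pow_le_pow_right₀ hK1 h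
  have h1 : D ^ (n + 1) * th ^ q ≤ th ^ B := by
    have h2 : th ^ q ≤ th ^ B * (th ^ Ms) ^ (n + 1) := by
      rw [← pow_mul, ← pow_add]
      exact pow_le_pow_of_le_one hth0.le hth hq
    calc D ^ (n + 1) * th ^ q ≤ D ^ (n + 1) * (th ^ B * (th ^ Ms) ^ (n + 1)) := by gcongr
      _ = th ^ B * (D * th ^ Ms) ^ (n + 1) := by ring
      _ ≤ th ^ B * 1 := by
          gcongr
          exact pow_le_one₀ (by positivity) hDth
      _ = _ := mul_one _
  have h2 : m * (2 * (K ^ E₁ * th)) ^ q ≤ K ^ n * (K * (K ^ E₁ * th)) ^ q := by gcongr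
  have h3 : 2 * a ≤ K * (K * G) := by gcongr
  have h4 : c + 1 ≤ K * (K * D ^ (n + 1)) := by
    have h5 : D ≤ D ^ (n + 1) := le_self_pow₀ hD (by omega)
    have h6 : 1 ≤ K * D := one_le_mul_of_one_le_of_one_le hK1 hD
    calc c + 1 ≤ 2 * (K * D) := by linarith
      _ ≤ _ := by gcongr
  have h5 : D ^ n ≤ D ^ (n + 1) := pow_le_pow_right₀ hD (by omega)
  have hX : 0 ≤ th ^ B * G := by positivity
  have t1 : 2 * a * (K ^ E₂ * D ^ n * (m * (2 * (K ^ E₁ * th)) ^ q)) ≤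
      K ^ (2 * n + 6 + E₂ + (E₁ + 1) * q) * (th ^ B * G) := by
    calc _ ≤ K * (K * G) * (K ^ E₂ * D ^ (n + 1) * (K ^ n * (K * (K ^ E₁ * th)) ^ q)) := by gcongr
      _ = K ^ (n + 2 + E₂ + (E₁ + 1) * q) * (D ^ (n + 1) * th ^ q * G) := by ring
      _ ≤ _ := mul_le_mul (hpw (by omega)) (mul_le_mul_of_nonneg_right h1 hG) (by positivity)
          (by positivity)
  have t2 : Ws * (2 * a) * (c + 1) * (m * (2 * (K ^ E₁ * th)) ^ q) ≤
      K ^ (2 * n + 6 + E₂ + (E₁ + 1) * q) * (th ^ B * G) := by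
    calc _ ≤ K ^ (n + 2) * (K * (K * G)) * (K * (K * D ^ (n + 1))) *
          (K ^ n * (K * (K ^ E₁ * th)) ^ q) := by gcongr
      _ = K ^ (2 * n + 6 + (E₁ + 1) * q) * (D ^ (n + 1) * th ^ q * G) := by ring
      _ ≤ _ := mul_le_mul (hpw (by omega)) (mul_le_mul_of_nonneg_right h1 hG) (by positivity)
          (by positivity)
  have t3 : ε ≤ K ^ (2 * n + 6 + E₂ + (E₁ + 1) * q) * (th ^ B * G) := by
    calc ε ≤ K ^ 1 * (th ^ B * G) := by rw [pow_one, ← mul_assoc]; exact hε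
      _ ≤ _ := mul_le_mul_of_nonneg_right (hpw (by omega)) hX
  have hY : 0 ≤ K ^ (2 * n + 6 + E₂ + (E₁ + 1) * q) * (th ^ B * G) := by positivity
  calc _ ≤ 4 * (K ^ (2 * n + 6 + E₂ + (E₁ + 1) * q) * (th ^ B * G)) := by linarith
    _ ≤ K ^ 2 * (K ^ (2 * n + 6 + E₂ + (E₁ + 1) * q) * (th ^ B * G)) :=
        mul_le_mul_of_nonneg_right (by nlinarith) hY
    _ = _ := by ring

end StepCAux

end Crest.Agent.R285

end
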