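import Crest.Agent.R285.Norm
import Crest.Agent.R285.Extract
import Crest.Agent.R285.JLem
import Crest.Agent.R285.NF
import Crest.Agent.R285.StepCAux2

/-!
Removing the legs of a smoothed node.

Notation: `T x = heat (1/2) (tau η) (b x) = jet (heat (1/2) Φ_η) (b x)` (`jet_heat`), `nrm T ≤ C G`
(`nrm_jet_heat_vec_le`, `nrm_tau1_le`). For an identity leg put `A i = 1`, `S i = 0`; for a leg `mat M` put
`A i = mat M`, `S i = Sq M` on the good event `opN M ≤ 1/2` and `A i = 0`, `S i = 1` otherwise; let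
`N i = A i z i + S i ξ i`.
1. `app T v` differs from `app T (A z)` only on the bad event, of probability `≤ n (2 K^Ex β)^p`
   (`ev_mem_opN`, `LpLe.markov`, `β ≤ th`, `p` large; `D th^Ms ≤ 1`); use `nrm_app_le`, `ev_legs_prod` and
   Cauchy-Schwarz.
2. `app T (A z) = ∫ ξ, app T N` (`integral_app_add`).
3. `extract` with `s₀ = 1/K`, `N` from `ev_big`, transported by `lintegral_legs`.
4. Replace `N i` by `Ñ i = M z i + ∑_{k ≤ B+1} c k (M Mᵀ)^k ξ i` (or `z i`): `heat σ (tau1 η)` is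
   `2G`-Lipschitz for `σ ≥ 1/4` (`nrm_dE_heat_le`) and bounded by `G` (bad event).
5. `heat (1/2 - s²) = ∫ heat (1/4)` with one more visible seed (`heat_lin`); `V2 = Fin m ⊕ Unit`. The base
   `b x + s₀ ∑ ν i Ñ i + √(1/4 - s²) g` is a `Bas` with support `⊥`: `M z i` and `(M Mᵀ)^k ξ i` are members of
   amplitude `β` (`Mem.con`, `Mem.leaf`, `Mem.sc`; `|s₀ ν i c k| ≤ 1`).
-/

set_option autoImplicit false

open MeasureTheory ProbabilityTheory Matrix Filter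
open scoped ENNReal

noncomputable section

namespace Crest.Agent.R285

open NormAux StepCAux

/-- powers `(M Mᵀ)^(k+1) ξ` are members -/
theorem mem_pow_mulVec (n k : ℕ) : ∃ n' : ℕ, ∀ P : Par, P.Base → ∀ β δ G : ℝ, 0 < β →
    ∀ (V : Type) [Fintype V] (F : Submodule ℝ (V → ℝ)) (M : Fam P δ G V (Option Unit)),
      Mem P β δ G V n (Option Unit) β F M → ∀ z ∈ F, z ⬝ᵥ z = 1 →
      ∃ T : Fam P δ G V Unit, Mem P β δ G V n' Unit β ⊥ T ∧ ∀ W p x, vec (T W p x) =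
        (mat (M W p x) * (mat (M W p x))ᵀ) ^ (k + 1) *ᵥ lin z x := by
  refine ⟨n + 4 + 3 * k + 2, fun P hP β δ G hβ V _ F M hM z hz hz1 => ?_⟩
  obtain ⟨Z, hZ, e⟩ := mem_pow hP.one_le_K hβ hM k
  obtain ⟨T, hT, e'⟩ := mem_mulVec hβ hZ hz hz1
  exact ⟨T, hT, fun W p x => by rw [e', e]⟩

theorem stepC (J Ms n B : ℕ) : ∃ n' C : ℕ, ∀ᶠ P in LL J Ms, ∀ β δ G : ℝ, Cl P β δ G → β ≤ P.th →
    ∀ (V : Type) [Fintype V] (m : ℕ) (F : Submodule ℝ (V → ℝ))
      (b : Pot P.d δ G → E P.d → Om P.d V → E P.d) (g : Legs P β δ G V n m) (η : ℝ), m ≤ n →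
      Bas P β δ G V n β F b → (∀ i, g.z i ∈ F) →
      ∃ (κ : Type) (_ : Fintype κ) (V2 : Type) (_ : Fintype V2) (w : κ → ℝ)
        (bs : κ → Pot P.d δ G → E P.d → Om P.d (V ⊕ V2) → E P.d),
        (Fintype.card κ : ℝ) ≤ P.K ∧ (Fintype.card V2 : ℝ) ≤ P.K ^ n' ∧ (∀ s, |w s| ≤ P.K ^ n') ∧
        (∀ s, Bas P β δ G (V ⊕ V2) n' β ⊥ (bs s)) ∧ ∀ W p,
          ∫⁻ x, ENNReal.ofReal (nrm (app (heat (1 / 2)
              (fun y => (tau W.1 η y : Ten P.d (Option (Fin m)))) (b W p x)) (g.v W p x) -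
              ∑ s, w s • ∫ ξ, heat (1 / 4) (tau1 W.1 η) (bs s W p (join x ξ)) ∂gam (V2 × Fin P.d)))
            ∂gam (V × Fin P.d) ≤ ENNReal.ofReal (P.K ^ C * P.th ^ B * G) := by
  obtain ⟨k₀, hk₀⟩ : ∃ k₀, k₀ = B + Ms * (n + 1) := ⟨_, rfl⟩
  obtain ⟨n₁, hLD⟩ := leg_data n k₀
  obtain ⟨E₁, h₁⟩ := ev_mem_opN J Ms n
  obtain ⟨E₂, h₂⟩ := ev_legs_prod J Ms n
  obtain ⟨CT, hCT, hT⟩ := nrm_jet_le (n + 1)
  obtain ⟨C₁, hC₁, hl⟩ := lp_lin 1
  choose Cx κ fκ ν w hCx hκ hν hw hx using extract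
  obtain ⟨n₂, hn₂⟩ : ∃ n₂, n₂ = n * n * (n₁ + 1) + (n₁ + 1) + n := ⟨_, rfl⟩
  refine ⟨4 * (4 * n₂ + 1) + 1, 2 * n + 8 + E₂ + (E₁ + 1) * (2 * k₀ + 2), ?_⟩
  filter_upwards [ev_base, ev_ge 4, ev_ge CT, ev_ge C₁, ev_D,
    ev_big B fun N => ∑ m ∈ Finset.range (n + 1), Cx m N, h₁ ((2 * k₀ + 2) * 2), h₂ 2] with P hP
    hK4 hCTK hC₁K hD hN h₁ h₂ β δ G hcl hβth V _ m F b g η hm hb hF
  classical
  obtain ⟨N, -, hN, -, hCN⟩ := hN
  have hK := hP.one_le_K
  have hK0 : 0 < P.K := by linarith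
  have hβ := hcl.β_pos
  have hG := hcl.G_nonneg
  have hpw : ∀ {i j : ℕ}, i ≤ j → P.K ^ i ≤ P.K ^ j := fun h => pow_le_pow_right₀ hK h
  have hC : Cx m N ≤ P.K := (Finset.single_le_sum (f := fun m => Cx m N)
    (fun m _ => by linarith [hCx m N]) (Finset.mem_range.2 (by omega))).trans hCN
  have ld : ∀ i, LD g i (2 * k₀ + 2) n₁ := fun i => Classical.choice (hLD P hP β δ G hβ V m g i)
  let _ := fκ m N
  have hs0 : 0 < P.K⁻¹ := inv_pos.2 hK0
  have hs : ∀ s, P.K⁻¹ ^ 2 * (ν m N s ⬝ᵥ ν m N s) ≤ 1 / 4 := fun s => by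
    have h3 := (hν m N s).trans hC
    rw [inv_pow, inv_mul_le_iff₀ (by positivity)]
    nlinarith
  have hν1 : ∀ s i, |(P.K⁻¹ • ν m N s) i| ≤ 1 := fun s i => by
    have h3 := abs_le_nrm (P.K⁻¹ • ν m N s) i
    have h4 := hs s
    rw [dot_self] at h4
    rw [nrm_smul, abs_of_pos hs0] at h3
    nlinarith [mul_nonneg hs0.le (nrm_nonneg (ν m N s))]
  have hw1 : ∀ s, |w m N s / P.K⁻¹ ^ m| ≤ P.K ^ (n + 1) := fun s => by
    rw [inv_pow, div_inv_eq_mul, abs_mul, abs_of_pos (pow_pos hK0 m), pow_succ']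
    exact mul_le_mul ((hw m N s).trans hC) (hpw hm) (pow_pos hK0 m).le hK0.le
  let α : κ m N → Unit → ℝ := fun s _ => √(1 / 4 - P.K⁻¹ ^ 2 * (ν m N s ⬝ᵥ ν m N s))
  have hα : ∀ s, α s ⬝ᵥ α s = 1 / 4 - P.K⁻¹ ^ 2 * (ν m N s ⬝ᵥ ν m N s) := fun s => by
    simp only [dotProduct, Finset.univ_unique, Finset.sum_singleton, α]
    exact Real.mul_self_sqrt (sub_nonneg.2 (hs s))
  let bs : κ m N → Pot P.d δ G → E P.d → Om P.d (V ⊕ (Fin m ⊕ Unit)) → E P.d := fun s W p x =>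
    b W p (ren Sum.inl x) + (∑ i, (P.K⁻¹ • ν m N s) i • (ld i).N W p (ren Sum.inl x)
      (lin (Sum.elim 0 (Pi.single (Sum.inl i) 1)) x) + lin (Sum.elim 0 (Sum.elim 0 (α s))) x)
  have hbs : ∀ s, Bas P β δ G (V ⊕ (Fin m ⊕ Unit)) (4 * (4 * n₂ + 1) + 1) β ⊥ (bs s) := fun s => by
    have h3 := LB.sum hP hβ ((Fintype.card_fin m).le.trans hm) fun i => LB.smul hP hβ
      ((ld i).lb (Fin m ⊕ Unit) (Pi.single (Sum.inl i) 1) (by simp)) (hν1 s i)
    rw [← hn₂] at h3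
    have h4 : LB P β δ G (V ⊕ (Fin m ⊕ Unit)) n₂ fun _ _ x =>
        lin (Sum.elim 0 (Sum.elim 0 (α s))) x := by
      refine (LB.of_lin (n := 1) hP ?_).mono hP hβ (by omega)
      rw [sumElim_dotProduct_sumElim, sumElim_dotProduct_sumElim, hα]
      have : 0 ≤ P.K⁻¹ ^ 2 * (ν m N s ⬝ᵥ ν m N s) := by rw [dot_self]; positivity
      simp only [dotProduct_zero, Nat.cast_one]
      linarith
    refine LB.bas hP hβ (F := ⊥) ?_ (h3.add hP hβ h4)
    exact (hb.ren (F' := ⊥) Sum.inl Sum.inl_injective fun z hz => by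
      rw [(Submodule.mem_bot ℝ).1 hz]; exact F.zero_mem).mono hP hβ (by omega) le_rfl le_rfl le_rfl
      le_rfl
  refine ⟨κ m N, inferInstance, Fin m ⊕ Unit, inferInstance, fun s => w m N s / P.K⁻¹ ^ m, bs,
    (hκ m N).trans hC, ?_, fun s => (hw1 s).trans (hpw (by omega)), hbs, fun W p => ?_⟩
  · refine le_trans ?_ ((nat_le_pow hP.two_le (n + 1)).trans (hpw (by omega)))
    rw [Fintype.card_sum, Fintype.card_fin, Fintype.card_unit]
    exact_mod_cast Nat.succ_le_succ hm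
  have hu := temp_Phi W.2 η
  have hgu : ∀ y, nrm (grad (Phi W.1 η) y) ≤ G := nrm_tau1_le W.2 η
  have ha : 0 ≤ CT * G := mul_nonneg (by linarith) hG
  have e1 : ∀ s x, ∫ ξ, heat (1 / 4) (tau1 W.1 η) (bs s W p (join x ξ))
      ∂gam ((Fin m ⊕ Unit) × Fin P.d) =
      ∫ ξ, heat (1 / 2 - P.K⁻¹ ^ 2 * (ν m N s ⬝ᵥ ν m N s)) (grad (Phi W.1 η))
        (b W p x + ∑ i, (P.K⁻¹ • ν m N s) i • (ld i).N W p x fun j => ξ (i, j))
        ∂gam (Fin m × Fin P.d) := fun s x => by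
    refine (integral_join (PG.of_temp ((temp_heat (temp_tau1 W.2 η) (1 / 4)).comp
      (((hbs s).temp W p).comp (temp_join_right x))))).trans
      (integral_congr_ae (ae_of_all _ fun ξ => ?_))
    have h3 := heat_lin (PG.of_temp (temp_tau1 W.2 η)) (ρ := 1 / 4) (by norm_num) (α s)
      (b W p x + ∑ i, (P.K⁻¹ • ν m N s) i • (ld i).N W p x fun j => ξ (i, j))
    rw [hα, show (1 / 4 + (1 / 4 - P.K⁻¹ ^ 2 * (ν m N s ⬝ᵥ ν m N s)) : ℝ) =
      1 / 2 - P.K⁻¹ ^ 2 * (ν m N s ⬝ᵥ ν m N s) by ring] at h3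
    refine Eq.trans (integral_congr_ae (ae_of_all _ fun g => ?_)) h3
    simp only [bs, Function.comp, ren_inl_join, lin_join, lin_zero, zero_add, lin_single, add_assoc]
    rfl
  have e2 : ∀ y, heat (1 / 2) (fun y => (tau W.1 η y : Ten P.d (Option (Fin m)))) y =
      jet (heat (1 / 2) (Phi W.1 η)) y := fun y => (jet_heat hu _ y).symm
  simp only [e1, e2]
  have hρ0 : 0 ≤ P.K ^ E₁ * P.th := mul_nonneg (pow_pos hK0 _).le hP.th_pos.le
  have hc := core (fun y => (jet (heat (1 / 2) (Phi W.1 η)) y : Ten P.d (Option (Fin m))))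
    (temp_jet (temp_heat hu _)).1.continuous
    (fun s => heat (1 / 2 - P.K⁻¹ ^ 2 * (ν m N s ⬝ᵥ ν m N s)) (grad (Phi W.1 η)))
    (fun s => (temp_heat (temp_grad hu) _).1.continuous) ha
    (hT P.d _ hu G hgu (Fin m) (by rw [Fintype.card_fin]; omega) _ (by norm_num))
    (fun s y => (nrm_heat_le hG hgu _ y).trans (le_mul_of_one_le_left hG hCT))
    (fun s y y' => by
      rw [← grad_heat hu]
      exact lip_grad (temp_heat hu _).1 ha (hT P.d _ hu G hgu Unit (by simp) _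
        (by linarith [hs s])) y y')
    (fun s => P.K⁻¹ • ν m N s) hν1 (fun s => w m N s / P.K⁻¹ ^ m)
    (ε := Cx m N * P.K⁻¹ ^ N * G) (fun y => by
      simp only [lin_smul]
      exact hx m N P.d _ hu G hgu _ hs0 (by rwa [mul_inv_le_iff₀ hK0, one_mul]) y)
    g.z g.orth (fun i => (ld i).A W p) (fun i => (ld i).S W p) (fun i => (ld i).mA W p)
    (fun i => (ld i).mS W p) (fun i => (ld i).AS W p) (fun i => (ld i).iA W p)
    (fun i => (ld i).iS W p) (b W p) (hb.temp W p).1.continuous.measurable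
    (fun j => hb.inv (hF j) W p) (g.v W p) (g.temp W p).1.continuous.measurable
    (fun i => (ld i).N W p) (fun i => (ld i).cN W p) (fun i => (ld i).r W p)
    (fun i => (ld i).mr W p) (fun i => (ld i).r0 W p) (2 * k₀ + 2) (fun i => (ld i).le W p)
    (fun i => (ld i).good W p) (c := C₁ * √P.d) (by positivity)
    (fun i => by simpa only [lin_single] using hl P.d (Fin m) (Pi.single i 1) (by simp))
    (ρ := P.K ^ E₁ * P.th) (π := P.K ^ E₂ * P.D ^ n) hρ0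
    (by have := hP.one_le_D; positivity)
    (fun i => by
      rcases (ld i).hr with h | ⟨M, F', hM, h⟩
      · exact LpLe.const fun x => (h W p x).le.trans hρ0
      · exact (h₁ β δ G hcl V _ β F' M hM W p).mono (fun x => (h W p x).le)
          (mul_le_mul_of_nonneg_left hβth (pow_pos hK0 _).le))
    (h₂ β δ G hcl V m hm g W p)
  refine hc.trans ?_
  have hD1 := hP.one_le_D
  have hC0 : 0 ≤ Cx m N := by linarith [hCx m N]
  rw [← ENNReal.ofReal_add (by positivity) (by positivity)]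
  refine ENNReal.ofReal_le_ofReal (numer hP.two_le hD1 hP.th_pos (by linarith [hP.th_le]) hG
    (by omega) hD ha (mul_le_mul_of_nonneg_right hCTK hG) (Nat.cast_nonneg m)
    (le_trans (by exact_mod_cast hm) (nat_le_pow hP.two_le n)) (by positivity) ?_ (by positivity)
    (mul_le_mul hC₁K (sqrt_le_D hP) (Real.sqrt_nonneg _) hK0.le) ?_)
  · refine (Finset.sum_le_card_nsmul _ _ _ fun s _ => hw1 s).trans ?_
    rw [nsmul_eq_mul, Finset.card_univ, pow_succ' _ (n + 1)]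
    exact mul_le_mul_of_nonneg_right ((hκ m N).trans hC) (pow_pos hK0 _).le
  · refine mul_le_mul_of_nonneg_right (mul_le_mul hC ?_ (by positivity) hK0.le) hG
    rw [inv_pow, inv_le_iff_one_le_mul₀ (pow_pos hK0 N)]
    exact hN

end Crest.Agent.R285

end
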