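import Crest.Agent.R285.Norm
import Crest.Agent.R285.Extract
import Crest.Agent.R285.JLem
import Crest.Agent.R285.NF

/-!
Auxiliary material for `stepC`: matrix members, "linear plus members" fields, leg data.
-/

set_option autoImplicit false

open MeasureTheory ProbabilityTheory Matrix Filter
open scoped ENNReal

noncomputable section

namespace Crest.Agent.R285

namespace StepCAux

open NormAux

section Mat
variable {d : ℕ}

theorem mat_swap (M : Ten d (Option Unit)) : mat (reix swapU M) = (mat M)ᵀ := by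
  funext i j
  refine congrArg M (funext fun s => ?_)
  rcases s with _ | _ <;> rfl

theorem vec_leaf (M : Ten d (Option Unit)) (v : E d) :
    vec (leaf ((1 : ℝ) • reix swapU M) v) = mat M *ᵥ v := by
  funext i
  rw [one_smul]
  change ∑ k, mat (reix swapU M) k i * v k = ∑ k, mat M i k * v k
  rw [mat_swap]
  rfl

theorem mat_con (X Y : Ten d (Option Unit)) :
    mat ((1 : ℝ) • reix ((sumU Unit).trans swapU) (con1 ((1 : ℝ) • reix swapU X) Y)) =
      mat X * mat Y := by
  funext i j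
  rw [one_smul, one_smul]
  change ∑ k, mat (reix swapU X) k i * mat Y k j = ∑ k, mat X i k * mat Y k j
  rw [mat_swap]
  rfl

end Mat

section Mem
variable {P : Par} {β δ G : ℝ} {V : Type} [Fintype V] {n : ℕ} {F : Submodule ℝ (V → ℝ)}

theorem mem_swap (hβ : 0 < β) {M : Fam P δ G V (Option Unit)}
    (h : Mem P β δ G V n (Option Unit) β F M) :
    Mem P β δ G V (n + 1) (Option Unit) β F fun W p x => (1 : ℝ) • reix swapU (M W p x) :=
  Mem.sc n _ _ swapU β β 1 F F M h (by simp) hβ le_rfl le_rfl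

theorem mem_mul (hK : 1 ≤ P.K) (hβ : 0 < β) {X Y : Fam P δ G V (Option Unit)}
    (hX : Mem P β δ G V n (Option Unit) β F X) (hY : Mem P β δ G V n (Option Unit) β F Y) :
    ∃ Z, Mem P β δ G V (n + 3) (Option Unit) β F Z ∧
      ∀ W p x, mat (Z W p x) = mat (X W p x) * mat (Y W p x) := by
  have h1 := Mem.con (n + 1) Unit Unit β β β F _ _ (mem_swap hβ hX) (hY.mono_n hK n.le_succ)
    (by rw [mul_div_assoc, div_self hβ.ne', mul_one]) le_rfl
  exact ⟨_, Mem.sc _ _ _ ((sumU Unit).trans swapU) β β 1 F F _ h1 (by simp) hβ le_rfl le_rfl,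
    fun W p x => mat_con _ _⟩

theorem mem_mulVec (hβ : 0 < β) {X : Fam P δ G V (Option Unit)}
    (hX : Mem P β δ G V n (Option Unit) β F X) {z : V → ℝ} (hz : z ∈ F) (hz1 : z ⬝ᵥ z = 1) :
    ∃ T, Mem P β δ G V (n + 2) Unit β ⊥ T ∧ ∀ W p x, vec (T W p x) = mat (X W p x) *ᵥ lin z x :=
  ⟨_, Mem.leaf (n + 1) Unit β F ⊥ _ (mem_swap hβ hX) z hz hz1 bot_le
    (fun y hy => by rw [(Submodule.mem_bot ℝ).1 hy, zero_dotProduct]), fun W p x => vec_leaf _ _⟩

theorem mem_pow (hK : 1 ≤ P.K) (hβ : 0 < β) {M : Fam P δ G V (Option Unit)}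
    (hM : Mem P β δ G V n (Option Unit) β F M) (k : ℕ) :
    ∃ Z, Mem P β δ G V (n + 4 + 3 * k) (Option Unit) β F Z ∧
      ∀ W p x, mat (Z W p x) = (mat (M W p x) * (mat (M W p x))ᵀ) ^ (k + 1) := by
  obtain ⟨Z₀, h₀, e₀⟩ := mem_mul hK hβ (hM.mono_n hK n.le_succ) (mem_swap hβ hM)
  simp only [one_smul, mat_swap] at e₀
  induction k with
  | zero => exact ⟨Z₀, h₀, fun W p x => by rw [e₀, zero_add, pow_one]⟩
  | succ k ih =>
    obtain ⟨Z, hZ, e⟩ := ih
    obtain ⟨Z', hZ', e'⟩ := mem_mul hK hβ hZ (h₀.mono_n hK (by omega))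
    exact ⟨Z', hZ', fun W p x => by rw [e', e, e₀, ← pow_succ]⟩

end Mem

/-- a linear form plus members -/
def LB (P : Par) (β δ G : ℝ) (V : Type) [Fintype V] (n : ℕ)
    (u : Pot P.d δ G → E P.d → Om P.d V → E P.d) : Prop :=
  ∃ (l : V → ℝ) (T : Fam P δ G V Unit), l ⬝ᵥ l ≤ n ∧ SMem P β δ G V n Unit β ⊥ T ∧
    ∀ W p x, u W p x = lin l x + vec (T W p x)

theorem lin_add {d : ℕ} {V : Type} [Fintype V] (l l' : V → ℝ) (x : Om d V) :
    lin (l + l') x = lin l x + lin l' x := by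
  funext i
  simp [lin, add_mul, Finset.sum_add_distrib]

theorem lin_smul {d : ℕ} {V : Type} [Fintype V] (c : ℝ) (l : V → ℝ) (x : Om d V) :
    lin (c • l) x = c • lin l x := by
  funext i
  simp [lin, Finset.mul_sum, mul_assoc]

theorem lin_zero {d : ℕ} {V : Type} [Fintype V] (x : Om d V) : lin 0 x = 0 := by
  funext i
  simp [lin]

theorem lin_sum {d : ℕ} {V : Type} [Fintype V] {κ : Type} (s : Finset κ) (l : κ → V → ℝ)
    (x : Om d V) : lin (∑ k ∈ s, l k) x = ∑ k ∈ s, lin (l k) x := by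
  funext i
  simp only [lin, Finset.sum_apply, Finset.sum_mul]
  exact Finset.sum_comm

theorem lin_eq_sum {d : ℕ} {V : Type} [Fintype V] (l : V → ℝ) (x : Om d V) :
    lin l x = ∑ v, l v • fun k => x (v, k) := by
  funext i
  simp [lin, Finset.sum_apply]

theorem dot_add_le {V : Type} [Fintype V] (l l' : V → ℝ) :
    (l + l') ⬝ᵥ (l + l') ≤ 2 * (l ⬝ᵥ l) + 2 * (l' ⬝ᵥ l') := by
  simp only [dotProduct, Finset.mul_sum, ← Finset.sum_add_distrib, Pi.add_apply]
  exact Finset.sum_le_sum fun i _ => by nlinarith [sq_nonneg (l i - l' i)]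

section LB
variable {P : Par} {β δ G : ℝ} {V : Type} [Fintype V] {n : ℕ}
  {u u' : Pot P.d δ G → E P.d → Om P.d V → E P.d}

theorem LB.congr (h : LB P β δ G V n u) (e : ∀ W p x, u' W p x = u W p x) : LB P β δ G V n u' := by
  obtain ⟨l, T, h1, h2, h3⟩ := h
  exact ⟨l, T, h1, h2, fun W p x => (e W p x).trans (h3 W p x)⟩

theorem LB.mono (hP : P.Base) (hβ : 0 < β) (h : LB P β δ G V n u) {n' : ℕ} (hn : n ≤ n') :
    LB P β δ G V n' u := by
  obtain ⟨l, T, h1, h2, h3⟩ := h
  exact ⟨l, T, h1.trans (by exact_mod_cast hn), h2.mono hP hβ hn le_rfl le_rfl le_rfl le_rfl, h3⟩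

theorem LB.of_lin (hP : P.Base) {l : V → ℝ} (hl : l ⬝ᵥ l ≤ n) :
    LB P β δ G V n fun _ _ x => lin l x :=
  ⟨l, fun _ _ _ => 0, hl, SMem.zero (by linarith [hP.one_le_K]), fun W p x => by
    funext i; simp [vec]⟩

theorem LB.of_mem (hP : P.Base) {T : Fam P δ G V Unit} (h : Mem P β δ G V n Unit β ⊥ T) :
    LB P β δ G V n fun W p x => vec (T W p x) :=
  ⟨0, T, by simp, h.smem hP.one_le_K, fun W p x => by rw [lin_zero, zero_add]⟩

theorem LB.add (hP : P.Base) (hβ : 0 < β) (h : LB P β δ G V n u) (h' : LB P β δ G V n u') :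
    LB P β δ G V (4 * n + 1) fun W p x => u W p x + u' W p x := by
  obtain ⟨l, T, h1, h2, h3⟩ := h
  obtain ⟨l', T', h1', h2', h3'⟩ := h'
  refine ⟨l + l', _, (dot_add_le l l').trans (by push_cast; linarith),
    (h2.add hP hβ h2').mono hP hβ (by omega) le_rfl le_rfl le_rfl le_rfl, fun W p x => ?_⟩
  simp only [h3, h3', lin_add, vec_add]
  abel

theorem LB.smul (hP : P.Base) (hβ : 0 < β) (h : LB P β δ G V n u) {c : ℝ} (hc : |c| ≤ 1) :
    LB P β δ G V (n + 1) fun W p x => c • u W p x := by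
  obtain ⟨l, T, h1, h2, h3⟩ := h
  refine ⟨c • l, _, ?_, h2.sc hP (Equiv.refl Unit) (c := c) (mul_le_of_le_one_left hβ.le hc) hβ
    le_rfl, fun W p x => ?_⟩
  · rw [smul_dotProduct, dotProduct_smul, smul_eq_mul, smul_eq_mul, ← mul_assoc]
    have h4 : c * c ≤ 1 := by nlinarith [abs_mul_abs_self c, abs_nonneg c]
    have h5 : 0 ≤ l ⬝ᵥ l := by rw [dot_self]; positivity
    push_cast
    nlinarith
  · simp only [h3, lin_smul, smul_add]
    rfl

theorem LB.sum (hP : P.Base) (hβ : 0 < β) {ι : Type} [Fintype ι] {k : ℕ} (hk : Fintype.card ι ≤ k)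
    {u : ι → Pot P.d δ G → E P.d → Om P.d V → E P.d} (h : ∀ i, LB P β δ G V n (u i)) :
    LB P β δ G V (k * k * n + n + k) fun W p x => ∑ i, u i W p x := by
  choose l T h1 h2 h3 using h
  have hk' : (Fintype.card ι : ℝ) ≤ k := by exact_mod_cast hk
  refine ⟨∑ i, l i, _, ?_, (SMem.sum hP hβ (hk'.trans (nat_le_pow hP.two_le k)) h2).mono hP hβ
    (by omega) le_rfl le_rfl le_rfl le_rfl, fun W p x => ?_⟩
  · have h4 : ∀ i, nrm (l i) ≤ √n := fun i => Real.le_sqrt_of_sq_le (by rw [← dot_self]; exact h1 i)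
    have h5 : nrm (∑ i, l i) ≤ k * √n := by
      refine (nrm_sum_le _ _).trans ((Finset.sum_le_card_nsmul _ _ _ fun i _ => h4 i).trans ?_)
      rw [nsmul_eq_mul, Finset.card_univ]
      exact mul_le_mul_of_nonneg_right hk' (Real.sqrt_nonneg _)
    rw [dot_self]
    refine (pow_le_pow_left₀ (nrm_nonneg _) h5 2).trans ?_
    rw [mul_pow, Real.sq_sqrt (Nat.cast_nonneg _)]
    push_cast
    nlinarith [Nat.cast_nonneg (α := ℝ) n, Nat.cast_nonneg (α := ℝ) k]
  · simp only [h3, lin_sum, vec_sum, Finset.sum_add_distrib]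

theorem LB.bas (hP : P.Base) (hβ : 0 < β) {F : Submodule ℝ (V → ℝ)}
    {b : Pot P.d δ G → E P.d → Om P.d V → E P.d} (hb : Bas P β δ G V n β F b)
    (h : LB P β δ G V n u) : Bas P β δ G V (4 * n + 1) β ⊥ fun W p x => b W p x + u W p x := by
  obtain ⟨b0, l, T, hb0, h1, -, h2, h3⟩ := hb
  obtain ⟨l', T', h1', h2', h3'⟩ := h
  refine ⟨b0, l + l', _, hb0, (dot_add_le l l').trans (by push_cast; linarith),
    fun z hz => by rw [(Submodule.mem_bot ℝ).1 hz, zero_dotProduct],
    ((h2.mono hP hβ le_rfl le_rfl le_rfl le_rfl bot_le).add hP hβ h2').mono hP hβ (by omega)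
      le_rfl le_rfl le_rfl le_rfl, fun W p x => ?_⟩
  simp only [h3, h3', lin_add, vec_add]
  abel

end LB

/-- the data attached to the `i`-th leg -/
structure LD {P : Par} {β δ G : ℝ} {V : Type} [Fintype V] {n m : ℕ} (g : Legs P β δ G V n m)
    (i : Fin m) (q n' : ℕ) where
  A : Pot P.d δ G → E P.d → Om P.d V → Matrix (Fin P.d) (Fin P.d) ℝ
  S : Pot P.d δ G → E P.d → Om P.d V → Matrix (Fin P.d) (Fin P.d) ℝ
  N : Pot P.d δ G → E P.d → Om P.d V → E P.d → E P.d
  r : Pot P.d δ G → E P.d → Om P.d V → ℝ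
  mA : ∀ W p k l, Measurable fun x => A W p x k l
  mS : ∀ W p k l, Measurable fun x => S W p x k l
  AS : ∀ W p x, A W p x * (A W p x)ᵀ + S W p x * (S W p x)ᵀ = 1
  iA : ∀ W p j, i ≤ j → ∀ x w, A W p (x + dir (g.z j) w) = A W p x
  iS : ∀ W p j, i ≤ j → ∀ x w, S W p (x + dir (g.z j) w) = S W p x
  le : ∀ W p x, nrm (A W p x *ᵥ lin (g.z i) x) ≤ nrm (g.v W p x i)
  mr : ∀ W p, Measurable (r W p)
  r0 : ∀ W p x, 0 ≤ r W p x
  good : ∀ W p x, r W p x ≤ 1 / 2 → A W p x *ᵥ lin (g.z i) x = g.v W p x i ∧ ∀ ξ,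
    nrm (A W p x *ᵥ lin (g.z i) x + S W p x *ᵥ ξ - N W p x ξ) ≤ 2 * r W p x ^ q * nrm ξ
  hr : (∀ W p x, r W p x = 0) ∨
    ∃ M F, Mem P β δ G V n (Option Unit) β F M ∧ ∀ W p x, r W p x = opN (M W p x)
  cN : ∀ W p x, Continuous (N W p x)
  lb : ∀ (V2 : Type) [Fintype V2] (ζ : V2 → ℝ), ζ ⬝ᵥ ζ = 1 → LB P β δ G (V ⊕ V2) n'
    fun W p x => N W p (ren Sum.inl x) (lin (Sum.elim 0 ζ) x)

theorem lin_elim_left {d : ℕ} {V V2 : Type} [Fintype V] [Fintype V2] (z : V → ℝ)
    (x : Om d (V ⊕ V2)) : lin (Sum.elim z 0) x = lin z (ren Sum.inl x) := by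
  funext i
  simp [lin, ren]

theorem leg_data (n k₀ : ℕ) : ∃ n' : ℕ, ∀ P : Par, P.Base → ∀ β δ G : ℝ, 0 < β →
    ∀ (V : Type) [Fintype V] (m : ℕ) (g : Legs P β δ G V n m) (i : Fin m),
      Nonempty (LD g i (2 * k₀ + 2) n') := by
  obtain ⟨c, hc0, hc, hSq⟩ := exists_sqrt
  obtain ⟨n₁, hn₁⟩ : ∃ n₁, n₁ = n + 7 + 3 * k₀ := ⟨_, rfl⟩
  refine ⟨4 * ((k₀ + 1) * (k₀ + 1) * n₁ + n₁ + (k₀ + 1)) + 1, fun P hP β δ G hβ V _ m g i => ?_⟩
  classical
  have hz : g.z i ⬝ᵥ g.z i = 1 := by simpa using g.orth i i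
  have hz' : ∀ (V2 : Type) [Fintype V2],
      (Sum.elim (g.z i) 0 : V ⊕ V2 → ℝ) ⬝ᵥ Sum.elim (g.z i) 0 = 1 := fun V2 _ => by
    rw [sumElim_dotProduct_sumElim, hz]; simp
  rcases g.ok i with h1 | ⟨M, hM, h1⟩
  · have hv : ∀ W p x, g.v W p x i = lin (g.z i) x := fun W p x => by
      change g.L i W p x *ᵥ lin (g.z i) x = _
      rw [h1, one_mulVec]
    refine ⟨{ A := fun _ _ _ => 1
              S := fun _ _ _ => 0
              N := fun _ _ x _ => lin (g.z i) x
              r := fun _ _ _ => 0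
              mA := fun _ _ _ _ => measurable_const
              mS := fun _ _ _ _ => measurable_const
              AS := fun _ _ _ => by simp
              iA := fun _ _ _ _ _ _ => rfl
              iS := fun _ _ _ _ _ _ => rfl
              le := fun W p x => by rw [hv, one_mulVec]
              mr := fun _ _ => measurable_const
              r0 := fun _ _ _ => le_rfl
              good := fun W p x _ => ⟨by rw [hv, one_mulVec], fun ξ => by simp [nrm_zero]⟩
              hr := Or.inl fun _ _ _ => rfl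
              cN := fun _ _ _ => continuous_const
              lb := fun V2 _ ζ _ => ?_ }⟩
    refine ((LB.of_lin (n := 1) hP (l := Sum.elim (g.z i) 0) (by rw [hz']; simp)).mono hP hβ
      (by omega)).congr fun W p x => (lin_elim_left _ _).symm
  · obtain ⟨Sq, mSq, hSq⟩ := hSq P.d
    have hv : ∀ W p x, g.v W p x i = mat (M W p x) *ᵥ lin (g.z i) x := fun W p x => by
      change g.L i W p x *ᵥ lin (g.z i) x = _
      rw [h1]
    have mM : ∀ W p, Measurable (M W p) := fun W p => (hM.temp W p).1.continuous.measurable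
    have mr : ∀ W p, Measurable fun x => opN (M W p x) := fun W p => measurable_opN.comp (mM W p)
    have ms : ∀ W p, MeasurableSet {x | opN (M W p x) ≤ 1 / 2} := fun W p =>
      measurableSet_le (mr W p) measurable_const
    refine ⟨{ A := fun W p x => if opN (M W p x) ≤ 1 / 2 then mat (M W p x) else 0
              S := fun W p x => if opN (M W p x) ≤ 1 / 2 then Sq (M W p x) else 1
              N := fun W p x ξ => mat (M W p x) *ᵥ lin (g.z i) x + ∑ k ∈ Finset.range (k₀ + 1),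
                c k • ((mat (M W p x) * (mat (M W p x))ᵀ) ^ k *ᵥ ξ)
              r := fun W p x => opN (M W p x)
              mA := fun W p k l => ?_
              mS := fun W p k l => ?_
              AS := fun W p x => ?_
              iA := fun W p j hj x w => by simp only [hM.inv (g.mem i j hj)]
              iS := fun W p j hj x w => by simp only [hM.inv (g.mem i j hj)]
              le := fun W p x => ?_
              mr := mr
              r0 := fun _ _ _ => opN_nonneg _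
              good := fun W p x hx => ?_
              hr := Or.inr ⟨M, _, hM, fun _ _ _ => rfl⟩
              cN := fun W p x => ?_
              lb := fun V2 _ ζ hζ => ?_ }⟩
    · simp only [apply_ite (fun X : Matrix (Fin P.d) (Fin P.d) ℝ => X k l)]
      exact Measurable.ite (ms W p) ((measurable_pi_apply _).comp (mM W p)) measurable_const
    · simp only [apply_ite (fun X : Matrix (Fin P.d) (Fin P.d) ℝ => X k l)]
      exact Measurable.ite (ms W p) ((mSq k l).comp (mM W p)) measurable_const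
    · split_ifs with h
      · exact (hSq _ h).1
      · simp
    · split_ifs with h
      · rw [hv]
      · rw [zero_mulVec, nrm_zero]
        exact nrm_nonneg _
    · simp only [if_pos hx]
      refine ⟨(hv W p x).symm, fun ξ => ?_⟩
      rw [add_sub_add_left_eq_sub]
      exact (hSq _ hx).2 k₀ ξ
    · exact continuous_const.add (continuous_finsetSum _ fun k _ =>
        (continuous_const.matrix_mulVec continuous_id).const_smul (c k))
    · let F' : Submodule ℝ (V ⊕ V2 → ℝ) := (g.F i).comap (LinearMap.funLeft ℝ ℝ Sum.inl)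
      have hM' := hM.ren (F' := F') Sum.inl Sum.inl_injective fun z hz => hz
      have hζ' : (Sum.elim 0 ζ : V ⊕ V2 → ℝ) ⬝ᵥ Sum.elim 0 ζ = 1 := by
        rw [sumElim_dotProduct_sumElim, hζ]; simp
      obtain ⟨T₀, hT₀, e₀⟩ := mem_mulVec hβ hM' (z := Sum.elim (g.z i) 0) (g.mem i i le_rfl) (hz' V2)
      have hk : ∀ k : Fin (k₀ + 1), LB P β δ G (V ⊕ V2) n₁ fun W p x => c k •
          ((mat (M W p (ren Sum.inl x)) * (mat (M W p (ren Sum.inl x)))ᵀ) ^ (k : ℕ) *ᵥ
            lin (Sum.elim 0 ζ) x) := by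
        rintro ⟨k, hk⟩
        refine LB.mono hP hβ (n := n + 6 + 3 * k₀ + 1) (LB.smul hP hβ ?_ (hc k)) (by omega)
        cases k with
        | zero =>
          refine ((LB.of_lin (n := 1) hP (l := Sum.elim 0 ζ) (by rw [hζ']; simp)).mono hP hβ
            (by omega)).congr fun W p x => by simp
        | succ k =>
          obtain ⟨Z, hZ, e⟩ := mem_pow hP.one_le_K hβ hM' k
          obtain ⟨T, hT, e'⟩ := mem_mulVec hβ hZ (z := Sum.elim 0 ζ) (g.F i).zero_mem hζ'
          exact ((LB.of_mem hP hT).mono hP hβ (by omega)).congr fun W p x => by rw [e', e]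
      have h2 := LB.sum hP hβ (Fintype.card_fin _).le hk
      refine (LB.add hP hβ ((LB.of_mem hP hT₀).mono hP hβ (by omega)) h2).congr fun W p x => ?_
      simp only [e₀, lin_elim_left]
      rw [Finset.sum_range]

end StepCAux

end Crest.Agent.R285

end
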