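import Crest.Agent.R285.Cancel
import Crest.Agent.R285.Edge

/-!
The root block of the T-lemma.
-/

set_option autoImplicit false

open MeasureTheory ProbabilityTheory Matrix Filter
open scoped ENNReal

noncomputable section

namespace Crest.Agent.R285

namespace TL

/-- the slot `some 0` is moved outside -/
def eS (j : ℕ) : Option (Fin (j + 1)) ≃ Option (Option (Fin j)) :=
  (finSuccEquiv j).optionCongr.trans (swapO (Fin j))

theorem app_leaf {d j : ℕ} (T : Ten d (Option (Fin (j + 1)))) (v : Fin (j + 1) → E d) :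
    app (leaf (reix (eS j) T) (v 0)) (fun m => v m.succ) = app T v := by
  funext k
  simp only [app, leaf, Finset.sum_mul]
  rw [Edge.sum_fin_succ, Finset.sum_comm]
  refine Finset.sum_congr rfl fun k' _ => Finset.sum_congr rfl fun I _ => ?_
  rw [Fin.prod_univ_succ, Fin.cons_zero, mul_assoc]
  simp only [Fin.cons_succ, reix]
  congr 2
  funext s
  rcases s with _ | s
  · rfl
  · refine Fin.cases ?_ (fun m => ?_) s
    · simp [eS, swapO]
    · simp [eS, swapO]

/-- `Option (Fin 0) ≃ Unit` -/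
def eU : Option (Fin 0) ≃ Unit := Equiv.ofUnique _ _

theorem vec_reix_eU {d : ℕ} (T : Ten d (Option (Fin 0))) (v : Fin 0 → E d) :
    vec (reix eU T) = app T v := by
  funext k
  simp only [app, vec, reix, Finset.univ_unique, Finset.sum_singleton, Finset.univ_eq_empty,
    Finset.prod_empty, mul_one]
  congr 1
  funext s
  rcases s with _ | s
  · rfl
  · exact s.elim0

variable {P : Par} {β δ G : ℝ} {V : Type} [Fintype V] {a : ℝ}

theorem mem_app (hβ : 0 < β) (j : ℕ) : ∀ (n : ℕ) (F' F : Submodule ℝ (V → ℝ))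
    (T : Fam P δ G V (Option (Fin j))) (z : Fin j → V → ℝ), Mem P β δ G V n (Option (Fin j)) a F' T →
    (∀ m, z m ∈ F') → (∀ m m', z m ⬝ᵥ z m' = if m = m' then 1 else 0) → F ≤ F' →
    (∀ y ∈ F, ∀ m, y ⬝ᵥ z m = 0) →
    ∃ T' : Fam P δ G V Unit, Mem P β δ G V (n + 2 * j + 1) Unit a F T' ∧
      ∀ W p x, vec (T' W p x) = app (T W p x) fun m => lin (z m) x := by
  induction j with
  | zero =>
    intro n F' F T z h _ _ hF _
    obtain ⟨h0, h1⟩ := h.amp hβ
    refine ⟨_, Mem.sc n _ _ eU a a 1 F' F T h (by simp) h0 h1 hF, fun W p x => ?_⟩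
    rw [one_smul, vec_reix_eU]
  | succ j ih =>
    intro n F' F T z h hz ho hF hFz
    obtain ⟨h0, h1⟩ := h.amp hβ
    let F'' : Submodule ℝ (V → ℝ) :=
      { carrier := {y | y ∈ F' ∧ y ⬝ᵥ z 0 = 0}
        add_mem' := fun ha hb => ⟨F'.add_mem ha.1 hb.1, by rw [add_dotProduct, ha.2, hb.2, add_zero]⟩
        zero_mem' := ⟨F'.zero_mem, zero_dotProduct _⟩
        smul_mem' := fun c y hy => ⟨F'.smul_mem c hy.1, by rw [smul_dotProduct, hy.2, smul_zero]⟩ }
    have h2 := Mem.sc n _ _ (eS j) a a 1 F' F' T h (by simp) h0 h1 le_rfl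
    have h3 := Mem.leaf _ _ a F' F'' _ h2 (z 0) (hz 0) (by simp [ho]) (fun y hy => hy.1)
      fun y hy => hy.2
    obtain ⟨T', hT', e⟩ := ih _ F'' F _ (fun m => z m.succ) h3
      (fun m => ⟨hz _, by simp [ho]⟩) (fun m m' => by simp [ho])
      (fun y hy => ⟨hF hy, hFz y hy 0⟩) fun y hy m => hFz y hy _
    refine ⟨T', by convert hT' using 1; omega, fun W p x => ?_⟩
    rw [e, one_smul]
    exact app_leaf (T W p x) fun m => lin (z m) x

theorem app_smul {d : ℕ} {S : Type} [Fintype S] [DecidableEq S] (c : ℝ) (T : Ten d (Option S))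
    (v : S → E d) : app (c • T) v = c • app T v := by
  funext k
  simp [app, Finset.mul_sum, mul_assoc]

/-- the root block -/
theorem exists_root (hP : P.Base) (hβ : 0 < β) {n N : ℕ} {F : Submodule ℝ (V → ℝ)}
    {b : Pot P.d δ G → E P.d → Om P.d V → E P.d} (hb : Bas P β δ G V n β F b) {η : ℝ}
    (hη : P.Q - n ≤ η) (hη' : η ≤ P.Q) (ha : 0 < a) (ha' : a ≤ β) (hN : (N + 1 : ℝ) ≤ P.K)
    (c : ℕ → ℝ) (hc : ∀ j ≤ N, |c j| * δ ≤ a) (hc' : ∀ j ≤ N, |c j| * G ≤ a * P.D) :
    ∃ Y : Blk P β δ G V (Fin N) (n + 3 * N + 3) a F, Y.α = (fun _ => 1) ∧ ∀ W p x t ζ,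
      Y.Y' W p x t ζ = ∑ j : Fin (N + 1), ((1 - t) ^ (j : ℕ) * c j) •
        app (tau W.1 η (b W p x) : Ten P.d (Option (Fin j)))
          fun m i => ζ (Fin.castLE (Nat.le_of_lt_succ j.2) m, i) := by
  classical
  let F' : Submodule ℝ (V ⊕ Fin N → ℝ) := F.comap (LinearMap.funLeft ℝ ℝ Sum.inl)
  have hb' : Bas P β δ G (V ⊕ Fin N) (n + N) β F' fun W p x => b W p (ren Sum.inl x) :=
    (hb.ren Sum.inl Sum.inl_injective fun z hz => hz).mono hP hβ (by omega) le_rfl le_rfl le_rfl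
      le_rfl
  have key : ∀ j : Fin (N + 1), ∃ T' : Fam P δ G (V ⊕ Fin N) Unit,
      SMem P β δ G (V ⊕ Fin N) (n + 3 * N + 2) Unit a (inlF (Fin N) F) T' ∧ ∀ W p x ζ,
        vec (T' W p (join x ζ)) = c j • app (tau W.1 η (b W p x) : Ten P.d (Option (Fin j)))
          fun m i => ζ (Fin.castLE (Nat.le_of_lt_succ j.2) m, i) := by
    intro j
    have hj : (j : ℕ) ≤ N := Nat.le_of_lt_succ j.2
    have h1 := hb'.node (S := Option (Fin j)) (c := c j) (η := η) (by simp; omega)
      (by push_cast; linarith [(Nat.cast_nonneg N : (0 : ℝ) ≤ N)]) hη' ha ha' (hc j hj) (hc' j hj)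
    obtain ⟨T', hT', e⟩ := mem_app hβ j _ F' (inlF (Fin N) F) _
      (fun m => Pi.single (Sum.inr (Fin.castLE hj m)) 1) h1
      (fun m => by
        have : LinearMap.funLeft ℝ ℝ (Sum.inl : V → V ⊕ Fin N)
            (Pi.single (Sum.inr (Fin.castLE hj m)) 1) = 0 := by
          funext v; simp [LinearMap.funLeft_apply]
        change _ ∈ F
        rw [this]; exact F.zero_mem)
      (fun m m' => by simp [Pi.single_apply, eq_comm]) (fun y hy => hy.1)
      fun y hy m => by simpa using hy.2 _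
    refine ⟨T', (hT'.mono_n hP.one_le_K (by omega)).smem hP.one_le_K, fun W p x ζ => ?_⟩
    rw [e, ren_inl_join, app_smul]
    simp only [lin_single]
    rfl
  choose T hT e using key
  have hK : P.K ≤ P.K ^ (n + 3 * N + 2 + 1) := le_self_pow₀ hP.one_le_K (by omega)
  obtain ⟨Y, h1, h2⟩ := Blk.exists_of_smem (m := 1) hP (by simpa using hN) T hT
    (fun j t => (1 - t) ^ (j : ℕ)) (fun j => by fun_prop)
    (fun j t ht => by
      rw [abs_pow]
      exact pow_le_one₀ (abs_nonneg _) (abs_le.2 ⟨by linarith [ht.2], by linarith [ht.1]⟩))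
    (fun _ => 1) (by simp [dotProduct]; linarith) (by simp; linarith)
  refine ⟨Y, h1, fun W p x t ζ => ?_⟩
  rw [(h2 W p x t ζ).1]
  simp only [e, smul_smul]

theorem temp_app_ren {d : ℕ} {S V : Type} [Fintype S] [DecidableEq S] [Fintype V]
    (T : Ten d (Option S)) (e : S → V) :
    (fun ζ : Om d V => app T fun m i => ζ (e m, i)).HasTemperateGrowth :=
  temp_app (Function.HasTemperateGrowth.const T)
    (temp_linear (fun (ζ : Om d V) (m : S) i => ζ (e m, i)) (fun _ _ => rfl) fun _ _ => rfl)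

theorem sym_root {d N j : ℕ} (hj : j ≤ N) {f : E d → ℝ} (hf : f.HasTemperateGrowth) {ρ : ℝ}
    (hρ : (N : ℝ) ≤ ρ) (T : Ten d (Option (Fin j))) :
    sym ρ f (fun _ : Fin N => 1) (fun ζ => app T fun m i => ζ (Fin.castLE hj m, i)) =
      jet (heat ρ f) 0 ⬝ᵥ T := by
  let e : Fin j ⊕ Fin (N - j) ≃ Fin N := finSumFinEquiv.trans (finCongr (by omega))
  have h1 := sym_equiv e ρ f (fun _ => 1)
    fun ξ => app T fun m i => (ren Sum.inl ξ : Om d (Fin j)) (m, i)
  have h2 := sym_pad (V := Fin j) (V' := Fin (N - j)) hf (ρ := ρ) (fun _ => 1) (fun _ => 1)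
    (by simp [dotProduct, Nat.cast_sub hj]; exact hρ) (temp_app_ren T id)
  have h3 : (Sum.elim (fun _ => 1) (fun _ => 1) : Fin j ⊕ Fin (N - j) → ℝ) = fun _ => 1 := by
    funext s; rcases s with s | s <;> rfl
  rw [h3] at h2
  rw [← sym_app hf (by simpa using le_trans (by exact_mod_cast hj) hρ) T]
  exact h1.trans h2

end TL

end Crest.Agent.R285

end
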