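import Crest.Agent.R285.TLemAuxA

/-!
The derivative of the interpolation of the T-lemma.
-/

set_option autoImplicit false

open MeasureTheory ProbabilityTheory Matrix Filter
open scoped ENNReal

noncomputable section

namespace Crest.Agent.R285

namespace TL

open TenB Edge

variable {d : ℕ} {δ G : ℝ} {W : E d → ℝ} {η : ℝ} {V : Type} [Fintype V]

theorem temp_fst' {X Y : Type} [NormedAddCommGroup X] [NormedSpace ℝ X] [NormedAddCommGroup Y]
    [NormedSpace ℝ Y] : (Prod.fst : X × Y → X).HasTemperateGrowth :=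
  (ContinuousLinearMap.fst ℝ X Y).hasTemperateGrowth

theorem temp_snd' {X Y : Type} [NormedAddCommGroup X] [NormedSpace ℝ X] [NormedAddCommGroup Y]
    [NormedSpace ℝ Y] : (Prod.snd : X × Y → Y).HasTemperateGrowth :=
  (ContinuousLinearMap.snd ℝ X Y).hasTemperateGrowth

theorem temp_u (c : ℝ) (b : E d) : (fun y : E d => c • (y - b)).HasTemperateGrowth := by
  fun_prop

theorem temp_z (c : ℝ) (b : E d) {Y : Om d V → E d} (hY : Y.HasTemperateGrowth) :
    (fun q : E d × Om d V => c • (q.1 - b) + Y q.2).HasTemperateGrowth :=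
  ((temp_u c b).comp temp_fst').add (hY.comp temp_snd')

/-- the posterior and the seeds as one Gaussian integral -/
theorem post_eq (hW : Adm δ G W) (hη : 0 ≤ η) (b : E d) {K : E d × Om d V → ℝ}
    (hK : K.HasTemperateGrowth) :
    stepE W η η b (fun y => ∫ ζ, K (y, ζ) ∂gam (V × Fin d)) =
      ∫ ξ : Om d (Unit ⊕ V), ((uu W η b)⁻¹ *
        Real.exp (-W (b + lin (fun _ => √η) (ren Sum.inl ξ)))) *
          K (b + lin (fun _ => √η) (ren Sum.inl ξ), ren Sum.inr ξ) ∂gam ((Unit ⊕ V) × Fin d) := by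
  have h1 : (fun ξ : Om d (Unit ⊕ V) =>
      b + lin (fun _ : Unit => √η) (ren Sum.inl ξ)).HasTemperateGrowth :=
    (Function.HasTemperateGrowth.const b).add ((temp_lin _).comp (temp_ren _))
  have h2 : (fun ξ : Om d (Unit ⊕ V) => ((uu W η b)⁻¹ *
      Real.exp (-W (b + lin (fun _ => √η) (ren Sum.inl ξ)))) *
        K (b + lin (fun _ => √η) (ren Sum.inl ξ), ren Sum.inr ξ)).HasTemperateGrowth :=
    temp_mul (temp_mul (Function.HasTemperateGrowth.const _) (hW.temp_exp.comp h1))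
      (hK.comp (temp_prodMk h1 (temp_ren _)))
  rw [integral_join (PG.of_temp h2)]
  simp only [ren_inl_join, ren_inr_join, integral_const_mul, mul_assoc]
  rw [integral_lin (f := fun y => Real.exp (-W y) * ∫ ζ, K (y, ζ) ∂gam (V × Fin d))
    (temp_mul hW.temp_exp (temp_integral hK)).1.continuous.stronglyMeasurable]
  simp [stepE, uu_zero, dotProduct, Real.mul_self_sqrt hη]

theorem hasDerivAt_H0 (hW : Adm δ G W) (hη : 0 < η) (b : E d) {g : E d → ℝ}
    (hg : g.HasTemperateGrowth) {ι : Type} [Fintype ι] {Θ : ι → Om d V → E d}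
    (hΘ : ∀ i, (Θ i).HasTemperateGrowth) {φ φ' : ι → ℝ → ℝ}
    (hφ : ∀ i t, HasDerivAt (φ i) (φ' i t) t) (α : V → ℝ) (s : ℝ) {ρ : ℝ → ℝ} {ρ' l : ℝ}
    (hρ : HasDerivAt ρ ρ' l) (h0 : 0 < ρ l) :
    HasDerivAt (fun l => stepE W η η b fun y => ∫ ζ, heat (ρ l) g
        ((l * s / η) • (y - b) + (lin α ζ + ∑ i, φ i (1 - l) • Θ i ζ)) ∂gam (V × Fin d))
      (stepE W η η b fun y => ∫ ζ, (grad (heat (ρ l) g)
        ((l * s / η) • (y - b) + (lin α ζ + ∑ i, φ i (1 - l) • Θ i ζ)) ⬝ᵥ
          ((s / η) • (y - b) - ∑ i, φ' i (1 - l) • Θ i ζ) + ρ' / 2 * lap (heat (ρ l) g)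
        ((l * s / η) • (y - b) + (lin α ζ + ∑ i, φ i (1 - l) • Θ i ζ))) ∂gam (V × Fin d)) l := by
  have hS : ∀ ψ : ι → ℝ, (fun ζ => ∑ i, ψ i • Θ i ζ).HasTemperateGrowth := fun ψ =>
    Function.HasTemperateGrowth.sum fun i _ =>
      (Function.HasTemperateGrowth.const (ψ i)).fun_smul (hΘ i)
  have hY : ∀ l, (fun ζ => lin α ζ + ∑ i, φ i (1 - l) • Θ i ζ).HasTemperateGrowth := fun l =>
    (temp_lin α).add (hS _)
  have h1 : (fun ξ : Om d (Unit ⊕ V) =>
      lin (fun _ : Unit => √η) (ren Sum.inl ξ)).HasTemperateGrowth :=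
    (temp_lin _).comp (temp_ren _)
  let Y : Option (Option ι) → Om d (Unit ⊕ V) → E d := fun k => k.elim
    (fun ξ => lin (fun _ : Unit => √η) (ren Sum.inl ξ))
    fun k => k.elim (fun ξ => lin α (ren Sum.inr ξ)) fun i ξ => Θ i (ren Sum.inr ξ)
  let c : Option (Option ι) → ℝ → ℝ := fun k => k.elim (fun l => l * s / η)
    fun k => k.elim (fun _ => 1) fun i l => φ i (1 - l)
  let c' : Option (Option ι) → ℝ := fun k => k.elim (s / η)
    fun k => k.elim 0 fun i => -φ' i (1 - l)
  have H := hasDerivAt_heat_path (Y := Y) (c := c) (c' := c') hg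
    (fun k => by
      rcases k with _ | _ | i
      · exact h1
      · exact (temp_lin α).comp (temp_ren _)
      · exact (hΘ i).comp (temp_ren _))
    (w := fun ξ => (uu W η b)⁻¹ * Real.exp (-W (b + lin (fun _ => √η) (ren Sum.inl ξ))))
    (temp_mul (Function.HasTemperateGrowth.const _)
      (hW.temp_exp.comp ((Function.HasTemperateGrowth.const b).add h1)))
    (fun k => by
      rcases k with _ | _ | i
      · simpa [c, c'] using ((hasDerivAt_id l).mul_const s).div_const η
      · exact hasDerivAt_const _ _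
      · have := (hφ i (1 - l)).comp l ((hasDerivAt_id l).const_sub 1)
        rw [mul_neg_one] at this
        exact this) hρ h0
  have hh := temp_heat hg (ρ l)
  convert H using 1
  · funext l
    rw [post_eq hW hη.le b (K := fun q => heat (ρ l) g
      ((l * s / η) • (q.1 - b) + (lin α q.2 + ∑ i, φ i (1 - l) • Θ i q.2)))
      ((temp_heat hg _).comp (temp_z _ b (hY l)))]
    simp [Y, c, Fintype.sum_option]
  · rw [post_eq hW hη.le b (K := fun q => grad (heat (ρ l) g)
        ((l * s / η) • (q.1 - b) + (lin α q.2 + ∑ i, φ i (1 - l) • Θ i q.2)) ⬝ᵥ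
          ((s / η) • (q.1 - b) - ∑ i, φ' i (1 - l) • Θ i q.2) + ρ' / 2 * lap (heat (ρ l) g)
        ((l * s / η) • (q.1 - b) + (lin α q.2 + ∑ i, φ i (1 - l) • Θ i q.2)))
      ((temp_dot ((temp_grad hh).comp (temp_z _ b (hY l)))
        (((temp_u _ b).comp temp_fst').sub ((hS _).comp temp_snd'))).add
        (temp_mul (Function.HasTemperateGrowth.const _) ((temp_lap hh).comp (temp_z _ b (hY l)))))]
    simp [Y, c, c', Fintype.sum_option, sub_eq_add_neg]

/-- integration by parts under the posterior -/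
theorem ibp (hW : Adm δ G W) (hη : 0 < η) (b y₀ : E d) {h : E d → ℝ} (hh : h.HasTemperateGrowth)
    (c s : ℝ) :
    stepE W η η b (fun y => grad h (c • (y - b) + y₀) ⬝ᵥ ((s / η) • (y - b)) +
      -(c * s) * lap h (c • (y - b) + y₀)) =
      -(s * stepE W η η b fun y => grad h (c • (y - b) + y₀) ⬝ᵥ grad W y) := by
  have hz : (fun y : E d => c • (y - b) + y₀).HasTemperateGrowth :=
    (temp_u c b).add (Function.HasTemperateGrowth.const _)
  have h1 : ∀ i, (fun y => pd i h (c • (y - b) + y₀)).HasTemperateGrowth := fun i =>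
    (temp_pd hh i).comp hz
  have h2 : ∀ i, (fun y => pd i (pd i h) (c • (y - b) + y₀)).HasTemperateGrowth := fun i =>
    (temp_pd (temp_pd hh i) i).comp hz
  have h3 : ∀ i, (fun y : E d => (y i - b i) * pd i h (c • (y - b) + y₀)).HasTemperateGrowth :=
    fun i => temp_mul (temp_sub' (temp_x i) (Function.HasTemperateGrowth.const _)) (h1 i)
  have h4 : ∀ i, (fun y : E d => grad h (c • (y - b) + y₀) i * grad W y i).HasTemperateGrowth :=
    fun i => temp_mul (h1 i) (temp_pd hW.temp i)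
  have e1 : (fun y => grad h (c • (y - b) + y₀) ⬝ᵥ ((s / η) • (y - b)) +
      -(c * s) * lap h (c • (y - b) + y₀)) = fun y => ∑ i,
        (s / η * ((y i - b i) * pd i h (c • (y - b) + y₀)) +
          -(c * s) * pd i (pd i h) (c • (y - b) + y₀)) := by
    funext y
    simp only [dotProduct, lap, grad, Finset.sum_add_distrib, Finset.mul_sum, Pi.smul_apply,
      Pi.sub_apply, smul_eq_mul]
    congr 1
    exact Finset.sum_congr rfl fun i _ => by ring
  have e2 : ∀ i, pd i (fun y => pd i h (c • (y - b) + y₀)) =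
      fun y => c * pd i (pd i h) (c • (y - b) + y₀) := by
    intro i
    have e : ∀ y : E d, c • (y - b) + y₀ = (y₀ - c • b) + c • y := fun y => by
      rw [smul_sub]; abel
    funext y
    simp only [e]
    exact TowerBAux.pd_aff (fun x => tdiff (temp_pd hh i) x) _ c i y
  rw [e1, stepE_sum hW η η b _ fun i _ =>
    PG.of_temp (temp_add (temp_cmul _ (h3 i)) (temp_cmul _ (h2 i)))]
  unfold dotProduct
  rw [stepE_sum hW η η b _ fun i _ => PG.of_temp (h4 i), Finset.mul_sum, ← Finset.sum_neg_distrib]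
  refine Finset.sum_congr rfl fun i _ => ?_
  rw [stepE_add hW η η b (PG.of_temp (temp_cmul _ (h3 i))) (PG.of_temp (temp_cmul _ (h2 i))),
    stepE_cmul, stepE_cmul, stepE_ibp hW hη.le le_rfl (h1 i), e2, stepE_cmul, sub_self, tau1_zero]
  simp only [grad]
  field_simp
  ring

theorem integral_dot {ι : Type} [Fintype ι] {A : (ι → ℝ) → E d} (hA : A.HasTemperateGrowth)
    (w : E d) : ∫ ζ, A ζ ⬝ᵥ w ∂gam ι = (∫ ζ, A ζ ∂gam ι) ⬝ᵥ w := by
  unfold dotProduct
  rw [integral_finsetSum _ fun i _ =>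
    temp_integrable (temp_mul (temp_coord hA i) (Function.HasTemperateGrowth.const _))]
  refine Finset.sum_congr rfl fun i _ => ?_
  rw [integral_mul_const]
  congr 1
  exact ((ContinuousLinearMap.proj (R := ℝ) (φ := fun _ : Fin d => ℝ) i).integral_comp_comm
    (temp_integrable hA))

/-- the value of the derivative -/
theorem deriv_eq (hW : Adm δ G W) (hη : 0 < η) (b : E d) {g : E d → ℝ}
    (hg : g.HasTemperateGrowth) {Yf Yd : Om d V → E d} (hYf : Yf.HasTemperateGrowth)
    (hYd : Yd.HasTemperateGrowth) (ρ c s : ℝ) :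
    (stepE W η η b fun y => ∫ ζ, (grad (heat ρ g) (c • (y - b) + Yf ζ) ⬝ᵥ
        ((s / η) • (y - b) - Yd ζ) + -(c * s) * lap (heat ρ g) (c • (y - b) + Yf ζ))
          ∂gam (V × Fin d)) =
      -(s * stepE W η η b fun y => grad (heat ρ fun y => ∫ ζ, g (Yf ζ + y) ∂gam (V × Fin d))
        (c • (y - b)) ⬝ᵥ grad W y) -
      stepE W η η b fun y => ∫ ζ, grad (heat ρ g) (c • (y - b) + Yf ζ) ⬝ᵥ Yd ζ ∂gam (V × Fin d) := by
  have hh := temp_heat hg ρ
  have hz := temp_z c b hYf
  have k1 : (fun q : E d × Om d V => grad (heat ρ g) (c • (q.1 - b) + Yf q.2) ⬝ᵥ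
      ((s / η) • (q.1 - b)) + -(c * s) * lap (heat ρ g) (c • (q.1 - b) + Yf q.2)).HasTemperateGrowth :=
    (temp_dot ((temp_grad hh).comp hz) ((temp_u _ b).comp temp_fst')).add
      (temp_mul (Function.HasTemperateGrowth.const _) ((temp_lap hh).comp hz))
  have k2 : (fun q : E d × Om d V =>
      grad (heat ρ g) (c • (q.1 - b) + Yf q.2) ⬝ᵥ Yd q.2).HasTemperateGrowth :=
    temp_dot ((temp_grad hh).comp hz) (hYd.comp temp_snd')
  have k3 : (fun q : E d × Om d V =>
      grad (heat ρ g) (c • (q.1 - b) + Yf q.2) ⬝ᵥ grad W q.1).HasTemperateGrowth :=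
    temp_dot ((temp_grad hh).comp hz) ((temp_grad hW.temp).comp temp_fst')
  have e1 : (fun y => ∫ ζ, (grad (heat ρ g) (c • (y - b) + Yf ζ) ⬝ᵥ
        ((s / η) • (y - b) - Yd ζ) + -(c * s) * lap (heat ρ g) (c • (y - b) + Yf ζ))
          ∂gam (V × Fin d)) = fun y => (∫ ζ, (grad (heat ρ g) (c • (y - b) + Yf ζ) ⬝ᵥ
        ((s / η) • (y - b)) + -(c * s) * lap (heat ρ g) (c • (y - b) + Yf ζ)) ∂gam (V × Fin d)) -
        ∫ ζ, grad (heat ρ g) (c • (y - b) + Yf ζ) ⬝ᵥ Yd ζ ∂gam (V × Fin d) := by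
    funext y
    rw [← integral_sub (temp_integrable (GaussB.temp_slice k1 y)) (temp_integrable (GaussB.temp_slice k2 y))]
    congr 1
    funext ζ
    rw [dotProduct_sub]
    ring
  rw [e1, stepE_sub hW η η b (PG.of_temp (temp_integral k1)) (PG.of_temp (temp_integral k2)),
    stepE_integral hW η η b (PG.of_temp k1)]
  simp only [ibp hW hη b _ hh]
  rw [integral_neg, integral_const_mul, ← stepE_integral hW η η b (PG.of_temp k3)]
  congr 4
  funext y
  rw [grad_heat_avg hg hYf, ← integral_dot (temp_add_const (temp_grad hh) hYf _)]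
  simp only [add_comm]

end TL

end Crest.Agent.R285

end
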