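import Crest.Agent.R285.TenAAux

/-!
Tensor algebra: flattening norms, contractions.
-/

set_option autoImplicit false

open MeasureTheory ProbabilityTheory Matrix Filter
open scoped ENNReal

noncomputable section

namespace Crest.Agent.R285

variable {d : ℕ} {S S' S₁ S₂ J : Type}

/-! ### index bookkeeping -/

@[simp] theorem oc_none (k : Fin d) (i : S → Fin d) : oc k i none = k := rfl

@[simp] theorem oc_some (k : Fin d) (i : S → Fin d) (s : S) : oc k i (some s) = i s := rfl

theorem oc_eta (i : Option S → Fin d) : oc (i none) (fun s => i (some s)) = i := by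
  funext o; cases o <;> rfl

/-- `oc` as an equivalence -/
def ocEquiv (d : ℕ) (S : Type) : Fin d × (S → Fin d) ≃ (Option S → Fin d) where
  toFun q := oc q.1 q.2
  invFun i := (i none, fun s => i (some s))
  left_inv _ := rfl
  right_inv i := oc_eta i

theorem sum_option [Fintype S] [DecidableEq S] (f : (Option S → Fin d) → ℝ) :
    ∑ i, f i = ∑ k, ∑ i : S → Fin d, f (oc k i) := by
  rw [← Fintype.sum_prod_type' (f := fun k (i : S → Fin d) => f (oc k i))]
  exact (Fintype.sum_equiv (ocEquiv d S) _ _ fun _ => rfl).symm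

theorem sum_sum [Fintype S₁] [DecidableEq S₁] [Fintype S₂] [DecidableEq S₂]
    (f : (S₁ ⊕ S₂ → Fin d) → ℝ) :
    ∑ i, f i = ∑ i : S₁ → Fin d, ∑ j : S₂ → Fin d, f (Sum.elim i j) := by
  rw [← Fintype.sum_prod_type' (f := fun (i : S₁ → Fin d) (j : S₂ → Fin d) => f (Sum.elim i j))]
  exact (Fintype.sum_equiv (Equiv.sumArrowEquivProdArrow S₁ S₂ (Fin d)).symm _ _
    fun _ => rfl).symm

theorem sum_unit (f : (Unit → Fin d) → ℝ) : ∑ i, f i = ∑ k, f (fun _ => k) := by
  exact (Fintype.sum_equiv (Equiv.funUnique Unit (Fin d)).symm _ _ fun _ => rfl).symm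

@[simp] theorem reix_refl (T : Ten d S) : reix (Equiv.refl S) T = T := rfl

theorem reix_trans {S'' : Type} (e : S ≃ S') (e' : S' ≃ S'') (T : Ten d S) :
    reix (e.trans e') T = reix e' (reix e T) := rfl

theorem con1_eq_con (T₁ : Ten d (Option S₁)) (T₂ : Ten d (Option S₂)) :
    con1 T₁ T₂ = con (J := Unit) (reix (Equiv.optionEquivSumPUnit.{0, 0} S₁) T₁)
      (reix ((Equiv.optionEquivSumPUnit.{0, 0} S₂).trans (Equiv.sumComm _ _)) T₂) := by
  funext i
  unfold con1 con reix
  rw [sum_unit]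
  refine Finset.sum_congr rfl fun k _ => ?_
  congr 2
  · funext s; cases s <;> rfl
  · funext s; cases s <;> rfl

theorem nrm_vec (T : Ten d Unit) : nrm (vec T) = nrm T := by
  unfold nrm vec
  rw [sum_unit (fun i => T i ^ 2)]

theorem nrm_reix [Fintype S] [DecidableEq S] [Fintype S'] [DecidableEq S'] (e : S ≃ S')
    (T : Ten d S) : nrm (reix e T) = nrm T := by
  exact nrm_comp_equiv (e.symm.arrowCongr (Equiv.refl (Fin d))) T

/-! ### the flattening norm -/

theorem opN_nonneg (T : Ten d S) : 0 ≤ opN T := by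
  exact Real.sInf_nonneg fun a ha => ha.1

theorem opN_le {T : Ten d S} {a : ℝ} (ha : 0 ≤ a) (h : OpLe T a) : opN T ≤ a := by
  exact csInf_le ⟨0, fun a ha => ha.1⟩ ⟨ha, h⟩

theorem opLe_nrm [Fintype S] [DecidableEq S] (T : Ten d S) : OpLe T (nrm T) := by
  intro A B _ _ _ _ _ _ e
  have h := mle_nrm (fun (i : A → Fin d) (j : B → Fin d) => T (fun s => Sum.elim i j (e s)))
  have h2 : √(∑ i : A → Fin d, ∑ j : B → Fin d, T (fun s => Sum.elim i j (e s)) ^ 2) = nrm T := by
    rw [← nrm_reix e T]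
    unfold nrm
    rw [sum_sum (fun i => reix e T i ^ 2)]
    rfl
  rw [h2] at h
  exact h

theorem opLe_opN [Finite S] (T : Ten d S) : OpLe T (opN T) := by
  classical
  have := Fintype.ofFinite S
  intro A B _ _ _ _ _ _ e u w
  have hne : {a | 0 ≤ a ∧ OpLe T a}.Nonempty := ⟨nrm T, nrm_nonneg T, opLe_nrm T⟩
  have hc : 0 ≤ nrm u * nrm w := mul_nonneg (nrm_nonneg u) (nrm_nonneg w)
  rcases hc.eq_or_lt with h0 | hpos
  · have h1 := opLe_nrm T A B e u w
    rw [mul_assoc, ← h0] at h1 ⊢
    simpa using h1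
  · rw [mul_assoc, ← div_le_iff₀ hpos]
    refine le_csInf hne fun a ha => ?_
    rw [div_le_iff₀ hpos, ← mul_assoc]
    exact ha.2 A B e u w

theorem opN_le_nrm [Fintype S] [DecidableEq S] (T : Ten d S) : opN T ≤ nrm T :=
  opN_le (nrm_nonneg T) (opLe_nrm T)

theorem opN_eq_zero [Subsingleton S] (T : Ten d S) : opN T = 0 := by
  refine le_antisymm (opN_le le_rfl ?_) (opN_nonneg T)
  intro A B _ _ _ _ hA hB e
  obtain ⟨a⟩ := hA
  obtain ⟨b⟩ := hB
  exact absurd (e.symm.injective (Subsingleton.elim (e.symm (Sum.inl a)) (e.symm (Sum.inr b))))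
    Sum.inl_ne_inr

theorem opN_zero : opN (0 : Ten d S) = 0 := by
  refine le_antisymm (opN_le le_rfl ?_) (opN_nonneg _)
  intro A B _ _ _ _ _ _ e u w
  simp

theorem opN_add_le [Finite S] (T T' : Ten d S) : opN (T + T') ≤ opN T + opN T' := by
  refine opN_le (add_nonneg (opN_nonneg T) (opN_nonneg T')) ?_
  intro A B _ _ _ _ _ _ e u w
  have h1 := opLe_opN T A B e u w
  have h2 := opLe_opN T' A B e u w
  simp only [Pi.add_apply, add_mul, Finset.sum_add_distrib]
  exact (abs_add_le _ _).trans (add_le_add h1 h2)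

theorem opN_smul_le [Finite S] (c : ℝ) (T : Ten d S) : opN (c • T) ≤ |c| * opN T := by
  refine opN_le (mul_nonneg (abs_nonneg c) (opN_nonneg T)) ?_
  intro A B _ _ _ _ _ _ e u w
  have h1 := opLe_opN T A B e u w
  simp only [Pi.smul_apply, smul_eq_mul, mul_assoc, ← Finset.mul_sum, abs_mul] at h1 ⊢
  exact mul_le_mul_of_nonneg_left h1 (abs_nonneg c)

theorem opN_sum_le [Finite S] {κ : Type} (s : Finset κ) (T : κ → Ten d S) :
    opN (∑ k ∈ s, T k) ≤ ∑ k ∈ s, opN (T k) := by
  classical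
  induction s using Finset.induction_on with
  | empty => simp [opN_zero]
  | insert a s ha ih =>
    rw [Finset.sum_insert ha, Finset.sum_insert ha]
    exact (opN_add_le _ _).trans (add_le_add le_rfl ih)

theorem opN_reix (e : S ≃ S') (T : Ten d S) : opN (reix e T) = opN T := by
  unfold opN
  congr 1
  ext a
  refine and_congr_right fun _ => ⟨fun h => ?_, fun h => ?_⟩
  · intro A B _ _ _ _ _ _ e' u w
    have := h A B (e.symm.trans e') u w
    simpa [reix] using this
  · intro A B _ _ _ _ _ _ e' u w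
    exact h A B (e.trans e') u w

theorem continuous_opN [Finite S] : Continuous (opN : Ten d S → ℝ) := by
  classical
  have := Fintype.ofFinite S
  have key : ∀ T T' : Ten d S, opN T - opN T' ≤ nrm (T - T') := by
    intro T T'
    have h1 := opN_add_le (T - T') T'
    rw [sub_add_cancel] at h1
    linarith [opN_le_nrm (T - T')]
  refine continuous_iff_continuousAt.2 fun T => ?_
  rw [ContinuousAt, tendsto_iff_dist_tendsto_zero]
  have h2 : Tendsto (fun T' : Ten d S => nrm (T' - T)) (nhds T) (nhds 0) := by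
    have h3 : Continuous fun T' : Ten d S => nrm (T' - T) :=
      continuous_nrm.comp (continuous_id.sub continuous_const)
    have := h3.tendsto T
    rwa [sub_self, nrm_zero] at this
  refine squeeze_zero (fun _ => dist_nonneg) (fun T' => ?_) h2
  rw [Real.dist_eq, abs_le]
  have h4 := key T T'
  rw [nrm_sub_comm] at h4
  exact ⟨by linarith, key T' T⟩

theorem measurable_opN [Finite S] : Measurable (opN : Ten d S → ℝ) := continuous_opN.measurable

theorem opN_integral_le [Fintype S] [DecidableEq S] {Ω : Type} [MeasurableSpace Ω] (μ : Measure Ω)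
    (f : Ω → Ten d S) :
    ENNReal.ofReal (opN (∫ x, f x ∂μ)) ≤ ∫⁻ x, ENNReal.ofReal (opN (f x)) ∂μ := by
  by_cases hf : Integrable f μ
  swap
  · rw [integral_undef hf, opN_zero]; simp
  have hi : Integrable (fun x => opN (f x)) μ := by
    refine Integrable.mono' (hf.norm.const_mul (√(Fintype.card (S → Fin d))))
      (continuous_opN.comp_aestronglyMeasurable hf.aestronglyMeasurable)
      (Eventually.of_forall fun x => ?_)
    rw [Real.norm_of_nonneg (opN_nonneg _)]
    exact (opN_le_nrm _).trans (nrm_le_norm _)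
  rw [← ofReal_integral_eq_lintegral_ofReal hi (Eventually.of_forall fun x => opN_nonneg _)]
  refine ENNReal.ofReal_le_ofReal (opN_le (integral_nonneg fun x => opN_nonneg _) ?_)
  intro A B _ _ _ _ _ _ e u w
  have hc : ∀ i, Integrable (fun x => f x i) μ := fun i => hf.eval i
  have h1 : ∑ i : A → Fin d, ∑ j : B → Fin d, (∫ x, f x ∂μ) (fun s => Sum.elim i j (e s)) * u i * w j
      = ∫ x, ∑ i : A → Fin d, ∑ j : B → Fin d, f x (fun s => Sum.elim i j (e s)) * u i * w j ∂μ := by
    rw [integral_finsetSum _ fun i _ => integrable_finsetSum _ fun j _ =>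
      ((hc _).mul_const _).mul_const _]
    refine Finset.sum_congr rfl fun i _ => ?_
    rw [integral_finsetSum _ fun j _ => ((hc _).mul_const _).mul_const _]
    refine Finset.sum_congr rfl fun j _ => ?_
    rw [integral_mul_const, integral_mul_const, eval_integral hc]
  rw [h1, ← integral_mul_const, ← integral_mul_const]
  refine (abs_integral_le_integral_abs).trans (integral_mono_of_nonneg
    (Eventually.of_forall fun x => abs_nonneg _) ((hi.mul_const _).mul_const _)
    (Eventually.of_forall fun x => opLe_opN (f x) A B e u w))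

theorem mle_con_aux [Finite S₁] [Finite S₂] [Fintype J] [DecidableEq J] [Nonempty J]
    (T₁ : Ten d (S₁ ⊕ J)) (T₂ : Ten d (J ⊕ S₂)) {A₁ B₁ A₂ B₂ : Type} [Fintype A₁] [DecidableEq A₁]
    [Fintype B₁] [DecidableEq B₁] [Fintype A₂] [DecidableEq A₂] [Fintype B₂] [DecidableEq B₂]
    (e₁ : S₁ ≃ A₁ ⊕ B₁) (e₂ : S₂ ≃ A₂ ⊕ B₂) [Nonempty A₁] [Nonempty B₂] :
    MLe (fun (i : (A₁ → Fin d) × (A₂ → Fin d)) (j : (B₁ → Fin d) × (B₂ → Fin d)) =>
      con T₁ T₂ (Sum.elim (fun s => Sum.elim i.1 j.1 (e₁ s)) (fun s => Sum.elim i.2 j.2 (e₂ s))))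
      (opN T₁ * opN T₂) := by
  have h₁ : MLe (fun (i : A₁ → Fin d) (q : (B₁ → Fin d) × (J → Fin d)) =>
      T₁ (Sum.elim (fun s => Sum.elim i q.1 (e₁ s)) q.2)) (opN T₁) := by
    refine ((opLe_opN T₁).mle
      ((e₁.sumCongr (Equiv.refl J)).trans (Equiv.sumAssoc A₁ B₁ J))).of_equiv (Equiv.refl _)
      (Equiv.sumArrowEquivProdArrow B₁ J (Fin d)).symm fun i q => ?_
    congr 1
    funext s
    rcases s with s | s
    · simp only [Sum.elim_inl, Equiv.trans_apply, Equiv.sumCongr_apply, Sum.map_inl]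
      rcases e₁ s with x | x <;> rfl
    · rfl
  have h₂ : MLe (fun (q : (J → Fin d) × (A₂ → Fin d)) (j : B₂ → Fin d) =>
      T₂ (Sum.elim q.1 (fun s => Sum.elim q.2 j (e₂ s)))) (opN T₂) := by
    refine ((opLe_opN T₂).mle
      (((Equiv.refl J).sumCongr e₂).trans (Equiv.sumAssoc J A₂ B₂).symm)).of_equiv
      (Equiv.sumArrowEquivProdArrow J A₂ (Fin d)).symm (Equiv.refl _) fun q j => ?_
    congr 1
    funext s
    rcases s with s | s
    · rfl
    · simp only [Sum.elim_inr, Equiv.trans_apply, Equiv.sumCongr_apply, Sum.map_inr]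
      rcases e₂ s with x | x <;> rfl
  have h₃ := h₁.comp h₂ (opN_nonneg _) (opN_nonneg _)
  refine h₃.of_equiv (Equiv.refl _) (Equiv.refl _) fun i j => ?_
  simp only [con, Sum.elim_inl, Sum.elim_inr, Equiv.refl_apply]

/-- Orient the edges `J` from the factor that has an "in" slot to the factor that has an "out"
slot; this is always possible because both factors have a free slot. -/
theorem opN_con_le [Finite S₁] [Finite S₂] [Nonempty S₁] [Nonempty S₂] [Fintype J] [DecidableEq J]
    [Nonempty J] (T₁ : Ten d (S₁ ⊕ J)) (T₂ : Ten d (J ⊕ S₂)) :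
    opN (con T₁ T₂) ≤ opN T₁ * opN T₂ := by
  refine opN_le (mul_nonneg (opN_nonneg _) (opN_nonneg _)) (opLe_of_split ?_)
  intro A₁ B₁ A₂ B₂ _ _ _ _ _ _ _ _ e₁ e₂ hA hB
  have h1 : Nonempty (A₁ ⊕ B₁) := (Equiv.nonempty_congr e₁).1 inferInstance
  have h2 : Nonempty (A₂ ⊕ B₂) := (Equiv.nonempty_congr e₂).1 inferInstance
  simp only [nonempty_sum] at hA hB h1 h2
  have hcase : (Nonempty A₁ ∧ Nonempty B₂) ∨ (Nonempty B₁ ∧ Nonempty A₂) := by tauto
  rcases hcase with ⟨h3, h4⟩ | ⟨h3, h4⟩
  · exact mle_con_aux T₁ T₂ e₁ e₂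
  · refine (mle_con_aux T₁ T₂ (e₁.trans (Equiv.sumComm _ _))
      (e₂.trans (Equiv.sumComm _ _))).transpose.of_equiv (Equiv.refl _) (Equiv.refl _)
      fun i j => ?_
    congr 2
    · funext s
      simp only [Equiv.trans_apply]
      rcases e₁ s with x | x <;> rfl
    · funext s
      simp only [Equiv.trans_apply]
      rcases e₂ s with x | x <;> rfl

theorem opN_con1_le [Finite S₁] [Finite S₂] [Nonempty S₁] [Nonempty S₂]
    (T₁ : Ten d (Option S₁)) (T₂ : Ten d (Option S₂)) : opN (con1 T₁ T₂) ≤ opN T₁ * opN T₂ := by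
  rw [con1_eq_con]
  refine (opN_con_le _ _).trans_eq ?_
  rw [opN_reix, opN_reix]

theorem mle_option [Fintype S] [DecidableEq S] [Nonempty S] (T : Ten d (Option S)) :
    MLe (fun k (i : S → Fin d) => T (oc k i)) (opN T) := by
  refine ((opLe_opN T).mle
    ((Equiv.optionEquivSumPUnit.{0, 0} S).trans (Equiv.sumComm _ _))).of_equiv
    (Equiv.funUnique Unit (Fin d)).symm (Equiv.refl _) fun k i => ?_
  congr 1
  funext s
  cases s <;> rfl

theorem mle_option_nrm [Fintype S] [DecidableEq S] (T : Ten d (Option S)) :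
    MLe (fun k (i : S → Fin d) => T (oc k i)) (nrm T) := by
  have h := mle_nrm (fun k (i : S → Fin d) => T (oc k i))
  unfold nrm
  rw [sum_option (fun i => T i ^ 2)]
  exact h

theorem nrm_le_sqrt_mul_opN [Fintype S] [DecidableEq S] [Nontrivial S] (T : Ten d S) :
    nrm T ≤ √d * opN T := by
  obtain ⟨s₀, s₁, hs⟩ := exists_pair_ne S
  have : Nonempty {b // b ≠ s₀} := ⟨⟨s₁, hs.symm⟩⟩
  rw [← nrm_reix (Equiv.optionSubtypeNe s₀).symm T, ← opN_reix (Equiv.optionSubtypeNe s₀).symm T]
  set T' := reix (Equiv.optionSubtypeNe s₀).symm T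
  refine nrm_le_of_sq (mul_nonneg (Real.sqrt_nonneg _) (opN_nonneg _)) ?_
  have h := (mle_option T').sum_sq_le (opN_nonneg _)
  rw [sum_option (fun i => T' i ^ 2), mul_pow, Real.sq_sqrt (Nat.cast_nonneg d)]
  simpa using h

theorem nrm_con_le [Fintype S₁] [DecidableEq S₁] [Fintype S₂] [DecidableEq S₂] [Nonempty S₂]
    [Fintype J] [DecidableEq J] [Nonempty J] (T₁ : Ten d (S₁ ⊕ J)) (T₂ : Ten d (J ⊕ S₂)) :
    nrm (con T₁ T₂) ≤ nrm T₁ * opN T₂ := by
  refine nrm_le_of_sq (mul_nonneg (nrm_nonneg _) (opN_nonneg _)) ?_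
  rw [sum_sum (fun i => con T₁ T₂ i ^ 2), mul_pow, nrm_sq, sum_sum (fun i => T₁ i ^ 2),
    Finset.sum_mul]
  refine Finset.sum_le_sum fun i _ => ?_
  have h := sum_sq_le_of_nrm (((opLe_opN T₂).mle (Equiv.refl _)).left (opN_nonneg _)
    fun j => T₁ (Sum.elim i j))
  rw [mul_pow, nrm_sq, mul_comm] at h
  refine le_of_eq_of_le (Finset.sum_congr rfl fun j _ => ?_) h
  congr 1
  exact Finset.sum_congr rfl fun k _ => mul_comm _ _

theorem nrm_leaf_le [Fintype S] [DecidableEq S] (T : Ten d (Option S)) (v : E d) :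
    nrm (leaf T v) ≤ nrm T * nrm v := by
  exact (mle_option_nrm T).left (nrm_nonneg _) v

theorem nrm_leaf_le' [Fintype S] [DecidableEq S] [Nonempty S] (T : Ten d (Option S)) (v : E d) :
    nrm (leaf T v) ≤ opN T * nrm v := by
  exact (mle_option T).left (opN_nonneg _) v

/-- the flattening `none → rest` in dual form -/
theorem nrm_dual_le [Fintype S] [DecidableEq S] [Nonempty S] (T : Ten d (Option S)) (B : Ten d S) :
    nrm (fun k => ∑ i, T (oc k i) * B i) ≤ opN T * nrm B := by
  exact (mle_option T).right (opN_nonneg _) B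

theorem nrm_app_le [Fintype S] [DecidableEq S] (T : Ten d (Option S)) (v : S → E d) :
    nrm (app T v) ≤ nrm T * ∏ s, nrm (v s) := by
  rw [← nrm_tens]
  exact (mle_option_nrm T).right (nrm_nonneg _) (tens v)

/-- multilinearity estimate -/
theorem nrm_app_sub_le [Fintype S] [DecidableEq S] (T : Ten d (Option S)) (v w : S → E d) {A : ℝ}
    (hA : 1 ≤ A) (hv : ∀ s, nrm (v s) ≤ A) (hw : ∀ s, nrm (w s) ≤ A) :
    nrm (app T v - app T w) ≤ nrm T * A ^ Fintype.card S * ∑ s, nrm (v s - w s) := by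
  have h1 := (mle_option_nrm T).right (nrm_nonneg _) (tens v - tens w)
  have h2 : app T v - app T w = fun k => ∑ i : S → Fin d, T (oc k i) * (tens v - tens w) i := by
    funext k
    simp only [app, tens, Pi.sub_apply, mul_sub, Finset.sum_sub_distrib]
  rw [h2, mul_assoc]
  exact h1.trans (mul_le_mul_of_nonneg_left (nrm_tens_sub_le v w hA hv hw) (nrm_nonneg _))

theorem mle_mat (M : Ten d (Option Unit)) : MLe (fun i j => mat M i j) (opN M) :=
  (mle_option M).of_equiv (Equiv.refl _) (Equiv.funUnique Unit (Fin d)).symm fun _ _ => rfl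

theorem nrm_mat_mulVec_le (M : Ten d (Option Unit)) (v : E d) :
    nrm (mat M *ᵥ v) ≤ opN M * nrm v := by
  exact (mle_mat M).right (opN_nonneg _) v

theorem nrm_mat_transpose_mulVec_le (M : Ten d (Option Unit)) (v : E d) :
    nrm ((mat M)ᵀ *ᵥ v) ≤ opN M * nrm v := by
  exact (mle_mat M).left (opN_nonneg _) v

theorem opN_le_of_bilin (M : Ten d (Option Unit)) {a : ℝ} (ha : 0 ≤ a)
    (h : ∀ u w, |∑ i, ∑ j, mat M i j * u i * w j| ≤ a * nrm u * nrm w) : opN M ≤ a := by
  have h0 : MLe (fun i j => mat M i j) a := h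
  have key : ∀ (A B : Type) [Fintype A] [DecidableEq A] [Fintype B] [DecidableEq B]
      (e : Option Unit ≃ A ⊕ B) (x : A) (y : B), e none = Sum.inl x → e (some ()) = Sum.inr y →
      MLe (fun (i : A → Fin d) (j : B → Fin d) => M (fun s => Sum.elim i j (e s))) a := by
    intro A B _ _ _ _ e x y hx hy
    have hall : ∀ z : A ⊕ B, z = Sum.inl x ∨ z = Sum.inr y := by
      intro z
      obtain ⟨o, rfl⟩ := e.surjective z
      rcases o with _ | ⟨⟨⟩⟩
      exacts [Or.inl hx, Or.inr hy]
    let _ : Unique A := ⟨⟨x⟩, fun x' => by simpa using hall (Sum.inl x')⟩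
    let _ : Unique B := ⟨⟨y⟩, fun y' => by simpa using hall (Sum.inr y')⟩
    refine h0.of_equiv (Equiv.funUnique A (Fin d)) (Equiv.funUnique B (Fin d)) fun i j => ?_
    unfold mat
    congr 1
    funext s
    rcases s with _ | ⟨⟨⟩⟩
    · rw [hx]; rfl
    · rw [hy]; rfl
  refine opN_le ha ?_
  intro A B _ _ _ _ hA hB e
  obtain ⟨x⟩ := hA
  obtain ⟨y⟩ := hB
  obtain ⟨o, ho⟩ := e.surjective (Sum.inl x)
  obtain ⟨o', ho'⟩ := e.surjective (Sum.inr y)
  have hne : o ≠ o' := by
    rintro rfl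
    exact Sum.inl_ne_inr (ho.symm.trans ho')
  rcases o with _ | ⟨⟨⟩⟩ <;> rcases o' with _ | ⟨⟨⟩⟩
  · exact absurd rfl hne
  · exact key A B e x y ho ho'
  · refine (key B A (e.trans (Equiv.sumComm _ _)) y x (by simp [ho']) (by simp [ho])).transpose.of_equiv
      (Equiv.refl _) (Equiv.refl _) fun i j => ?_
    congr 1
    funext s
    simp only [Equiv.trans_apply]
    rcases e s with z | z <;> rfl
  · exact absurd rfl hne

/-- independent standard leaves act isometrically -/
theorem integral_nrm_app_sq [Fintype S] [DecidableEq S] (T : Ten d (Option S)) :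
    ∫ N, nrm (app T fun s i => N (s, i)) ^ 2 ∂gam (S × Fin d) = nrm T ^ 2 := by
  have h1 : ∀ N : S × Fin d → ℝ, nrm (app T fun s i => N (s, i)) ^ 2 =
      ∑ k, ∑ i : S → Fin d, ∑ i' : S → Fin d,
        T (oc k i) * T (oc k i') * ((∏ s, N (s, i s)) * ∏ s, N (s, i' s)) := by
    intro N
    rw [nrm_sq]
    refine Finset.sum_congr rfl fun k _ => ?_
    unfold app
    rw [sq, Finset.sum_mul_sum]
    exact Finset.sum_congr rfl fun i _ => Finset.sum_congr rfl fun i' _ => by ring
  simp only [h1]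
  rw [integral_finsetSum _ fun k _ => integrable_finsetSum _ fun i _ =>
    integrable_finsetSum _ fun i' _ => (integrable_tens_mul i i').const_mul _, nrm_sq,
    sum_option (fun i => T i ^ 2)]
  refine Finset.sum_congr rfl fun k _ => ?_
  rw [integral_finsetSum _ fun i _ =>
    integrable_finsetSum _ fun i' _ => (integrable_tens_mul i i').const_mul _]
  refine Finset.sum_congr rfl fun i _ => ?_
  rw [integral_finsetSum _ fun i' _ => (integrable_tens_mul i i').const_mul _]
  simp only [integral_const_mul, integral_tens_mul, mul_ite, mul_one, mul_zero, Finset.sum_ite_eq,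
    Finset.mem_univ, if_true]
  ring

end Crest.Agent.R285

end
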