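import Crest.Agent.R285.Gauss

/-!
Operator norm bounds for rectangular arrays (auxiliary file for `TenA`).
-/

set_option autoImplicit false

open MeasureTheory ProbabilityTheory Matrix Filter
open scoped ENNReal

noncomputable section

namespace Crest.Agent.R285

section MLe
variable {α β α' β' : Type} [Fintype α] [Fintype β] [Fintype α'] [Fintype β']

/-- the array `M` has operator norm at most `a` -/
def MLe (M : α → β → ℝ) (a : ℝ) : Prop :=
  ∀ (u : α → ℝ) (w : β → ℝ), |∑ i, ∑ j, M i j * u i * w j| ≤ a * nrm u * nrm w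

theorem nrm_le_of_sq {v : α → ℝ} {a : ℝ} (ha : 0 ≤ a) (h : ∑ i, v i ^ 2 ≤ a ^ 2) : nrm v ≤ a :=
  (Real.sqrt_le_left ha).2 h

theorem sum_sq_le_of_nrm {v : α → ℝ} {a : ℝ} (h : nrm v ≤ a) : ∑ i, v i ^ 2 ≤ a ^ 2 := by
  rw [← nrm_sq]
  exact pow_le_pow_left₀ (nrm_nonneg v) h 2

theorem MLe.transpose {M : α → β → ℝ} {a : ℝ} (h : MLe M a) : MLe (fun j i => M i j) a := by
  intro w u
  have := h u w
  rw [Finset.sum_comm] at this
  calc _ = |∑ j, ∑ i, M i j * u i * w j| := by
        congr 1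
        exact Finset.sum_congr rfl fun j _ => Finset.sum_congr rfl fun i _ => by ring
    _ ≤ _ := this
    _ = _ := by ring

theorem MLe.right {M : α → β → ℝ} {a : ℝ} (h : MLe M a) (ha : 0 ≤ a) (w : β → ℝ) :
    nrm (fun i => ∑ j, M i j * w j) ≤ a * nrm w := by
  refine nrm_le_of_dot (mul_nonneg ha (nrm_nonneg w)) fun u => ?_
  have h1 := (le_abs_self _).trans (h u w)
  calc _ = ∑ i, ∑ j, M i j * u i * w j := by
        simp only [dotProduct, Finset.mul_sum]
        exact Finset.sum_congr rfl fun i _ => Finset.sum_congr rfl fun j _ => by ring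
    _ ≤ _ := h1
    _ = _ := by ring

theorem MLe.left {M : α → β → ℝ} {a : ℝ} (h : MLe M a) (ha : 0 ≤ a) (u : α → ℝ) :
    nrm (fun j => ∑ i, M i j * u i) ≤ a * nrm u :=
  h.transpose.right ha u

theorem mle_of_right {M : α → β → ℝ} {a : ℝ}
    (h : ∀ w, nrm (fun i => ∑ j, M i j * w j) ≤ a * nrm w) : MLe M a := by
  intro u w
  have h1 := abs_dot_le u (fun i => ∑ j, M i j * w j)
  calc _ = |u ⬝ᵥ fun i => ∑ j, M i j * w j| := by
        congr 1
        simp only [dotProduct, Finset.mul_sum]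
        exact Finset.sum_congr rfl fun i _ => Finset.sum_congr rfl fun j _ => by ring
    _ ≤ _ := h1
    _ ≤ nrm u * (a * nrm w) := mul_le_mul_of_nonneg_left (h w) (nrm_nonneg u)
    _ = _ := by ring

theorem MLe.of_equiv {M : α → β → ℝ} {M' : α' → β' → ℝ} {a : ℝ} (h : MLe M a) (e : α' ≃ α)
    (f : β' ≃ β) (hM : ∀ i j, M' i j = M (e i) (f j)) : MLe M' a := by
  intro u w
  have h1 := h (fun i => u (e.symm i)) (fun j => w (f.symm j))
  rw [nrm_comp_equiv e.symm u, nrm_comp_equiv f.symm w, ← e.sum_comp] at h1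
  convert h1 using 2
  refine Finset.sum_congr rfl fun i _ => ?_
  rw [← f.sum_comp]
  simp [hM]

theorem mle_nrm (M : α → β → ℝ) : MLe M (√(∑ i, ∑ j, M i j ^ 2)) := by
  refine mle_of_right fun w => nrm_le_of_sq (mul_nonneg (Real.sqrt_nonneg _) (nrm_nonneg w)) ?_
  rw [mul_pow, Real.sq_sqrt (by positivity), nrm_sq, Finset.sum_mul]
  exact Finset.sum_le_sum fun i _ => Finset.sum_mul_sq_le_sq_mul_sq _ _ _

theorem MLe.mono {M : α → β → ℝ} {a b : ℝ} (h : MLe M a) (hab : a ≤ b) : MLe M b := fun u w =>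
  (h u w).trans (mul_le_mul_of_nonneg_right (mul_le_mul_of_nonneg_right hab (nrm_nonneg u))
    (nrm_nonneg w))

theorem MLe.sum_sq_le {M : α → β → ℝ} {a : ℝ} (h : MLe M a) (ha : 0 ≤ a) :
    ∑ i, ∑ j, M i j ^ 2 ≤ Fintype.card α * a ^ 2 := by
  classical
  rw [← Finset.card_univ, ← nsmul_eq_mul]
  refine Finset.sum_le_card_nsmul _ _ _ fun i _ => ?_
  have h1 := h.left ha (Pi.single i 1)
  have h2 : nrm (Pi.single i (1 : ℝ) : α → ℝ) = 1 := by
    simp [nrm, Pi.single_apply]
  rw [h2, mul_one] at h1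
  have h3 := sum_sq_le_of_nrm h1
  simpa [Pi.single_apply] using h3

/-- composition along an oriented bundle of edges -/
theorem MLe.comp {A₁ A₂ B₁ B₂ J : Type} [Fintype A₁] [Fintype A₂] [Fintype B₁] [Fintype B₂]
    [Fintype J] {M₁ : A₁ → B₁ × J → ℝ} {M₂ : J × A₂ → B₂ → ℝ} {a₁ a₂ : ℝ} (h₁ : MLe M₁ a₁)
    (h₂ : MLe M₂ a₂) (ha₁ : 0 ≤ a₁) (ha₂ : 0 ≤ a₂) :
    MLe (fun (p : A₁ × A₂) (q : B₁ × B₂) => ∑ j, M₁ p.1 (q.1, j) * M₂ (j, p.2) q.2) (a₁ * a₂) := by
  refine mle_of_right fun w => nrm_le_of_sq (mul_nonneg (mul_nonneg ha₁ ha₂) (nrm_nonneg w)) ?_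
  set v : B₁ → J × A₂ → ℝ := fun b₁ q => ∑ b₂, M₂ q b₂ * w (b₁, b₂) with hv
  have e1 : ∀ p : A₁ × A₂, ∑ q : B₁ × B₂, (∑ j, M₁ p.1 (q.1, j) * M₂ (j, p.2) q.2) * w q =
      ∑ q : B₁ × J, M₁ p.1 q * v q.1 (q.2, p.2) := by
    intro p
    simp only [Fintype.sum_prod_type, hv, Finset.sum_mul, Finset.mul_sum]
    refine Finset.sum_congr rfl fun b₁ _ => ?_
    rw [Finset.sum_comm]
    exact Finset.sum_congr rfl fun j _ => Finset.sum_congr rfl fun b₂ _ => by ring
  have e2 : ∀ b₁, ∑ q, v b₁ q ^ 2 ≤ a₂ ^ 2 * ∑ b₂, w (b₁, b₂) ^ 2 := by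
    intro b₁
    have := sum_sq_le_of_nrm (h₂.right ha₂ fun b₂ => w (b₁, b₂))
    rwa [mul_pow, nrm_sq] at this
  have e3 : ∀ x : A₂, ∑ y : A₁, (∑ q : B₁ × J, M₁ y q * v q.1 (q.2, x)) ^ 2 ≤
      a₁ ^ 2 * ∑ q : B₁ × J, v q.1 (q.2, x) ^ 2 := by
    intro x
    have := sum_sq_le_of_nrm (h₁.right ha₁ fun q => v q.1 (q.2, x))
    rwa [mul_pow, nrm_sq] at this
  simp only [e1]
  calc _ = ∑ x : A₂, ∑ y : A₁, (∑ q : B₁ × J, M₁ y q * v q.1 (q.2, x)) ^ 2 := by
        rw [Fintype.sum_prod_type, Finset.sum_comm]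
    _ ≤ ∑ x : A₂, a₁ ^ 2 * ∑ q : B₁ × J, v q.1 (q.2, x) ^ 2 := Finset.sum_le_sum fun x _ => e3 x
    _ = a₁ ^ 2 * ∑ b₁, ∑ q, v b₁ q ^ 2 := by
        rw [← Finset.mul_sum]
        congr 1
        simp only [Fintype.sum_prod_type]
        rw [Finset.sum_comm]
        exact Finset.sum_congr rfl fun b₁ _ => Finset.sum_comm
    _ ≤ a₁ ^ 2 * ∑ b₁, a₂ ^ 2 * ∑ b₂, w (b₁, b₂) ^ 2 :=
        mul_le_mul_of_nonneg_left (Finset.sum_le_sum fun b₁ _ => e2 b₁) (sq_nonneg _)
    _ = _ := by
        rw [← Finset.mul_sum, mul_pow, mul_pow, nrm_sq, Fintype.sum_prod_type]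
        ring

end MLe

section Split
variable {S A B : Type}

/-- the slots sent to the left -/
def eqL (e : S ≃ A ⊕ B) : {s // (e s).isLeft = true} ≃ A where
  toFun s := (e s).getLeft s.2
  invFun a := ⟨e.symm (Sum.inl a), by simp⟩
  left_inv s := by ext; simp
  right_inv a := by simp

/-- the slots sent to the right -/
def eqR (e : S ≃ A ⊕ B) : {s // ¬ (e s).isLeft = true} ≃ B where
  toFun s := (e s).getRight (by simpa using s.2)
  invFun b := ⟨e.symm (Sum.inr b), by simp⟩
  left_inv s := by ext; simp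
  right_inv b := by simp

theorem inl_eqL (e : S ≃ A ⊕ B) (s : S) (h : (e s).isLeft = true) :
    e s = Sum.inl (eqL e ⟨s, h⟩) := by simp [eqL]

theorem inr_eqR (e : S ≃ A ⊕ B) (s : S) (h : ¬ (e s).isLeft = true) :
    e s = Sum.inr (eqR e ⟨s, h⟩) := by simp [eqR]

end Split

section Tens
variable {d : ℕ} {S S₁ S₂ : Type}

theorem OpLe.mle {T : Ten d S} {a : ℝ} (h : OpLe T a) {A B : Type} [Fintype A] [DecidableEq A]
    [Fintype B] [DecidableEq B] [Nonempty A] [Nonempty B] (e : S ≃ A ⊕ B) :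
    MLe (fun (i : A → Fin d) (j : B → Fin d) => T (fun s => Sum.elim i j (e s))) a :=
  h A B e

theorem opLe_of_split [Finite S₁] [Finite S₂] {T : Ten d (S₁ ⊕ S₂)} {a : ℝ}
    (h : ∀ (A₁ B₁ A₂ B₂ : Type) [Fintype A₁] [DecidableEq A₁] [Fintype B₁] [DecidableEq B₁]
      [Fintype A₂] [DecidableEq A₂] [Fintype B₂] [DecidableEq B₂] (e₁ : S₁ ≃ A₁ ⊕ B₁)
      (e₂ : S₂ ≃ A₂ ⊕ B₂), Nonempty (A₁ ⊕ A₂) → Nonempty (B₁ ⊕ B₂) →
      MLe (fun (i : (A₁ → Fin d) × (A₂ → Fin d)) (j : (B₁ → Fin d) × (B₂ → Fin d)) =>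
        T (Sum.elim (fun s => Sum.elim i.1 j.1 (e₁ s)) (fun s => Sum.elim i.2 j.2 (e₂ s)))) a) :
    OpLe T a := by
  classical
  intro A B _ _ _ _ _ _ e
  have := Fintype.ofFinite S₁
  have := Fintype.ofFinite S₂
  let fA := (Equiv.subtypeSum (p := fun s => (e s).isLeft = true)).symm.trans (eqL e)
  let fB := (Equiv.subtypeSum (p := fun s => ¬ (e s).isLeft = true)).symm.trans (eqR e)
  have h1 := h _ _ _ _ (Equiv.sumCompl fun s => (e (Sum.inl s)).isLeft = true).symm
    (Equiv.sumCompl fun s => (e (Sum.inr s)).isLeft = true).symm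
    ((Equiv.nonempty_congr fA).2 inferInstance) ((Equiv.nonempty_congr fB).2 inferInstance)
  refine h1.of_equiv
    ((fA.symm.arrowCongr (Equiv.refl (Fin d))).trans (Equiv.sumArrowEquivProdArrow _ _ _))
    ((fB.symm.arrowCongr (Equiv.refl (Fin d))).trans (Equiv.sumArrowEquivProdArrow _ _ _)) ?_
  intro i j
  congr 1
  funext s
  rcases s with s | s
  · by_cases hs : (e (Sum.inl s)).isLeft = true
    · rw [Sum.elim_inl, Equiv.sumCompl_symm_apply_of_pos
        (p := fun s => (e (Sum.inl s)).isLeft = true) hs, inl_eqL e _ hs]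
      rfl
    · rw [Sum.elim_inl, Equiv.sumCompl_symm_apply_of_neg
        (p := fun s => (e (Sum.inl s)).isLeft = true) hs, inr_eqR e _ hs]
      rfl
  · by_cases hs : (e (Sum.inr s)).isLeft = true
    · rw [Sum.elim_inr, Equiv.sumCompl_symm_apply_of_pos
        (p := fun s => (e (Sum.inr s)).isLeft = true) hs, inl_eqL e _ hs]
      rfl
    · rw [Sum.elim_inr, Equiv.sumCompl_symm_apply_of_neg
        (p := fun s => (e (Sum.inr s)).isLeft = true) hs, inr_eqR e _ hs]
      rfl

/-- the tensor product of vectors -/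
def tens [Fintype S] (v : S → E d) : Ten d S := fun i => ∏ s, v s (i s)

theorem nrm_tens [Fintype S] [DecidableEq S] (v : S → E d) : nrm (tens v) = ∏ s, nrm (v s) := by
  have h1 : nrm (tens v) ^ 2 = (∏ s, nrm (v s)) ^ 2 := by
    rw [← Finset.prod_pow]
    simp only [nrm_sq, tens, ← Finset.prod_pow]
    rw [Finset.prod_univ_sum, Fintype.piFinset_univ]
  exact (pow_left_inj₀ (nrm_nonneg _) (Finset.prod_nonneg fun s _ => nrm_nonneg _) two_ne_zero).1 h1

theorem nrm_tens_sub_le [Fintype S] [DecidableEq S] (v w : S → E d) {A : ℝ}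
    (hA : 1 ≤ A) (hv : ∀ s, nrm (v s) ≤ A) (hw : ∀ s, nrm (w s) ≤ A) :
    nrm (tens v - tens w) ≤ A ^ Fintype.card S * ∑ s, nrm (v s - w s) := by
  have key : ∀ t : Finset S, nrm (tens (fun s => if s ∈ t then v s else w s) - tens w) ≤
      A ^ Fintype.card S * ∑ s ∈ t, nrm (v s - w s) := by
    intro t
    induction t using Finset.induction_on with
    | empty => simp [nrm_zero]
    | insert a t ha ih =>
      set m : S → E d := fun s => if s ∈ t then v s else w s with hm
      have e1 : tens (fun s => if s ∈ insert a t then v s else w s) - tens w =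
          tens (Function.update m a (v a - w a)) + (tens m - tens w) := by
        funext i
        simp only [tens, Pi.add_apply, Pi.sub_apply]
        rw [← Finset.mul_prod_erase Finset.univ _ (Finset.mem_univ a),
          ← Finset.mul_prod_erase Finset.univ (fun s => Function.update m a (v a - w a) s (i s))
            (Finset.mem_univ a),
          ← Finset.mul_prod_erase Finset.univ (fun s => m s (i s)) (Finset.mem_univ a)]
        have e2 : ∏ s ∈ Finset.univ.erase a, (if s ∈ insert a t then v s else w s) (i s) =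
            ∏ s ∈ Finset.univ.erase a, m s (i s) :=
          Finset.prod_congr rfl fun s hs => by
            have := Finset.ne_of_mem_erase hs
            simp [hm, this]
        have e3 : ∏ s ∈ Finset.univ.erase a, Function.update m a (v a - w a) s (i s) =
            ∏ s ∈ Finset.univ.erase a, m s (i s) :=
          Finset.prod_congr rfl fun s hs => by
            rw [Function.update_of_ne (Finset.ne_of_mem_erase hs)]
        rw [e2, e3]
        simp only [Finset.mem_insert_self, if_true, Function.update_self, Pi.sub_apply, hm, ha,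
          if_false]
        ring
      have e4 : nrm (tens (Function.update m a (v a - w a))) ≤
          A ^ Fintype.card S * nrm (v a - w a) := by
        rw [nrm_tens, ← Finset.mul_prod_erase Finset.univ _ (Finset.mem_univ a),
          Function.update_self, mul_comm]
        refine mul_le_mul_of_nonneg_right ?_ (nrm_nonneg _)
        calc _ ≤ ∏ _s ∈ Finset.univ.erase a, A :=
              Finset.prod_le_prod (fun s _ => nrm_nonneg _) fun s hs => by
                rw [Function.update_of_ne (Finset.ne_of_mem_erase hs)]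
                simp only [hm]
                split_ifs
                exacts [hv s, hw s]
          _ ≤ _ := by
              rw [Finset.prod_const]
              exact pow_le_pow_right₀ hA (Finset.card_le_univ _)
      rw [e1, Finset.sum_insert ha, mul_add]
      exact (nrm_add_le _ _).trans (add_le_add e4 ih)
  simpa using key Finset.univ

theorem gauss_integrable_pow (n : ℕ) : Integrable (fun x : ℝ => x ^ n) (gaussianReal 0 1) := by
  have h := memLp_id_gaussianReal' (μ := 0) (v := 1) n (by simp)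
  have h1 := h.integrable_norm_pow'
  refine (integrable_norm_iff (by fun_prop)).1 ?_
  simpa using h1

theorem tens_mul_tens [Fintype S] [DecidableEq S] (i i' : S → Fin d) (N : S × Fin d → ℝ) :
    (∏ s, N (s, i s)) * ∏ s, N (s, i' s) =
      ∏ q : S × Fin d, N q ^ ((if i q.1 = q.2 then 1 else 0) + (if i' q.1 = q.2 then 1 else 0)) := by
  simp only [pow_add, Finset.prod_mul_distrib, Fintype.prod_prod_type, pow_ite, pow_one, pow_zero,
    Finset.prod_ite_eq, Finset.mem_univ, if_true]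

theorem integrable_tens_mul [Fintype S] [DecidableEq S] (i i' : S → Fin d) :
    Integrable (fun N : S × Fin d → ℝ => (∏ s, N (s, i s)) * ∏ s, N (s, i' s)) (gam (S × Fin d)) := by
  simp only [tens_mul_tens]
  exact Integrable.fintype_prod
    (f := fun (q : S × Fin d) (x : ℝ) =>
      x ^ ((if i q.1 = q.2 then 1 else 0) + (if i' q.1 = q.2 then 1 else 0)))
    fun q => gauss_integrable_pow _

theorem integral_tens_mul [Fintype S] [DecidableEq S] (i i' : S → Fin d) :
    ∫ N, (∏ s, N (s, i s)) * ∏ s, N (s, i' s) ∂gam (S × Fin d) = if i = i' then 1 else 0 := by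
  simp only [tens_mul_tens]
  unfold gam
  rw [integral_fintype_prod_eq_prod (f := fun (q : S × Fin d) (x : ℝ) =>
      x ^ ((if i q.1 = q.2 then 1 else 0) + (if i' q.1 = q.2 then 1 else 0)))]
  have h2 : ∫ x : ℝ, x ^ 2 ∂gaussianReal 0 1 = 1 := by
    have := variance_fun_id_gaussianReal (μ := 0) (v := 1)
    rw [variance_eq_integral measurable_id'.aemeasurable] at this
    simpa using this
  split_ifs with h
  · subst h
    refine Finset.prod_eq_one fun q _ => ?_
    split_ifs
    · exact h2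
    · simp
  · obtain ⟨s, hs⟩ := Function.ne_iff.1 h
    refine Finset.prod_eq_zero (Finset.mem_univ (s, i s)) ?_
    simp [hs.symm]

end Tens

end Crest.Agent.R285

end
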