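import Crest.Agent.R285.TenBAux

/-!
Jets and derivatives of tensor fields.
-/

set_option autoImplicit false

open MeasureTheory ProbabilityTheory Matrix Filter
open scoped ENNReal

noncomputable section

namespace Crest.Agent.R285

open TenB

variable {d : ℕ} {S S' S₁ S₂ J : Type}

/-! ### jets -/

theorem pd_comm {ι : Type} [Fintype ι] [DecidableEq ι] {f : (ι → ℝ) → ℝ}
    (hf : ContDiff ℝ (⊤ : ℕ∞) f) (i j : ι) : pd i (pd j f) = pd j (pd i f) := by
  funext x
  have h2 : ContDiffAt ℝ 2 f x := (hf.of_le (by norm_cast)).contDiffAt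
  have hs : IsSymmSndFDerivAt ℝ f x := h2.isSymmSndFDerivAt (by simp)
  have hd : DifferentiableAt ℝ (fderiv ℝ f) x :=
    ((hf.fderiv_right (m := (⊤ : ℕ∞)) (by simp)).differentiable (by simp)) x
  have key : ∀ u v : ι → ℝ, fderiv ℝ (fun y => fderiv ℝ f y v) x u =
      fderiv ℝ (fderiv ℝ f) x u v := by
    intro u v
    rw [fderiv_clm_apply hd (differentiableAt_const v)]
    simp
  change fderiv ℝ (fun y => fderiv ℝ f y (Pi.single j 1)) x (Pi.single i 1) =
    fderiv ℝ (fun y => fderiv ℝ f y (Pi.single i 1)) x (Pi.single j 1)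
  rw [key, key]
  exact hs.eq _ _

theorem contDiff_pd {ι : Type} [Fintype ι] [DecidableEq ι] {f : (ι → ℝ) → ℝ}
    (hf : ContDiff ℝ (⊤ : ℕ∞) f) (i : ι) : ContDiff ℝ (⊤ : ℕ∞) (pd i f) := by
  have h : ContDiff ℝ (⊤ : ℕ∞) (fderiv ℝ f) := hf.fderiv_right (by simp)
  exact h.clm_apply contDiff_const

theorem contDiff_pdl {ι : Type} [Fintype ι] [DecidableEq ι] {f : (ι → ℝ) → ℝ}
    (hf : ContDiff ℝ (⊤ : ℕ∞) f) (l : List ι) : ContDiff ℝ (⊤ : ℕ∞) (pdl l f) := by
  induction l with
  | nil => exact hf
  | cons i l ih => exact contDiff_pd ih i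

theorem pdl_perm {ι : Type} [Fintype ι] [DecidableEq ι] {f : (ι → ℝ) → ℝ}
    (hf : ContDiff ℝ (⊤ : ℕ∞) f) {l l' : List ι} (h : l.Perm l') : pdl l f = pdl l' f := by
  induction h with
  | nil => rfl
  | cons i _ ih => exact congrArg (pd i) ih
  | swap i j l => exact pd_comm (contDiff_pdl hf l) j i
  | trans _ _ ih1 ih2 => exact ih1.trans ih2

theorem temp_pdl {ι : Type} [Fintype ι] [DecidableEq ι] {f : (ι → ℝ) → ℝ}
    (hf : f.HasTemperateGrowth) (l : List ι) : (pdl l f).HasTemperateGrowth := by
  induction l with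
  | nil => exact hf
  | cons i l ih => exact temp_pd ih i

theorem TenB.perm_option [Fintype S] (k : Fin d) (i : S → Fin d) :
    (k :: (Finset.univ : Finset S).toList.map i).Perm
      ((Finset.univ : Finset (Option S)).toList.map (oc k i)) := by
  rw [← Multiset.coe_eq_coe, ← Multiset.cons_coe, ← Multiset.map_coe, ← Multiset.map_coe,
    Finset.coe_toList, Finset.coe_toList, univ_option, Finset.insertNone]
  simp [Multiset.map_map]

section Jet
variable {f : E d → ℝ}

theorem jet_reix [Fintype S] [Fintype S'] (hf : ContDiff ℝ (⊤ : ℕ∞) f) (e : S ≃ S') (y : E d) :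
    reix e (jet f y : Ten d S) = jet f y := by
  funext i
  change pdl ((Finset.univ : Finset S).toList.map fun s => i (e s)) f y =
    pdl ((Finset.univ : Finset S').toList.map i) f y
  rw [pdl_perm hf (l' := (Finset.univ : Finset S').toList.map i)]
  rw [← Multiset.coe_eq_coe, ← Multiset.map_coe, ← Multiset.map_coe, Finset.coe_toList,
    Finset.coe_toList, ← Finset.map_univ_equiv e, Finset.map_val, Multiset.map_map]
  rfl

theorem pd_jet [Fintype S] (hf : ContDiff ℝ (⊤ : ℕ∞) f) (k : Fin d) (i : S → Fin d) (y : E d) :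
    pd k (fun y => (jet f y : Ten d S) i) y = (jet f y : Ten d (Option S)) (oc k i) := by
  change pdl (k :: (Finset.univ : Finset S).toList.map i) f y =
    pdl ((Finset.univ : Finset (Option S)).toList.map (oc k i)) f y
  rw [pdl_perm hf (perm_option k i)]

theorem jet_pd [Fintype S] (hf : ContDiff ℝ (⊤ : ℕ∞) f) (k : Fin d) (i : S → Fin d) (y : E d) :
    (jet (pd k f) y : Ten d S) i = (jet f y : Ten d (Option S)) (oc k i) := by
  have h : ∀ l : List (Fin d), pdl l (pd k f) = pdl (l ++ [k]) f := fun l => by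
    simp [pdl, List.foldr_append]
  change pdl ((Finset.univ : Finset S).toList.map i) (pd k f) y =
    pdl ((Finset.univ : Finset (Option S)).toList.map (oc k i)) f y
  rw [h, pdl_perm hf (List.perm_append_singleton _ _), pdl_perm hf (perm_option k i)]

theorem jet_empty [Fintype S] [IsEmpty S] (y : E d) (i : S → Fin d) :
    (jet f y : Ten d S) i = f y := by
  simp [jet, pdl, Finset.univ_eq_empty]

theorem jet_unique [Fintype S] [Unique S] (y : E d) (i : S → Fin d) :
    (jet f y : Ten d S) i = pd (i default) f y := by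
  simp [jet, pdl, Finset.univ_unique]

theorem vec_jet (y : E d) : vec (jet f y) = grad f y := by
  funext i
  exact jet_unique y fun _ => i

theorem mat_jet (hf : ContDiff ℝ (⊤ : ℕ∞) f) (y : E d) (i j : Fin d) :
    mat (jet f y) i j = pd i (pd j f) y := by
  change (jet f y : Ten d (Option Unit)) (oc i fun _ => j) = _
  rw [← pd_jet hf]
  congr 1
  funext y
  exact jet_unique y fun _ => j

theorem temp_jet [Fintype S] [DecidableEq S] (hf : f.HasTemperateGrowth) :
    (fun y => (jet f y : Ten d S)).HasTemperateGrowth := by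
  exact temp_pi.2 fun i => temp_pdl hf _

theorem jet_comp_affine [Fintype S] (hf : ContDiff ℝ (⊤ : ℕ∞) f) (c : ℝ) (y₀ y : E d) :
    (jet (fun x => f (y₀ + c • x)) y : Ten d S) =
      c ^ Fintype.card S • (jet f (y₀ + c • y) : Ten d S) := by
  have h : ∀ (l : List (Fin d)), pdl l (fun x => f (y₀ + c • x)) =
      fun y => c ^ l.length * pdl l f (y₀ + c • y) := by
    intro l
    induction l with
    | nil => funext y; simp [pdl]
    | cons k l ih =>
      funext y
      change pd k (pdl l fun x => f (y₀ + c • x)) y = _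
      have hd : Differentiable ℝ (pdl l f) := (contDiff_pdl hf l).differentiable (by simp)
      have hg : DifferentiableAt ℝ (fun x : E d => y₀ + c • x) y := by fun_prop
      rw [ih, pd_const_mul (f := fun x => pdl l f (y₀ + c • x)) ((hd _).comp y hg), pd_comp (hd _) hg]
      have h2 : ∀ j, pd k (fun x : E d => (y₀ + c • x) j) y = if j = k then c else 0 := by
        intro j
        change pd k (fun x : E d => y₀ j + c * x j) y = _
        rw [pd_add (by fun_prop) (by fun_prop), pd_const, pd_const_mul (by fun_prop), pd_coord]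
        split_ifs <;> simp
      simp only [h2, mul_ite, mul_zero, Finset.sum_ite_eq', Finset.mem_univ, if_true,
        List.length_cons, pow_succ]
      change _ = c ^ l.length * c * pd k (pdl l f) (y₀ + c • y)
      ring
  funext i
  change pdl _ (fun x => f (y₀ + c • x)) y = c ^ Fintype.card S * pdl _ f (y₀ + c • y)
  rw [h]
  simp

/-- the jet is Lipschitz, in dual form -/
theorem abs_dot_jet_sub_le [Fintype S] [DecidableEq S] [Nonempty S] (hf : ContDiff ℝ (⊤ : ℕ∞) f)
    {A : ℝ} (hA : ∀ y, opN (jet f y : Ten d (Option S)) ≤ A) (B : Ten d S) (y y' : E d) :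
    |B ⬝ᵥ (jet f y : Ten d S) - B ⬝ᵥ (jet f y' : Ten d S)| ≤ A * nrm B * nrm (y - y') := by
  have hd : ∀ i : S → Fin d, Differentiable ℝ fun y => (jet f y : Ten d S) i := fun i =>
    (contDiff_pdl hf _).differentiable (by simp)
  refine abs_sub_le_of_grad (f := fun y => B ⬝ᵥ (jet f y : Ten d S)) ?_ (fun z => ?_) y y'
  · unfold dotProduct
    fun_prop
  · have h : grad (fun y => B ⬝ᵥ (jet f y : Ten d S)) z =
        fun k => ∑ i, (jet f z : Ten d (Option S)) (oc k i) * B i := by
      funext k
      unfold grad dotProduct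
      rw [pd_sum _ (fun i _ => (hd i z).const_mul _)]
      refine Finset.sum_congr rfl fun i _ => ?_
      rw [pd_const_mul (hd i z), pd_jet hf, mul_comm]
    rw [h]
    exact (nrm_dual_le _ B).trans (mul_le_mul_of_nonneg_right (hA z) (nrm_nonneg B))

end Jet

/-! ### derivatives of tensor fields -/

section DT
variable {V V' : Type} [Fintype V] [DecidableEq V] [Fintype V'] [DecidableEq V']

theorem temp_dT [Fintype S] [DecidableEq S] {T : Om d V → Ten d S} (hT : T.HasTemperateGrowth)
    (v : V) : (dT v T).HasTemperateGrowth := by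
  exact temp_pi.2 fun i => temp_pd (temp_coord hT _) _

theorem temp_reix {X : Type} [NormedAddCommGroup X] [NormedSpace ℝ X] [Fintype S] [DecidableEq S]
    [Fintype S'] [DecidableEq S'] (e : S ≃ S') {T : X → Ten d S} (hT : T.HasTemperateGrowth) :
    (fun x => reix e (T x)).HasTemperateGrowth := by
  exact temp_pi.2 fun i => temp_coord hT _

theorem temp_con {X : Type} [NormedAddCommGroup X] [NormedSpace ℝ X] [Fintype S₁] [DecidableEq S₁]
    [Fintype S₂] [DecidableEq S₂] [Fintype J] [DecidableEq J] {T₁ : X → Ten d (S₁ ⊕ J)}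
    {T₂ : X → Ten d (J ⊕ S₂)} (h₁ : T₁.HasTemperateGrowth) (h₂ : T₂.HasTemperateGrowth) :
    (fun x => con (T₁ x) (T₂ x)).HasTemperateGrowth := by
  exact temp_pi.2 fun i => temp_sum _ fun j _ => temp_mul (temp_coord h₁ _) (temp_coord h₂ _)

theorem temp_con1 {X : Type} [NormedAddCommGroup X] [NormedSpace ℝ X] [Fintype S₁] [DecidableEq S₁]
    [Fintype S₂] [DecidableEq S₂] {T₁ : X → Ten d (Option S₁)}
    {T₂ : X → Ten d (Option S₂)} (h₁ : T₁.HasTemperateGrowth) (h₂ : T₂.HasTemperateGrowth) :
    (fun x => con1 (T₁ x) (T₂ x)).HasTemperateGrowth := by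
  exact temp_pi.2 fun i => temp_sum _ fun j _ => temp_mul (temp_coord h₁ _) (temp_coord h₂ _)

theorem temp_leaf {X : Type} [NormedAddCommGroup X] [NormedSpace ℝ X] [Fintype S] [DecidableEq S]
    {T : X → Ten d (Option S)} {v : X → E d} (hT : T.HasTemperateGrowth)
    (hv : v.HasTemperateGrowth) : (fun x => leaf (T x) (v x)).HasTemperateGrowth := by
  exact temp_pi.2 fun i => temp_sum _ fun j _ => temp_mul (temp_coord hT _) (temp_coord hv _)

theorem temp_app {X : Type} [NormedAddCommGroup X] [NormedSpace ℝ X] [Fintype S] [DecidableEq S]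
    {T : X → Ten d (Option S)} {v : X → S → E d} (hT : T.HasTemperateGrowth)
    (hv : v.HasTemperateGrowth) : (fun x => app (T x) (v x)).HasTemperateGrowth := by
  have h : ∀ s j, (fun x => v x s j).HasTemperateGrowth := fun s j =>
    ((ContinuousLinearMap.proj (R := ℝ) (φ := fun _ : Fin d => ℝ) j).comp
      (ContinuousLinearMap.proj (R := ℝ) (φ := fun _ : S => E d) s)).hasTemperateGrowth.comp hv
  exact temp_pi.2 fun k => temp_sum _ fun i _ =>
    temp_mul (temp_coord hT _) (temp_prod _ fun s _ => h s _)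

theorem temp_vec {X : Type} [NormedAddCommGroup X] [NormedSpace ℝ X] {T : X → Ten d Unit}
    (hT : T.HasTemperateGrowth) : (fun x => vec (T x)).HasTemperateGrowth := by
  exact temp_pi.2 fun i => temp_coord hT _

/-- the two outer optional slots are exchanged -/
def swapO (S : Type) : Option (Option S) ≃ Option (Option S) where
  toFun o := match o with
    | none => some none
    | some none => none
    | some (some s) => some (some s)
  invFun o := match o with
    | none => some none
    | some none => none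
    | some (some s) => some (some s)
  left_inv o := by rcases o with _ | _ | _ <;> rfl
  right_inv o := by rcases o with _ | _ | _ <;> rfl

/-- `Option S₁ ⊕ S₂ ≃ Option (S₁ ⊕ S₂)` -/
def optL (S₁ S₂ : Type) : Option S₁ ⊕ S₂ ≃ Option (S₁ ⊕ S₂) where
  toFun o := match o with
    | Sum.inl none => none
    | Sum.inl (some s) => some (Sum.inl s)
    | Sum.inr s => some (Sum.inr s)
  invFun o := match o with
    | none => Sum.inl none
    | some (Sum.inl s) => Sum.inl (some s)
    | some (Sum.inr s) => Sum.inr s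
  left_inv o := by rcases o with (_ | _) | _ <;> rfl
  right_inv o := by rcases o with _ | _ | _ <;> rfl

/-- `S₁ ⊕ Option S₂ ≃ Option (S₁ ⊕ S₂)` -/
def optR (S₁ S₂ : Type) : S₁ ⊕ Option S₂ ≃ Option (S₁ ⊕ S₂) where
  toFun o := match o with
    | Sum.inr none => none
    | Sum.inr (some s) => some (Sum.inr s)
    | Sum.inl s => some (Sum.inl s)
  invFun o := match o with
    | none => Sum.inr none
    | some (Sum.inr s) => Sum.inr (some s)
    | some (Sum.inl s) => Sum.inl s
  left_inv o := by rcases o with _ | _ | _ <;> rfl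
  right_inv o := by rcases o with _ | _ | _ <;> rfl

theorem dT_smul [Fintype S] [DecidableEq S] {T : Om d V → Ten d S} (hT : T.HasTemperateGrowth)
    (c : ℝ) (v : V) (x : Om d V) : dT v (fun x => c • T x) x = c • dT v T x := by
  funext i
  exact pd_const_mul (diff_coord hT _ x) c _

theorem dT_add [Fintype S] [DecidableEq S] {T T' : Om d V → Ten d S} (hT : T.HasTemperateGrowth)
    (hT' : T'.HasTemperateGrowth) (v : V) (x : Om d V) :
    dT v (fun x => T x + T' x) x = dT v T x + dT v T' x := by
  funext i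
  exact pd_add (diff_coord hT _ x) (diff_coord hT' _ x) _

theorem dT_sum [Fintype S] [DecidableEq S] {κ : Type} (s : Finset κ) {T : κ → Om d V → Ten d S}
    (hT : ∀ k ∈ s, (T k).HasTemperateGrowth) (v : V) (x : Om d V) :
    dT v (fun x => ∑ k ∈ s, T k x) x = ∑ k ∈ s, dT v (T k) x := by
  funext i
  simp only [dT, Finset.sum_apply]
  exact pd_sum s (fun k hk => diff_coord (hT k hk) _ x) _

theorem dT_reix (e : S ≃ S') (T : Om d V → Ten d S) (v : V) (x : Om d V) :
    dT v (fun x => reix e (T x)) x = reix e.optionCongr (dT v T x) := by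
  rfl

theorem dT_con [Fintype S₁] [DecidableEq S₁] [Fintype S₂] [DecidableEq S₂] [Fintype J]
    [DecidableEq J] {T₁ : Om d V → Ten d (S₁ ⊕ J)} {T₂ : Om d V → Ten d (J ⊕ S₂)}
    (h₁ : T₁.HasTemperateGrowth) (h₂ : T₂.HasTemperateGrowth) (v : V) (x : Om d V) :
    dT v (fun x => con (T₁ x) (T₂ x)) x =
      reix (optL S₁ S₂) (con (reix (optL S₁ J).symm (dT v T₁ x)) (T₂ x)) +
      reix (optR S₁ S₂) (con (T₁ x) (reix (optR J S₂).symm (dT v T₂ x))) := by
  funext i
  simp only [dT, con, reix, Pi.add_apply]
  rw [pd_sum _ (fun j _ => (diff_coord h₁ _ x).fun_mul (diff_coord h₂ _ x)),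
    ← Finset.sum_add_distrib]
  refine Finset.sum_congr rfl fun j _ => ?_
  rw [pd_mul (diff_coord h₁ _ x) (diff_coord h₂ _ x)]
  congr 3
  · funext y; congr 1; funext s; rcases s with s | s <;> rfl
  · funext y; congr 1; funext s; rcases s with s | s <;> rfl

theorem dT_con1 [Fintype S₁] [DecidableEq S₁] [Fintype S₂] [DecidableEq S₂]
    {T₁ : Om d V → Ten d (Option S₁)} {T₂ : Om d V → Ten d (Option S₂)}
    (h₁ : T₁.HasTemperateGrowth) (h₂ : T₂.HasTemperateGrowth) (v : V) (x : Om d V) :
    dT v (fun x => con1 (T₁ x) (T₂ x)) x =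
      reix (optL S₁ S₂) (con1 (reix (swapO S₁) (dT v T₁ x)) (T₂ x)) +
      reix (optR S₁ S₂) (con1 (T₁ x) (reix (swapO S₂) (dT v T₂ x))) := by
  funext i
  simp only [dT, con1, reix, Pi.add_apply]
  rw [pd_sum _ (fun j _ => (diff_coord h₁ _ x).fun_mul (diff_coord h₂ _ x)),
    ← Finset.sum_add_distrib]
  refine Finset.sum_congr rfl fun j _ => ?_
  rw [pd_mul (diff_coord h₁ _ x) (diff_coord h₂ _ x)]
  congr 3
  · funext y; congr 1; funext s; rcases s with _ | s <;> rfl
  · funext y; congr 1; funext s; rcases s with _ | s <;> rfl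

theorem dT_leaf [Fintype S] [DecidableEq S] {T : Om d V → Ten d (Option S)}
    (hT : T.HasTemperateGrowth) (z : V → ℝ) (v : V) (x : Om d V) :
    dT v (fun x => leaf (T x) (lin z x)) x =
      leaf (reix (swapO S) (dT v T x)) (lin z x) + z v • T x := by
  funext i
  simp only [dT, leaf, reix, Pi.add_apply, Pi.smul_apply, smul_eq_mul]
  rw [pd_sum _ (fun j _ => (diff_coord hT _ x).fun_mul (diff_lin z j x))]
  simp only [fun j => pd_mul (diff_coord hT (oc j fun s => i (some s)) x) (diff_lin z j x)
    (v, i none), pd_lin, Finset.sum_add_distrib, mul_ite, mul_zero, Finset.sum_ite_eq',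
    Finset.mem_univ, if_true, oc_eta]
  rw [mul_comm (z v)]
  congr 1
  refine Finset.sum_congr rfl fun j _ => ?_
  congr 2
  funext y; congr 1; funext s; rcases s with _ | s <;> rfl

/-- `S ⊕ Unit ≃ Option S` -/
def sumU (S : Type) : S ⊕ Unit ≃ Option S := (Equiv.optionEquivSumPUnit.{0, 0} S).symm

/-- exchange of the two slots of a matrix -/
def swapU : Option Unit ≃ Option Unit where
  toFun o := match o with
    | none => some ()
    | some _ => none
  invFun o := match o with
    | none => some ()
    | some _ => none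
  left_inv o := by rcases o with _ | _ <;> rfl
  right_inv o := by rcases o with _ | _ <;> rfl

/-- chain rule for a jet evaluated at `y₀ + lin l x + vec (U x)` -/
theorem dT_jet [Fintype S] [DecidableEq S] {f : E d → ℝ} (hf : f.HasTemperateGrowth) (y₀ : E d)
    (l : V → ℝ) {U : Om d V → Ten d Unit} (hU : U.HasTemperateGrowth) (v : V) (x : Om d V) :
    dT v (fun x => (jet f (y₀ + lin l x + vec (U x)) : Ten d S)) x =
      l v • jet f (y₀ + lin l x + vec (U x)) +
      reix (sumU S) (con1 (jet f (y₀ + lin l x + vec (U x))) (reix (swapU) (dT v U x))) := by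
  funext i
  have hf' : ContDiff ℝ (⊤ : ℕ∞) f := hf.1
  have hg : DifferentiableAt ℝ (fun x : Om d V => y₀ + lin l x + vec (U x)) x :=
    differentiableAt_pi.2 fun j =>
      ((differentiableAt_const (y₀ j)).add (diff_lin l j x)).add (diff_coord hU (fun _ => j) x)
  have hd : Differentiable ℝ fun y => (jet f y : Ten d S) fun s => i (some s) :=
    (contDiff_pdl hf' _).differentiable (by simp)
  have h1 := pd_comp (f := fun y => (jet f y : Ten d S) fun s => i (some s)) (hd _) hg (v, i none)
  have h2 : ∀ j, pd (v, i none) (fun x : Om d V => (y₀ + lin l x + vec (U x)) j) x =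
      (if j = i none then l v else 0) + pd (v, i none) (fun y => U y fun _ => j) x := by
    intro j
    change pd (v, i none) (fun x : Om d V => y₀ j + lin l x j + U x fun _ => j) x = _
    rw [pd_add ((differentiableAt_const (y₀ j)).fun_add (diff_lin l j x)) (diff_coord hU _ x),
      pd_add (differentiableAt_const (y₀ j)) (diff_lin l j x), pd_const, pd_lin, zero_add]
  refine h1.trans ?_
  simp only [h2]
  simp only [pd_jet hf', mul_add, Finset.sum_add_distrib, mul_ite, mul_zero,
    Finset.sum_ite_eq', Finset.mem_univ, if_true, oc_eta, Pi.add_apply, Pi.smul_apply,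
    smul_eq_mul]
  rw [mul_comm (l v)]
  rfl

theorem dT_sub [Fintype S] [DecidableEq S] {T : Om d V → Ten d S} (hT : T.HasTemperateGrowth)
    (A : Matrix V V' ℝ) (v' : V') (x : Om d V') :
    dT v' (fun x => T (sub A x)) x = ∑ v, A v v' • dT v T (sub A x) := by
  funext i
  simp only [dT, Finset.sum_apply, Pi.smul_apply, smul_eq_mul]
  rw [pd_comp (f := fun y => T y fun s => i (some s)) (diff_coord hT _ _) (diff_sub A x),
    Fintype.sum_prod_type]
  refine Finset.sum_congr rfl fun v _ => ?_
  simp only [pd_sub, mul_ite, mul_zero, Finset.sum_ite_eq', Finset.mem_univ, if_true]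
  rw [mul_comm]

theorem dT_join {T : Om d (V ⊕ V') → Ten d S} [Fintype S] [DecidableEq S]
    (hT : T.HasTemperateGrowth) (x : Om d V) (v : V') (y : Om d V') :
    dT v (fun y => T (join x y)) y = dT (Sum.inr v) T (join x y) := by
  funext i
  simp only [dT]
  rw [pd_comp (f := fun y => T y fun s => i (some s)) (diff_coord hT _ _) (diff_join x y)]
  simp only [pd_join, mul_ite, mul_zero, mul_one, Finset.sum_ite_eq', Finset.mem_univ, if_true]

/-- a field invariant in the direction `z` stays so after differentiation -/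
theorem dT_inv {T : Om d V → Ten d S} {w : Om d V} (h : ∀ x, T (x + w) = T x) (v : V)
    (x : Om d V) : dT v T (x + w) = dT v T x := by
  funext i
  simp only [dT]
  rw [← pd_shift]
  simp only [h]

end DT

end Crest.Agent.R285

end
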