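import Crest.Agent.R285.TenA

/-!
Calculus of partial derivatives (auxiliary lemmas for `TenB`).
-/

set_option autoImplicit false
set_option linter.unusedSectionVars false

open MeasureTheory ProbabilityTheory Matrix Filter
open scoped ENNReal

noncomputable section

namespace Crest.Agent.R285.TenB

variable {ι κ : Type} [Fintype ι] [DecidableEq ι]

theorem pd_add {f g : (ι → ℝ) → ℝ} {x : ι → ℝ} (hf : DifferentiableAt ℝ f x)
    (hg : DifferentiableAt ℝ g x) (i : ι) :
    pd i (fun y => f y + g y) x = pd i f x + pd i g x := by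
  unfold pd
  rw [fderiv_fun_add hf hg]
  rfl

theorem pd_mul {f g : (ι → ℝ) → ℝ} {x : ι → ℝ} (hf : DifferentiableAt ℝ f x)
    (hg : DifferentiableAt ℝ g x) (i : ι) :
    pd i (fun y => f y * g y) x = pd i f x * g x + f x * pd i g x := by
  unfold pd
  rw [fderiv_fun_mul hf hg]
  simp only [_root_.add_apply, _root_.smul_apply, smul_eq_mul]
  ring

theorem pd_const (c : ℝ) (x : ι → ℝ) (i : ι) : pd i (fun _ => c) x = 0 := by
  unfold pd
  simp

theorem pd_const_mul {f : (ι → ℝ) → ℝ} {x : ι → ℝ} (hf : DifferentiableAt ℝ f x) (c : ℝ) (i : ι) :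
    pd i (fun y => c * f y) x = c * pd i f x := by
  rw [pd_mul (differentiableAt_const c) hf, pd_const]
  ring

theorem pd_mul_const {f : (ι → ℝ) → ℝ} {x : ι → ℝ} (hf : DifferentiableAt ℝ f x) (c : ℝ) (i : ι) :
    pd i (fun y => f y * c) x = pd i f x * c := by
  rw [pd_mul hf (differentiableAt_const c), pd_const]
  ring

theorem pd_sum (s : Finset κ) {f : κ → (ι → ℝ) → ℝ} {x : ι → ℝ}
    (hf : ∀ k ∈ s, DifferentiableAt ℝ (f k) x) (i : ι) :
    pd i (fun y => ∑ k ∈ s, f k y) x = ∑ k ∈ s, pd i (f k) x := by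
  unfold pd
  rw [fderiv_fun_sum hf]
  simp

theorem pd_coord (x : ι → ℝ) (i j : ι) : pd i (fun y => y j) x = if j = i then 1 else 0 := by
  unfold pd
  have : fderiv ℝ (fun y : ι → ℝ => y j) x =
      ContinuousLinearMap.proj (R := ℝ) (φ := fun _ : ι => ℝ) j :=
    (ContinuousLinearMap.proj (R := ℝ) (φ := fun _ : ι => ℝ) j).fderiv
  rw [this]
  simp [Pi.single_apply]

theorem fderiv_apply_eq_sum [Fintype κ] [DecidableEq κ] (f : (κ → ℝ) → ℝ) (y v : κ → ℝ) :
    fderiv ℝ f y v = ∑ k, pd k f y * v k := by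
  conv_lhs => rw [← Finset.univ_sum_single v, map_sum]
  refine Finset.sum_congr rfl fun k _ => ?_
  have : (Pi.single k (v k) : κ → ℝ) = v k • Pi.single k (1 : ℝ) := by
    rw [← Pi.single_smul, smul_eq_mul, mul_one]
  rw [this, map_smul, smul_eq_mul, mul_comm]
  rfl

/-- chain rule -/
theorem pd_comp [Fintype κ] [DecidableEq κ] {f : (κ → ℝ) → ℝ} {g : (ι → ℝ) → κ → ℝ} {x : ι → ℝ}
    (hf : DifferentiableAt ℝ f (g x)) (hg : DifferentiableAt ℝ g x) (i : ι) :
    pd i (fun y => f (g y)) x = ∑ k, pd k f (g x) * pd i (fun y => g y k) x := by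
  have h1 : fderiv ℝ (fun y => f (g y)) x = (fderiv ℝ f (g x)).comp (fderiv ℝ g x) :=
    fderiv_comp x hf hg
  conv_lhs => unfold pd
  rw [h1, ContinuousLinearMap.comp_apply, fderiv_apply_eq_sum]
  refine Finset.sum_congr rfl fun k _ => ?_
  congr 1
  unfold pd
  rw [fderiv_apply hg k]
  rfl

theorem pd_shift (f : (ι → ℝ) → ℝ) (w x : ι → ℝ) (i : ι) :
    pd i (fun y => f (y + w)) x = pd i f (x + w) := by
  unfold pd
  rw [fderiv_comp_add_right]

section Temp
variable {X : Type} [NormedAddCommGroup X] [NormedSpace ℝ X]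

theorem temp_coord [Fintype κ] {f : X → κ → ℝ} (hf : f.HasTemperateGrowth) (k : κ) :
    (fun x => f x k).HasTemperateGrowth := temp_pi.1 hf k

theorem diff_coord [Fintype κ] {f : X → κ → ℝ} (hf : f.HasTemperateGrowth) (k : κ) (x : X) :
    DifferentiableAt ℝ (fun x => f x k) x :=
  ((temp_coord hf k).1.differentiable (by simp)) x

theorem temp_sum (s : Finset κ) {f : κ → X → ℝ} (hf : ∀ k ∈ s, (f k).HasTemperateGrowth) :
    (fun x => ∑ k ∈ s, f k x).HasTemperateGrowth :=
  Function.HasTemperateGrowth.sum hf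

theorem temp_mul {f g : X → ℝ} (hf : f.HasTemperateGrowth) (hg : g.HasTemperateGrowth) :
    (fun x => f x * g x).HasTemperateGrowth := hf.mul hg

theorem temp_prod (s : Finset κ) {f : κ → X → ℝ} (hf : ∀ k ∈ s, (f k).HasTemperateGrowth) :
    (fun x => ∏ k ∈ s, f k x).HasTemperateGrowth := by
  classical
  induction s using Finset.induction_on with
  | empty => simp
  | insert a s ha ih =>
    simp only [Finset.prod_insert ha]
    exact temp_mul (hf a (Finset.mem_insert_self _ _))
      (ih fun k hk => hf k (Finset.mem_insert_of_mem hk))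

end Temp

section Vars
variable {d : ℕ} {V V' : Type} [Fintype V] [DecidableEq V] [Fintype V'] [DecidableEq V']

theorem diff_lin (z : V → ℝ) (j : Fin d) (x : Om d V) :
    DifferentiableAt ℝ (fun y : Om d V => lin z y j) x := by
  unfold lin
  fun_prop

theorem pd_lin (z : V → ℝ) (v : V) (k j : Fin d) (x : Om d V) :
    pd (v, k) (fun y : Om d V => lin z y j) x = if j = k then z v else 0 := by
  unfold lin
  rw [pd_sum _ (fun w _ => by fun_prop)]
  have : ∀ w, pd (v, k) (fun y : Om d V => z w * y (w, j)) x =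
      if w = v then (if j = k then z v else 0) else 0 := by
    intro w
    rw [pd_const_mul (by fun_prop), pd_coord]
    by_cases h1 : w = v <;> by_cases h2 : j = k <;> simp [h1, h2]
  simp [this]

theorem pd_sub (A : Matrix V V' ℝ) (v' : V') (k : Fin d) (q : V × Fin d) (x : Om d V') :
    pd (v', k) (fun y : Om d V' => sub A y q) x = if q.2 = k then A q.1 v' else 0 :=
  pd_lin (fun w => A q.1 w) v' k q.2 x

theorem diff_sub (A : Matrix V V' ℝ) (x : Om d V') :
    DifferentiableAt ℝ (sub (d := d) A) x :=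
  differentiableAt_pi.2 fun q => diff_lin (fun w => A q.1 w) q.2 x

theorem diff_join (x : Om d V) (y : Om d V') :
    DifferentiableAt ℝ (join x : Om d V' → Om d (V ⊕ V')) y := by
  refine differentiableAt_pi.2 ?_
  rintro ⟨w | w, j⟩
  · exact differentiableAt_const (x (w, j))
  · exact differentiableAt_apply (w, j) y

theorem pd_join (x : Om d V) (v : V') (k : Fin d) (q : (V ⊕ V') × Fin d) (y : Om d V') :
    pd (v, k) (fun y : Om d V' => join x y q) y = if q = (Sum.inr v, k) then 1 else 0 := by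
  obtain ⟨w | w, j⟩ := q
  · have : (fun y : Om d V' => join x y (Sum.inl w, j)) = fun _ => x (w, j) := rfl
    rw [this, pd_const]
    simp
  · have : (fun y : Om d V' => join x y (Sum.inr w, j)) = fun y => y (w, j) := rfl
    rw [this, pd_coord]
    simp

end Vars

end Crest.Agent.R285.TenB

end
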