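import Crest.Agent.R285.Heat

/-!
The Cole-Hopf tower `Φ_η = - log P_η e^{-W}` and the ladder steps.
-/

set_option autoImplicit false

open MeasureTheory ProbabilityTheory Matrix Filter
open scoped ENNReal

noncomputable section

namespace Crest.Agent.R285

variable {d : ℕ} {δ G : ℝ} {W : E d → ℝ}
  {F : Type} [NormedAddCommGroup F] [NormedSpace ℝ F] [CompleteSpace F]

namespace TA

/-- smooth with all derivatives bounded -/
structure BS {F : Type} [NormedAddCommGroup F] [NormedSpace ℝ F] (f : E d → F) : Prop where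
  smooth : ContDiff ℝ (⊤ : ℕ∞) f
  bdd : ∀ m : ℕ, ∃ C, ∀ y, ‖iteratedFDeriv ℝ m f y‖ ≤ C

omit [CompleteSpace F] in
theorem BS.temp {f : E d → F} (hf : BS f) : f.HasTemperateGrowth :=
  ⟨hf.smooth, fun n => by
    obtain ⟨C, hC⟩ := hf.bdd n
    exact ⟨0, C, fun x => by simpa using hC x⟩⟩

omit [CompleteSpace F] in
theorem BS.norm_le {f : E d → F} (hf : BS f) : ∃ C, ∀ y, ‖f y‖ ≤ C := by
  simpa using hf.bdd 0

omit [CompleteSpace F] in
theorem BS.fderiv {f : E d → F} (hf : BS f) : BS (fderiv ℝ f) :=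
  ⟨(temp_fderiv hf.temp).1, fun m => by
    simpa only [norm_iteratedFDeriv_fderiv] using hf.bdd (m + 1)⟩

theorem BS.comp {f : E d → ℝ} (hf : BS f) {g : ℝ → ℝ} {U : Set ℝ} (hU : IsOpen U)
    (hg : ContDiffOn ℝ (⊤ : ℕ∞) g U) {a b : ℝ} (hab : Set.Icc a b ⊆ U)
    (hr : ∀ y, f y ∈ Set.Icc a b) : BS fun y => g (f y) := by
  refine ⟨hg.comp_contDiff hf.smooth fun y => hab (hr y), fun n => ?_⟩
  have h1 : ∀ i : ℕ, ∃ C, ∀ x ∈ Set.Icc a b, ‖iteratedFDerivWithin ℝ i g U x‖ ≤ C := fun i =>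
    isCompact_Icc.exists_bound_of_continuousOn
      ((hg.continuousOn_iteratedFDerivWithin (by exact_mod_cast le_top) hU.uniqueDiffOn).mono hab)
  choose C hC using h1
  choose D hD using hf.bdd
  refine ⟨_, fun y => norm_iteratedFDeriv_comp_le' (t := U) (Set.range_subset_iff.2 fun y =>
    hab (hr y)) hU.uniqueDiffOn hg hf.smooth (by exact_mod_cast le_top) y
    (C := ∑ i ∈ Finset.range (n + 1), |C i|) (D := 1 + ∑ i ∈ Finset.range (n + 1), |D i|)
    (fun i hi => ?_) (fun i hi1 hi => ?_)⟩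
  · exact (hC i _ (hr y)).trans ((le_abs_self _).trans (Finset.single_le_sum
      (f := fun i => |C i|) (fun _ _ => abs_nonneg _) (Finset.mem_range.2 (by omega))))
  · have h0 : 0 ≤ ∑ i ∈ Finset.range (n + 1), |D i| := Finset.sum_nonneg fun _ _ => abs_nonneg _
    refine le_trans ?_ (le_self_pow₀ (by linarith) (by omega))
    have := (hD i y).trans ((le_abs_self _).trans (Finset.single_le_sum
      (f := fun i => |D i|) (fun _ _ => abs_nonneg _)
      (Finset.mem_range.2 (by omega : i < n + 1))))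
    linarith

theorem fderiv_heat' {f : E d → F} (hf : f.HasTemperateGrowth) (ρ : ℝ) :
    fderiv ℝ (heat ρ f) = heat ρ (fderiv ℝ f) := by
  funext y
  ext1 v
  rw [fderiv_heat hf]
  exact (ContinuousLinearMap.integral_apply
    ((PG.of_temp (temp_fderiv hf)).integrable_heat ρ y) v).symm

theorem heat_bdd (ρ : ℝ) (m : ℕ) : ∀ (F : Type) [NormedAddCommGroup F] [NormedSpace ℝ F]
    [CompleteSpace F] (f : E d → F), BS f →
    ∃ C, ∀ y, ‖iteratedFDeriv ℝ m (heat ρ f) y‖ ≤ C := by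
  induction m with
  | zero =>
    intro F _ _ _ f hf
    obtain ⟨C, hC⟩ := hf.norm_le
    refine ⟨C, fun y => ?_⟩
    rw [norm_iteratedFDeriv_zero, heat]
    simpa using norm_integral_le_of_norm_le_const (μ := gam (Fin d))
      (Eventually.of_forall fun g => hC (y + √ρ • g))
  | succ m ih =>
    intro F _ _ _ f hf
    simp only [← norm_iteratedFDeriv_fderiv, fderiv_heat' hf.temp]
    exact ih _ _ hf.fderiv

theorem BS.heat {f : E d → F} (hf : BS f) (ρ : ℝ) : BS (heat ρ f) :=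
  ⟨(temp_heat hf.temp ρ).1, fun m => heat_bdd ρ m F f hf⟩

theorem bs_W (hW : Adm δ G W) : BS W := ⟨hW.smooth, hW.bdd⟩

theorem bs_exp (hW : Adm δ G W) : BS fun x => Real.exp (-W x) := by
  obtain ⟨C, hC⟩ := (bs_W hW).norm_le
  exact (bs_W hW).comp (g := fun t => Real.exp (-t)) isOpen_univ
    (Real.contDiff_exp.comp contDiff_neg).contDiffOn (Set.subset_univ _)
    fun y => abs_le.1 (hC y)

theorem bs_uu (hW : Adm δ G W) (η : ℝ) : BS (uu W η) := (bs_exp hW).heat η

section PG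

variable {X : Type} [NormedAddCommGroup X] [MeasurableSpace X]

omit [CompleteSpace F] in
theorem pg_smul {a : X → ℝ} {h : X → F} (ha : PG a) (hh : PG h) : PG fun x => a x • h x := by
  obtain ⟨C, k, hC⟩ := ha.bd
  obtain ⟨C', k', hC'⟩ := hh.bd
  refine ⟨ha.meas.smul hh.meas, C * C', k + k', fun x => ?_⟩
  rw [norm_smul, pow_add, mul_mul_mul_comm]
  exact mul_le_mul (hC x) (hC' x) (norm_nonneg _) ((norm_nonneg _).trans (hC x))

theorem pg_mul {a h : X → ℝ} (ha : PG a) (hh : PG h) : PG fun x => a x * h x := pg_smul ha hh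

omit [CompleteSpace F] [NormedSpace ℝ F] in
theorem pg_const (c : F) : PG fun _ : X => c :=
  ⟨stronglyMeasurable_const, ‖c‖, 0, fun _ => by simp⟩

omit [CompleteSpace F] [NormedSpace ℝ F] in
theorem pg_add {h h' : X → F} (hh : PG h) (hh' : PG h') : PG fun x => h x + h' x := by
  obtain ⟨C, k, hC⟩ := hh.bd
  obtain ⟨C', k', hC'⟩ := hh'.bd
  refine ⟨hh.meas.add hh'.meas, |C| + |C'|, k + k', fun x => ?_⟩
  have h1 : (1 : ℝ) ≤ 1 + ‖x‖ := le_add_of_nonneg_right (norm_nonneg _)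
  rw [add_mul]
  refine (norm_add_le _ _).trans (add_le_add ((hC x).trans ?_) ((hC' x).trans ?_))
  · exact mul_le_mul (le_abs_self _) (pow_le_pow_right₀ h1 (by omega)) (by positivity)
      (abs_nonneg _)
  · exact mul_le_mul (le_abs_self _) (pow_le_pow_right₀ h1 (by omega)) (by positivity)
      (abs_nonneg _)

theorem pg_nrm {κ : Type} [Fintype κ] {h : X → κ → ℝ} (hh : PG h) : PG fun x => nrm (h x) := by
  obtain ⟨C, k, hC⟩ := hh.bd
  refine ⟨continuous_nrm.comp_stronglyMeasurable hh.meas, √(Fintype.card κ) * C, k, fun x => ?_⟩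
  rw [Real.norm_of_nonneg (nrm_nonneg _), mul_assoc]
  exact (nrm_le_norm _).trans (mul_le_mul_of_nonneg_left (hC x) (Real.sqrt_nonneg _))

end PG

theorem heat_mono {f g : E d → ℝ} (hf : PG f) (hg : PG g) (h : ∀ y, f y ≤ g y) (ρ : ℝ) (y : E d) :
    heat ρ f y ≤ heat ρ g y :=
  integral_mono (hf.integrable_heat ρ y) (hg.integrable_heat ρ y) fun _ => h _

theorem pg_uu (hW : Adm δ G W) (η : ℝ) : PG (uu W η) := PG.of_temp (bs_uu hW η).temp

theorem heat_uu (hW : Adm δ G W) {η t : ℝ} (ht : 0 ≤ t) (htη : t ≤ η) :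
    heat t (uu W (η - t)) = uu W η := by
  unfold uu
  rw [heat_heat (PG.of_temp (bs_exp hW).temp) ht (sub_nonneg.2 htη), add_sub_cancel]

theorem pd_scale (f : E d → ℝ) (r : ℝ) (i : Fin d) :
    pd i (fun x => f (r • x)) = fun y => r * pd i f (r • y) := by
  funext y
  simp only [pd, fderiv_comp_smul, _root_.smul_apply, smul_eq_mul]

end TA

theorem Adm.temp (hW : Adm δ G W) : W.HasTemperateGrowth := by
  exact (TA.bs_W hW).temp

theorem Adm.abs_le (hW : Adm δ G W) : ∃ C, ∀ y, |W y| ≤ C := by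
  exact (TA.bs_W hW).norm_le

theorem Adm.temp_exp (hW : Adm δ G W) : (fun x => Real.exp (-W x)).HasTemperateGrowth := by
  exact (TA.bs_exp hW).temp

theorem Adm.mono (hW : Adm δ G W) {δ' G' : ℝ} (h : δ ≤ δ') (h' : G ≤ G') : Adm δ' G' W := by
  refine ⟨hW.smooth, hW.bdd, fun y => (hW.grad_le y).trans h', fun y u w => ?_⟩
  exact (hW.hess_le y u w).trans (mul_le_mul_of_nonneg_right
    (mul_le_mul_of_nonneg_right h (nrm_nonneg _)) (nrm_nonneg _))

theorem Adm.opN_le (hW : Adm δ G W) (hδ : 0 ≤ δ) (y : E d) :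
    opN (jet W y : Ten d (Option Unit)) ≤ δ := by
  refine opN_le_of_bilin _ hδ fun u w => ?_
  simp only [mat_jet hW.smooth]
  exact hW.hess_le y u w

theorem Adm.lip (hW : Adm δ G W) (y y' : E d) : |W y - W y'| ≤ G * nrm (y - y') := by
  exact abs_sub_le_of_grad (hW.smooth.differentiable (by simp)) hW.grad_le y y'

theorem Adm.lip_grad (hW : Adm δ G W) (hδ : 0 ≤ δ) (y y' : E d) :
    nrm (grad W y - grad W y') ≤ δ * nrm (y - y') := by
  refine nrm_le_of_dot (mul_nonneg hδ (nrm_nonneg _)) fun u => ?_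
  have h := abs_dot_jet_sub_le (S := Unit) hW.smooth (hW.opN_le hδ) (fun i => u (i ())) y y'
  have e : ∀ z, (fun i : Unit → Fin d => u (i ())) ⬝ᵥ (jet W z : Ten d Unit) = u ⬝ᵥ grad W z :=
    fun z => by
      rw [dotProduct, sum_unit, ← vec_jet]
      rfl
  rw [e, e, ← nrm_vec, ← dotProduct_sub] at h
  refine (le_abs_self _).trans (h.trans (le_of_eq ?_))
  rw [mul_right_comm]
  rfl

theorem Adm.scale (hW : Adm δ G W) {r : ℝ} (hr : 0 ≤ r) :
    Adm (r ^ 2 * δ) (r * G) (fun x => W (r • x)) := by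
  refine ⟨hW.smooth.comp (contDiff_const_smul r), fun m => ?_, fun y => ?_, fun y u w => ?_⟩
  · obtain ⟨C, hC⟩ := hW.bdd m
    refine ⟨‖r ^ m‖ * C, fun y => ?_⟩
    rw [iteratedFDeriv_comp_const_smul r (hW.smooth.of_le (by exact_mod_cast le_top)), norm_smul]
    exact mul_le_mul_of_nonneg_left (hC _) (norm_nonneg _)
  · have : grad (fun x => W (r • x)) y = r • grad W (r • y) := by
      funext i; simp [grad, TA.pd_scale]
    rw [this, nrm_smul, abs_of_nonneg hr]
    exact mul_le_mul_of_nonneg_left (hW.grad_le _) hr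
  · have e : ∀ i j, pd i (pd j fun x => W (r • x)) y = r ^ 2 * pd i (pd j W) (r • y) := by
      intro i j
      have e1 : pd i (fun x => r * pd j W x) (r • y) = r * pd i (pd j W) (r • y) := by
        rw [pd, fderiv_const_mul ((contDiff_pd hW.smooth j).differentiable (by simp) _)]
        rfl
      rw [TA.pd_scale, TA.pd_scale (fun x => r * pd j W x)]
      simp only [e1]
      ring
    simp only [e, mul_assoc, ← Finset.mul_sum]
    rw [abs_mul, abs_of_nonneg (sq_nonneg r)]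
    refine mul_le_mul_of_nonneg_left ?_ (sq_nonneg r)
    simpa only [mul_assoc] using hW.hess_le (r • y) u w

theorem uu_zero (W : E d → ℝ) : uu W 0 = fun x => Real.exp (-W x) := heat_zero _

theorem uu_bounds (hW : Adm δ G W) : ∃ c C : ℝ, 0 < c ∧ ∀ η y, c ≤ uu W η y ∧ uu W η y ≤ C := by
  obtain ⟨C, hC⟩ := hW.abs_le
  have hp := PG.of_temp hW.temp_exp
  refine ⟨Real.exp (-C), Real.exp C, Real.exp_pos _, fun η y => ⟨?_, ?_⟩⟩
  · rw [← heat_const η (Real.exp (-C)) y]
    exact TA.heat_mono (TA.pg_const _) hp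
      (fun x => Real.exp_le_exp.2 (neg_le_neg (abs_le.1 (hC x)).2)) η y
  · rw [← heat_const η (Real.exp C) y]
    exact TA.heat_mono hp (TA.pg_const _)
      (fun x => Real.exp_le_exp.2 (neg_le.1 (abs_le.1 (hC x)).1)) η y

theorem uu_pos (hW : Adm δ G W) (η : ℝ) (y : E d) : 0 < uu W η y := by
  obtain ⟨c, C, hc, h⟩ := uu_bounds hW
  exact hc.trans_le (h η y).1

theorem temp_uu (hW : Adm δ G W) (η : ℝ) : (uu W η).HasTemperateGrowth := by
  exact (TA.bs_uu hW η).temp

theorem temp_uu_inv (hW : Adm δ G W) (η : ℝ) :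
    (fun y => (uu W η y)⁻¹).HasTemperateGrowth := by
  obtain ⟨c, C, hc, h⟩ := uu_bounds hW
  exact ((TA.bs_uu hW η).comp isOpen_compl_singleton (contDiffOn_inv ℝ)
    (fun x hx => (hc.trans_le hx.1).ne') (h η)).temp

theorem exp_neg_Phi (hW : Adm δ G W) (η : ℝ) (y : E d) : Real.exp (-Phi W η y) = uu W η y := by
  rw [Phi, neg_neg, Real.exp_log (uu_pos hW η y)]

theorem Phi_zero (W : E d → ℝ) : Phi W 0 = W := by
  funext y
  simp [Phi, uu_zero]

theorem contDiff_Phi (hW : Adm δ G W) (η : ℝ) : ContDiff ℝ (⊤ : ℕ∞) (Phi W η) := by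
  exact ((TA.bs_uu hW η).smooth.log fun y => (uu_pos hW η y).ne').neg

theorem Phi_bdd (hW : Adm δ G W) (η : ℝ) (m : ℕ) :
    ∃ C, ∀ y, ‖iteratedFDeriv ℝ m (Phi W η) y‖ ≤ C := by
  obtain ⟨c, C, hc, h⟩ := uu_bounds hW
  exact ((TA.bs_uu hW η).comp (g := fun t => -Real.log t) isOpen_compl_singleton
    Real.contDiffOn_log.neg (fun x hx => (hc.trans_le hx.1).ne') (h η)).bdd m

theorem temp_Phi (hW : Adm δ G W) (η : ℝ) : (Phi W η).HasTemperateGrowth := by
  exact (TA.BS.mk (contDiff_Phi hW η) (Phi_bdd hW η)).temp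

theorem temp_tau {S : Type} [Fintype S] [DecidableEq S] (hW : Adm δ G W) (η : ℝ) :
    (fun y => (tau W η y : Ten d S)).HasTemperateGrowth := temp_jet (temp_Phi hW η)

theorem temp_tau1 (hW : Adm δ G W) (η : ℝ) : (tau1 W η).HasTemperateGrowth :=
  temp_grad (temp_Phi hW η)

theorem vec_tau (W : E d → ℝ) (η : ℝ) (y : E d) : vec (tau W η y) = tau1 W η y := vec_jet y

theorem uu_uu (hW : Adm δ G W) {η t : ℝ} (hη : 0 ≤ η) (ht : 0 ≤ t) :
    uu (Phi W η) t = uu W (η + t) := by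
  rw [uu, funext (exp_neg_Phi hW η), ← TA.heat_uu hW ht (le_add_of_nonneg_left hη),
    add_sub_cancel_right]

theorem Phi_Phi (hW : Adm δ G W) {η t : ℝ} (hη : 0 ≤ η) (ht : 0 ≤ t) :
    Phi (Phi W η) t = Phi W (η + t) := by
  funext y
  rw [Phi, uu_uu hW hη ht, Phi]

/-- a ladder step is a posterior for the potential `Φ_{η - t}` -/
theorem stepE_eq_post (hW : Adm δ G W) {η t : ℝ} (ht : 0 ≤ t) (htη : t ≤ η) (b : E d)
    (h : E d → F) : stepE W η t b h = stepE (Phi W (η - t)) t t b h := by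
  rw [stepE, stepE, uu_uu hW (sub_nonneg.2 htη) ht, sub_add_cancel, sub_self, uu_zero]
  simp only [exp_neg_Phi hW]

/-! ### `stepE` is an expectation -/

theorem stepE_zero (hW : Adm δ G W) (η : ℝ) (b : E d) (h : E d → F) : stepE W η 0 b h = h b := by
  rw [stepE, heat_zero, sub_zero, inv_smul_smul₀ (uu_pos hW η b).ne']

theorem stepE_const (hW : Adm δ G W) {η t : ℝ} (ht : 0 ≤ t) (htη : t ≤ η) (b : E d) (c : F) :
    stepE W η t b (fun _ => c) = c := by
  have : heat t (fun y => uu W (η - t) y • c) b = heat t (uu W (η - t)) b • c :=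
    integral_smul_const _ _
  rw [stepE, this, TA.heat_uu hW ht htη, inv_smul_smul₀ (uu_pos hW η b).ne']

theorem stepE_add (hW : Adm δ G W) (η t : ℝ) (b : E d) {h h' : E d → F} (hh : PG h) (hh' : PG h') :
    stepE W η t b (fun y => h y + h' y) = stepE W η t b h + stepE W η t b h' := by
  simp only [stepE, smul_add]
  rw [heat_add (TA.pg_smul (TA.pg_uu hW _) hh) (TA.pg_smul (TA.pg_uu hW _) hh'), smul_add]

theorem stepE_sub (hW : Adm δ G W) (η t : ℝ) (b : E d) {h h' : E d → F} (hh : PG h) (hh' : PG h') :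
    stepE W η t b (fun y => h y - h' y) = stepE W η t b h - stepE W η t b h' := by
  simp only [stepE, smul_sub, heat]
  rw [integral_sub ((TA.pg_smul (TA.pg_uu hW _) hh).integrable_heat t b)
    ((TA.pg_smul (TA.pg_uu hW _) hh').integrable_heat t b), smul_sub]

omit [CompleteSpace F] in
theorem stepE_smul (W : E d → ℝ) (η t : ℝ) (b : E d) (c : ℝ) (h : E d → F) :
    stepE W η t b (fun y => c • h y) = c • stepE W η t b h := by
  simp only [stepE, smul_comm _ c]
  rw [heat_smul, smul_comm]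

theorem stepE_sum (hW : Adm δ G W) (η t : ℝ) (b : E d) {κ : Type} (s : Finset κ)
    {h : κ → E d → F} (hh : ∀ k ∈ s, PG (h k)) :
    stepE W η t b (fun y => ∑ k ∈ s, h k y) = ∑ k ∈ s, stepE W η t b (h k) := by
  simp only [stepE, Finset.smul_sum, heat]
  rw [integral_finsetSum s fun k hk => (TA.pg_smul (TA.pg_uu hW _) (hh k hk)).integrable_heat t b,
    Finset.smul_sum]

theorem stepE_apply (hW : Adm δ G W) (η t : ℝ) (b : E d) {κ : Type} [Fintype κ]
    {h : E d → κ → ℝ} (hh : PG h) (k : κ) :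
    stepE W η t b h k = stepE W η t b (fun y => h y k) := by
  simp only [stepE, Pi.smul_apply]
  rw [heat_apply (TA.pg_smul (TA.pg_uu hW _) hh)]
  rfl

theorem stepE_mono (hW : Adm δ G W) (η t : ℝ) (b : E d) {h h' : E d → ℝ} (hh : PG h) (hh' : PG h')
    (hle : ∀ y, h y ≤ h' y) : stepE W η t b h ≤ stepE W η t b h' := by
  exact mul_le_mul_of_nonneg_left (TA.heat_mono (TA.pg_smul (TA.pg_uu hW _) hh)
    (TA.pg_smul (TA.pg_uu hW _) hh')
    (fun y => mul_le_mul_of_nonneg_left (hle y) (uu_pos hW _ y).le) t b)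
    (inv_nonneg.2 (uu_pos hW η b).le)

theorem abs_stepE_le (hW : Adm δ G W) {η t : ℝ} (ht : 0 ≤ t) (htη : t ≤ η) (b : E d)
    {h : E d → ℝ} {C : ℝ} (hC : ∀ y, |h y| ≤ C) : |stepE W η t b h| ≤ C := by
  rw [← stepE_const hW ht htη b C]
  have h0 := inv_nonneg.2 (uu_pos hW η b).le
  simp only [stepE, smul_eq_mul]
  rw [abs_mul, abs_of_nonneg h0]
  refine mul_le_mul_of_nonneg_left ?_ h0
  refine norm_integral_le_of_norm_le (G := ℝ)
    ((TA.pg_mul (TA.pg_uu hW _) (TA.pg_const C)).integrable_heat t b)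
    (Eventually.of_forall fun g => ?_)
  rw [Real.norm_eq_abs, abs_mul, abs_of_pos (uu_pos hW _ _)]
  exact mul_le_mul_of_nonneg_left (hC _) (uu_pos hW _ _).le

theorem nrm_stepE_le (hW : Adm δ G W) {η t : ℝ} (b : E d) {κ : Type} [Fintype κ]
    {h : E d → κ → ℝ} (hh : PG h) : nrm (stepE W η t b h) ≤ stepE W η t b fun y => nrm (h y) := by
  have h0 := inv_nonneg.2 (uu_pos hW η b).le
  rw [stepE, stepE, nrm_smul, abs_of_nonneg h0]
  refine mul_le_mul_of_nonneg_left ?_ h0
  have h1 := nrm_integral_le (gam (Fin d)) fun g => uu W (η - t) (b + √t • g) • h (b + √t • g)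
  simp only [nrm_smul, abs_of_pos (uu_pos hW _ _)] at h1
  have hnn : ∀ g : E d, 0 ≤ uu W (η - t) (b + √t • g) * nrm (h (b + √t • g)) := fun g =>
    mul_nonneg (uu_pos hW _ _).le (nrm_nonneg _)
  rw [← ofReal_integral_eq_lintegral_ofReal
    ((TA.pg_mul (TA.pg_uu hW _) (TA.pg_nrm hh)).integrable_heat t b)
    (Eventually.of_forall hnn), ENNReal.ofReal_le_ofReal_iff (integral_nonneg hnn)] at h1
  exact h1

theorem opN_stepE_le (hW : Adm δ G W) {η t : ℝ} (ht : 0 ≤ t) (htη : t ≤ η) (b : E d) {S : Type}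
    [Fintype S] [DecidableEq S] {h : E d → Ten d S} (hh : PG h) {C : ℝ} (hC : ∀ y, opN (h y) ≤ C) :
    opN (stepE W η t b h) ≤ C := by
  have h0 := inv_nonneg.2 (uu_pos hW η b).le
  have hC0 : 0 ≤ C := (opN_nonneg _).trans (hC b)
  rw [← stepE_const hW ht htη b C, stepE, stepE]
  refine (opN_smul_le _ _).trans ?_
  rw [abs_of_nonneg h0]
  refine mul_le_mul_of_nonneg_left ?_ h0
  have h1 := opN_integral_le (gam (Fin d)) fun g => uu W (η - t) (b + √t • g) • h (b + √t • g)
  have hnn : ∀ g : E d, 0 ≤ uu W (η - t) (b + √t • g) * C := fun g =>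
    mul_nonneg (uu_pos hW _ _).le hC0
  have h2 := h1.trans (lintegral_mono
    (g := fun g => ENNReal.ofReal (uu W (η - t) (b + √t • g) * C)) fun g =>
      ENNReal.ofReal_le_ofReal ((opN_smul_le _ _).trans (by
        rw [abs_of_pos (uu_pos hW _ _)]
        exact mul_le_mul_of_nonneg_left (hC _) (uu_pos hW _ _).le)))
  rw [← ofReal_integral_eq_lintegral_ofReal
    ((TA.pg_mul (TA.pg_uu hW _) (TA.pg_const C)).integrable_heat t b)
    (Eventually.of_forall hnn), ENNReal.ofReal_le_ofReal_iff (integral_nonneg hnn)] at h2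
  exact h2

/-- Cauchy-Schwarz -/
theorem stepE_mul_sq_le (hW : Adm δ G W) (η t : ℝ) (b : E d) {h h' : E d → ℝ} (hh : PG h)
    (hh' : PG h') : stepE W η t b (fun y => h y * h' y) ^ 2 ≤
      stepE W η t b (fun y => h y ^ 2) * stepE W η t b (fun y => h' y ^ 2) := by
  have h1 : PG fun y => h y ^ 2 := by simpa only [sq] using TA.pg_mul hh hh
  have h2 : PG fun y => h' y ^ 2 := by simpa only [sq] using TA.pg_mul hh' hh'
  have h3 := TA.pg_mul hh hh'
  have key : ∀ s : ℝ, 0 ≤ stepE W η t b (fun y => h y ^ 2) * (s * s) +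
      2 * stepE W η t b (fun y => h y * h' y) * s + stepE W η t b (fun y => h' y ^ 2) := by
    intro s
    have p1 := TA.pg_smul (TA.pg_const (s * s)) h1
    have p2 := TA.pg_smul (TA.pg_const (2 * s)) h3
    have e := stepE_mono hW η t b (TA.pg_smul (TA.pg_const 0) h1)
      (TA.pg_add (TA.pg_add p1 p2) h2) fun y => by
        simp only [smul_eq_mul]
        nlinarith [sq_nonneg (s * h y + h' y)]
    rw [stepE_add hW η t b (TA.pg_add p1 p2) h2, stepE_add hW η t b p1 p2, stepE_smul, stepE_smul,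
      stepE_smul] at e
    simp only [smul_eq_mul] at e
    linarith
  have := discrim_le_zero key
  rw [discrim] at this
  linarith

theorem PG.stepE (hW : Adm δ G W) (η t : ℝ) {h : E d → F} (hh : PG h) :
    PG fun b => stepE W η t b h := by
  exact TA.pg_smul (PG.of_temp (temp_uu_inv hW η)) ((TA.pg_smul (TA.pg_uu hW _) hh).heat t)

theorem temp_stepE (hW : Adm δ G W) (η t : ℝ) {h : E d → F} (hh : h.HasTemperateGrowth) :
    (fun b => stepE W η t b h).HasTemperateGrowth := by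
  exact (temp_uu_inv hW η).smul (temp_heat ((temp_uu hW (η - t)).smul hh) t)

end Crest.Agent.R285

end
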