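import Crest.Agent.R285.TowerA

/-!
Ladder steps: tower property, bridge, scaling, integration by parts.
-/

set_option autoImplicit false

open MeasureTheory ProbabilityTheory Matrix Filter
open scoped ENNReal

noncomputable section

namespace Crest.Agent.R285

variable {d : ℕ} {δ G : ℝ} {W : E d → ℝ}
  {F : Type} [NormedAddCommGroup F] [NormedSpace ℝ F] [CompleteSpace F]

namespace TowerBAux

section PG
variable {X Y H : Type} [NormedAddCommGroup X] [MeasurableSpace X] [NormedAddCommGroup Y]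
  [MeasurableSpace Y] [NormedAddCommGroup H]

theorem pg_comp {f : X → H} (hf : PG f) {φ : Y → X} (hφ : PG φ) (hm : Measurable φ) :
    PG fun y => f (φ y) := by
  obtain ⟨C, k, hC⟩ := hf.bd
  obtain ⟨C', k', hC'⟩ := hφ.bd
  refine ⟨hf.meas.comp_measurable hm, |C| * (1 + |C'|) ^ k, k' * k, fun y => (hC _).trans ?_⟩
  have h1 : (1 : ℝ) ≤ (1 + ‖y‖) ^ k' := one_le_pow₀ (by linarith [norm_nonneg y])
  have h2 : 1 + ‖φ y‖ ≤ (1 + |C'|) * (1 + ‖y‖) ^ k' := by
    have h3 : C' * (1 + ‖y‖) ^ k' ≤ |C'| * (1 + ‖y‖) ^ k' := by gcongr; exact le_abs_self _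
    nlinarith [hC' y]
  calc C * (1 + ‖φ y‖) ^ k ≤ |C| * ((1 + |C'|) * (1 + ‖y‖) ^ k') ^ k := by
        gcongr; exact le_abs_self _
    _ = _ := by rw [mul_pow, ← pow_mul, mul_assoc]

theorem pg_smul [NormedSpace ℝ H] {a : X → ℝ} {f : X → H} (ha : PG a) (hf : PG f) :
    PG fun x => a x • f x := by
  obtain ⟨C, k, hC⟩ := ha.bd
  obtain ⟨C', k', hC'⟩ := hf.bd
  refine ⟨ha.meas.smul hf.meas, C * C', k + k', fun x => ?_⟩
  rw [norm_smul]
  calc ‖a x‖ * ‖f x‖ ≤ C * (1 + ‖x‖) ^ k * (C' * (1 + ‖x‖) ^ k') :=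
        mul_le_mul (hC x) (hC' x) (norm_nonneg _) ((norm_nonneg _).trans (hC x))
    _ = _ := by ring

end PG

/-- composition with a map of temperate growth -/
theorem pg_comp_temp {X Y H : Type} [NormedAddCommGroup X] [NormedSpace ℝ X] [MeasurableSpace X]
    [BorelSpace X] [NormedAddCommGroup Y] [NormedSpace ℝ Y] [MeasurableSpace Y]
    [OpensMeasurableSpace Y] [SecondCountableTopology Y] [NormedAddCommGroup H] {f : X → H}
    (hf : PG f) {φ : Y → X} (hφ : φ.HasTemperateGrowth) : PG fun y => f (φ y) :=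
  pg_comp hf (PG.of_temp hφ) hφ.1.continuous.measurable

theorem temp_fst {X Y : Type} [NormedAddCommGroup X] [NormedSpace ℝ X] [NormedAddCommGroup Y]
    [NormedSpace ℝ Y] (b : X) (c : ℝ) : (fun z : X × Y => b + c • z.1).HasTemperateGrowth :=
  (Function.HasTemperateGrowth.const b).add (c • ContinuousLinearMap.fst ℝ X Y).hasTemperateGrowth

theorem temp_snd {X Y : Type} [NormedAddCommGroup X] [NormedSpace ℝ X] [NormedAddCommGroup Y]
    [NormedSpace ℝ Y] (b : Y) (c : ℝ) : (fun z : X × Y => b + c • z.2).HasTemperateGrowth :=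
  (Function.HasTemperateGrowth.const b).add (c • ContinuousLinearMap.snd ℝ X Y).hasTemperateGrowth

theorem temp_aff {X : Type} [NormedAddCommGroup X] [NormedSpace ℝ X] (b : X) (c : ℝ) :
    (fun z : X => b + c • z).HasTemperateGrowth :=
  (Function.HasTemperateGrowth.const b).add (c • ContinuousLinearMap.id ℝ X).hasTemperateGrowth

/-- a `2 × 2` linear substitution -/
def rot (d : ℕ) (a b c e : ℝ) (z : E d × E d) : E d × E d :=
  (a • z.1 + b • z.2, c • z.1 + e • z.2)

theorem temp_rot (a b c e : ℝ) : (rot d a b c e).HasTemperateGrowth := by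
  refine temp_linear _ (fun x y => ?_) fun r x => ?_
  · simp only [rot, Prod.mk_add_mk, Prod.fst_add, Prod.snd_add, smul_add]
    congr 1 <;> abel
  · simp only [rot, Prod.smul_mk, Prod.smul_fst, Prod.smul_snd, smul_add, smul_comm r]

theorem map_rot (a b c e : ℝ) : ((gam (Fin d)).prod (gam (Fin d))).map (rot d a b c e) =
    ((gam (Fin d ⊕ Fin d)).map fun x => fromBlocks (a • (1 : Matrix (Fin d) (Fin d) ℝ)) (b • 1)
      (c • 1) (e • 1) *ᵥ x).map (MeasurableEquiv.sumPiEquivProdPi fun _ => ℝ) := by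
  have h1 : MeasurePreserving (MeasurableEquiv.sumPiEquivProdPi fun _ : Fin d ⊕ Fin d => ℝ)
      (gam (Fin d ⊕ Fin d)) ((gam (Fin d)).prod (gam (Fin d))) :=
    measurePreserving_sumPiEquivProdPi fun _ => gaussianReal 0 1
  rw [← h1.map_eq, Measure.map_map (temp_rot a b c e).1.continuous.measurable h1.measurable,
    Measure.map_map h1.measurable (measurable_mulVec _)]
  congr 1
  funext x
  simp only [Function.comp, fromBlocks_mulVec, smul_mulVec, one_mulVec]
  rfl

theorem map_rot_eq {a b c e a' b' c' e' : ℝ} (h1 : a * a + b * b = a' * a' + b' * b')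
    (h2 : a * c + b * e = a' * c' + b' * e') (h3 : c * c + e * e = c' * c' + e' * e') :
    ((gam (Fin d)).prod (gam (Fin d))).map (rot d a b c e) =
      ((gam (Fin d)).prod (gam (Fin d))).map (rot d a' b' c' e') := by
  have h2' : c * a + e * b = c' * a' + e' * b' := by linarith
  rw [map_rot, map_rot]
  congr 1
  refine map_mulVec_eq _ _ ?_
  simp only [fromBlocks_transpose, transpose_smul, transpose_one, fromBlocks_multiply, smul_mul,
    Matrix.mul_smul, Matrix.mul_one, smul_smul, ← add_smul, Matrix.one_mul]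
  rw [h1, h3, mul_comm c a, mul_comm e b, h2, mul_comm a' c', mul_comm b' e']

omit [CompleteSpace F] in
theorem law2 {K : E d × E d → F} (hK : PG K) {a b c e a' b' c' e' : ℝ}
    (h1 : a * a + b * b = a' * a' + b' * b')
    (h2 : a * c + b * e = a' * c' + b' * e') (h3 : c * c + e * e = c' * c' + e' * e') :
    ∫ g, ∫ g', K (a • g + b • g', c • g + e • g') ∂gam (Fin d) ∂gam (Fin d) =
      ∫ g, ∫ g', K (a' • g + b' • g', c' • g + e' • g') ∂gam (Fin d) ∂gam (Fin d) := by
  have key : ∀ a b c e : ℝ,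
      ∫ g, ∫ g', K (a • g + b • g', c • g + e • g') ∂gam (Fin d) ∂gam (Fin d) =
        ∫ z, K z ∂((gam (Fin d)).prod (gam (Fin d))).map (rot d a b c e) := fun a b c e => by
    rw [integral_map (temp_rot a b c e).1.continuous.measurable.aemeasurable
      hK.meas.aestronglyMeasurable,
      integral_prod _ (pg_comp_temp hK (temp_rot a b c e)).integrable_prod]
    rfl
  rw [key, key, map_rot_eq h1 h2 h3]

theorem pd_mul {f g : E d → ℝ} {x : E d} (hf : DifferentiableAt ℝ f x)
    (hg : DifferentiableAt ℝ g x) (i : Fin d) :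
    pd i (fun y => f y * g y) x = f x * pd i g x + g x * pd i f x := by
  simp [pd, fderiv_fun_mul hf hg]

theorem pd_exp {f : E d → ℝ} {x : E d} (hf : DifferentiableAt ℝ f x) (i : Fin d) :
    pd i (fun y => Real.exp (f y)) x = Real.exp (f x) * pd i f x := by
  simp [pd, hf.hasFDerivAt.exp.fderiv]

theorem pd_aff {f : E d → ℝ} (hf : Differentiable ℝ f) (b : E d) (c : ℝ) (i : Fin d) (x : E d) :
    pd i (fun y => f (b + c • y)) x = c * pd i f (b + c • x) := by
  have h1 : HasFDerivAt (fun y : E d => b + c • y) (c • ContinuousLinearMap.id ℝ (E d)) x :=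
    ((hasFDerivAt_id x).const_smul c).const_add b
  have h2 : HasFDerivAt (fun y => f (b + c • y)) _ x := (hf (b + c • x)).hasFDerivAt.comp x h1
  simp [pd, h2.fderiv]

theorem diff_Phi (hW : Adm δ G W) (η : ℝ) : Differentiable ℝ (Phi W η) :=
  (contDiff_Phi hW η).differentiable (by simp)

theorem pd_uu (hW : Adm δ G W) (η : ℝ) (i : Fin d) (y : E d) :
    pd i (uu W η) y = -(uu W η y * tau1 W η y i) := by
  have h1 : uu W η = fun y => Real.exp (-Phi W η y) := funext fun y => (exp_neg_Phi hW η y).symm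
  conv_lhs => rw [h1]
  rw [pd_exp (diff_Phi hW η y).fun_neg, exp_neg_Phi hW]
  simp [pd, tau1, grad]

theorem pd_uu_inv (hW : Adm δ G W) (η : ℝ) (i : Fin d) (y : E d) :
    pd i (fun y => (uu W η y)⁻¹) y = (uu W η y)⁻¹ * tau1 W η y i := by
  have h1 : ∀ y, (uu W η y)⁻¹ = Real.exp (Phi W η y) := fun y => by
    rw [← exp_neg_Phi hW, Real.exp_neg, inv_inv]
  simp only [h1]
  rw [pd_exp (diff_Phi hW η y)]
  rfl

theorem temp_tau1_apply (hW : Adm δ G W) (η : ℝ) (i : Fin d) :
    (fun y => tau1 W η y i).HasTemperateGrowth := temp_pi.1 (temp_tau1 hW η) i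

theorem heat_pd_mul (hW : Adm δ G W) (η t : ℝ) {h : E d → ℝ} (hh : h.HasTemperateGrowth)
    (i : Fin d) (b : E d) :
    (uu W η b)⁻¹ * heat t (pd i fun y => uu W (η - t) y * h y) b =
      stepE W η t b (pd i h) - stepE W η t b fun y => h y * tau1 W (η - t) y i := by
  have h1 : (fun y => h y * tau1 W (η - t) y i).HasTemperateGrowth :=
    hh.mul (temp_tau1_apply hW _ i)
  rw [← stepE_sub hW η t b (PG.of_temp (temp_pd hh i)) (PG.of_temp h1)]
  unfold stepE
  rw [smul_eq_mul]
  congr 2
  funext y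
  rw [pd_mul ((temp_uu hW _).1.differentiable (by simp) y) (hh.1.differentiable (by simp) y),
    pd_uu hW, smul_eq_mul]
  ring

end TowerBAux

open TowerBAux

/-- Fubini with a Gaussian parameter -/
theorem stepE_integral (hW : Adm δ G W) (η t : ℝ) (b : E d) {ι : Type} [Fintype ι]
    {h : E d × (ι → ℝ) → F} (hh : PG h) :
    stepE W η t b (fun y => ∫ ζ, h (y, ζ) ∂gam ι) =
      ∫ ζ, stepE W η t b (fun y => h (y, ζ)) ∂gam ι := by
  have hK : PG fun z : E d × (ι → ℝ) => uu W (η - t) (b + √t • z.1) • h (b + √t • z.1, z.2) :=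
    pg_smul (pg_comp_temp (PG.of_temp (temp_uu hW _)) (temp_fst b _))
      (pg_comp_temp hh (temp_prodMk (temp_fst b _)
        (ContinuousLinearMap.snd ℝ (E d) (ι → ℝ)).hasTemperateGrowth))
  unfold stepE heat
  rw [integral_smul]
  congr 1
  simp only [← integral_smul]
  exact integral_integral_swap hK.integrable_prod

/-- the tower property -/
theorem stepE_stepE (hW : Adm δ G W) {η t s : ℝ} (ht : 0 ≤ t) (hs : 0 ≤ s) (b : E d)
    {h : E d → F} (hh : PG h) :
    stepE W η t b (fun y => stepE W (η - t) s y h) = stepE W η (t + s) b h := by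
  have hK : PG fun z => uu W (η - t - s) z • h z := pg_smul (PG.of_temp (temp_uu hW _)) hh
  unfold stepE
  simp only [smul_inv_smul₀ (uu_pos hW (η - t) _).ne']
  rw [← sub_sub, ← heat_heat hK ht hs]

/-- the Gaussian bridge -/
theorem stepE_bridge (hW : Adm δ G W) {η t : ℝ} (hη : 0 < η) (ht : 0 ≤ t) (htη : t ≤ η) (b : E d)
    {h : E d → F} (hh : PG h) : stepE W η t b h =
      stepE W η η b fun x => heat (t * (1 - t / η)) h (b + (t / η) • (x - b)) := by
  have hK : PG fun z : E d × E d => Real.exp (-W (b + (1 : ℝ) • z.1)) • h (b + (1 : ℝ) • z.2) :=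
    pg_smul (pg_comp_temp (PG.of_temp hW.temp_exp) (temp_fst b _))
      (pg_comp_temp hh (temp_snd b _))
  have h0 : 0 ≤ t * (1 - t / η) := mul_nonneg ht (sub_nonneg.2 ((div_le_one hη).2 htη))
  have e1 := Real.mul_self_sqrt ht
  have e2 := Real.mul_self_sqrt (sub_nonneg.2 htη)
  have e3 := Real.mul_self_sqrt hη.le
  have e4 := Real.mul_self_sqrt h0
  have key := law2 hK (a := √t) (b := √(η - t)) (c := √t) (e := 0) (a' := √η) (b' := 0)
    (c' := t / η * √η) (e' := √(t * (1 - t / η))) (by linarith)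
    (by rw [e1, mul_left_comm, e3]; field_simp; ring)
    (by rw [e1, e4, mul_mul_mul_comm, e3]; field_simp; ring)
  unfold stepE
  congr 1
  rw [sub_self, uu_zero]
  simp only [heat, uu, ← integral_smul_const, ← integral_smul]
  simpa only [one_smul, zero_smul, add_zero, add_assoc, add_sub_cancel_left, smul_smul,
    one_mul] using key

/-- forgetting: the "up" step -/
theorem heat_uu_up (hW : Adm δ G W) {s η t : ℝ} (hs : 0 < s) (ht : 0 ≤ t) (htη : t ≤ η)
    {h : E d → ℝ} (hh : PG h) :
    heat (s + t) (fun y => uu W (η - t) y * heat (s * t / (s + t)) h ((s / (s + t)) • y)) 0 =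
      heat s (fun y => uu W η y * h y) 0 := by
  have hK : PG fun z : E d × E d => uu W (η - t) (0 + (1 : ℝ) • z.1) • h (0 + (1 : ℝ) • z.2) :=
    pg_smul (pg_comp_temp (PG.of_temp (temp_uu hW _)) (temp_fst 0 _))
      (pg_comp_temp hh (temp_snd 0 _))
  have hst : 0 < s + t := by linarith
  have h0 : 0 ≤ s * t / (s + t) := by positivity
  have e1 := Real.mul_self_sqrt ht
  have e2 := Real.mul_self_sqrt hs.le
  have e3 := Real.mul_self_sqrt hst.le
  have e4 := Real.mul_self_sqrt h0
  have key := law2 hK (a := √(s + t)) (b := 0) (c := s / (s + t) * √(s + t))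
    (e := √(s * t / (s + t))) (a' := √s) (b' := √t) (c' := √s) (e' := 0) (by linarith)
    (by rw [e2, mul_left_comm, e3]; field_simp; ring)
    (by rw [e2, e4, mul_mul_mul_comm, e3]; field_simp; ring)
  have hu : uu W η = heat t (uu W (η - t)) := by
    rw [uu, uu, heat_heat (PG.of_temp hW.temp_exp) ht (sub_nonneg.2 htη), add_sub_cancel]
  rw [hu]
  generalize uu W (η - t) = u at key ⊢
  simp only [heat, ← integral_mul_const, ← integral_const_mul]
  simpa only [one_smul, zero_smul, add_zero, zero_add, smul_smul, smul_eq_mul, one_mul] using key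

/-! ### scaling -/

theorem uu_scale (W : E d → ℝ) {r : ℝ} (hr : 0 ≤ r) (η : ℝ) (y : E d) :
    uu (fun x => W (r • x)) η y = uu W (r ^ 2 * η) (r • y) := by
  exact heat_scale η r hr (fun x => Real.exp (-W x)) y

theorem tau1_scale (hW : Adm δ G W) {r : ℝ} (hr : 0 ≤ r) (η : ℝ) (y : E d) :
    tau1 (fun x => W (r • x)) η y = r • tau1 W (r ^ 2 * η) (r • y) := by
  have h1 : Phi (fun x => W (r • x)) η = fun y => Phi W (r ^ 2 * η) (0 + r • y) := by
    funext y
    simp only [Phi, uu_scale W hr, zero_add]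
  funext i
  simp only [tau1, grad, h1, Pi.smul_apply, smul_eq_mul]
  rw [pd_aff (diff_Phi hW _), zero_add]

omit [CompleteSpace F] in
theorem stepE_scale (W : E d → ℝ) {r : ℝ} (hr : 0 ≤ r) (η t : ℝ) (b : E d) (h : E d → F) :
    stepE (fun x => W (r • x)) η t b (fun y => h (r • y)) =
      stepE W (r ^ 2 * η) (r ^ 2 * t) (r • b) h := by
  unfold stepE
  simp only [uu_scale W hr]
  rw [← mul_sub, heat_scale t r hr (fun y => uu W (r ^ 2 * (η - t)) y • h y) b]

/-! ### derivatives in the base point, integration by parts -/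

theorem pd_stepE (hW : Adm δ G W) {η t : ℝ} (ht : 0 ≤ t) (htη : t ≤ η) {h : E d → ℝ}
    (hh : h.HasTemperateGrowth) (i : Fin d) (b : E d) :
    pd i (fun b => stepE W η t b h) b = stepE W η t b (pd i h) -
      stepE W η t b (fun y => h y * tau1 W (η - t) y i) + stepE W η t b h * tau1 W η b i := by
  have ht' : (fun y => uu W (η - t) y * h y).HasTemperateGrowth := (temp_uu hW _).mul hh
  have h1 : (fun b => stepE W η t b h) =
      fun b => (uu W η b)⁻¹ * heat t (fun y => uu W (η - t) y * h y) b := rfl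
  rw [h1, pd_mul ((temp_uu_inv hW η).1.differentiable (by simp) b)
    ((temp_heat ht' t).1.differentiable (by simp) b), pd_heat ht', heat_pd_mul hW η t hh,
    pd_uu_inv hW, congrFun h1 b]
  ring

theorem stepE_ibp (hW : Adm δ G W) {η t : ℝ} (ht : 0 ≤ t) (htη : t ≤ η) {h : E d → ℝ}
    (hh : h.HasTemperateGrowth) (i : Fin d) (b : E d) :
    stepE W η t b (fun y => (y i - b i) * h y) =
      t * (stepE W η t b (pd i h) - stepE W η t b fun y => h y * tau1 W (η - t) y i) := by
  have ht' : (fun y => uu W (η - t) y * h y).HasTemperateGrowth := (temp_uu hW _).mul hh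
  have h1 := stein (ht'.comp (temp_aff b √t)) i
  have h2 := pd_aff (ht'.1.differentiable (by simp)) b √t i
  simp only [Function.comp_def] at h1
  simp only [h2, integral_const_mul] at h1
  rw [← heat_pd_mul hW η t hh]
  have h3 : heat t (fun y => uu W (η - t) y • ((y i - b i) * h y)) b =
      √t * ∫ g, g i * (uu W (η - t) (b + √t • g) * h (b + √t • g)) ∂gam (Fin d) := by
    rw [← integral_const_mul]
    refine integral_congr_ae (Eventually.of_forall fun g => ?_)
    simp only [Pi.add_apply, Pi.smul_apply, smul_eq_mul]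
    ring
  unfold stepE
  rw [h3, h1, ← mul_assoc √t, Real.mul_self_sqrt ht, smul_eq_mul, mul_left_comm]
  rfl

theorem tau1_zero (W : E d → ℝ) : tau1 W 0 = grad W := by
  funext y
  rw [tau1, Phi_zero]

/-- the martingale property -/
theorem tau1_step (hW : Adm δ G W) {η t : ℝ} (ht : 0 ≤ t) (htη : t ≤ η) (b : E d) :
    tau1 W η b = stepE W η t b (tau1 W (η - t)) := by
  funext i
  have h1 := pd_stepE hW ht htη (Function.HasTemperateGrowth.const (1 : ℝ)) i b
  have h2 : pd i (fun _ : E d => (1 : ℝ)) = fun _ => 0 := by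
    funext y
    simp [pd]
  simp only [stepE_const hW ht htη, h2, one_mul] at h1
  rw [stepE_apply hW η t b (PG.of_temp (temp_tau1 hW _))]
  linarith

theorem nrm_tau1_le (hW : Adm δ G W) (η : ℝ) (b : E d) : nrm (tau1 W η b) ≤ G := by
  rcases le_total η 0 with hη | hη
  · have h1 : tau1 W η b = tau1 W 0 b := by
      simp only [tau1]
      congr 1
      funext y
      simp only [Phi, uu, heat_of_nonpos hη, heat_zero]
    rw [h1, tau1_zero]
    exact hW.grad_le b
  · rw [tau1_step hW hη le_rfl, sub_self, tau1_zero]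
    refine (nrm_stepE_le hW b (PG.of_temp (temp_grad hW.temp))).trans ((le_abs_self _).trans ?_)
    refine abs_stepE_le hW hη le_rfl b fun y => ?_
    rw [abs_of_nonneg (nrm_nonneg _)]
    exact hW.grad_le y

end Crest.Agent.R285

end
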