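import Crest.Agent.R285.Tower
import Crest.Agent.R285.TenBAux
import Crest.Agent.R285.GaussA

/-!
The logarithmic cutoff. Take `χ y = κ (ε₂ * log (1 + |y|²/ρ²)) ` with `κ s = 1 - Real.smoothTransition (s - 1)`
(so `κ = 1` for `s ≤ 1`, `κ = 0` for `s ≥ 2`), where the absolute constant `ε₂ ≤ 1` is small compared with the
bounds of `κ', κ''` (which exist by continuity and compact support). With `ℓ y = log (1 + |y|²/ρ²)`:
`∂_i ℓ = 2 y_i / (ρ² + |y|²)`, `|∇ℓ| |y| ≤ 2`, `‖∇²ℓ‖ |y|² ≤ 6`; `ℓ ≤ log 2 ≤ 1` for `|y| ≤ ρ`, and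
`ε₂ ℓ ≥ 2` for `|y| ≥ exp (1/ε₂) ρ`.
-/

set_option autoImplicit false

open MeasureTheory ProbabilityTheory Matrix Filter
open scoped ENNReal

noncomputable section

namespace Crest.Agent.R285

private theorem ta_bdd : ∃ (T1 T2 : ℝ → ℝ) (M : ℝ), 0 ≤ M ∧
    (∀ s, HasDerivAt Real.smoothTransition (T1 s) s) ∧ (∀ s, HasDerivAt T1 (T2 s) s) ∧
    (∀ s, |T1 s| ≤ M) ∧ (∀ s, |T2 s| ≤ M) ∧ ∀ s, s < 0 → T1 s = 0 := by
  have hT : ContDiff ℝ 2 Real.smoothTransition := Real.smoothTransition.contDiff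
  have hT1 : ContDiff ℝ 1 (deriv Real.smoothTransition) := by
    have := hT.deriv' (n := 1)
    exact this
  have hT2 : Continuous (deriv (deriv Real.smoothTransition)) := hT1.continuous_deriv le_rfl
  have z1 : ∀ s, s < 0 ∨ 1 < s → deriv Real.smoothTransition =ᶠ[nhds s] fun _ => 0 := by
    rintro s (hs | hs)
    · filter_upwards [Iio_mem_nhds hs] with t ht
      have : Real.smoothTransition =ᶠ[nhds t] fun _ => 0 := by
        filter_upwards [Iio_mem_nhds ht] with u hu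
        exact Real.smoothTransition.zero_of_nonpos (le_of_lt hu)
      rw [this.deriv_eq]; simp
    · filter_upwards [Ioi_mem_nhds hs] with t ht
      have : Real.smoothTransition =ᶠ[nhds t] fun _ => 1 := by
        filter_upwards [Ioi_mem_nhds ht] with u hu
        exact Real.smoothTransition.one_of_one_le (le_of_lt hu)
      rw [this.deriv_eq]; simp
  obtain ⟨M1, hM1⟩ := (isCompact_Icc (a := (0 : ℝ)) (b := 1)).exists_bound_of_continuousOn
    hT1.continuous.continuousOn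
  obtain ⟨M2, hM2⟩ := (isCompact_Icc (a := (0 : ℝ)) (b := 1)).exists_bound_of_continuousOn
    hT2.continuousOn
  have hout : ∀ s : ℝ, s ∉ Set.Icc (0 : ℝ) 1 → s < 0 ∨ 1 < s := by
    intro s hs
    by_contra h
    push Not at h
    exact hs h
  refine ⟨deriv Real.smoothTransition, deriv (deriv Real.smoothTransition), |M1| + |M2|,
    by positivity, fun s => (hT.differentiable (by simp) s).hasDerivAt,
    fun s => (hT1.differentiable (by simp) s).hasDerivAt, fun s => ?_, fun s => ?_,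
    fun s hs => (z1 s (Or.inl hs)).eq_of_nhds⟩
  · by_cases hs : s ∈ Set.Icc (0 : ℝ) 1
    · have := hM1 s hs
      rw [Real.norm_eq_abs] at this
      linarith [le_abs_self M1, abs_nonneg M2]
    · rw [(z1 s (hout s hs)).eq_of_nhds, abs_zero]; positivity
  · by_cases hs : s ∈ Set.Icc (0 : ℝ) 1
    · have := hM2 s hs
      rw [Real.norm_eq_abs] at this
      linarith [le_abs_self M2, abs_nonneg M1]
    · rw [(z1 s (hout s hs)).deriv_eq]; simp; positivity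

private theorem ta_G : ∃ (G G1 G2 : ℝ → ℝ) (B : ℝ), 0 ≤ B ∧ ContDiff ℝ (⊤ : ℕ∞) G ∧
    (∀ s, HasDerivAt G (G1 s) s) ∧ (∀ s, HasDerivAt G1 (G2 s) s) ∧ (∀ s, 0 ≤ G s ∧ G s ≤ 1) ∧
    (∀ s, s ≤ 1 → G s = 1) ∧ (∀ s, B ≤ s → G s = 0 ∧ G1 s = 0) ∧
    (∀ s, |G1 s| ≤ 1 / 200) ∧ ∀ s, |G2 s| ≤ 1 / 200 := by
  obtain ⟨T1, T2, M, hM, h1, h2, b1, b2, z1⟩ := ta_bdd
  obtain ⟨ε, hε0, hε1, hεM⟩ : ∃ ε : ℝ, 0 < ε ∧ ε ≤ 1 ∧ ε * M ≤ 1 / 200 := by
    refine ⟨1 / (200 * (M + 1)), by positivity, ?_, ?_⟩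
    · rw [div_le_one (by positivity)]; linarith
    · rw [div_mul_eq_mul_div, div_le_div_iff₀ (by positivity) (by positivity)]; linarith
  have hl : ∀ s : ℝ, HasDerivAt (fun s => 2 - ε * s) (-ε) s := fun s => by
    simpa using ((hasDerivAt_id s).const_mul ε).const_sub 2
  refine ⟨fun s => Real.smoothTransition (2 - ε * s), fun s => T1 (2 - ε * s) * (-ε),
    fun s => T2 (2 - ε * s) * (-ε) * (-ε), 3 / ε, by positivity, ?_,
    fun s => (h1 _).comp s (hl s), fun s => ((h2 _).comp s (hl s)).mul_const _,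
    fun s => ⟨Real.smoothTransition.nonneg _, Real.smoothTransition.le_one _⟩, fun s hs => ?_,
    fun s hs => ?_, fun s => ?_, fun s => ?_⟩
  · exact Real.smoothTransition.contDiff.comp (by fun_prop)
  · apply Real.smoothTransition.one_of_one_le
    nlinarith
  · rw [div_le_iff₀ hε0] at hs
    refine ⟨Real.smoothTransition.zero_of_nonpos (by linarith), ?_⟩
    simp only
    rw [z1 _ (by linarith), zero_mul]
  · rw [abs_mul, abs_neg, abs_of_pos hε0]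
    nlinarith [b1 (2 - ε * s)]
  · rw [abs_mul, abs_mul, abs_neg, abs_of_pos hε0]
    have := b2 (2 - ε * s)
    have a1 : |T2 (2 - ε * s)| * ε ≤ 1 / 200 := by nlinarith
    nlinarith

private theorem ta_pd_q {d : ℕ} {h : ℝ → ℝ} {h' : ℝ} (y : E d)
    (H : HasDerivAt h h' (∑ k, y k ^ 2)) (i : Fin d) :
    DifferentiableAt ℝ (fun y : E d => h (∑ k, y k ^ 2)) y ∧
      pd i (fun y : E d => h (∑ k, y k ^ 2)) y = h' * (2 * y i) := by
  have hq : DifferentiableAt ℝ (fun y : E d => ∑ k, y k ^ 2) y := by fun_prop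
  have hq' : pd i (fun y : E d => ∑ k, y k ^ 2) y = 2 * y i := by
    rw [TenB.pd_sum _ (fun k _ => by fun_prop)]
    have : ∀ k, pd i (fun y : E d => y k ^ 2) y = if k = i then 2 * y i else 0 := by
      intro k
      simp only [sq]
      rw [TenB.pd_mul (by fun_prop) (by fun_prop), TenB.pd_coord]
      split_ifs with hk
      · subst hk; ring
      · ring
    simp [this]
  have hc := H.comp_hasFDerivAt y hq.hasFDerivAt
  refine ⟨hc.differentiableAt, ?_⟩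
  unfold pd at hq' ⊢
  have e : fderiv ℝ (fun y : E d => h (∑ k, y k ^ 2)) y
      = h' • fderiv ℝ (fun y : E d => ∑ k, y k ^ 2) y := hc.fderiv
  rw [e, _root_.smul_apply, hq', smul_eq_mul]

private theorem ta_radial {d : ℕ} {h h1 h2 : ℝ → ℝ} (H1 : ∀ t, 0 ≤ t → HasDerivAt h (h1 t) t)
    (H2 : ∀ t, 0 ≤ t → HasDerivAt h1 (h2 t) t) (b1 : ∀ t, 0 ≤ t → |h1 t| * t ≤ 1 / 200)
    (b2 : ∀ t, 0 ≤ t → |h2 t| * t ^ 2 ≤ 1 / 100) :
    (∀ y : E d, grad (fun y : E d => h (∑ k, y k ^ 2)) y = (2 * h1 (∑ k, y k ^ 2)) • y) ∧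
    (∀ y : E d, nrm (grad (fun y : E d => h (∑ k, y k ^ 2)) y) * nrm y ≤ 1 / 20) ∧
    ∀ y u w : E d, |∑ i, ∑ j, pd i (pd j (fun y : E d => h (∑ k, y k ^ 2))) y * u i * w j|
      * nrm y ^ 2 ≤ 1 / 20 * (nrm u * nrm w) := by
  have q0 : ∀ y : E d, 0 ≤ ∑ k, y k ^ 2 := fun y => Finset.sum_nonneg fun k _ => sq_nonneg _
  have g1 : ∀ j, pd j (fun y : E d => h (∑ k, y k ^ 2))
      = fun y : E d => h1 (∑ k, y k ^ 2) * (2 * y j) :=
    fun j => funext fun y => (ta_pd_q y (H1 _ (q0 y)) j).2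
  have g2 : ∀ y : E d, grad (fun y : E d => h (∑ k, y k ^ 2)) y = (2 * h1 (∑ k, y k ^ 2)) • y := by
    intro y
    funext j
    simp only [grad, g1, Pi.smul_apply, smul_eq_mul]
    ring
  refine ⟨g2, fun y => ?_, fun y u w => ?_⟩
  · rw [g2, nrm_smul, abs_mul, mul_assoc, ← sq, nrm_sq, abs_two]
    linarith [b1 _ (q0 y)]
  · have g3 : ∀ i j, pd i (pd j (fun y : E d => h (∑ k, y k ^ 2))) y
        = 4 * h2 (∑ k, y k ^ 2) * (y i * y j) + 2 * h1 (∑ k, y k ^ 2) * (if j = i then 1 else 0) := by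
      intro i j
      rw [g1, TenB.pd_mul (ta_pd_q y (H2 _ (q0 y)) i).1 (by fun_prop), (ta_pd_q y (H2 _ (q0 y)) i).2,
        TenB.pd_const_mul (by fun_prop), TenB.pd_coord]
      ring
    have g4 : ∑ i, ∑ j, pd i (pd j (fun y : E d => h (∑ k, y k ^ 2))) y * u i * w j
        = 4 * h2 (∑ k, y k ^ 2) * ((y ⬝ᵥ u) * (y ⬝ᵥ w)) + 2 * h1 (∑ k, y k ^ 2) * (u ⬝ᵥ w) := by
      simp only [g3, add_mul, Finset.sum_add_distrib, dotProduct]
      congr 1
      · rw [Finset.sum_mul_sum, Finset.mul_sum]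
        refine Finset.sum_congr rfl fun i _ => ?_
        rw [Finset.mul_sum]
        exact Finset.sum_congr rfl fun j _ => by ring
      · rw [Finset.mul_sum]
        refine Finset.sum_congr rfl fun i _ => ?_
        rw [Finset.sum_eq_single i (fun j _ hj => by simp [hj]) (by simp)]
        simp [mul_assoc]
    rw [g4]
    have c1 := b1 _ (q0 y)
    have c2 := b2 _ (q0 y)
    rw [← nrm_sq] at c1 c2 ⊢
    have d1 := abs_dot_le y u
    have d2 := abs_dot_le y w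
    have d3 := abs_dot_le u w
    have n1 := nrm_nonneg y
    have n2 := nrm_nonneg u
    have n3 := nrm_nonneg w
    generalize h1 (nrm y ^ 2) = a at *
    generalize h2 (nrm y ^ 2) = b at *
    have e1 : |4 * b * ((y ⬝ᵥ u) * (y ⬝ᵥ w))| ≤ 4 * |b| * ((nrm y * nrm u) * (nrm y * nrm w)) := by
      rw [abs_mul, abs_mul, abs_mul, abs_of_pos (by norm_num : (0 : ℝ) < 4)]
      gcongr
    have e2 : |2 * a * (u ⬝ᵥ w)| ≤ 2 * |a| * (nrm u * nrm w) := by
      rw [abs_mul, abs_mul, abs_two]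
      gcongr
    have e3 := abs_add_le (4 * b * ((y ⬝ᵥ u) * (y ⬝ᵥ w))) (2 * a * (u ⬝ᵥ w))
    have e4 : |4 * b * ((y ⬝ᵥ u) * (y ⬝ᵥ w)) + 2 * a * (u ⬝ᵥ w)| * nrm y ^ 2
        ≤ (4 * |b| * ((nrm y * nrm u) * (nrm y * nrm w)) + 2 * |a| * (nrm u * nrm w))
          * nrm y ^ 2 := by
      gcongr
      linarith
    have e5 : (4 * |b| * ((nrm y * nrm u) * (nrm y * nrm w)) + 2 * |a| * (nrm u * nrm w))
          * nrm y ^ 2
        = (4 * (|b| * (nrm y ^ 2) ^ 2) + 2 * (|a| * nrm y ^ 2)) * (nrm u * nrm w) := by ring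
    refine e4.trans (e5.trans_le ?_)
    gcongr
    linarith

theorem exists_cutoff : ∃ A : ℝ, 1 ≤ A ∧ ∀ (d : ℕ) (ρ : ℝ), 0 < ρ → ∃ χ : E d → ℝ,
    ContDiff ℝ (⊤ : ℕ∞) χ ∧ (∀ y, 0 ≤ χ y ∧ χ y ≤ 1) ∧ (∀ y, nrm y ≤ ρ → χ y = 1) ∧
    (∀ y, A * ρ ≤ nrm y → χ y = 0 ∧ grad χ y = 0) ∧ (∀ y, nrm (grad χ y) * nrm y ≤ 1 / 20) ∧
    ∀ y u w, |∑ i, ∑ j, pd i (pd j χ) y * u i * w j| * nrm y ^ 2 ≤ 1 / 20 * (nrm u * nrm w) := by
  obtain ⟨G, G1, G2, B, hB, hG, H1, H2, h01, hone, hzero, b1, b2⟩ := ta_G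
  refine ⟨Real.exp B, Real.one_le_exp hB, fun d ρ hρ => ?_⟩
  have q0 : ∀ y : E d, 0 ≤ ∑ k, y k ^ 2 := fun y => Finset.sum_nonneg fun k _ => sq_nonneg _
  have hl : ∀ t : ℝ, 0 ≤ t → HasDerivAt (fun t => Real.log (1 + t / ρ ^ 2)) (ρ ^ 2 + t)⁻¹ t := by
    intro t ht
    have := (((hasDerivAt_id' t).div_const (ρ ^ 2)).const_add 1).log (by positivity)
    refine this.congr_deriv ?_
    field_simp
  have hi : ∀ t : ℝ, 0 ≤ t → HasDerivAt (fun t => (ρ ^ 2 + t)⁻¹) (-((ρ ^ 2 + t)⁻¹) ^ 2) t := by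
    intro t ht
    have := ((hasDerivAt_id' t).const_add (ρ ^ 2)).fun_inv (by positivity)
    refine this.congr_deriv ?_
    field_simp
  have hfrac : ∀ t : ℝ, 0 ≤ t → 0 ≤ (ρ ^ 2 + t)⁻¹ * t ∧ (ρ ^ 2 + t)⁻¹ * t ≤ 1 := by
    intro t ht
    refine ⟨by positivity, ?_⟩
    rw [inv_mul_le_iff₀ (by positivity)]
    nlinarith
  obtain ⟨r1, r2, r3⟩ := ta_radial (d := d) (h := fun t => G (Real.log (1 + t / ρ ^ 2)))
    (h1 := fun t => G1 (Real.log (1 + t / ρ ^ 2)) * (ρ ^ 2 + t)⁻¹)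
    (h2 := fun t => (G2 (Real.log (1 + t / ρ ^ 2)) - G1 (Real.log (1 + t / ρ ^ 2)))
      * ((ρ ^ 2 + t)⁻¹) ^ 2)
    (fun t ht => (H1 _).comp t (hl t ht))
    (fun t ht => by
      have := ((H2 _).comp t (hl t ht)).fun_mul (hi t ht)
      refine this.congr_deriv ?_
      simp only [Function.comp]
      ring)
    (fun t ht => by
      obtain ⟨f0, f1⟩ := hfrac t ht
      rw [abs_mul, abs_of_nonneg (a := (ρ ^ 2 + t)⁻¹) (by positivity), mul_assoc]
      have := b1 (Real.log (1 + t / ρ ^ 2))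
      have := abs_nonneg (G1 (Real.log (1 + t / ρ ^ 2)))
      nlinarith)
    (fun t ht => by
      obtain ⟨f0, f1⟩ := hfrac t ht
      rw [abs_mul, abs_of_nonneg (a := (ρ ^ 2 + t)⁻¹ ^ 2) (by positivity), mul_assoc, ← mul_pow]
      have := b1 (Real.log (1 + t / ρ ^ 2))
      have := b2 (Real.log (1 + t / ρ ^ 2))
      have a1 := abs_sub (G2 (Real.log (1 + t / ρ ^ 2))) (G1 (Real.log (1 + t / ρ ^ 2)))
      have a2 : ((ρ ^ 2 + t)⁻¹ * t) ^ 2 ≤ 1 := pow_le_one₀ f0 f1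
      have := abs_nonneg (G2 (Real.log (1 + t / ρ ^ 2)) - G1 (Real.log (1 + t / ρ ^ 2)))
      nlinarith)
  refine ⟨fun y => G (Real.log (1 + (∑ k, y k ^ 2) / ρ ^ 2)), ?_, fun y => h01 _, fun y hy => ?_,
    fun y hy => ?_, r2, r3⟩
  · refine hG.comp (ContDiff.log (by fun_prop) fun y => ?_)
    have := q0 y
    positivity
  · apply hone
    have a1 : (∑ k, y k ^ 2) / ρ ^ 2 ≤ 1 := by
      rw [div_le_one (by positivity), ← nrm_sq]
      exact pow_le_pow_left₀ (nrm_nonneg y) hy 2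
    have a2 := Real.log_le_sub_one_of_pos (x := 1 + (∑ k, y k ^ 2) / ρ ^ 2)
      (by have := q0 y; positivity)
    linarith
  · have a1 : B ≤ Real.log (1 + (∑ k, y k ^ 2) / ρ ^ 2) := by
      rw [Real.le_log_iff_exp_le (by have := q0 y; positivity)]
      have a0 : 1 ≤ Real.exp B := Real.one_le_exp hB
      have a2 : (Real.exp B * ρ) ^ 2 ≤ nrm y ^ 2 := pow_le_pow_left₀ (by positivity) hy 2
      have a3 : Real.exp B ^ 2 ≤ (∑ k, y k ^ 2) / ρ ^ 2 := by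
        rw [le_div_iff₀ (by positivity), ← nrm_sq, ← mul_pow]
        exact a2
      nlinarith
    refine ⟨(hzero _ a1).1, ?_⟩
    rw [r1, (hzero _ a1).2]
    simp

end Crest.Agent.R285

end
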